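import Vale.Agent.P217.EtaR
import Mathlib.RingTheory.AdicCompletion.Basic

/-!
Residues of the parameters for a Teichmüller change, and the successive approximation which makes
all parameters above `n` vanish.
-/

open scoped BigOperators
open Finset

namespace Vale.Agent.P217.EtaR

variable {p : ℕ}

section Honda

variable {B K : Type*} [CommRing B] [CommRing K] {ι : B →+* K} {n : ℕ} {l : ℕ → K} {c : ℕ → B}

lemma prime_dvd_pow_sub (x : B) (J : ℕ) :
    (p : B) ^ (J + 1) ∣ (1 + (p : B) * x) ^ p ^ J - 1 := by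
  have h : (p : B) ∣ (1 + (p : B) * x) - 1 := ⟨x, by ring⟩
  simpa using dvd_sub_pow_of_dvd_sub h J

lemma prime_dvd_pow_pow (hp : p.Prime) (x : B) (J : ℕ) :
    (p : B) ^ (J + 1) ∣ ((p : B) * x) ^ p ^ J := by
  rw [mul_pow]
  exact dvd_mul_of_dvd_left (pow_dvd_pow _ (Nat.lt_pow_self hp.one_lt)) _

/-- Over Honda's logarithm, a change by elements fixed by the `n`-th Frobenius keeps the parameters
congruent to `(0, ..., 0, 1, 0, ...)` modulo `p`. -/
lemma honda_par (hp : p.Prime) (hn : 0 < n) (l0 : l 0 = 1)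
    (hl : ∀ N, (p : K) * l (N + 1) = if n ≤ N + 1 then l (N + 1 - n) else 0)
    (hc : ∀ k, c k ^ p ^ n = c k) (N : ℕ) :
    ∃ a : B, par p (gam p l (ι ∘ c)) N
      = ι ((if N + 1 = n then 1 else 0) + (p : B) * a) := by
  set g := gam p l (ι ∘ c) with hg
  set e : ℕ → B := gam p (fun i => if i = 0 then 1 else 0) c with he
  have e_succ : ∀ M, e (M + 1) = -∑ k ∈ range (M + 1), e (M - k) * c (k + 1) ^ p ^ (M - k) := by
    intro M
    rw [he, gam_succ, if_neg (Nat.succ_ne_zero M), zero_sub]
  have e0 : e 0 = 1 := by rw [he, gam_zero]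
  have hden : ∀ M, (p : K) ^ M * g M ∈ ι.range ∧
      (p : K) * g M = (p : K) * ι (e M) + if n ≤ M then g (M - n) else 0 := by
    intro M
    induction M using Nat.strong_induction_on with
    | _ M ih =>
    rcases M with _ | M
    · refine ⟨⟨1, by simp [hg, gam_zero]⟩, ?_⟩
      rw [if_neg (by omega), e0, hg, gam_zero, map_one, add_zero]
    have main : (p : K) * g (M + 1)
        = (p : K) * ι (e (M + 1)) + if n ≤ M + 1 then g (M + 1 - n) else 0 := by
      rw [hg, gam_succ, mul_sub, hl, mul_sum, e_succ, map_neg, map_sum, mul_neg, mul_sum, ← hg]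
      have h2 : ∀ k ∈ range (M + 1), (p : K) * (g (M - k) * (ι ∘ c) (k + 1) ^ p ^ (M - k))
          = (p : K) * ι (e (M - k) * c (k + 1) ^ p ^ (M - k))
            + if n ≤ M - k then g (M - k - n) * ι (c (k + 1)) ^ p ^ (M - k - n) else 0 := by
        intro k hk
        rw [← mul_assoc, (ih (M - k) (by omega)).2, add_mul, map_mul, map_pow, mul_assoc,
          Function.comp_apply, ite_mul, zero_mul]
        refine congrArg _ ?_
        split_ifs with hle
        · rw [show p ^ (M - k) = p ^ n * p ^ (M - k - n) by rw [← pow_add]; congr 1; omega,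
            pow_mul, ← map_pow, hc]
        · rfl
      rw [sum_congr rfl h2, sum_add_distrib]
      by_cases hle : n ≤ M + 1
      · rw [if_pos hle, if_pos hle]
        conv_lhs => rw [eq_gam_add (p := p) (β := ι ∘ c) l0 (M + 1 - n), ← hg]
        rw [← sum_filter, show (range (M + 1)).filter (fun k => n ≤ M - k) = range (M + 1 - n) by
          ext k; simp only [mem_filter, mem_range]; omega]
        rw [show ∑ k ∈ range (M + 1 - n), g (M + 1 - n - 1 - k) * (ι ∘ c) (k + 1) ^ p ^ (M + 1 - n - 1 - k)
            = ∑ k ∈ range (M + 1 - n), g (M - k - n) * ι (c (k + 1)) ^ p ^ (M - k - n) from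
          sum_congr rfl fun k _ => by
            rw [show M + 1 - n - 1 - k = M - k - n by omega, Function.comp_apply]]
        ring
      · rw [if_neg hle, if_neg hle, ← sum_filter,
          show (range (M + 1)).filter (fun k => n ≤ M - k) = ∅ by
            ext k; simp only [mem_filter, mem_range, notMem_empty, iff_false]; omega, sum_empty]
        ring
    refine ⟨?_, main⟩
    rw [pow_succ, mul_assoc, main, mul_add, ← mul_assoc, ← pow_succ]
    refine add_mem (mul_mem (pow_mem (natCast_mem _ p) _) (ι.mem_range_self _)) ?_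
    split_ifs with hle
    · rw [show (p : K) ^ M = (p : K) ^ (n - 1) * (p : K) ^ (M + 1 - n) by
        rw [← pow_add]; congr 1; omega, mul_assoc]
      exact mul_mem (pow_mem (natCast_mem _ p) _) (ih _ (by omega)).1
    · rw [mul_zero]
      exact zero_mem _
  induction N using Nat.strong_induction_on with
  | _ N ih =>
  choose a ha using fun M => (hden M).1
  choose! x hx using ih
  set ε : ℕ → B := fun M => if M + 1 = n then 1 else 0 with hε
  have hdiv : ∀ j ∈ range N, ∃ r : B,
      g (j + 1) * (ι (ε (N - 1 - j)) - par p g (N - 1 - j) ^ p ^ (j + 1)) = (p : K) * ι r := by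
    intro j hj
    have := mem_range.1 hj
    obtain ⟨q, hq⟩ : (p : B) ^ (j + 2) ∣
        (ε (N - 1 - j) + (p : B) * x (N - 1 - j)) ^ p ^ (j + 1) - ε (N - 1 - j) := by
      simp only [hε]
      split_ifs
      · exact prime_dvd_pow_sub _ _
      · simpa using prime_dvd_pow_pow hp (x (N - 1 - j)) (j + 1)
    refine ⟨-(a (j + 1) * q), ?_⟩
    rw [hx _ (by omega), ← map_pow, show ι (ε (N - 1 - j))
      - ι ((ε (N - 1 - j) + (p : B) * x (N - 1 - j)) ^ p ^ (j + 1)) = -ι ((p : B) ^ (j + 2) * q) by
        rw [← hq, map_sub]; ring, map_mul, map_pow, map_natCast, map_neg, map_mul, ha]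
    ring
  choose! r hr using hdiv
  have hif : (if n ≤ N + 1 then g (N + 1 - n) else 0)
      = ι (ε N) + ∑ j ∈ range N, g (j + 1) * ι (ε (N - 1 - j)) := by
    simp only [hε, apply_ite ι, map_one, map_zero, mul_ite, mul_one, mul_zero]
    split_ifs with h1 h2 h2
    · rw [sum_eq_zero fun j hj => ?_, add_zero, h2, Nat.sub_self, hg, gam_zero]
      have := mem_range.1 hj
      rw [if_neg (by omega)]
    · rw [sum_eq_single (N - n) (fun j hj hne => ?_) (fun hne => ?_), if_pos (by omega), zero_add,
        show N - n + 1 = N + 1 - n by omega]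
      · have := mem_range.1 hj
        rw [if_neg (by omega)]
      · exact absurd (mem_range.2 (by omega)) hne
    · omega
    · rw [sum_eq_zero fun j hj => ?_, add_zero]
      have := mem_range.1 hj
      rw [if_neg (by omega)]
  refine ⟨e (N + 1) + ∑ j ∈ range N, r j, ?_⟩
  rw [par_eq, (hden (N + 1)).2, hif, map_add, map_mul, map_add, map_natCast, map_sum, mul_add,
    mul_sum, ← sum_congr rfl hr]
  simp only [mul_sub, sum_sub_distrib, hε]
  ring

end Honda

variable {A K : Type*} [CommRing A] [CommRing K]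
variable {ι : A →+* K} {σ : A →+* A} {τ : K →+* K} {u : ℕ → A} {l : ℕ → K}

namespace IsFrame

/-- The residues of the parameters after a change by elements fixed by the `n`-th Frobenius. -/
theorem residue (h : IsFrame p ι σ τ u l) {B L : Type*} [CommRing B] [CommRing L] (π : A →+* B)
    {ιB : B →+* L} (hB : Function.Injective ιB) (hu : IsUnit (p : L)) {n : ℕ} (hn : 0 < n)
    (hπn : π (u n) = 1) (hπu : ∀ i, 1 ≤ i → i ≠ n → π (u i) = 0)
    {b : ℕ → A} (hb : ∀ k, π (b k) ^ p ^ n = π (b k)) (N : ℕ) :
    ∃ a : B, π (h.V b N) = (if N + 1 = n then 1 else 0) + (p : B) * a := by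
  obtain ⟨pu, hpu⟩ := hu
  set l' : ℕ → L := fun N => if n ∣ N then ((pu⁻¹ : Lˣ) : L) ^ (N / n) else 0 with hl'
  have l'0 : l' 0 = 1 := by simp [hl']
  have hl'r : ∀ N, (p : L) * l' (N + 1) = if n ≤ N + 1 then l' (N + 1 - n) else 0 := by
    intro N
    simp only [hl']
    by_cases hd : n ∣ N + 1
    · obtain ⟨r, hr⟩ := hd
      rcases r with _ | r
      · omega
      have hle : n ≤ N + 1 := by rw [hr]; exact Nat.le_mul_of_pos_right n r.succ_pos
      rw [if_pos hle, if_pos ⟨_, hr⟩, hr, show n * (r + 1) - n = n * r by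
        rw [Nat.mul_succ]; omega, if_pos (dvd_mul_right _ _), Nat.mul_div_cancel_left _ hn,
        Nat.mul_div_cancel_left _ hn, pow_succ', ← mul_assoc, ← hpu, Units.mul_inv, one_mul]
    · rw [if_neg hd, mul_zero]
      split_ifs with hle hd'
      · exact absurd (Nat.sub_add_cancel hle ▸ dvd_add hd' dvd_rfl) hd
      · rfl
      · rfl
  -- pairs of compatible fractions
  let S : Subring (K × L) :=
    { carrier := {x | ∃ m a, (p : K) ^ m * x.1 = ι a ∧ (p : L) ^ m * x.2 = ιB (π a)}
      zero_mem' := ⟨0, 0, by simp, by simp⟩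
      one_mem' := ⟨0, 1, by simp, by simp⟩
      add_mem' := by
        rintro x y ⟨m, a, ha, ha'⟩ ⟨m', a', hc, hc'⟩
        refine ⟨m + m', (p : A) ^ m' * a + (p : A) ^ m * a', ?_, ?_⟩
        · simp only [Prod.fst_add, map_add, map_mul, map_pow, map_natCast, ← ha, ← hc]; ring
        · simp only [Prod.snd_add, map_add, map_mul, map_pow, map_natCast, ← ha', ← hc']; ring
      mul_mem' := by
        rintro x y ⟨m, a, ha, ha'⟩ ⟨m', a', hc, hc'⟩
        refine ⟨m + m', a * a', ?_, ?_⟩
        · simp only [Prod.fst_mul, map_mul, ← ha, ← hc]; ring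
        · simp only [Prod.snd_mul, map_mul, ← ha', ← hc']; ring
      neg_mem' := by
        rintro x ⟨m, a, ha, ha'⟩
        exact ⟨m, -a, by simp [ha], by simp [ha']⟩ }
  have hι : ∀ a, ((ι a, ιB (π a)) : K × L) ∈ S := fun a => ⟨0, a, by simp, by simp⟩
  have hdivp : ∀ x : K × L, (p : K × L) * x ∈ S → x ∈ S := by
    rintro x ⟨m, a, ha, ha'⟩
    simp only [Prod.fst_mul, Prod.snd_mul, Prod.fst_natCast, Prod.snd_natCast] at ha ha'
    exact ⟨m + 1, a, by rw [← ha]; ring, by rw [← ha']; ring⟩
  set Φ : A →+* K × L := ι.prod (ιB.comp π) with hΦ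
  set lp : ℕ → K × L := fun N => (l N, l' N) with hlp
  have hlS : ∀ N, lp N ∈ S := by
    intro N
    induction N using Nat.strong_induction_on with
    | _ N ih =>
    rcases N with _ | N
    · exact ⟨0, 1, by simp [hlp, h.l_zero], by simp [hlp, l'0]⟩
    refine hdivp _ ?_
    have : (p : K × L) * lp (N + 1) = ∑ j ∈ range (N + 1), lp j * Φ (u (N + 1 - j)) ^ p ^ j := by
      refine Prod.ext ?_ ?_
      · simpa [hlp, hΦ, Prod.fst_sum] using h.recur N
      · simp only [hlp, hΦ, Prod.snd_mul, Prod.snd_natCast, Prod.snd_sum, Prod.pow_snd,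
          RingHom.prod_apply, RingHom.comp_apply, hl'r]
        split_ifs with hle
        · rw [sum_eq_single (N + 1 - n) (fun j hj hne => ?_) (fun hne => ?_),
            show N + 1 - (N + 1 - n) = n by omega, hπn, map_one, one_pow, mul_one]
          · have := mem_range.1 hj
            rw [hπu _ (by omega) (by omega), map_zero, zero_pow (pow_ne_zero _ h.prime.ne_zero),
              mul_zero]
          · exact absurd (mem_range.2 (by omega)) hne
        · refine (sum_eq_zero fun j hj => ?_).symm
          have := mem_range.1 hj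
          rw [hπu _ (by omega) (by omega), map_zero, zero_pow (pow_ne_zero _ h.prime.ne_zero),
            mul_zero]
    rw [this]
    exact sum_mem fun j hj => mul_mem (ih j (mem_range.1 hj)) (pow_mem (hι _) _)
  have hgS : ∀ N, gam p lp (Φ ∘ b) N ∈ S := by
    intro N
    induction N using Nat.strong_induction_on with
    | _ N ih =>
    rcases N with _ | N
    · rw [gam_zero]; exact one_mem S
    rw [gam_succ]
    exact sub_mem (hlS _) (sum_mem fun k _ => mul_mem (ih _ (by omega)) (pow_mem (hι _) _))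
  have hwS : ∀ N, par p (gam p lp (Φ ∘ b)) N ∈ S := by
    intro N
    induction N using Nat.strong_induction_on with
    | _ N ih =>
    rw [par_eq]
    exact sub_mem (mul_mem (natCast_mem S p) (hgS _))
      (sum_mem fun j hj => mul_mem (hgS _) (pow_mem (ih _ (by
        have := mem_range.1 hj; omega)) _))
  obtain ⟨m, a, ha, ha'⟩ := hwS N
  have e1 : (par p (gam p lp (Φ ∘ b)) N).1 = ι (h.V b N) := by
    rw [h.map_V]
    exact map_par_gam (RingHom.fst K L) N
  rw [e1, ← map_natCast ι p, ← map_pow ι, ← map_mul ι] at ha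
  rw [← h.inj ha] at ha'
  simp only [map_mul, map_pow, map_natCast] at ha'
  have e2 := ((Units.isUnit pu).pow m).mul_left_cancel (hpu ▸ ha')
  obtain ⟨c, hc⟩ := honda_par (ι := ιB) h.prime hn l'0 hl'r (c := π ∘ b) hb N
  refine ⟨c, hB ?_⟩
  rw [← e2, ← hc]
  exact map_par_gam (RingHom.snd K L) N

/-- The parameters depend on the `b_k` through congruences. -/
lemma V_sub_mem (h : IsFrame p ι σ τ u l) {b b' : ℕ → A} {I : Ideal A} {N : ℕ}
    (hb : ∀ k, 1 ≤ k → k ≤ N + 1 → b' k - b k ∈ I) : h.V b' N - h.V b N ∈ I := by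
  suffices H : ∀ j, h.V (fun i => if i ≤ j then b' i else b i) N - h.V b N ∈ I by
    have := H (N + 1)
    rwa [h.V_congr (b' := b') fun k _ hk => if_pos hk] at this
  intro j
  induction j with
  | zero =>
    rw [h.V_congr (b' := b) fun k hk _ => if_neg (by omega), sub_self]
    exact zero_mem I
  | succ j ih =>
    by_cases hj : j + 1 ≤ N + 1
    · set c : ℕ → A := fun i => if i ≤ j then b' i else b i with hc
      have e : (fun i => if i ≤ j + 1 then b' i else b i)
          = Function.update c (j + 1) (c (j + 1) + (b' (j + 1) - b (j + 1))) := by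
        funext i
        by_cases hi : i = j + 1
        · subst hi
          simp [hc]
        · rw [Function.update_of_ne hi]
          simp only [hc]
          by_cases hij : i ≤ j
          · rw [if_pos hij, if_pos (by omega)]
          · rw [if_neg hij, if_neg (by omega)]
      rw [e]
      have := add_mem (Ideal.mem_of_dvd I (h.V_update_dvd c (j + 1) (b' (j + 1) - b (j + 1)) N)
        (hb _ (by omega) hj)) ih
      rwa [sub_add_sub_cancel] at this
    · rw [h.V_congr (b' := fun i => if i ≤ j then b' i else b i) fun k _ hk => ?_]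
      · exact ih
      · rw [if_pos (by omega), if_pos (by omega)]

/-- One round of corrections, up to the index `j`. -/
noncomputable def chain (h : IsFrame p ι σ τ u l) (n : ℕ) (b : ℕ → A) : ℕ → ℕ → A
  | 0 => b
  | j + 1 => Function.update (chain h n b j) (j + 1)
      (chain h n b j (j + 1) + -h.V (chain h n b j) (n + j))

/-- One round of corrections. -/
noncomputable def step (h : IsFrame p ι σ τ u l) (n : ℕ) (b : ℕ → A) (k : ℕ) : A :=
  h.chain n b k k

lemma chain_of_lt (h : IsFrame p ι σ τ u l) (n : ℕ) (b : ℕ → A) :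
    ∀ j i, j < i → h.chain n b j i = b i
  | 0, _, _ => rfl
  | j + 1, i, hi => by
    rw [chain, Function.update_of_ne (by omega), h.chain_of_lt n b j i (by omega)]

lemma chain_of_le (h : IsFrame p ι σ τ u l) (n : ℕ) (b : ℕ → A) :
    ∀ j i, i ≤ j → h.chain n b j i = h.step n b i
  | 0, i, hi => by rw [Nat.le_zero.1 hi]; rfl
  | j + 1, i, hi => by
    rcases Nat.lt_or_ge i (j + 1) with hlt | hge
    · rw [chain, Function.update_of_ne (by omega), h.chain_of_le n b j i (by omega)]
    · rw [show i = j + 1 by omega]; rfl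

variable {n : ℕ} {m : Ideal A}

/-- The residue conditions on a sequence. -/
def Residual (h : IsFrame p ι σ τ u l) (n : ℕ) (m : Ideal A) (b : ℕ → A) : Prop :=
  (∀ M, M + 1 ≠ n → h.V b M ∈ m) ∧ h.V b (n - 1) - 1 ∈ m

lemma Residual.congr {h : IsFrame p ι σ τ u l} {b b' : ℕ → A} (hr : h.Residual n m b)
    (hb : ∀ k, b' k - b k ∈ m) : h.Residual n m b' := by
  refine ⟨fun M hM => ?_, ?_⟩
  · have := add_mem (h.V_sub_mem (N := M) fun k _ _ => hb k) (hr.1 M hM)
    rwa [sub_add_cancel] at this
  · have := add_mem (h.V_sub_mem (N := n - 1) fun k _ _ => hb k) hr.2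
    rwa [sub_add_sub_cancel] at this

lemma step_spec (h : IsFrame p ι σ τ u l) (hn : 0 < n) (hpm : (p : A) ∈ m) {t : ℕ} (ht : 1 ≤ t)
    {b : ℕ → A} (hr : h.Residual n m b) (hb : ∀ M, n ≤ M → h.V b M ∈ m ^ t) :
    (∀ k, h.step n b k - b k ∈ m ^ t) ∧ ∀ M, n ≤ M → h.V (h.step n b) M ∈ m ^ (t + 1) := by
  have hle : m ^ t ≤ m := Ideal.pow_le_self (by omega)
  have hchain : ∀ j, (∀ i, h.chain n b j i - b i ∈ m ^ t) := by
    intro j
    induction j with
    | zero => exact fun i => by rw [chain, sub_self]; exact zero_mem _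
    | succ j ih =>
      intro i
      have hV : h.V (h.chain n b j) (n + j) ∈ m ^ t := by
        have := add_mem (h.V_sub_mem (N := n + j) fun k _ _ => ih k) (hb (n + j) (by omega))
        rwa [sub_add_cancel] at this
      rw [chain]
      by_cases hi : i = j + 1
      · subst hi
        rw [Function.update_self, add_sub_right_comm]
        exact add_mem (ih _) (neg_mem hV)
      · rw [Function.update_of_ne hi]
        exact ih i
  refine ⟨fun k => hchain k k, fun M hM => ?_⟩
  rw [h.V_congr (b' := h.chain n b (M + 1)) fun k _ hk => (h.chain_of_le n b (M + 1) k hk).symm]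
  have hδ : ∀ j, -h.V (h.chain n b j) (n + j) ∈ m ^ t := fun j => by
    have := add_mem (h.V_sub_mem (N := n + j) fun k _ _ => hchain j k) (hb (n + j) (by omega))
    rw [sub_add_cancel] at this
    exact neg_mem this
  suffices H : ∀ j, M + 1 - n ≤ j → h.V (h.chain n b j) M ∈ m ^ (t + 1) from H _ (by omega)
  intro j hj
  induction j, hj using Nat.le_induction with
  | base =>
    obtain ⟨i, hi⟩ : ∃ i, M + 1 - n = i + 1 := ⟨M - n, by omega⟩
    have hres := hr.congr fun k => hle (hchain i k)
    have := (h.V_update hn (k := i + 1) (by omega) hpm hres.1 hres.2 (hδ i) (hle (hδ i)) M).2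
      (by omega)
    rw [hi, chain, pow_succ']
    rw [show n + i = M by omega] at this ⊢
    convert this using 1
    ring
  | succ j hj ih =>
    have hres := hr.congr fun k => hle (hchain j k)
    have := (h.V_update hn (k := j + 1) (by omega) hpm hres.1 hres.2 (hδ j) (hle (hδ j)) M).1
      (by omega)
    rw [← pow_succ'] at this
    rw [chain]
    simpa using add_mem this ih

lemma step_eq_zero (h : IsFrame p ι σ τ u l) (hu : ∀ i, n < i → u i = 0) {b : ℕ → A} {R : ℕ}
    (hb : ∀ k, 1 ≤ k → k < R + n → b k = 0) : ∀ k, 1 ≤ k → k < R → h.step n b k = 0 := by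
  intro k
  induction k using Nat.strong_induction_on with
  | _ k ih =>
  intro hk hR
  obtain ⟨j, rfl⟩ : ∃ j, k = j + 1 := ⟨k - 1, by omega⟩
  have hz : ∀ i, 1 ≤ i → i ≤ n + j + 1 → h.chain n b j i = 0 := fun i h1 h2 => by
    rcases Nat.lt_or_ge j i with hij | hij
    · rw [h.chain_of_lt n b j i hij]; exact hb i h1 (by omega)
    · rw [h.chain_of_le n b j i hij]; exact ih i (by omega) h1 (by omega)
  rw [step, chain, Function.update_self, hz _ (by omega) (by omega), h.V_eq hz, hu _ (by omega)]
  simp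

/-- **Existence of the solution.** -/
theorem exists_solution (h : IsFrame p ι σ τ u l) [IsAdicComplete m A] (hn : 0 < n)
    (hpm : (p : A) ∈ m) (hu : ∀ i, n < i → u i = 0) {b₀ : ℕ → A} {S : ℕ}
    (hr : h.Residual n m b₀) (hS : ∀ k, 1 ≤ k → k < S → b₀ k = 0) :
    ∃ b : ℕ → A, (∀ k, b k - b₀ k ∈ m) ∧ (∀ M, n ≤ M → h.V b M = 0) ∧
      ∀ t k, 1 ≤ k → k + t * n < S → b k ∈ m ^ (t + 1) := by
  set q : ℕ → ℕ → A := fun t => (h.step n)^[t] b₀ with hq
  have hq1 : ∀ t, q (t + 1) = h.step n (q t) := fun t => Function.iterate_succ_apply' _ _ _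
  have hinv : ∀ t, (∀ k, q t k - b₀ k ∈ m) ∧ (∀ M, n ≤ M → h.V (q t) M ∈ m ^ (t + 1)) ∧
      ∀ k, 1 ≤ k → k + t * n < S → q t k = 0 := by
    intro t
    induction t with
    | zero =>
      exact ⟨fun k => by simp [hq], fun M hM => by simpa [hq] using hr.1 M (by omega),
        fun k h1 h2 => by simpa [hq] using hS k h1 (by simpa using h2)⟩
    | succ t ih =>
      obtain ⟨h1, h2, h3⟩ := ih
      obtain ⟨s1, s2⟩ := h.step_spec hn hpm (t := t + 1) (by omega) (hr.congr h1) h2
      rw [hq1]
      refine ⟨fun k => ?_, s2, fun k hk hkS => ?_⟩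
      · have := add_mem (Ideal.pow_le_self (by omega) (s1 k)) (h1 k)
        rwa [sub_add_sub_cancel] at this
      · have hadd : (t + 1) * n = t * n + n := Nat.succ_mul t n
        exact h.step_eq_zero hu (R := S - (t + 1) * n)
          (fun i hi hi' => h3 i hi (by omega)) k hk (by omega)
  have hcauchy : ∀ {a c}, a ≤ c → ∀ k, q c k - q a k ∈ m ^ (a + 1) := by
    intro a c hac k
    induction c, hac using Nat.le_induction with
    | base => rw [sub_self]; exact zero_mem _
    | succ c hc ih =>
      have := (h.step_spec hn hpm (t := c + 1) (by omega) (hr.congr (hinv c).1) (hinv c).2.1).1 k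
      rw [← hq1] at this
      have h' := add_mem (Ideal.pow_le_pow_right (show a + 1 ≤ c + 1 by omega) this) ih
      rwa [sub_add_sub_cancel] at h'
  have hlim : ∀ k, ∃ L : A, ∀ t, q t k - L ∈ m ^ (t + 1) := by
    intro k
    obtain ⟨L, hL⟩ := IsPrecomplete.prec' (I := m) (M := A) (fun t => q t k) fun {a c} hac => by
      rw [SModEq.sub_mem, smul_eq_mul, Ideal.mul_top, ← neg_mem_iff, neg_sub]
      exact Ideal.pow_le_pow_right (by omega) (hcauchy hac k)
    refine ⟨L, fun t => ?_⟩
    have h1 := hL (t + 1)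
    rw [SModEq.sub_mem, smul_eq_mul, Ideal.mul_top] at h1
    have := sub_mem h1 (hcauchy (Nat.le_succ t) k)
    rwa [show q (t + 1) k - L - (q (t + 1) k - q t k) = q t k - L by ring] at this
  choose b hb using hlim
  refine ⟨b, fun k => ?_, fun M hM => ?_, fun t k hk hkS => ?_⟩
  · have := sub_mem ((hinv 0).1 k) (pow_one m ▸ hb k 0)
    rwa [show q 0 k - b₀ k - (q 0 k - b k) = b k - b₀ k by ring] at this
  · refine IsHausdorff.haus' (I := m) (M := A) _ fun t => ?_
    rw [SModEq.sub_mem, smul_eq_mul, Ideal.mul_top, sub_zero]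
    have h1 := h.V_sub_mem (b := b) (b' := q t) (N := M) fun k _ _ => hb k t
    have := sub_mem ((hinv t).2.1 M hM) h1
    rw [sub_sub_cancel] at this
    exact Ideal.pow_le_pow_right (by omega) this
  · have := hb k t
    rw [(hinv t).2.2 k hk hkS, zero_sub, neg_mem_iff] at this
    exact this

end IsFrame

end Vale.Agent.P217.EtaR
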