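import Vale.Agent.P217.PSeries

/-!
The height ideals are prime and invariant.
-/

open scoped BigOperators

namespace Vale.Agent.P217

noncomputable section

variable (p n : ℕ) [hp : Fact p.Prime]

lemma ltU_mem_heightIdeal {i h : ℕ} (hi : i < h) : ltU p n i ∈ heightIdeal p n h :=
  Ideal.subset_span ⟨i, hi, rfl⟩

lemma heightIdeal_mono {h h' : ℕ} (hh : h ≤ h') : heightIdeal p n h ≤ heightIdeal p n h' :=
  Ideal.span_mono (Set.image_mono fun _ hi => lt_of_lt_of_le hi hh)

lemma heightIdeal_zero : heightIdeal p n 0 = ⊥ := by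
  simp [heightIdeal]

lemma heightIdeal_succ (h : ℕ) :
    heightIdeal p n (h + 1) = heightIdeal p n h ⊔ Ideal.span {ltU p n h} := by
  rw [heightIdeal, heightIdeal, ← Ideal.span_union, ← Set.image_singleton, ← Set.image_union]
  congr 2
  ext i
  simp only [Set.mem_ofPred_eq, Set.mem_union, Set.mem_singleton_iff]
  omega

/-- A series whose coefficients away from the killed variables are divisible by `p`. -/
lemma mem_heightIdeal_succ : ∀ (h : ℕ) (f : LTRing p n), h ≤ n - 1 →
    (∀ d : Fin (n - 1) →₀ ℕ, (∀ i : Fin (n - 1), i.1 < h → d i = 0) →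
      (p : WittVector p (GaloisField p n)) ∣ MvPowerSeries.coeff d f) →
    f ∈ heightIdeal p n (h + 1)
  | 0, f, _, hf => by
    have h' : ∀ d, (p : WittVector p (GaloisField p n)) ∣ MvPowerSeries.coeff d f :=
      fun d => hf d fun i hi => absurd hi (Nat.not_lt_zero _)
    choose c hc using h'
    let g : LTRing p n := c
    have e : f = (p : LTRing p n) * g := MvPowerSeries.ext fun d => by
      rw [hc d, ← map_natCast (MvPowerSeries.C (R := WittVector p (GaloisField p n))) p,
        MvPowerSeries.coeff_C_mul]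
      rfl
    rw [e]
    refine Ideal.mul_mem_right _ _ ?_
    simpa [ltU] using ltU_mem_heightIdeal p n (i := 0) (h := 1) Nat.one_pos
  | h + 1, f, hle, hf => by
    classical
    let j : Fin (n - 1) := ⟨h, by omega⟩
    let r : LTRing p n := fun d => if d j = 0 then f d else 0
    have hr : ∀ d, MvPowerSeries.coeff d r = if d j = 0 then MvPowerSeries.coeff d f else 0 :=
      fun _ => rfl
    have h1 : r ∈ heightIdeal p n (h + 1) := by
      refine mem_heightIdeal_succ h r (by omega) fun d hd => ?_
      rw [hr]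
      split_ifs with h0
      · refine hf d fun i hi => ?_
        rcases (Nat.lt_succ_iff_lt_or_eq.1 hi) with h' | h'
        · exact hd i h'
        · rw [show i = j from Fin.ext h']; exact h0
      · exact dvd_zero _
    obtain ⟨g, hg⟩ : MvPowerSeries.X j ∣ f - r := by
      rw [MvPowerSeries.X_dvd_iff]
      intro d hd
      rw [map_sub, hr, if_pos hd, sub_self]
    rw [show f = r + MvPowerSeries.X j * g by rw [← hg]; ring]
    refine add_mem (heightIdeal_mono p n (Nat.le_succ _) h1) (Ideal.mul_mem_right _ _ ?_)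
    have := ltU_mem_heightIdeal p n (show h + 1 < h + 1 + 1 by omega)
    rwa [ltU, if_neg (Nat.succ_ne_zero h), dif_pos (show h + 1 - 1 < n - 1 by omega)] at this

/-- The height ideals are prime. -/
theorem heightIdeal_isPrime {h : ℕ} (hn : h ≤ n) : (heightIdeal p n h).IsPrime := by
  classical
  rcases Nat.eq_zero_or_pos h with rfl | h0
  · rw [heightIdeal_zero]; exact Ideal.isPrime_bot
  obtain ⟨h, rfl⟩ : ∃ k, h = k + 1 := ⟨h - 1, by omega⟩
  let e : Fin (n - 1 - h) ↪ Fin (n - 1) :=
    ⟨fun i => ⟨i.1 + h, by have := i.2; omega⟩, fun a b hab => by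
      apply Fin.ext
      simpa using congrArg Fin.val hab⟩
  let κ : LTRing p n →+* MvPowerSeries (Fin (n - 1 - h)) (GaloisField p n) :=
    ((MvPowerSeries.killCompl (R := GaloisField p n) e :
        MvPowerSeries (Fin (n - 1)) (GaloisField p n) →ₐ[GaloisField p n]
          MvPowerSeries (Fin (n - 1 - h)) (GaloisField p n)) :
      MvPowerSeries (Fin (n - 1)) (GaloisField p n) →+*
        MvPowerSeries (Fin (n - 1 - h)) (GaloisField p n)).comp
      (MvPowerSeries.map WittVector.constantCoeff)
  have hker : heightIdeal p n (h + 1) = RingHom.ker κ := by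
    refine le_antisymm ?_ fun f hf => ?_
    · rw [heightIdeal, Ideal.span_le]
      rintro _ ⟨i, hi, rfl⟩
      rw [SetLike.mem_coe, RingHom.mem_ker]
      simp only [Set.mem_ofPred_eq] at hi
      rcases Nat.eq_zero_or_pos i with rfl | hi0
      · rw [ltU, if_pos rfl, map_natCast,
          ← map_natCast (MvPowerSeries.C (R := GaloisField p n)) p, CharP.cast_eq_zero, map_zero]
      · rw [ltU, if_neg hi0.ne', dif_pos (show i - 1 < n - 1 by omega)]
        simp only [κ, RingHom.comp_apply, RingHom.coe_coe, MvPowerSeries.map_X]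
        refine MvPowerSeries.killCompl_X_eq_zero ?_
        rintro ⟨a, ha⟩
        have := congrArg Fin.val ha
        change a.1 + h = i - 1 at this
        omega
    · refine mem_heightIdeal_succ p n h f (by omega) fun d hd => ?_
      have hd' : d ∈ Set.range (Finsupp.embDomain e) := by
        rw [Finsupp.mem_range_embDomain_iff]
        intro i hi
        have hi' : h ≤ i.1 := by
          by_contra hlt
          exact (Finsupp.mem_support_iff.1 hi) (hd i (by omega))
        refine ⟨⟨i.1 - h, by have := i.2; omega⟩, Fin.ext ?_⟩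
        show i.1 - h + h = i.1
        omega
      obtain ⟨x, rfl⟩ := hd'
      have := congrArg (MvPowerSeries.coeff x) (RingHom.mem_ker.1 hf)
      simp only [κ, RingHom.comp_apply, RingHom.coe_coe, MvPowerSeries.coeff_killCompl,
        MvPowerSeries.coeff_map, map_zero, WittVector.constantCoeff_apply] at this
      rwa [← Ideal.mem_span_singleton, WittVector.mem_span_p_iff_coeff_zero_eq_zero]
  rw [hker]
  have : IsDomain (MvPowerSeries (Fin (n - 1 - h)) (GaloisField p n)) :=
    NoZeroDivisors.to_isDomain _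
  exact RingHom.ker_isPrime κ

lemma coeff_subst_of_dvd {R : Type*} [CommRing R] {f g : PowerSeries R} {q j : ℕ} (hq : 0 < q)
    (hg : (PowerSeries.X : PowerSeries R) ^ q ∣ g) (hj : j ≤ q) (hf : PowerSeries.constantCoeff f = 0) :
    PowerSeries.coeff j (PowerSeries.subst g f) = PowerSeries.coeff 1 f * PowerSeries.coeff j g := by
  have g0 : PowerSeries.constantCoeff g = 0 := by
    rw [← PowerSeries.coeff_zero_eq_constantCoeff_apply]
    exact PowerSeries.X_pow_dvd_iff.1 hg 0 hq
  rw [PowerSeries.coeff_subst' (PowerSeries.HasSubst.of_constantCoeff_zero' g0),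
    finsum_eq_single _ 1, pow_one, smul_eq_mul]
  intro d hd
  rcases Nat.eq_zero_or_pos d with rfl | h
  · rw [PowerSeries.coeff_zero_eq_constantCoeff_apply, hf, zero_smul]
  · have h2 : (PowerSeries.X : PowerSeries R) ^ (2 * q) ∣ g ^ d := by
      refine (pow_dvd_pow _ (Nat.mul_le_mul_right q (show 2 ≤ d by omega))).trans ?_
      rw [mul_comm d q, pow_mul]
      exact pow_dvd_pow_of_dvd hg _
    rw [PowerSeries.X_pow_dvd_iff.1 h2 j (by omega), smul_zero]

lemma coeff_subst_low {R : Type*} [CommRing R] {f g : PowerSeries R} {q : ℕ}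
    (hf : (PowerSeries.X : PowerSeries R) ^ q ∣ f) (hg : PowerSeries.constantCoeff g = 0) :
    PowerSeries.coeff q (PowerSeries.subst g f)
      = PowerSeries.coeff q f * PowerSeries.coeff 1 g ^ q := by
  obtain ⟨g', rfl⟩ := PowerSeries.X_dvd_iff.2 hg
  rw [PowerSeries.coeff_subst' (PowerSeries.HasSubst.of_constantCoeff_zero' hg),
    finsum_eq_single _ q, smul_eq_mul]
  · congr 1
    rw [mul_pow]
    nth_rw 1 [← Nat.zero_add q]
    rw [PowerSeries.coeff_X_pow_mul]
    simp [PowerSeries.coeff_zero_eq_constantCoeff_apply, PowerSeries.coeff_succ_X_mul 0 g']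
  intro d hd
  rcases lt_or_gt_of_ne hd with h | h
  · rw [PowerSeries.X_pow_dvd_iff.1 hf d h, zero_smul]
  · rw [PowerSeries.X_pow_dvd_iff.1 ((pow_dvd_pow _ h).trans
      (pow_dvd_pow_of_dvd (dvd_mul_right _ _) d)) q (by omega), smul_zero]

/-- The height ideals are invariant under every automorphism of the deformation. -/
theorem heightIdeal_isInvariant {F : FormalGroup (LTRing p n)} (hF : HasHazewinkelLog p n F) :
    ∀ {h : ℕ}, h ≤ n → IsInvariant p n F (heightIdeal p n h) := by
  intro h
  induction h with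
  | zero =>
    intro _ α _
    rw [heightIdeal_zero, Ideal.map_bot]
  | succ h ih =>
    intro hn α hα
    have hI := ih (by omega) α hα
    rw [heightIdeal_succ, Ideal.map_sup, hI, Ideal.map_span, Set.image_singleton]
    rcases Nat.eq_zero_or_pos h with rfl | h0
    · rw [show α.toRingHom (ltU p n 0) = ltU p n 0 by simp [ltU]]
    obtain ⟨φ, φ0, φ1, hφ⟩ := hα
    set I := heightIdeal p n h with hIdef
    set π := Ideal.Quotient.mk I with hπ
    have hπα : ∀ x, π x = 0 → π (α.toRingHom x) = 0 := fun x hx => by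
      rw [Ideal.Quotient.eq_zero_iff_mem] at hx ⊢
      rw [← hI]
      exact Ideal.mem_map_of_mem _ hx
    have hu : ∀ i < h, π (ltU p n i) = 0 := fun i hi =>
      Ideal.Quotient.eq_zero_iff_mem.2 (ltU_mem_heightIdeal p n hi)
    have hq : 0 < p ^ h := pow_pos hp.out.pos h
    have hP : ∀ j ≤ p ^ h, π (PowerSeries.coeff j (nser F p))
        = if j = p ^ h then π (ltU p n h) else 0 :=
      fun j hj => coeff_pSeries_mod p n hF π h0 (by omega) hu hj
    have hdvd1 : (PowerSeries.X : PowerSeries (LTRing p n ⧸ I)) ^ p ^ h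
        ∣ PowerSeries.map π (nser F p) := by
      rw [PowerSeries.X_pow_dvd_iff]
      intro i hi
      rw [PowerSeries.coeff_map, hP i hi.le, if_neg hi.ne]
    have hdvd2 : (PowerSeries.X : PowerSeries (LTRing p n ⧸ I)) ^ p ^ h
        ∣ PowerSeries.map π (nser (F.map α.toRingHom) p) := by
      rw [PowerSeries.X_pow_dvd_iff]
      intro i hi
      rw [PowerSeries.coeff_map, ← map_nser, PowerSeries.coeff_map]
      refine hπα _ ?_
      rw [hP i hi.le, if_neg hi.ne]
    have h0' : ∀ k, PowerSeries.constantCoeff (nser F k) = 0 := constantCoeff_nser F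
    have e := congrArg (fun s => PowerSeries.coeff (p ^ h) (PowerSeries.map π s)) (hom_nser φ0 hφ p)
    have m1 : PowerSeries.map π (PowerSeries.subst (nser F p) φ)
        = PowerSeries.subst (PowerSeries.map π (nser F p)) (PowerSeries.map π φ) :=
      PowerSeries.map_subst (PowerSeries.HasSubst.of_constantCoeff_zero' (h0' p)) φ
    have m2 : PowerSeries.map π (PowerSeries.subst φ (nser (F.map α.toRingHom) p))
        = PowerSeries.subst (PowerSeries.map π φ)
            (PowerSeries.map π (nser (F.map α.toRingHom) p)) :=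
      PowerSeries.map_subst (PowerSeries.HasSubst.of_constantCoeff_zero' φ0) _
    have hφ0 : PowerSeries.constantCoeff (PowerSeries.map π φ) = 0 := by
      rw [← PowerSeries.coeff_zero_eq_constantCoeff_apply, PowerSeries.coeff_map,
        PowerSeries.coeff_zero_eq_constantCoeff_apply, φ0, map_zero]
    simp only [m1, m2] at e
    rw [coeff_subst_of_dvd hq hdvd1 le_rfl hφ0, coeff_subst_low hdvd2 hφ0,
      PowerSeries.coeff_map, PowerSeries.coeff_map, hP _ le_rfl, if_pos rfl,
      PowerSeries.coeff_map, ← map_nser, PowerSeries.coeff_map] at e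
    have hc : π (α.toRingHom (PowerSeries.coeff (p ^ h) (nser F p)))
        = π (α.toRingHom (ltU p n h)) := by
      rw [← sub_eq_zero, ← map_sub, ← map_sub]
      refine hπα _ ?_
      rw [map_sub, hP _ le_rfl, if_pos rfl, sub_self]
    rw [hc] at e
    obtain ⟨c, hcu⟩ := φ1
    rw [← map_pow, ← map_mul, ← map_mul, Ideal.Quotient.mk_eq_mk_iff_sub_mem, ← hcu] at e
    refine le_antisymm (sup_le le_sup_left ?_) (sup_le le_sup_left ?_) <;>
      rw [Ideal.span_le, Set.singleton_subset_iff, SetLike.mem_coe]
    · have : α.toRingHom (ltU p n h)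
          = ((c⁻¹ ^ p ^ h : (LTRing p n)ˣ) : LTRing p n) * (c : LTRing p n) * ltU p n h
            - ((c⁻¹ ^ p ^ h : (LTRing p n)ˣ) : LTRing p n)
              * ((c : LTRing p n) * ltU p n h - α.toRingHom (ltU p n h) * (c : LTRing p n) ^ p ^ h) := by
        rw [Units.val_pow_eq_pow_val]
        have hcc : ((c⁻¹ : (LTRing p n)ˣ) : LTRing p n) ^ p ^ h * (c : LTRing p n) ^ p ^ h = 1 := by
          rw [← mul_pow, Units.inv_mul, one_pow]
        linear_combination (-α.toRingHom (ltU p n h)) * hcc
      rw [this]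
      exact Ideal.sub_mem _ (Ideal.mul_mem_left _ _ (Ideal.mem_sup_right (Ideal.mem_span_singleton_self _)))
        (Ideal.mem_sup_left (Ideal.mul_mem_left _ _ e))
    · have key := Ideal.mul_mem_left (Ideal.map α.toRingHom I ⊔ Ideal.span {α.toRingHom (ltU p n h)})
        ((c⁻¹ : (LTRing p n)ˣ) : LTRing p n)
        (add_mem (Ideal.mem_sup_left (hI.symm ▸ e))
          (Ideal.mem_sup_right (Ideal.mul_mem_right ((c : LTRing p n) ^ p ^ h) _
            (Ideal.mem_span_singleton_self (α.toRingHom (ltU p n h))))))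
      rw [sub_add_cancel, Units.inv_mul_cancel_left, hI] at key
      exact key

end

end Vale.Agent.P217
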