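import Vale.Agent.P217.Setup
import Vale.Agent.P217.Invariant

/-! # P217 interface: the Hazewinkel model and its `[p]`-series -/

open scoped Classical

namespace Vale.Agent.P217

noncomputable section

variable (p n : ℕ) [hp : Fact p.Prime]

theorem exists_hazewinkel (hn : 0 < n) :
    ∃ F : FormalGroup (LTRing p n), HasHazewinkelLog p n F :=
  exists_formalGroup p n

lemma constantCoeff_map_zero {I R S : Type*} [CommRing R] [CommRing S] (f : R →+* S)
    {x : MvPowerSeries I R} (hx : MvPowerSeries.constantCoeff x = 0) :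
    MvPowerSeries.constantCoeff (MvPowerSeries.map f x) = 0 := by
  rw [MvPowerSeries.constantCoeff_map, hx, map_zero]

theorem hazewinkel_isComm {F : FormalGroup (LTRing p n)} (hF : HasHazewinkelLog p n F) :
    F.IsComm := by
  have hX : ∀ i : Fin 2, MvPowerSeries.constantCoeff
      (MvPowerSeries.X i : MvPowerSeries (Fin 2) (LTField p n)) = 0 := fun i => by simp
  have key : F.toPowerSeries = MvPowerSeries.subst
      ![MvPowerSeries.X (1 : Fin 2), MvPowerSeries.X (0 : Fin 2)] F.toPowerSeries := by
    refine map_inj (IsFractionRing.injective (LTRing p n) (LTField p n)) ?_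
    rw [MvPowerSeries.map_subst MvPowerSeries.HasSubst.X_X]
    have e : (fun i => MvPowerSeries.map (algebraMap (LTRing p n) (LTField p n))
        (![MvPowerSeries.X (1 : Fin 2), MvPowerSeries.X (0 : Fin 2)] i))
        = ![MvPowerSeries.X (1 : Fin 2), MvPowerSeries.X (0 : Fin 2)] := by
      funext i; fin_cases i <;> simp [MvPowerSeries.map_X]
    rw [e]
    refine eq_of_ltLog_eq p n (constantCoeff_map_zero _ F.zero_constantCoeff)
      (MvPowerSeries.constantCoeff_subst_eq_zero MvPowerSeries.HasSubst.X_X
        (const_pair (hX 1) (hX 0)) (constantCoeff_map_zero _ F.zero_constantCoeff)) ?_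
    exact (hF.trans (add_comm _ _)).trans (log_add p n hF (hX 1) (hX 0)).symm
  exact ⟨key⟩

lemma constantCoeff_nmulSeries (F : FormalGroup (LTRing p n)) :
    ∀ k, PowerSeries.constantCoeff (nmulSeries p n F k) = 0
  | 0 => by simp [nmulSeries]
  | k + 1 => constantCoeff_fsum F (constantCoeff_nmulSeries F k) PowerSeries.constantCoeff_X

theorem pSeries_constantCoeff {F : FormalGroup (LTRing p n)} :
    PowerSeries.constantCoeff (pSeries p n F) = 0 :=
  constantCoeff_nmulSeries p n F p

lemma nmulSeries_eq_nser {F : FormalGroup (LTRing p n)} (hF : HasHazewinkelLog p n F) (k : ℕ) :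
    nmulSeries p n F k = nser F k := by
  refine map_inj (IsFractionRing.injective (LTRing p n) (LTField p n)) ?_
  refine eq_of_ltLog_eq p n (constantCoeff_map_zero _ (constantCoeff_nmulSeries p n F k))
    (constantCoeff_map_zero _ (constantCoeff_nser F k)) ?_
  show PowerSeries.subst (PowerSeries.map (ltEmb p n) _) _
    = PowerSeries.subst (PowerSeries.map (ltEmb p n) _) _
  rw [log_nser p n hF]
  induction k with
  | zero => rw [nmulSeries, map_zero, log_zero, zero_smul]
  | succ k ih =>
    rw [show nmulSeries p n F (k + 1) = fsum F (nmulSeries p n F k) PowerSeries.X from rfl,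
      log_map_fsum p n hF (constantCoeff_nmulSeries p n F k) PowerSeries.constantCoeff_X, ih,
      PowerSeries.map_X, succ_nsmul, PowerSeries.X_subst]

lemma pSeries_eq_nser {F : FormalGroup (LTRing p n)} (hF : HasHazewinkelLog p n F) :
    pSeries p n F = nser F p :=
  nmulSeries_eq_nser p n hF p

theorem pSeries_residue (hn : 0 < n) {F : FormalGroup (LTRing p n)}
    (hF : HasHazewinkelLog p n F) (N : ℕ) :
    PowerSeries.coeff N (pSeries p n F) - (if N = p ^ n then 1 else 0) ∈ mIdeal p n := by
  rw [pSeries_eq_nser p n hF, ← Ideal.Quotient.eq_zero_iff_mem, map_sub]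
  set π := Ideal.Quotient.mk (mIdeal p n)
  have hπ : ∀ i < n, π (ltU p n i) = 0 := fun i hi =>
    Ideal.Quotient.eq_zero_iff_mem.2 (ltU_mem_heightIdeal p n hi)
  have h := congrArg (PowerSeries.coeff N) (map_pSeries_eq_tail p n hF π hn le_rfl hπ)
  rw [PowerSeries.coeff_map, PowerSeries.coeff_map, show n + 1 - n = 0 + 1 by omega, tail, tail,
    Nat.sub_zero, fsum,
    F.add_zero (PowerSeries.HasSubst.of_constantCoeff_zero' (constantCoeff_term p n n)), term,
    show ltU p n n = 1 by rw [ltU, if_neg (by omega), dif_neg (by omega), if_pos rfl],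
    map_one, one_mul, PowerSeries.coeff_X_pow] at h
  rw [h, sub_self]

lemma exists_expand_tail {Q : Type*} [CommRing Q] (π : LTRing p n →+* Q)
    (F : FormalGroup (LTRing p n)) {h : ℕ} (hh : h ≤ n) :
    ∀ r, r ≤ n + 1 - h → ∃ a : PowerSeries Q, PowerSeries.constantCoeff a = 0 ∧
      PowerSeries.map π (tail p n F r) = MvPowerSeries.expand (p ^ h) (pow_ne_zero _ hp.out.ne_zero) a
  | 0, _ => ⟨0, map_zero _, by
      rw [tail, map_zero]
      exact (map_zero (MvPowerSeries.expand (σ := Unit) (R := Q) (p ^ h) (pow_ne_zero _ hp.out.ne_zero))).symm⟩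
  | r + 1, hr => by
    obtain ⟨a, a0, ha⟩ := exists_expand_tail π F hh r (by omega)
    set b : PowerSeries Q := PowerSeries.C (π (ltU p n (n - r))) * PowerSeries.X ^ p ^ (n - r - h)
      with hb
    have b0 : PowerSeries.constantCoeff b = 0 := by
      simp [hb, zero_pow (pow_ne_zero (n - r - h) hp.out.ne_zero)]
    have hbT : PowerSeries.map π (term p n (n - r))
        = MvPowerSeries.expand (p ^ h) (pow_ne_zero _ hp.out.ne_zero) b := by
      rw [term, map_mul, PowerSeries.map_C, map_pow, PowerSeries.map_X, hb]
      show _ = MvPowerSeries.expand (p ^ h) (pow_ne_zero _ hp.out.ne_zero)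
        (MvPowerSeries.C (π (ltU p n (n - r))) * MvPowerSeries.X () ^ p ^ (n - r - h))
      rw [map_mul, map_pow, MvPowerSeries.expand_C, MvPowerSeries.expand_X, ← pow_mul, ← pow_add,
        show h + (n - r - h) = n - r by omega]
      rfl
    refine ⟨fsum (F.map π) b a, constantCoeff_fsum _ b0 a0, ?_⟩
    rw [tail, map_fsum π F (constantCoeff_term p n _) (constantCoeff_tail p n F r), ha, hbT]
    unfold fsum
    rw [MvPowerSeries.expand_subst _ _
      (MvPowerSeries.hasSubst_of_constantCoeff_zero (const_pair b0 a0))]
    congr 1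
    funext i
    fin_cases i <;> rfl

theorem pSeries_coeff_mem {F : FormalGroup (LTRing p n)} (hF : HasHazewinkelLog p n F)
    {h N : ℕ} (hh : h ≤ n) (hN : ¬ p ^ h ∣ N) :
    PowerSeries.coeff N (pSeries p n F) ∈ heightIdeal p n h := by
  rcases Nat.eq_zero_or_pos h with rfl | h1
  · exact absurd (by simp) hN
  rw [pSeries_eq_nser p n hF, ← Ideal.Quotient.eq_zero_iff_mem]
  set π := Ideal.Quotient.mk (heightIdeal p n h)
  have hπ : ∀ i < h, π (ltU p n i) = 0 := fun i hi =>
    Ideal.Quotient.eq_zero_iff_mem.2 (ltU_mem_heightIdeal p n hi)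
  obtain ⟨a, -, ha⟩ := exists_expand_tail p n π F hh (n + 1 - h) le_rfl
  rw [← PowerSeries.coeff_map, map_pSeries_eq_tail p n hF π h1 hh hπ, ha]
  exact MvPowerSeries.coeff_expand_of_not_dvd (i := ()) _ _ _ (by simpa using hN)

/-- `[p](x) = ∑ u_i x^{p^i}` up to cross terms and a multiple of `p x^2`. -/
theorem pSeries_decomp (hn : 0 < n) {F : FormalGroup (LTRing p n)}
    (hF : HasHazewinkelLog p n F) :
    ∃ (R : ℕ → ℕ → PowerSeries (LTRing p n)) (R₀ : PowerSeries (LTRing p n)),
      pSeries p n F =
        (∑ i ∈ Finset.range (n + 1), PowerSeries.C (ltU p n i) * PowerSeries.X ^ p ^ i)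
        + (∑ i ∈ Finset.range (n + 1), ∑ j ∈ Finset.range (n + 1),
            PowerSeries.C (ltU p n i * ltU p n j) * PowerSeries.X ^ (p ^ i + p ^ j) * R i j)
        + PowerSeries.C (p : LTRing p n) * PowerSeries.X ^ 2 * R₀ := by
  obtain ⟨G, G0, hG⟩ := exists_pSeries_eq p n hF
  set T : Ideal (PowerSeries (LTRing p n)) :=
    Ideal.span (Set.range fun i : Fin (n + 1) => term p n i) with hT
  have hterm : ∀ i ≤ n, term p n i ∈ T := fun i hi =>
    Ideal.subset_span ⟨⟨i, by omega⟩, rfl⟩
  have t0 : term p n 0 = PowerSeries.C (p : LTRing p n) * PowerSeries.X := by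
    simp [term, ltU]
  -- the linear part of a formal sum
  have hsum : ∀ a b : PowerSeries (LTRing p n), PowerSeries.constantCoeff a = 0 →
      PowerSeries.constantCoeff b = 0 → ∃ S, fsum F a b = a + b + a * b * S := by
    intro a b ha hb
    obtain ⟨H, hH⟩ : ∃ H, F.toPowerSeries - MvPowerSeries.X 0 - MvPowerSeries.X 1
        = MvPowerSeries.X (0 : Fin 2) * MvPowerSeries.X 1 * H := by
      have h10 : ∀ d : Fin 2 →₀ ℕ, d 0 = 0 → MvPowerSeries.coeff d F.toPowerSeries
          = if d = Finsupp.single 1 1 then 1 else 0 := by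
        intro d hd
        have hd' : d = Finsupp.single 1 (d 1) := by
          ext i; fin_cases i <;> simp [hd]
        have h := congrArg (PowerSeries.coeff (d 1)) F.zeroX_eq_X
        rw [FormalGroup.zeroX, PowerSeries.coeff,
          MvPowerSeries.coeff_subst (MvPowerSeries.hasSubst_of_constantCoeff_zero
            (const_pair (map_zero _) PowerSeries.constantCoeff_X)), finsum_eq_single _ d] at h
        · rw [Finsupp.prod_fintype _ _ (fun i => pow_zero _), Fin.prod_univ_two] at h
          simp only [hd, pow_zero, one_mul, Matrix.cons_val_one, Matrix.cons_val_fin_one,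
            smul_eq_mul] at h
          change _ * PowerSeries.coeff (d 1) (PowerSeries.X ^ d 1) = PowerSeries.coeff (d 1) PowerSeries.X at h
          rw [PowerSeries.coeff_X_pow, if_pos rfl, mul_one, PowerSeries.coeff_X] at h
          rw [h]
          conv_rhs => rw [hd']
          simp [Finsupp.single_eq_single_iff]
        · intro e he
          rw [Finsupp.prod_fintype _ _ (fun i => pow_zero _), Fin.prod_univ_two]
          simp only [Matrix.cons_val_zero, Matrix.cons_val_one, Matrix.cons_val_fin_one]
          rcases Nat.eq_zero_or_pos (e 0) with h0 | h0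
          · rw [h0, pow_zero, one_mul]
            show _ • PowerSeries.coeff (d 1) (PowerSeries.X ^ e 1) = 0
            rw [PowerSeries.coeff_X_pow, if_neg, smul_zero]
            intro h1
            exact he (by rw [hd']; ext i; fin_cases i <;> simp [h0, h1])
          · simp [zero_pow h0.ne']
      have h01 : ∀ d : Fin 2 →₀ ℕ, d 1 = 0 → MvPowerSeries.coeff d F.toPowerSeries
          = if d = Finsupp.single 0 1 then 1 else 0 := by
        have := hazewinkel_isComm p n hF
        intro d hd
        have hd' : d = Finsupp.single 0 (d 0) := by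
          ext i; fin_cases i <;> simp [hd]
        have h := congrArg (PowerSeries.coeff (d 0)) F.Xzero_eq_X
        rw [FormalGroup.Xzero, PowerSeries.coeff,
          MvPowerSeries.coeff_subst (MvPowerSeries.hasSubst_of_constantCoeff_zero
            (const_pair PowerSeries.constantCoeff_X (map_zero _))), finsum_eq_single _ d] at h
        · rw [Finsupp.prod_fintype _ _ (fun i => pow_zero _), Fin.prod_univ_two] at h
          simp only [hd, pow_zero, mul_one, Matrix.cons_val_zero, smul_eq_mul] at h
          change _ * PowerSeries.coeff (d 0) (PowerSeries.X ^ d 0) = PowerSeries.coeff (d 0) PowerSeries.X at h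
          rw [PowerSeries.coeff_X_pow, if_pos rfl, mul_one, PowerSeries.coeff_X] at h
          rw [h]
          conv_rhs => rw [hd']
          simp [Finsupp.single_eq_single_iff]
        · intro e he
          rw [Finsupp.prod_fintype _ _ (fun i => pow_zero _), Fin.prod_univ_two]
          simp only [Matrix.cons_val_zero, Matrix.cons_val_one, Matrix.cons_val_fin_one]
          rcases Nat.eq_zero_or_pos (e 1) with h0 | h0
          · rw [h0, pow_zero, mul_one]
            show _ • PowerSeries.coeff (d 0) (PowerSeries.X ^ e 0) = 0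
            rw [PowerSeries.coeff_X_pow, if_neg, smul_zero]
            intro h1
            exact he (by rw [hd']; ext i; fin_cases i <;> simp [h0, h1])
          · simp [zero_pow h0.ne']
      obtain ⟨D, hD⟩ : (MvPowerSeries.X (0 : Fin 2)) ∣
          F.toPowerSeries - MvPowerSeries.X 0 - MvPowerSeries.X 1 := by
        rw [MvPowerSeries.X_dvd_iff]
        intro d hd
        have : d ≠ Finsupp.single 0 1 := fun h => by simp [h] at hd
        simp [map_sub, h10 d hd, MvPowerSeries.coeff_X, this]
      obtain ⟨H, hH⟩ : (MvPowerSeries.X (1 : Fin 2)) ∣ D := by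
        rw [MvPowerSeries.X_dvd_iff]
        intro d hd
        have h := congrArg (MvPowerSeries.coeff (Finsupp.single 0 1 + d)) hD
        rw [MvPowerSeries.X, MvPowerSeries.coeff_add_monomial_mul, one_mul] at h
        rw [← h]
        have hd1 : (Finsupp.single (0 : Fin 2) 1 + d : Fin 2 →₀ ℕ) 1 = 0 := by simp [hd]
        have : Finsupp.single (0 : Fin 2) 1 + d ≠ Finsupp.single 1 1 := fun he => by
          have := congrArg (fun f : Fin 2 →₀ ℕ => f 1) he
          simp [hd] at this
        rw [map_sub, map_sub, h01 _ hd1]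
        simp [MvPowerSeries.X, MvPowerSeries.coeff_monomial, this]
      exact ⟨H, by rw [hD, hH, mul_assoc]⟩
    have hs := MvPowerSeries.hasSubst_of_constantCoeff_zero (const_pair ha hb)
    have h := congrArg (MvPowerSeries.substAlgHom (R := LTRing p n) hs) hH
    simp only [map_sub, map_mul, MvPowerSeries.substAlgHom_apply, MvPowerSeries.subst_X hs,
      Matrix.cons_val_zero, Matrix.cons_val_one, Matrix.cons_val_fin_one] at h
    refine ⟨MvPowerSeries.subst ![a, b] H, ?_⟩
    rw [← h, fsum]
    ring
  -- the formal sum of the terms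
  have htail : ∀ r, r ≤ n → tail p n F r ∈ T ∧
      tail p n F r - ∑ s ∈ Finset.range r, term p n (n - s) ∈ T * T := by
    intro r
    induction r with
    | zero => exact fun _ => by simp [tail]
    | succ r ih =>
      intro hr
      obtain ⟨h1, h2⟩ := ih (by omega)
      obtain ⟨S, hS⟩ := hsum _ _ (constantCoeff_term p n (n - r)) (constantCoeff_tail p n F r)
      have ht := hterm (n - r) (by omega)
      rw [tail, hS, Finset.sum_range_succ]
      refine ⟨add_mem (add_mem ht h1) (Ideal.mul_mem_right _ _ (Ideal.mul_mem_left _ _ h1)), ?_⟩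
      have : term p n (n - r) + tail p n F r + term p n (n - r) * tail p n F r * S
          - (∑ s ∈ Finset.range r, term p n (n - s) + term p n (n - r))
          = (tail p n F r - ∑ s ∈ Finset.range r, term p n (n - s))
            + term p n (n - r) * tail p n F r * S := by ring
      rw [this]
      exact add_mem h2 (Ideal.mul_mem_right _ _ (Ideal.mul_mem_mul ht h1))
  obtain ⟨hT1, hT2⟩ := htail n le_rfl
  -- the summand `exp (p x)`
  obtain ⟨G₁, rfl⟩ := PowerSeries.X_dvd_iff.2 G0
  have hpG : PowerSeries.constantCoeff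
      ((p : PowerSeries (LTRing p n)) * (PowerSeries.X * G₁)) = 0 := by simp
  obtain ⟨S, hS⟩ := hsum _ _ hpG (constantCoeff_tail p n F n)
  have hc : PowerSeries.constantCoeff G₁ = 1 := by
    have hk : ∀ k, PowerSeries.coeff 1 (nser F k) = (k : LTRing p n) := by
      intro k
      induction k with
      | zero => simp [nser]
      | succ k ih =>
        rw [nser, coeff_fsum_low F (N := 1) (by simp)
          (by rw [pow_one, PowerSeries.X_dvd_iff]; exact constantCoeff_nser F k) one_pos
          (by omega), ih, PowerSeries.coeff_one_X]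
        push_cast
        ring
    have hz : ∀ r, r ≤ n → PowerSeries.coeff 1 (tail p n F r) = 0 := by
      intro r
      induction r with
      | zero => exact fun _ => by simp [tail]
      | succ r ih =>
        intro hr
        rw [tail, coeff_fsum_low F (N := 1)
          (by rw [pow_one, PowerSeries.X_dvd_iff]; exact constantCoeff_term p n _)
          (by rw [pow_one, PowerSeries.X_dvd_iff]; exact constantCoeff_tail p n F r) one_pos
          (by omega), ih (by omega), add_zero, term, PowerSeries.coeff_C_mul,
          PowerSeries.coeff_X_pow, if_neg (Nat.one_lt_pow (by omega) hp.out.one_lt).ne, mul_zero]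
    have h := congrArg (PowerSeries.coeff 1) hG
    rw [hk, coeff_fsum_low F (N := 1) (by rw [pow_one, PowerSeries.X_dvd_iff]; exact hpG)
      (by rw [pow_one, PowerSeries.X_dvd_iff]; exact constantCoeff_tail p n F n) one_pos (by omega),
      hz n le_rfl, add_zero, ← map_natCast (PowerSeries.C (R := LTRing p n)) p,
      PowerSeries.coeff_C_mul, PowerSeries.coeff_succ_X_mul,
      PowerSeries.coeff_zero_eq_constantCoeff_apply] at h
    have hp0 : (p : LTRing p n) ≠ 0 := fun h0 => natCast_prime_ne_zero p n (by
      rw [← map_natCast (ltEmb p n), h0, map_zero])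
    exact mul_left_cancel₀ hp0 (by rw [mul_one]; exact h.symm)
  obtain ⟨G₂, hG₂⟩ : PowerSeries.X ∣ G₁ - 1 := by
    rw [PowerSeries.X_dvd_iff, map_sub, map_one, hc, sub_self]
  have hG₁ : G₁ = 1 + PowerSeries.X * G₂ := by rw [← hG₂]; ring
  have hpT : (p : PowerSeries (LTRing p n)) * (PowerSeries.X * G₁) ∈ T := by
    rw [← mul_assoc, ← map_natCast (PowerSeries.C (R := LTRing p n)) p, ← t0]
    exact Ideal.mul_mem_right _ _ (hterm 0 (Nat.zero_le n))
  have hTT : tail p n F n - ∑ s ∈ Finset.range n, term p n (n - s)
      + (p : PowerSeries (LTRing p n)) * (PowerSeries.X * G₁) * tail p n F n * S ∈ T * T :=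
    add_mem hT2 (Ideal.mul_mem_right _ _ (Ideal.mul_mem_mul hpT hT1))
  have hspan : T * T = Ideal.span (Set.range fun x : Fin (n + 1) × Fin (n + 1) =>
      term p n x.1 * term p n x.2) := by
    rw [hT, Ideal.span_mul_span']
    congr 1
    ext z
    simp only [Set.mem_mul, Set.mem_range, Prod.exists]
    constructor
    · rintro ⟨_, ⟨i, rfl⟩, _, ⟨j, rfl⟩, rfl⟩; exact ⟨i, j, rfl⟩
    · rintro ⟨i, j, rfl⟩; exact ⟨_, ⟨i, rfl⟩, _, ⟨j, rfl⟩, rfl⟩
  rw [hspan, Ideal.mem_span_range_iff_exists_fun] at hTT
  obtain ⟨c, hcsum⟩ := hTT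
  refine ⟨fun i j => if h : i < n + 1 ∧ j < n + 1 then c (⟨i, h.1⟩, ⟨j, h.2⟩) else 0, G₂, ?_⟩
  have hlin : ∑ i ∈ Finset.range (n + 1), PowerSeries.C (ltU p n i) * PowerSeries.X ^ p ^ i
      = term p n 0 + ∑ s ∈ Finset.range n, term p n (n - s) := by
    rw [Finset.sum_range_succ', add_comm, ← Finset.sum_range_reflect _ n]
    refine congrArg₂ (· + ·) rfl (Finset.sum_congr rfl fun s hs => ?_)
    have := Finset.mem_range.1 hs
    rw [show n - 1 - s + 1 = n - s by omega]
    rfl
  have hquad : ∑ i ∈ Finset.range (n + 1), ∑ j ∈ Finset.range (n + 1),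
      PowerSeries.C (ltU p n i * ltU p n j) * PowerSeries.X ^ (p ^ i + p ^ j)
        * (if h : i < n + 1 ∧ j < n + 1 then c (⟨i, h.1⟩, ⟨j, h.2⟩) else 0)
      = ∑ x : Fin (n + 1) × Fin (n + 1), c x * (term p n x.1 * term p n x.2) := by
    rw [Fintype.sum_prod_type, Finset.sum_range]
    refine Finset.sum_congr rfl fun i _ => ?_
    rw [Finset.sum_range]
    refine Finset.sum_congr rfl fun j _ => ?_
    rw [dif_pos ⟨i.2, j.2⟩, map_mul, pow_add, term, term]
    simp only [Fin.eta]
    ring
  rw [hlin, hquad, hcsum, pSeries_eq_nser p n hF, hG, hS, t0, hG₁,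
    ← map_natCast (PowerSeries.C (R := LTRing p n)) p]
  ring

/-- Substitution of series is injective when the linear coefficient is one. -/
lemma subst_inj {I K : Type*} [CommRing K] {L : PowerSeries K} (L0 : PowerSeries.constantCoeff L = 0)
    (L1 : PowerSeries.coeff 1 L = 1) {f g : MvPowerSeries I K}
    (hf : MvPowerSeries.constantCoeff f = 0) (hg : MvPowerSeries.constantCoeff g = 0)
    (h : PowerSeries.subst f L = PowerSeries.subst g L) : f = g := by
  have h1 : IsUnit (PowerSeries.coeff 1 L) := by rw [L1]; exact isUnit_one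
  have key : ∀ x : MvPowerSeries I K, MvPowerSeries.constantCoeff x = 0 →
      PowerSeries.subst (PowerSeries.subst x L) (PowerSeries.substInvOfIsUnit L h1) = x := fun x hx => by
    have hx' := PowerSeries.HasSubst.of_constantCoeff_zero hx
    rw [← PowerSeries.subst_comp_subst_apply (PowerSeries.HasSubst.of_constantCoeff_zero' L0) hx',
      PowerSeries.subst_substInvOfIsUnit_left _ L0 h1, PowerSeries.subst_X hx']
  rw [← key f hf, h, key g hg]

/-- A series which transforms the logarithms is a homomorphism. -/
theorem hom_of_log {F : FormalGroup (LTRing p n)} (hF : HasHazewinkelLog p n F)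
    (α : LTRing p n ≃+* LTRing p n) (φ : PowerSeries (LTRing p n))
    (hφ : PowerSeries.constantCoeff φ = 0) (c : LTRing p n)
    (hlog : PowerSeries.subst (φ.map (algebraMap (LTRing p n) (LTField p n)))
          ((ltLog p n).map (IsFractionRing.ringEquivOfRingEquiv α :
            LTField p n ≃+* LTField p n).toRingHom)
        = algebraMap (LTRing p n) (LTField p n) c • ltLog p n) :
    PowerSeries.subst F.toPowerSeries φ
      = MvPowerSeries.subst
          ![PowerSeries.subst (MvPowerSeries.X (0 : Fin 2)) φ,
            PowerSeries.subst (MvPowerSeries.X (1 : Fin 2)) φ]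
          (F.map α.toRingHom).toPowerSeries := by
  set ι := algebraMap (LTRing p n) (LTField p n) with hι
  set τ : LTField p n →+* LTField p n :=
    (IsFractionRing.ringEquivOfRingEquiv α : LTField p n ≃+* LTField p n).toRingHom with hτ
  set L := ltLog p n with hL
  set L' := L.map τ with hL'
  set φK := φ.map ι with hφK
  have hτι : τ.comp ι = ι.comp α.toRingHom := RingHom.ext fun x => by
    simp [hτ, hι]
  set G := (F.map ι).toPowerSeries with hG
  set G' : MvPowerSeries (Fin 2) (LTField p n) := MvPowerSeries.map τ G with hG'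
  have G0 : MvPowerSeries.constantCoeff G = 0 := (F.map ι).zero_constantCoeff
  have G0' : MvPowerSeries.constantCoeff G' = 0 := constantCoeff_map_zero _ G0
  have φK0 : PowerSeries.constantCoeff φK = 0 := constantCoeff_map_zero ι hφ
  have hφK' := PowerSeries.HasSubst.of_constantCoeff_zero' φK0
  have L0' : PowerSeries.constantCoeff L' = 0 := by
    rw [hL', ← PowerSeries.coeff_zero_eq_constantCoeff_apply, PowerSeries.coeff_map,
      PowerSeries.coeff_zero_eq_constantCoeff_apply, hL, coeff_zero_ltLog, map_zero]
  have hX : ∀ j : Fin 2, MvPowerSeries.constantCoeff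
      (MvPowerSeries.X j : MvPowerSeries (Fin 2) (LTField p n)) = 0 := fun j => by simp
  have hFτ : PowerSeries.subst G' L' = PowerSeries.subst (MvPowerSeries.X (0 : Fin 2)) L'
      + PowerSeries.subst (MvPowerSeries.X (1 : Fin 2)) L' := by
    have h := congrArg (MvPowerSeries.map τ) hF
    rw [map_add, PowerSeries.map_subst (PowerSeries.HasSubst.of_constantCoeff_zero G0),
      PowerSeries.map_subst (PowerSeries.HasSubst.X _),
      PowerSeries.map_subst (PowerSeries.HasSubst.X _), MvPowerSeries.map_X,
      MvPowerSeries.map_X] at h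
    exact h
  have hφX : ∀ j : Fin 2, MvPowerSeries.constantCoeff
      (PowerSeries.subst (MvPowerSeries.X j : MvPowerSeries (Fin 2) (LTField p n)) φK) = 0 :=
    fun j => PowerSeries.constantCoeff_subst_eq_zero (hX j) _ φK0
  have hs := MvPowerSeries.hasSubst_of_constantCoeff_zero (const_pair (hφX 0) (hφX 1))
  refine map_inj (IsFractionRing.injective (LTRing p n) (LTField p n)) ?_
  rw [PowerSeries.map_subst (PowerSeries.HasSubst.of_constantCoeff_zero F.zero_constantCoeff),
    MvPowerSeries.map_subst (MvPowerSeries.hasSubst_of_constantCoeff_zero (const_pair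
      (PowerSeries.constantCoeff_subst_eq_zero (by simp) _ hφ)
      (PowerSeries.constantCoeff_subst_eq_zero (by simp) _ hφ)))]
  have e1 : (fun i => MvPowerSeries.map ι (![PowerSeries.subst (MvPowerSeries.X (0 : Fin 2)) φ,
      PowerSeries.subst (MvPowerSeries.X (1 : Fin 2)) φ] i))
      = ![PowerSeries.subst (MvPowerSeries.X (0 : Fin 2)) φK,
        PowerSeries.subst (MvPowerSeries.X (1 : Fin 2)) φK] := by
    funext i
    fin_cases i <;> simp [PowerSeries.map_subst (PowerSeries.HasSubst.X _), hφK, MvPowerSeries.map_X]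
  have e2 : MvPowerSeries.map ι (F.map α.toRingHom).toPowerSeries = G' := by
    rw [hG', hG]
    show MvPowerSeries.map ι (MvPowerSeries.map α.toRingHom F.toPowerSeries)
      = MvPowerSeries.map τ (MvPowerSeries.map ι F.toPowerSeries)
    rw [MvPowerSeries.map_map, MvPowerSeries.map_map, hτι]
  rw [e1, e2]
  refine subst_inj L0' (by rw [hL', PowerSeries.coeff_map, hL, coeff_one_ltLog, map_one])
    (PowerSeries.constantCoeff_subst_eq_zero G0 _ φK0)
    (MvPowerSeries.constantCoeff_subst_eq_zero hs (const_pair (hφX 0) (hφX 1)) G0') ?_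
  have hgen : ∀ a b : MvPowerSeries (Fin 2) (LTField p n), MvPowerSeries.constantCoeff a = 0 →
      MvPowerSeries.constantCoeff b = 0 → PowerSeries.subst (MvPowerSeries.subst ![a, b] G') L'
        = PowerSeries.subst a L' + PowerSeries.subst b L' := by
    intro a b ha hb
    have hs := MvPowerSeries.hasSubst_of_constantCoeff_zero (const_pair ha hb)
    have h := congrArg (MvPowerSeries.subst (R := LTField p n) ![a, b]) hFτ
    rw [MvPowerSeries.subst_add hs] at h
    simp only [PowerSeries.subst] at h ⊢
    rw [MvPowerSeries.subst_comp_subst_apply (PowerSeries.HasSubst.of_constantCoeff_zero G0').const hs,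
      MvPowerSeries.subst_comp_subst_apply (PowerSeries.HasSubst.X _).const hs,
      MvPowerSeries.subst_comp_subst_apply (PowerSeries.HasSubst.X _).const hs,
      MvPowerSeries.subst_X hs, MvPowerSeries.subst_X hs] at h
    simpa using h
  have hR := hgen _ _ (hφX 0) (hφX 1)
  rw [hR]
  show PowerSeries.subst (PowerSeries.subst G φK) L' = _
  rw [← PowerSeries.subst_comp_subst_apply hφK' (PowerSeries.HasSubst.of_constantCoeff_zero G0),
    ← PowerSeries.subst_comp_subst_apply hφK' (PowerSeries.HasSubst.X _),
    ← PowerSeries.subst_comp_subst_apply hφK' (PowerSeries.HasSubst.X _), hlog,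
    PowerSeries.subst_smul (PowerSeries.HasSubst.of_constantCoeff_zero G0),
    PowerSeries.subst_smul (PowerSeries.HasSubst.X _),
    PowerSeries.subst_smul (PowerSeries.HasSubst.X _), ← smul_add]
  exact congrArg _ hF

/-- A homomorphism commutes with `[p]`. -/
theorem pSeries_comm {F : FormalGroup (LTRing p n)}
    (α : LTRing p n ≃+* LTRing p n) (φ : PowerSeries (LTRing p n))
    (hφ : PowerSeries.constantCoeff φ = 0)
    (hom : PowerSeries.subst F.toPowerSeries φ
      = MvPowerSeries.subst
          ![PowerSeries.subst (MvPowerSeries.X (0 : Fin 2)) φ,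
            PowerSeries.subst (MvPowerSeries.X (1 : Fin 2)) φ]
          (F.map α.toRingHom).toPowerSeries) :
    PowerSeries.subst (pSeries p n F) φ
      = PowerSeries.subst φ ((pSeries p n F).map α.toRingHom) := by
  have hφ' := PowerSeries.HasSubst.of_constantCoeff_zero' hφ
  suffices h : ∀ k, PowerSeries.subst (nmulSeries p n F k) φ
      = PowerSeries.subst φ ((nmulSeries p n F k).map α.toRingHom) from h p
  intro k
  induction k with
  | zero =>
    rw [nmulSeries, map_zero, ← PowerSeries.coe_substAlgHom hφ', map_zero]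
    ext j
    rw [PowerSeries.coeff_subst' PowerSeries.HasSubst.zero', map_zero,
      finsum_eq_zero_of_forall_eq_zero]
    intro d
    rcases eq_or_ne d 0 with rfl | hd
    · simp [PowerSeries.coeff_zero_eq_constantCoeff_apply, hφ]
    · simp [zero_pow hd]
  | succ k ih =>
    have hX := PowerSeries.constantCoeff_X (R := LTRing p n)
    have hk := constantCoeff_nmulSeries p n F k
    have hs := MvPowerSeries.hasSubst_of_constantCoeff_zero (const_pair hk hX)
    have e1 : PowerSeries.subst (nmulSeries p n F (k + 1)) φ
        = MvPowerSeries.subst ![nmulSeries p n F k, PowerSeries.X]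
          (PowerSeries.subst F.toPowerSeries φ) := by
      rw [PowerSeries.subst, PowerSeries.subst, MvPowerSeries.subst_comp_subst_apply
        (PowerSeries.HasSubst.of_constantCoeff_zero F.zero_constantCoeff).const hs]
      rfl
    have hφX : ∀ j : Fin 2, MvPowerSeries.constantCoeff
        (PowerSeries.subst (MvPowerSeries.X j : MvPowerSeries (Fin 2) (LTRing p n)) φ) = 0 :=
      fun j => PowerSeries.constantCoeff_subst_eq_zero (by simp) _ hφ
    have hk' : PowerSeries.constantCoeff ((nmulSeries p n F k).map α.toRingHom) = 0 :=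
      constantCoeff_map_zero α.toRingHom hk
    have hmap : (nmulSeries p n F (k + 1)).map α.toRingHom
        = fsum (F.map α.toRingHom) ((nmulSeries p n F k).map α.toRingHom) PowerSeries.X := by
      rw [show nmulSeries p n F (k + 1) = fsum F (nmulSeries p n F k) PowerSeries.X from rfl,
        map_fsum _ F hk hX, PowerSeries.map_X]
    rw [e1, hom, MvPowerSeries.subst_comp_subst_apply
      (MvPowerSeries.hasSubst_of_constantCoeff_zero (const_pair (hφX 0) (hφX 1))) hs, hmap, fsum]
    show _ = MvPowerSeries.subst (fun _ : Unit => φ) (MvPowerSeries.subst _ _)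
    rw [MvPowerSeries.subst_comp_subst_apply
      (MvPowerSeries.hasSubst_of_constantCoeff_zero (const_pair hk' hX)) hφ'.const]
    have e2 : ∀ j : Fin 2, MvPowerSeries.subst ![nmulSeries p n F k, PowerSeries.X]
        (PowerSeries.subst (MvPowerSeries.X j : MvPowerSeries (Fin 2) (LTRing p n)) φ)
        = PowerSeries.subst (![nmulSeries p n F k, PowerSeries.X] j) φ := fun j => by
      rw [PowerSeries.subst, PowerSeries.subst, MvPowerSeries.subst_comp_subst_apply
        (PowerSeries.HasSubst.X j).const hs, MvPowerSeries.subst_X hs]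
    congr 1
    funext i
    fin_cases i
    · simp only [Fin.zero_eta, Matrix.cons_val_zero]
      rw [e2 0]
      simp only [Matrix.cons_val_zero]
      exact ih
    · simp only [Fin.mk_one, Matrix.cons_val_one, Matrix.cons_val_fin_one]
      rw [e2 1]
      simp only [Matrix.cons_val_one, Matrix.cons_val_fin_one]
      rw [PowerSeries.X_subst]
      exact (PowerSeries.subst_X hφ').symm

end

end Vale.Agent.P217
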