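import Vale.Agent.P217.Ring
import Vale.Agent.P217.Model
import Vale.Agent.P217.EtaSolve
import Mathlib.RingTheory.Henselian

/-!
The action of the elements `1 + a Π^S` of the stabilizer on the Hazewinkel model.

We solve `c l_N = ∑_k α(l_{N-k}) b_k^(p^(N-k))` by successive approximation in the `b_k` with
`b_0 = 1` (so that all parameters above `n` vanish), then rescale by a `(p^n - 1)`-st root.
-/

open scoped BigOperators
open Finset

namespace Vale.Agent.P217

noncomputable section

variable (p n : ℕ) [hp : Fact p.Prime]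

theorem ActData.isDeformationAut {F : FormalGroup (LTRing p n)} {S : ℕ} {a : GaloisField p n}
    {c : ℕ} (d : ActData p n F S a c) : IsDeformationAut p n F d.α :=
  ⟨d.φ, d.φ_zero, d.φ_unit, d.φ_hom⟩

namespace Act

lemma isFrame_lt :
    EtaR.IsFrame p (ltEmb p n) (ltFrob p n) (ltFrobK p n) (ltU p n) (logCoeff p n) where
  prime := hp.out
  inj := IsFractionRing.injective _ _
  frob := dvd_ltFrob_sub p n
  comm := ltFrobK_emb p n
  unit := (natCast_prime_ne_zero p n).isUnit
  l_zero := by rw [logCoeff]
  funEq m := by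
    rw [logCoeff_funEq, mul_sum]
    exact sum_congr rfl fun i _ => by rw [← mul_assoc, prime_mul_ltS]
  recur m := by
    rw [logCoeff_succ, mul_sum]
    exact sum_congr rfl fun i _ => by rw [mul_inv_cancel_left₀ (natCast_prime_ne_zero p n)]

lemma ltU_of_gt {i : ℕ} (hi : n < i) : ltU p n i = 0 := by
  rw [ltU, if_neg (by omega), dif_neg (by omega), if_neg (by omega)]

lemma ltU_top (hn : 0 < n) : ltU p n n = 1 := by
  rw [ltU, if_neg (by omega), dif_neg (by omega), if_pos rfl]

lemma ltU_var (i : Fin (n - 1)) : ltU p n (i.1 + 1) = MvPowerSeries.X i := by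
  rw [ltU, if_neg (by omega), dif_pos (by simp)]
  simp

lemma teich_pow_card (hn : 0 < n) (a : GaloisField p n) : teich p n a ^ p ^ n = teich p n a := by
  have : Fintype (GaloisField p n) := Fintype.ofFinite _
  have h : a ^ p ^ n = a := by
    rw [← GaloisField.card p n hn.ne', Nat.card_eq_fintype_card, FiniteField.pow_card]
  rw [teich, ← map_pow, ← map_pow, h]

/-- An element whose constant coefficient is divisible by `p` lies in the maximal ideal. -/
lemma mem_mIdeal_of_dvd (hn : 0 < n) {x : LTRing p n}
    (hx : (p : WittVector p (GaloisField p n)) ∣ MvPowerSeries.constantCoeff x) :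
    x ∈ mIdeal p n := by
  rw [mIdeal_eq_maximalIdeal p n hn, IsLocalRing.mem_maximalIdeal, mem_nonunits_iff]
  intro hu
  exact (WittVector.irreducible p).not_isUnit
    (isUnit_of_dvd_unit hx (MvPowerSeries.isUnit_iff_constantCoeff.1 hu))

lemma p_mem_mIdeal (hn : 0 < n) : (p : LTRing p n) ∈ mIdeal p n :=
  mem_mIdeal_of_dvd p n hn (by rw [map_natCast])

lemma residual_single (hn : 0 < n) (S : ℕ) (a : GaloisField p n) :
    (isFrame_lt p n).Residual n (mIdeal p n) (fun k => if k = S then teich p n a else 0) := by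
  set b : ℕ → LTRing p n := fun k => if k = S then teich p n a else 0 with hb
  set π : LTRing p n →+* WittVector p (GaloisField p n) := MvPowerSeries.constantCoeff with hπ
  set L := FractionRing (WittVector p (GaloisField p n))
  have key : ∀ M, ∃ r, π ((isFrame_lt p n).V b M) = (if M + 1 = n then 1 else 0) + (p : _) * r := by
    intro M
    refine (isFrame_lt p n).residue π
      (ιB := algebraMap (WittVector p (GaloisField p n)) L) (IsFractionRing.injective _ _) ?_ hn
      ?_ ?_ (fun k => ?_) M
    · refine IsUnit.mk0 _ ?_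
      rw [← map_natCast (algebraMap (WittVector p (GaloisField p n)) L)]
      exact (map_ne_zero_iff _ (IsFractionRing.injective _ _)).2 (WittVector.p_nonzero p _)
    · rw [ltU_top p n hn, map_one]
    · intro i h1 hi
      rw [ltU, if_neg (by omega)]
      split_ifs with h2
      · exact MvPowerSeries.constantCoeff_X _
      · exact map_zero _
    · simp only [hb]
      split_ifs
      · rw [← map_pow, teich_pow_card p n hn]
      · rw [map_zero, zero_pow (pow_ne_zero _ hp.out.ne_zero)]
  refine ⟨fun M hM => ?_, ?_⟩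
  · obtain ⟨r, hr⟩ := key M
    refine mem_mIdeal_of_dvd p n hn ⟨r, ?_⟩
    show π _ = _
    rw [hr, if_neg hM, zero_add]
  · obtain ⟨r, hr⟩ := key (n - 1)
    refine mem_mIdeal_of_dvd p n hn ⟨r, ?_⟩
    show π _ = _
    rw [map_sub, map_one, hr, if_pos (by omega)]
    ring

/-- A `(p^n - 1)`-st root of an element close to one. -/
lemma exists_root (hn : 0 < n) {c : ℕ} (hc : 1 ≤ c) {v : LTRing p n}
    (hv : v - 1 ∈ mIdeal p n ^ c) :
    ∃ r : LTRing p n, r ^ (p ^ n - 1) = v ∧ r - 1 ∈ mIdeal p n ^ c := by
  have := mIdeal_isAdicComplete p n hn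
  have hm : mIdeal p n = IsLocalRing.maximalIdeal (LTRing p n) := mIdeal_eq_maximalIdeal p n hn
  have hqu : ∀ {x : LTRing p n}, x - ((p ^ n - 1 : ℕ) : LTRing p n) ∈ mIdeal p n → IsUnit x := by
    intro x hx
    have h1 : ((p ^ n - 1 : ℕ) : LTRing p n) + 1 ∈ mIdeal p n := by
      rw [← Nat.cast_one (R := LTRing p n), ← Nat.cast_add,
        Nat.sub_add_cancel (pow_pos hp.out.pos n), Nat.cast_pow]
      exact Ideal.pow_mem_of_mem _ (p_mem_mIdeal p n hn) n hn
    by_contra hu
    have hx' : x ∈ mIdeal p n := by
      rw [hm, IsLocalRing.mem_maximalIdeal]; exact hu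
    have h := add_mem (sub_mem hx' hx) (neg_mem h1)
    ring_nf at h
    rw [neg_mem_iff, hm, IsLocalRing.mem_maximalIdeal] at h
    exact h isUnit_one
  set q := p ^ n - 1 with hq
  have hq0 : q ≠ 0 := Nat.sub_ne_zero_of_lt (Nat.one_lt_pow hn.ne' hp.out.one_lt)
  obtain ⟨r, hr, hr1⟩ := HenselianRing.is_henselian (I := mIdeal p n)
    (Polynomial.X ^ q - Polynomial.C v) (Polynomial.monic_X_pow_sub_C v hq0) 1
    (by simpa using neg_mem (Ideal.pow_le_self (by omega) hv))
    (by
      refine IsUnit.map (Ideal.Quotient.mk _) ?_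
      simp only [Polynomial.derivative_sub, Polynomial.derivative_C, sub_zero,
        Polynomial.derivative_X_pow, Polynomial.eval_mul, Polynomial.eval_C, Polynomial.eval_pow,
        Polynomial.eval_X, one_pow, mul_one]
      exact hqu (by rw [sub_self]; exact zero_mem _))
  have hrq : r ^ q = v := by simpa [sub_eq_zero] using hr
  refine ⟨r, hrq, ?_⟩
  have hu : IsUnit (∑ i ∈ range q, r ^ i) := by
    refine hqu ?_
    rw [show (q : LTRing p n) = ∑ _i ∈ range q, 1 by simp, ← sum_sub_distrib]
    exact sum_mem fun i _ => by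
      simpa using Ideal.mem_of_dvd _ (sub_dvd_pow_sub_pow r 1 i) hr1
  have e := geom_sum_mul r q
  rw [hrq] at e
  exact (Ideal.unit_mul_mem_iff_mem _ hu).1 (e ▸ hv)

/-- The value at `N` of the logarithm of a monomial. -/
lemma coeff_log_monomial (c : LTRing p n) (i N : ℕ) :
    PowerSeries.coeff N (PowerSeries.subst
        (PowerSeries.map (ltEmb p n) (PowerSeries.C c * PowerSeries.X ^ p ^ i)) (ltLog p n))
      = if p ^ i ∣ N then ltEmb p n c ^ (N / p ^ i)
          * PowerSeries.coeff (N / p ^ i) (ltLog p n) else 0 := by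
  have hq := pow_ne_zero i hp.out.ne_zero
  rw [map_mul, PowerSeries.map_C, map_pow, PowerSeries.map_X,
    PowerSeries.coeff_subst' (PowerSeries.HasSubst.of_constantCoeff_zero' (by
      simp [zero_pow hq]))]
  simp only [mul_pow, ← map_pow, ← pow_mul, PowerSeries.coeff_C_mul, PowerSeries.coeff_X_pow,
    smul_eq_mul, mul_ite, mul_one, mul_zero]
  by_cases h : p ^ i ∣ N
  · rw [if_pos h, finsum_eq_single _ (N / p ^ i), if_pos (Nat.mul_div_cancel' h).symm, mul_comm]
    intro d hd
    rw [if_neg]
    intro hm
    exact hd (by rw [hm, Nat.mul_div_cancel_left _ (Nat.pos_of_ne_zero hq)])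
  · rw [if_neg h, finsum_eq_zero_of_forall_eq_zero]
    intro d
    rw [if_neg fun hm => h ⟨d, hm⟩]

/-- The formal sum of `β_k x^(p^k)` for `k < M`. -/
def partialSum (F : FormalGroup (LTRing p n)) (β : ℕ → LTRing p n) :
    ℕ → PowerSeries (LTRing p n)
  | 0 => 0
  | M + 1 => fsum F (partialSum F β M) (PowerSeries.C (β M) * PowerSeries.X ^ p ^ M)

lemma constantCoeff_monomial_pow (c : LTRing p n) (M : ℕ) :
    PowerSeries.constantCoeff (PowerSeries.C c * PowerSeries.X ^ p ^ M) = 0 := by
  simp [zero_pow (pow_ne_zero M hp.out.ne_zero)]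

lemma constantCoeff_partialSum (F : FormalGroup (LTRing p n)) (β : ℕ → LTRing p n) :
    ∀ M, PowerSeries.constantCoeff (partialSum p n F β M) = 0
  | 0 => by simp [partialSum]
  | M + 1 => constantCoeff_fsum F (constantCoeff_partialSum F β M)
      (constantCoeff_monomial_pow p n _ M)

lemma log_partialSum {F : FormalGroup (LTRing p n)} (hF : HasHazewinkelLog p n F)
    (β : ℕ → LTRing p n) (M : ℕ) :
    PowerSeries.subst (PowerSeries.map (ltEmb p n) (partialSum p n F β M)) (ltLog p n)
      = ∑ k ∈ range M, PowerSeries.subst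
          (PowerSeries.map (ltEmb p n) (PowerSeries.C (β k) * PowerSeries.X ^ p ^ k))
          (ltLog p n) := by
  induction M with
  | zero => rw [partialSum, map_zero, log_zero, range_zero, sum_empty]
  | succ M ih =>
    rw [partialSum, log_map_fsum p n hF (constantCoeff_partialSum p n F β M)
      (constantCoeff_monomial_pow p n _ M), ih, sum_range_succ]

/-- A series whose logarithm is prescribed by the congruence equations is integral. -/
lemma exists_exp_series {F : FormalGroup (LTRing p n)} (hF : HasHazewinkelLog p n F)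
    (β : ℕ → LTRing p n) (T : PowerSeries (LTField p n))
    (hT : ∀ m, PowerSeries.coeff (p ^ m) T = ∑ k ∈ range (m + 1),
      logCoeff p n (m - k) * ltEmb p n (β k) ^ p ^ (m - k))
    (hT' : ∀ N, (∀ m, p ^ m ≠ N) → PowerSeries.coeff N T = 0) :
    ∃ ψ : PowerSeries (LTRing p n), PowerSeries.constantCoeff ψ = 0 ∧
      PowerSeries.subst (PowerSeries.map (ltEmb p n) ψ) (ltLog p n) = T ∧
      ∀ N M, N < M → PowerSeries.coeff N ψ = PowerSeries.coeff N (partialSum p n F β M) := by
  set ι := ltEmb p n with hι
  have h1 : IsUnit (PowerSeries.coeff 1 (ltLog p n)) := by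
    rw [coeff_one_ltLog]; exact isUnit_one
  set E := PowerSeries.substInvOfIsUnit (ltLog p n) h1 with hE
  have T0 : PowerSeries.constantCoeff T = 0 := by
    rw [← PowerSeries.coeff_zero_eq_constantCoeff_apply]
    exact hT' 0 fun m => pow_ne_zero m hp.out.ne_zero
  have hT0' := PowerSeries.HasSubst.of_constantCoeff_zero' T0
  set Z : PowerSeries (LTField p n) := PowerSeries.subst T E with hZ
  have hLZ : PowerSeries.subst Z (ltLog p n) = T := by
    rw [hZ, ← PowerSeries.subst_comp_subst_apply
      (PowerSeries.HasSubst.substInvOfIsUnit (ltLog p n) h1) hT0',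
      PowerSeries.subst_substInvOfIsUnit_right _ (coeff_zero_ltLog p n) h1,
      PowerSeries.subst_X hT0']
  -- agreement of the logarithms below degree `M`
  have hagree : ∀ M, ∀ N < M, PowerSeries.coeff N
      (PowerSeries.subst (PowerSeries.map ι (partialSum p n F β M)) (ltLog p n))
        = PowerSeries.coeff N T := by
    intro M N hN
    rw [log_partialSum p n hF, map_sum]
    simp only [coeff_log_monomial]
    by_cases hpow : ∃ m, p ^ m = N
    · obtain ⟨m, rfl⟩ := hpow
      have hmM : m + 1 ≤ M := by
        have := Nat.lt_pow_self (n := m) hp.out.one_lt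
        omega
      rw [hT, ← sum_subset (range_mono hmM) fun k _ hk => ?_]
      · refine sum_congr rfl fun k hk => ?_
        have := mem_range.1 hk
        rw [if_pos (pow_dvd_pow p (by omega)), Nat.pow_div (by omega) hp.out.pos, coeff_ltLog_pow,
          mul_comm]
      · rw [mem_range] at hk
        rw [if_neg fun h => hk (by
          have := (Nat.pow_dvd_pow_iff_le_right hp.out.one_lt).1 h; omega)]
    · push Not at hpow
      rw [hT' N hpow, sum_eq_zero]
      intro k _
      split_ifs with h
      · rw [coeff_ltLog_of_ne p n fun i hi => hpow (i + k)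
          (by rw [pow_add, hi, Nat.div_mul_cancel h]), mul_zero]
      · rfl
  have hcoeff : ∀ M N, N < M → PowerSeries.coeff N Z
      = ι (PowerSeries.coeff N (partialSum p n F β M)) := by
    intro M N hN
    set f := PowerSeries.map ι (partialSum p n F β M) with hf
    have f0 : PowerSeries.constantCoeff f = 0 :=
      constantCoeff_map_zero ι (constantCoeff_partialSum p n F β M)
    set T' := PowerSeries.subst f (ltLog p n) with hT''
    have T'0 : PowerSeries.constantCoeff T' = 0 :=
      PowerSeries.constantCoeff_subst_eq_zero f0 _ (coeff_zero_ltLog p n)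
    have hfe : f = PowerSeries.subst T' E := by
      rw [hT'', ← PowerSeries.subst_comp_subst_apply
        (PowerSeries.HasSubst.of_constantCoeff_zero' (coeff_zero_ltLog p n))
        (PowerSeries.HasSubst.of_constantCoeff_zero' f0),
        PowerSeries.subst_substInvOfIsUnit_left _ (coeff_zero_ltLog p n) h1,
        PowerSeries.subst_X (PowerSeries.HasSubst.of_constantCoeff_zero' f0)]
    rw [← PowerSeries.coeff_map, ← hf, hfe, hZ, PowerSeries.coeff_subst' hT0',
      PowerSeries.coeff_subst' (PowerSeries.HasSubst.of_constantCoeff_zero' T'0)]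
    refine finsum_congr fun d => congrArg _ ?_
    have hA : FEL.Agree (N + 1) (T : MvPowerSeries Unit (LTField p n)) T' := by
      intro e he
      rw [Finsupp.unique_single e] at he ⊢
      rw [Finsupp.degree_single] at he
      exact (hagree M _ (by omega)).symm
    exact hA.pow d (Finsupp.single () N) (by simp)
  refine ⟨PowerSeries.mk fun N => PowerSeries.coeff N (partialSum p n F β (N + 1)), ?_, ?_, ?_⟩
  · rw [← PowerSeries.coeff_zero_eq_constantCoeff_apply, PowerSeries.coeff_mk,
      PowerSeries.coeff_zero_eq_constantCoeff_apply, constantCoeff_partialSum]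
  · have : PowerSeries.map ι (PowerSeries.mk fun N =>
        PowerSeries.coeff N (partialSum p n F β (N + 1))) = Z := by
      ext N
      rw [PowerSeries.coeff_map, PowerSeries.coeff_mk, hcoeff (N + 1) N (by omega)]
    rw [this, hLZ]
  · intro N M hNM
    rw [PowerSeries.coeff_mk]
    exact (isFrame_lt p n).inj
      ((hcoeff (N + 1) N (by omega)).symm.trans (hcoeff M N hNM))

/-- Reduction of the formal sum when only `β_0 = 1` and `β_S = a` survive. -/
lemma map_partialSum {Q : Type*} [CommRing Q] (π : LTRing p n →+* Q)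
    (F : FormalGroup (LTRing p n)) (β : ℕ → LTRing p n) {S : ℕ} (hS : 0 < S) (a : LTRing p n)
    (hβ : ∀ k, π (β k) = if k = 0 then 1 else if k = S then π a else 0) (M : ℕ) :
    PowerSeries.map π (partialSum p n F β M)
      = if M = 0 then 0 else if M ≤ S then PowerSeries.X
        else fsum (F.map π) PowerSeries.X (PowerSeries.C (π a) * PowerSeries.X ^ p ^ S) := by
  induction M with
  | zero => rw [if_pos rfl, partialSum, map_zero]
  | succ M ih =>
    rw [partialSum, map_fsum π F (constantCoeff_partialSum p n F β M)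
      (constantCoeff_monomial_pow p n _ M), ih, map_mul, PowerSeries.map_C, map_pow,
      PowerSeries.map_X, hβ, if_neg (Nat.succ_ne_zero M)]
    rcases Nat.eq_zero_or_pos M with rfl | hM
    · rw [if_pos rfl, if_pos rfl, if_pos (by omega), map_one, one_mul, pow_zero, pow_one, fsum,
        (F.map π).zero_add PowerSeries.HasSubst.X']
    rw [if_neg hM.ne', if_neg hM.ne']
    by_cases hMS : M = S
    · subst hMS
      rw [if_pos le_rfl, if_pos rfl, if_neg (by omega)]
    · rw [if_neg hMS, map_zero, zero_mul, fsum]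
      by_cases hle : M ≤ S
      · rw [if_pos hle, if_pos (by omega)]
        exact (F.map π).add_zero PowerSeries.HasSubst.X'
      · rw [if_neg hle, if_neg (by omega)]
        refine (F.map π).add_zero (PowerSeries.HasSubst.of_constantCoeff_zero' ?_)
        exact constantCoeff_fsum _ PowerSeries.constantCoeff_X
          (by simp [zero_pow (pow_ne_zero S hp.out.ne_zero)])

end Act

open Act in
theorem exists_actData (hn : 0 < n) {F : FormalGroup (LTRing p n)}
    (hF : HasHazewinkelLog p n F) (c : ℕ) :
    ∃ S₀ : ℕ, ∀ S ≥ S₀, ∀ a : GaloisField p n, Nonempty (ActData p n F S a c) := by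
  obtain ⟨c', hc', hcc'⟩ : ∃ c', 2 ≤ c' ∧ c ≤ c' := ⟨max c 2, le_max_right _ _, le_max_left _ _⟩
  refine ⟨c' * n + n + 1, fun S hS a => ?_⟩
  have := mIdeal_isAdicComplete p n hn
  set h := isFrame_lt p n
  set m := mIdeal p n with hm
  have hpowle : m ^ c' ≤ m := Ideal.pow_le_self (by omega)
  obtain ⟨b, hb0, hV, hbnear⟩ := h.exists_solution hn (p_mem_mIdeal p n hn)
    (fun i hi => ltU_of_gt p n hi) (residual_single p n hn S a)
    (S := S) (fun k _ hk => if_neg (by omega))
  set V := h.V b with hVdef
  have hVnear : ∀ M, M < n → V M - ltU p n (M + 1) ∈ m ^ c' := by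
    intro M hM
    rw [← h.V_eq (b := fun _ => 0) (N := M) fun _ _ _ => rfl]
    refine h.V_sub_mem fun k h1 h2 => ?_
    rw [sub_zero]
    have hk : k + (c' - 1) * n < S := by
      have : (c' - 1) * n ≤ c' * n := Nat.mul_le_mul_right n (by omega)
      omega
    have := hbnear (c' - 1) k h1 hk
    rwa [show c' - 1 + 1 = c' by omega] at this
  obtain ⟨r, hr, hr1⟩ := exists_root p n hn (c := c') (by omega) (v := V (n - 1)) (by
    have := hVnear (n - 1) (by omega)
    rwa [show n - 1 + 1 = n by omega, ltU_top p n hn] at this)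
  have hru : IsUnit r := by
    by_contra hu
    have hx : r ∈ m := by
      rw [hm, mIdeal_eq_maximalIdeal p n hn, IsLocalRing.mem_maximalIdeal]; exact hu
    have := sub_mem hx (hpowle hr1)
    rw [sub_sub_cancel, hm, mIdeal_eq_maximalIdeal p n hn, IsLocalRing.mem_maximalIdeal] at this
    exact this isUnit_one
  obtain ⟨s, hs⟩ := hru.exists_right_inv
  have hs1 : s - 1 ∈ m ^ c' := by
    have := Ideal.mul_mem_left _ (-s) hr1
    rwa [show -s * (r - 1) = s - 1 by linear_combination -hs] at this
  -- the automorphism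
  set v : Fin (n - 1) → LTRing p n := fun i => r * s ^ p ^ (i.1 + 1) * V i.1 with hv
  have hvX : ∀ i, v i - MvPowerSeries.X i ∈ m ^ c' := by
    intro i
    rw [← Ideal.Quotient.mk_eq_mk_iff_sub_mem]
    have e1 := Ideal.Quotient.mk_eq_mk_iff_sub_mem r 1 |>.2 hr1
    have e2 := Ideal.Quotient.mk_eq_mk_iff_sub_mem s 1 |>.2 hs1
    have e3 := Ideal.Quotient.mk_eq_mk_iff_sub_mem (V i.1) (ltU p n (i.1 + 1)) |>.2
      (hVnear i.1 (by omega))
    rw [hv, map_mul, map_mul, map_pow, e1, e2, e3, ltU_var, map_one, one_pow, one_mul, one_mul]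
  obtain ⟨α, hfix, hαX, hnear⟩ := exists_equiv_of_near p n hn hc' v hvX
  have hαU : ∀ i, 1 ≤ i → α (ltU p n i) = r * s ^ p ^ i * V (i - 1) := by
    intro i hi
    rcases lt_trichotomy i n with hlt | rfl | hgt
    · have hi' : i - 1 < n - 1 := by omega
      have e : ltU p n i = MvPowerSeries.X ⟨i - 1, hi'⟩ := by
        rw [← ltU_var]
        show ltU p n i = ltU p n (i - 1 + 1)
        rw [show i - 1 + 1 = i by omega]
      rw [e, hαX, hv]
      show r * s ^ p ^ (i - 1 + 1) * V (i - 1) = _
      rw [show i - 1 + 1 = i by omega]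
    · rw [ltU_top p i hn, map_one, ← hr]
      have hq : p ^ i = p ^ i - 1 + 1 := (Nat.sub_add_cancel (pow_pos hp.out.pos i)).symm
      calc (1 : LTRing p i) = (r * s) ^ p ^ i := by rw [hs, one_pow]
        _ = r ^ p ^ i * s ^ p ^ i := mul_pow _ _ _
        _ = r * s ^ p ^ i * r ^ (p ^ i - 1) := by
            conv_lhs => arg 1; rw [hq, pow_succ]
            ring
    · rw [ltU_of_gt p n hgt, map_zero, hV _ (by omega), mul_zero]
  set ι := ltEmb p n with hι
  set τ : LTField p n ≃+* LTField p n := IsFractionRing.ringEquivOfRingEquiv α with hτdef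
  have hτ : ∀ x, τ (ι x) = ι (α x) := fun x => by simp [hτdef, hι]
  set γ := EtaR.gam p (logCoeff p n) (ι ∘ b) with hγ
  have hrs : ι r * ι s = 1 := by rw [← map_mul, hs, map_one]
  -- the transformed logarithm
  have hlog : ∀ N, τ (logCoeff p n N) = ι r * ι s ^ p ^ N * γ N := by
    intro N
    induction N using Nat.strong_induction_on with
    | _ N ih =>
    rcases N with _ | N
    · rw [logCoeff, map_one, hγ, EtaR.gam_zero, pow_zero, pow_one, mul_one, hrs]
    refine h.unit.mul_left_cancel ?_
    have e := congrArg τ (h.recur N)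
    rw [map_mul, map_natCast, map_sum] at e
    rw [e, mul_left_comm, EtaR.mul_eq_sum_par EtaR.gam_zero N, mul_sum, ← hγ]
    refine sum_congr rfl fun j hj => ?_
    have := mem_range.1 hj
    have hP : p ^ j * p ^ (N + 1 - j) = p ^ (N + 1) := by rw [← pow_add]; congr 1; omega
    rw [map_mul, map_pow, hτ, hαU _ (by omega), ih j (by omega),
      show N + 1 - j - 1 = N - j by omega, map_mul, map_mul, map_pow, hVdef, h.map_V, ← hγ,
      mul_pow, mul_pow, ← pow_mul, mul_comm (p ^ (N + 1 - j)), hP]
    calc ι r * ι s ^ p ^ j * γ j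
          * (ι r ^ p ^ j * ι s ^ p ^ (N + 1) * EtaR.par p γ (N - j) ^ p ^ j)
        = (ι r * ι s) ^ p ^ j
          * (ι r * ι s ^ p ^ (N + 1) * (γ j * EtaR.par p γ (N - j) ^ p ^ j)) := by ring
      _ = _ := by rw [hrs, one_pow, one_mul]
  set B : ℕ → LTRing p n := fun k => if k = 0 then r else r * b k with hB
  have hBeq : ∀ N, ι (B 0) * logCoeff p n N
      = ∑ k ∈ range (N + 1), τ (logCoeff p n (N - k)) * ι (B k ^ p ^ (N - k)) := by
    intro N
    rw [sum_range_succ', Nat.sub_zero]
    have h0 : τ (logCoeff p n N) * ι (B 0 ^ p ^ N) = ι r * γ N := by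
      rw [hlog, map_pow, show B 0 = r from rfl]
      calc ι r * ι s ^ p ^ N * γ N * ι r ^ p ^ N
          = ι r * (ι r * ι s) ^ p ^ N * γ N := by ring
        _ = _ := by rw [hrs, one_pow, mul_one]
    have hk : ∀ k ∈ range N, τ (logCoeff p n (N - (k + 1))) * ι (B (k + 1) ^ p ^ (N - (k + 1)))
        = ι r * (γ (N - 1 - k) * (ι ∘ b) (k + 1) ^ p ^ (N - 1 - k)) := by
      intro k hk
      rw [show N - (k + 1) = N - 1 - k by omega, hlog, hB, map_pow]
      simp only [if_neg (Nat.succ_ne_zero k), map_mul, Function.comp_apply]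
      calc ι r * ι s ^ p ^ (N - 1 - k) * γ (N - 1 - k) * (ι r * ι (b (k + 1))) ^ p ^ (N - 1 - k)
          = ι r * (ι r * ι s) ^ p ^ (N - 1 - k)
            * (γ (N - 1 - k) * ι (b (k + 1)) ^ p ^ (N - 1 - k)) := by ring
        _ = _ := by rw [hrs, one_pow, mul_one]
    rw [h0, sum_congr rfl hk, ← mul_sum, ← mul_add, show B 0 = r from rfl,
      EtaR.eq_gam_add (p := p) (β := ι ∘ b) h.l_zero N, ← hγ, add_comm]
  have hBres : ∀ k, B k - (if k = 0 then 1 else if k = S then teich p n a else 0) ∈ m := by
    intro k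
    simp only [hB]
    by_cases hk : k = 0
    · rw [if_pos hk, if_pos hk]; exact hpowle hr1
    rw [if_neg hk, if_neg hk]
    have := add_mem (Ideal.mul_mem_left _ r (hb0 k))
      (Ideal.mul_mem_right (if k = S then teich p n a else 0) _ (hpowle hr1))
    rwa [show r * (b k - (if k = S then teich p n a else 0))
      + (r - 1) * (if k = S then teich p n a else 0)
      = r * b k - (if k = S then teich p n a else 0) by ring] at this
  -- the isomorphism, pulled back along `α`
  set β : ℕ → LTRing p n := fun k => α.symm (B k) with hβ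
  set T : PowerSeries (LTField p n) :=
    PowerSeries.C (ι (β 0)) * PowerSeries.map τ.symm.toRingHom (ltLog p n) with hT
  obtain ⟨ψ, ψ0, hψlog, hψ⟩ := exists_exp_series p n hF β T
    (fun j => by
      refine τ.injective ?_
      rw [hT, PowerSeries.coeff_C_mul, PowerSeries.coeff_map, coeff_ltLog_pow, map_mul, hτ, hβ,
        α.apply_symm_apply, RingEquiv.toRingHom_eq_coe, RingEquiv.coe_toRingHom,
        τ.apply_symm_apply, hBeq, map_sum]
      exact sum_congr rfl fun k _ => by
        rw [map_mul, map_pow τ, hτ, α.apply_symm_apply, map_pow])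
    (fun N hN => by
      rw [hT, PowerSeries.coeff_C_mul, PowerSeries.coeff_map, coeff_ltLog_of_ne p n hN, map_zero,
        mul_zero])
  set φ := PowerSeries.map α.toRingHom ψ with hφ
  have φ0 : PowerSeries.constantCoeff φ = 0 := constantCoeff_map_zero α.toRingHom ψ0
  have hφlog : PowerSeries.subst (φ.map (algebraMap (LTRing p n) (LTField p n)))
      ((ltLog p n).map τ.toRingHom) = algebraMap (LTRing p n) (LTField p n) (B 0) • ltLog p n := by
    have e := congrArg (PowerSeries.map τ.toRingHom) hψlog
    have hψK : PowerSeries.constantCoeff (PowerSeries.map ι ψ) = 0 := constantCoeff_map_zero ι ψ0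
    rw [show PowerSeries.map τ.toRingHom (PowerSeries.subst (PowerSeries.map ι ψ) (ltLog p n))
      = PowerSeries.subst (PowerSeries.map τ.toRingHom (PowerSeries.map ι ψ))
          ((ltLog p n).map τ.toRingHom) from
      PowerSeries.map_subst (PowerSeries.HasSubst.of_constantCoeff_zero' hψK) _] at e
    have e2 : PowerSeries.map τ.toRingHom (PowerSeries.map ι ψ)
        = φ.map (algebraMap (LTRing p n) (LTField p n)) := by
      ext N
      simp only [hφ, PowerSeries.coeff_map]
      exact hτ _
    have e3 : PowerSeries.map τ.toRingHom T = ι (B 0) • ltLog p n := by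
      ext N
      rw [hT, PowerSeries.coeff_map, PowerSeries.coeff_C_mul, PowerSeries.coeff_map,
        RingEquiv.toRingHom_eq_coe, RingEquiv.coe_toRingHom, map_mul, hτ, hβ, α.apply_symm_apply,
        RingEquiv.toRingHom_eq_coe, RingEquiv.coe_toRingHom, τ.apply_symm_apply,
        PowerSeries.coeff_smul, smul_eq_mul]
    rw [e2, e3] at e
    exact e
  have hres : ∀ N, PowerSeries.coeff N φ - PowerSeries.coeff N (MvPowerSeries.subst
      ![PowerSeries.X, PowerSeries.C (teich p n a) * PowerSeries.X ^ p ^ S] F.toPowerSeries)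
      ∈ m := by
    intro N
    set π := Ideal.Quotient.mk m with hπ
    have hπα : ∀ x, π (α x) = π x := fun x => by
      rw [hπ, Ideal.Quotient.mk_eq_mk_iff_sub_mem]
      exact hpowle (hnear x)
    have hπβ : ∀ k, π (β k) = if k = 0 then 1 else if k = S then π (teich p n a) else 0 := by
      intro k
      rw [← hπα, hβ, α.apply_symm_apply, Ideal.Quotient.mk_eq_mk_iff_sub_mem _ _ |>.2 (hBres k)]
      split_ifs <;> rfl
    have e := congrArg (PowerSeries.coeff N)
      (map_partialSum p n π F β (S := S) (by omega) (teich p n a) hπβ (max N S + 1))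
    rw [PowerSeries.coeff_map, if_neg (Nat.succ_ne_zero _), if_neg (by omega)] at e
    rw [← Ideal.Quotient.mk_eq_mk_iff_sub_mem, hφ, PowerSeries.coeff_map,
      RingEquiv.toRingHom_eq_coe, RingEquiv.coe_toRingHom, ← hπ, hπα,
      hψ N (max N S + 1) (by omega), e]
    have h0 : PowerSeries.constantCoeff
        (PowerSeries.C (teich p n a) * PowerSeries.X ^ p ^ S) = 0 :=
      constantCoeff_monomial_pow p n _ S
    have e4 := map_fsum π F (a := PowerSeries.X) PowerSeries.constantCoeff_X h0
    rw [map_mul, PowerSeries.map_C, map_pow, PowerSeries.map_X] at e4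
    rw [← e4, PowerSeries.coeff_map]
    rfl
  have hunit : IsUnit (PowerSeries.coeff 1 φ) := by
    have hXS : PowerSeries.coeff 1 (MvPowerSeries.subst
        ![PowerSeries.X, PowerSeries.C (teich p n a) * PowerSeries.X ^ p ^ S]
        F.toPowerSeries) = 1 := by
      have hpS : 1 < p ^ S := Nat.one_lt_pow (by omega) hp.out.one_lt
      show PowerSeries.coeff 1 (fsum F _ _) = 1
      rw [coeff_fsum_low F (N := 1) (by simp) (by
        refine Dvd.dvd.mul_left ?_ _
        exact pow_dvd_pow _ hpS.le) one_pos (by omega),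
        PowerSeries.coeff_one_X, PowerSeries.coeff_C_mul, PowerSeries.coeff_X_pow,
        if_neg hpS.ne, mul_zero, add_zero]
    have h1 := hres 1
    rw [hXS] at h1
    by_contra hu
    have hx : PowerSeries.coeff 1 φ ∈ m := by
      rw [hm, mIdeal_eq_maximalIdeal p n hn, IsLocalRing.mem_maximalIdeal]; exact hu
    have := sub_mem hx h1
    rw [sub_sub_cancel, hm, mIdeal_eq_maximalIdeal p n hn, IsLocalRing.mem_maximalIdeal] at this
    exact this isUnit_one
  exact ⟨{
    α := α
    fix := hfix
    near := fun x => Ideal.pow_le_pow_right hcc' (hnear x)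
    φ := φ
    φ_zero := φ0
    φ_unit := hunit
    φ_hom := hom_of_log p n hF α φ φ0 (B 0) hφlog
    φ_res := hres
    b := B
    b_res := hBres
    log_eq := fun N => hBeq N }⟩

end

end Vale.Agent.P217
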