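import Vale.Agent.P217.Setup
import Vale.Agent.P217.Invariant

/-!
# Coordinates on a stratum: reduction modulo `p` and finiteness over `F_q[[u_h, u_k, …]]`
-/

open scoped Classical

noncomputable section

namespace Vale.Agent.P217

/-- Finite powers of a precomplete ring are precomplete. -/
theorem isPrecomplete_pi {R ι : Type*} [CommRing R] [Fintype ι] (I : Ideal R) [IsPrecomplete I R] :
    IsPrecomplete I (ι → R) where
  prec' f hf := by
    have hcoord : ∀ i (m n : ℕ), m ≤ n →
        f m i ≡ f n i [SMOD (I ^ m • ⊤ : Submodule R R)] := by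
      intro i m n hmn
      rw [SModEq.sub_mem]
      have h := Submodule.mem_map_of_mem (f := (LinearMap.proj i : (ι → R) →ₗ[R] R))
        (SModEq.sub_mem.1 (hf hmn))
      rw [Submodule.map_smul''] at h
      exact Submodule.smul_mono le_rfl le_top (by simpa using h)
    choose L hL using fun i => IsPrecomplete.prec ‹IsPrecomplete I R› (hcoord i _ _)
    refine ⟨L, fun m => ?_⟩
    rw [SModEq.sub_mem, pi_eq_sum_univ (f m - L)]
    refine Submodule.sum_mem _ fun i _ => ?_
    refine Submodule.smul_mem_smul ?_ Submodule.mem_top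
    have := SModEq.sub_mem.1 (hL i m)
    simpa using this

/-- Complete Nakayama: `M` is finite if it is so modulo `I`. -/
theorem finite_of_precomplete {R M : Type*} [CommRing R] [AddCommGroup M] [Module R M]
    (I : Ideal R) [IsPrecomplete I R] [IsHausdorff I M] (T : Finset M)
    (hT : Submodule.span R (T : Set M) ⊔ I • ⊤ = ⊤) : Module.Finite R M := by
  haveI := isPrecomplete_pi (ι := ↥T) I
  obtain ⟨U, hU⟩ : ∃ U, U = Submodule.span R (T : Set M) ⊔ I • (⊤ : Submodule R M) := ⟨_, rfl⟩
  let g : (↥T → R) →ₗ[R] M := Fintype.linearCombination R (fun t => (t : M))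
  have hg : Function.Surjective g := by
    refine surjective_of_mkQ_comp_surjective (I := I) fun q => ?_
    obtain ⟨a, rfl⟩ := Submodule.mkQ_surjective _ q
    have ha : a ∈ U := by rw [hU, hT]; exact Submodule.mem_top
    rw [hU] at ha
    obtain ⟨s, hs, j, hj, rfl⟩ := Submodule.mem_sup.1 ha
    have hs' : s ∈ LinearMap.range g := by
      rw [Fintype.range_linearCombination]
      simpa using hs
    obtain ⟨c, rfl⟩ := hs'
    refine ⟨c, ?_⟩
    simp only [LinearMap.coe_comp, Function.comp_apply, map_add, Submodule.mkQ_apply]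
    rw [(Submodule.Quotient.mk_eq_zero _).2 hj, add_zero]
  exact Module.Finite.of_surjective g hg

variable (p n : ℕ) [hp : Fact p.Prime]

/-- Reduction modulo `p`. -/
def redMap : LTRing p n →+* MvPowerSeries (Fin (n - 1)) (GaloisField p n) :=
  MvPowerSeries.map WittVector.constantCoeff

theorem redMap_surjective : Function.Surjective (redMap p n) := fun f =>
  ⟨fun d => WittVector.teichmuller p (MvPowerSeries.coeff d f), MvPowerSeries.ext fun d => by
    exact WittVector.teichmuller_coeff_zero (p := p) (MvPowerSeries.coeff d f)⟩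

theorem redMap_teich (a : GaloisField p n) : redMap p n (teich p n a) = MvPowerSeries.C a := by
  rw [redMap, teich, MvPowerSeries.map_C]
  exact congrArg MvPowerSeries.C (WittVector.teichmuller_coeff_zero (p := p) a)

theorem mem_span_p_of_redMap_eq_zero {f : LTRing p n} (hf : redMap p n f = 0) :
    f ∈ Ideal.span {(p : LTRing p n)} := by
  have h' : ∀ d, (p : WittVector p (GaloisField p n)) ∣ MvPowerSeries.coeff d f := fun d => by
    rw [← Ideal.mem_span_singleton, WittVector.mem_span_p_iff_coeff_zero_eq_zero]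
    have := congrArg (MvPowerSeries.coeff d) hf
    rw [redMap, MvPowerSeries.coeff_map, map_zero] at this
    exact this
  choose c hc using h'
  refine Ideal.mem_span_singleton.2 ⟨c, MvPowerSeries.ext fun d => ?_⟩
  let g : LTRing p n := c
  change MvPowerSeries.coeff d f = MvPowerSeries.coeff d ((p : LTRing p n) * g)
  rw [hc d, ← map_natCast (MvPowerSeries.C (R := WittVector p (GaloisField p n))) p,
    MvPowerSeries.coeff_C_mul]
  rfl

/-- Up to a Teichmüller constant every element lies in the maximal ideal. -/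
theorem exists_sub_teich_mem (hn : 0 < n) (f : LTRing p n) :
    ∃ a : GaloisField p n, f - teich p n a ∈ mIdeal p n := by
  set a : GaloisField p n := (MvPowerSeries.coeff 0 f).coeff 0
  refine ⟨a, ?_⟩
  have h := mem_heightIdeal_succ p n (n - 1) (f - teich p n a) le_rfl fun d hd => ?_
  · rwa [show n - 1 + 1 = n by omega] at h
  · have hd0 : d = 0 := Finsupp.ext fun i => hd i i.2
    subst hd0
    rw [map_sub, teich, MvPowerSeries.coeff_C, if_pos rfl, ← Ideal.mem_span_singleton,
      WittVector.mem_span_p_iff_coeff_zero_eq_zero]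
    have : WittVector.constantCoeff
        (MvPowerSeries.coeff 0 f - WittVector.teichmuller p a) = 0 := by
      rw [map_sub]
      change (MvPowerSeries.coeff 0 f).coeff 0 - (WittVector.teichmuller p a).coeff 0 = 0
      rw [WittVector.teichmuller_coeff_zero, sub_self]
    exact this

/-- The indices `h, k, k+1, …` of the coordinates. -/
def coordIdx (h k j : ℕ) : ℕ := if j = 0 then h else k + j - 1

/-- `E/P` is finite over the power series ring in `u_h, u_k, …, u_{n-1}` over `F_q`. -/
theorem exists_coord {h k : ℕ} (P : Ideal (LTRing p n)) [P.IsPrime]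
    (hh : 1 ≤ h) (hhk : h + 1 ≤ k) (hkn : k ≤ n) (hP : heightIdeal p n h ≤ P)
    (hrad : (P ⊔ Ideal.span {ltU p n h}).radical = heightIdeal p n k) :
    ∃ φ : MvPowerSeries (Fin (n - k + 1)) (GaloisField p n) →+* LTRing p n ⧸ P,
      φ.Finite ∧ (∀ j, φ (MvPowerSeries.X j) = Ideal.Quotient.mk P (ltU p n (coordIdx h k j))) ∧
      ∀ a, φ (MvPowerSeries.C a) = Ideal.Quotient.mk P (teich p n a) := by
  have hpP : (p : LTRing p n) ∈ P := hP (Ideal.subset_span ⟨0, hh, by simp [ltU]⟩)
  have hker : RingHom.ker (redMap p n) ≤ RingHom.ker (Ideal.Quotient.mk P) := fun f hf => by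
    rw [Ideal.mk_ker]
    exact (Ideal.span_singleton_le_iff_mem P).2 hpP (mem_span_p_of_redMap_eq_zero p n hf)
  let π : MvPowerSeries (Fin (n - 1)) (GaloisField p n) →+* LTRing p n ⧸ P :=
    (redMap p n).liftOfSurjective (redMap_surjective p n) ⟨Ideal.Quotient.mk P, hker⟩
  have hπ : ∀ f, π (redMap p n f) = Ideal.Quotient.mk P f := fun f =>
    (redMap p n).liftOfRightInverse_comp_apply _ _ ⟨Ideal.Quotient.mk P, hker⟩ f
  have hidx : ∀ j : Fin (n - k + 1), coordIdx h k j.1 - 1 < n - 1 ∧ coordIdx h k j.1 ≠ 0 := by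
    intro j
    have := j.2
    unfold coordIdx
    split_ifs <;> omega
  have hX : ∀ j : Fin (n - k + 1), ltU p n (coordIdx h k j) =
      MvPowerSeries.X ⟨coordIdx h k j - 1, (hidx j).1⟩ := fun j => by
    rw [ltU, if_neg (hidx j).2, dif_pos (hidx j).1]
  let v : Fin (n - k + 1) → MvPowerSeries (Fin (n - 1)) (GaloisField p n) := fun j =>
    MvPowerSeries.X ⟨coordIdx h k j - 1, (hidx j).1⟩
  have hv : MvPowerSeries.HasSubst v :=
    MvPowerSeries.hasSubst_of_constantCoeff_zero fun j => MvPowerSeries.constantCoeff_X _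
  let φ : MvPowerSeries (Fin (n - k + 1)) (GaloisField p n) →+* LTRing p n ⧸ P :=
    π.comp (MvPowerSeries.substAlgHom (R := GaloisField p n) hv).toRingHom
  have hφX : ∀ j, φ (MvPowerSeries.X j) = Ideal.Quotient.mk P (ltU p n (coordIdx h k j)) := by
    intro j
    change π (MvPowerSeries.substAlgHom hv (MvPowerSeries.X j)) = _
    rw [MvPowerSeries.substAlgHom_X, ← hπ, hX, redMap, MvPowerSeries.map_X]
  have hφC : ∀ a, φ (MvPowerSeries.C a) = Ideal.Quotient.mk P (teich p n a) := by
    intro a
    change π (MvPowerSeries.substAlgHom hv (MvPowerSeries.C a)) = _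
    rw [← hπ, redMap_teich]
    congr 1
    exact (MvPowerSeries.substAlgHom (R := GaloisField p n) hv).commutes a
  refine ⟨φ, ?_, hφX, hφC⟩
  let R0 := MvPowerSeries (Fin (n - k + 1)) (GaloisField p n)
  let A := LTRing p n ⧸ P
  letI : Algebra R0 A := φ.toAlgebra
  change Module.Finite R0 A
  set I : Ideal R0 := Ideal.span (Set.range MvPowerSeries.X)
  haveI : IsPrecomplete I R0 := (inferInstance : IsAdicComplete I R0).toIsPrecomplete
  set mA : Ideal A := (mIdeal p n).map (Ideal.Quotient.mk P)
  set J : Ideal (LTRing p n) :=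
    P ⊔ Ideal.span (Set.range fun j : Fin (n - k + 1) => ltU p n (coordIdx h k j))
  have hJ : mIdeal p n ≤ J.radical := by
    rw [mIdeal, heightIdeal, Ideal.span_le]
    rintro _ ⟨i, hi, rfl⟩
    simp only [Set.mem_ofPred_eq] at hi
    by_cases hik : i < k
    · refine Ideal.radical_mono ?_ (hrad ▸ ltU_mem_heightIdeal p n hik)
      refine sup_le_sup_left (Ideal.span_mono ?_) P
      rintro _ rfl
      exact ⟨0, by simp [coordIdx]⟩
    · refine Ideal.le_radical (Ideal.mem_sup_right (Ideal.subset_span
        ⟨⟨i - k + 1, by omega⟩, ?_⟩))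
      change ltU p n (coordIdx h k (i - k + 1)) = ltU p n i
      congr 1
      unfold coordIdx
      rw [if_neg (by omega)]
      omega
  obtain ⟨N, hN⟩ := Ideal.exists_pow_le_of_le_radical_of_fg hJ (IsNoetherian.noetherian _)
  have hle : ((mA ^ N).restrictScalars R0) ≤ I • (⊤ : Submodule R0 A) := by
    rw [Ideal.smul_top_eq_map, Submodule.restrictScalars_le]
    rw [← Ideal.map_pow]
    refine (Ideal.map_mono hN).trans ?_
    rw [Ideal.map_sup, Ideal.map_quotient_self, bot_sup_eq, Ideal.map_span, Ideal.span_le]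
    rintro _ ⟨_, ⟨j, rfl⟩, rfl⟩
    rw [← hφX]
    exact Ideal.mem_map_of_mem _ (Ideal.subset_span ⟨j, rfl⟩)
  have hone : ∀ a : A, ∃ c : R0, a - φ c ∈ mA := by
    intro a
    obtain ⟨f, rfl⟩ := Ideal.Quotient.mk_surjective a
    obtain ⟨c, hc⟩ := exists_sub_teich_mem p n (by omega) f
    exact ⟨MvPowerSeries.C c, by rw [hφC, ← map_sub]; exact Ideal.mem_map_of_mem _ hc⟩
  have hspan : ∀ r : ℕ, ∃ T : Finset A,
      Submodule.span R0 (T : Set A) ⊔ (mA ^ r).restrictScalars R0 = ⊤ := by
    intro r
    induction r with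
    | zero => exact ⟨∅, by simp⟩
    | succ r ih =>
      obtain ⟨T, hT⟩ := ih
      obtain ⟨G, hG⟩ := IsNoetherian.noetherian (mA ^ r)
      refine ⟨T ∪ G, eq_top_iff.2 ?_⟩
      rw [← hT, Finset.coe_union, Submodule.span_union]
      refine sup_le (le_sup_left.trans le_sup_left) ?_
      intro x hx
      rw [Submodule.restrictScalars_mem, ← hG] at hx
      have hsmul : ∀ (a : A), ∀ g ∈ (G : Set A), a * g ∈
          Submodule.span R0 (T : Set A) ⊔ Submodule.span R0 (G : Set A) ⊔
            (mA ^ (r + 1)).restrictScalars R0 := by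
        intro a g hg
        obtain ⟨c, hc⟩ := hone a
        have e : a * g = c • g + (a - φ c) * g := by
          rw [Algebra.smul_def, RingHom.algebraMap_toAlgebra]; ring
        rw [e]
        refine add_mem (Submodule.mem_sup_left (Submodule.mem_sup_right
          (Submodule.smul_mem _ _ (Submodule.subset_span hg)))) (Submodule.mem_sup_right ?_)
        rw [Submodule.restrictScalars_mem, show mA ^ (r + 1) = mA * mA ^ r by
          rw [add_comm, Ideal.IsTwoSided.pow_add, Submodule.pow_one]]
        exact Ideal.mul_mem_mul hc (hG ▸ Submodule.subset_span hg)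
      obtain ⟨l, -, rfl⟩ := Submodule.mem_span_finset.1 hx
      exact Submodule.sum_mem _ fun g hg => by rw [smul_eq_mul]; exact hsmul _ g hg
  haveI : IsLocalRing A := IsLocalRing.of_surjective' _ Ideal.Quotient.mk_surjective
  have hIne : I.map (algebraMap R0 A) ≠ ⊤ := by
    intro htop
    have hle' : I.map (algebraMap R0 A) ≤ IsLocalRing.maximalIdeal A := by
      rw [RingHom.algebraMap_toAlgebra, Ideal.map_span, Ideal.span_le]
      rintro _ ⟨_, ⟨j, rfl⟩, rfl⟩
      rw [hφX, hX, SetLike.mem_coe, IsLocalRing.mem_maximalIdeal, mem_nonunits_iff]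
      intro hu
      obtain ⟨u, hu⟩ := hu.exists_right_inv
      obtain ⟨u', rfl⟩ := Ideal.Quotient.mk_surjective u
      rw [← map_mul, ← map_one (Ideal.Quotient.mk P), Ideal.Quotient.eq] at hu
      have := IsLocalRing.le_maximalIdeal (Ideal.IsPrime.ne_top' (I := P)) hu
      rw [IsLocalRing.mem_maximalIdeal, mem_nonunits_iff,
        MvPowerSeries.isUnit_iff_constantCoeff] at this
      simp at this
    exact IsLocalRing.maximalIdeal.isMaximal A |>.ne_top (eq_top_iff.2 (htop ▸ hle'))
  haveI : IsHausdorff I A :=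
    IsHausdorff.map_algebraMap_iff.1 (IsHausdorff.of_isLocalRing _ A hIne)
  obtain ⟨T, hT⟩ := hspan N
  refine finite_of_precomplete I T (eq_top_iff.2 (le_trans ?_ (sup_le_sup_left hle _)))
  rw [hT]

end Vale.Agent.P217
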