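import Mathlib

/-!
# P217: the Lubin-Tate ring, the Hazewinkel model of the universal deformation, invariance
-/

open scoped Classical

namespace Vale.Agent.P217

noncomputable section

variable (p n : ℕ) [hp : Fact p.Prime]

/-- The Lubin-Tate ring `W(F_{p^n})[[u_1, ..., u_{n-1}]]`. -/
abbrev LTRing : Type :=
  MvPowerSeries (Fin (n - 1)) (WittVector p (GaloisField p n))

instance ltRing_isDomain : IsDomain (LTRing p n) := NoZeroDivisors.to_isDomain _

/-- Its fraction field. -/
abbrev LTField : Type := FractionRing (LTRing p n)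

/-- `u_0 = p`, the variables `u_1, ..., u_{n-1}`, `u_n = 1`, and `u_i = 0` for `i > n`. -/
def ltU (i : ℕ) : LTRing p n :=
  if i = 0 then (p : LTRing p n)
  else if h : i - 1 < n - 1 then MvPowerSeries.X ⟨i - 1, h⟩
  else if i = n then 1 else 0

/-- The height ideal `I_h = (u_0, ..., u_{h-1})`; so `I_0 = 0`. -/
def heightIdeal (h : ℕ) : Ideal (LTRing p n) :=
  Ideal.span (ltU p n '' {i | i < h})

/-- Hazewinkel's coefficients: `l_0 = 1`, `p l_{m+1} = ∑_{j ≤ m} l_j u_{m+1-j}^{p^j}`. -/
def logCoeff : ℕ → LTField p n
  | 0 => 1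
  | m + 1 => (p : LTField p n)⁻¹ * ∑ j : Fin (m + 1),
      logCoeff j.1 * algebraMap (LTRing p n) (LTField p n) (ltU p n (m + 1 - j.1) ^ p ^ j.1)

/-- The logarithm `∑_m l_m X^{p^m}`. -/
def ltLog : PowerSeries (LTField p n) :=
  PowerSeries.mk fun N => if p ^ Nat.log p N = N then logCoeff p n (Nat.log p N) else 0

/-- `F` is the formal group law over the Lubin-Tate ring with Hazewinkel's logarithm. -/
def HasHazewinkelLog (F : FormalGroup (LTRing p n)) : Prop :=
  PowerSeries.subst (F.map (algebraMap (LTRing p n) (LTField p n))).toPowerSeries (ltLog p n)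
    = PowerSeries.subst (MvPowerSeries.X (0 : Fin 2)) (ltLog p n)
      + PowerSeries.subst (MvPowerSeries.X (1 : Fin 2)) (ltLog p n)

/-- `α` carries `F` to a formal group law isomorphic to `F` (by some, not necessarily strict,
isomorphism). For the universal deformation these `α` form the image of the extended stabilizer. -/
def IsDeformationAut (F : FormalGroup (LTRing p n)) (α : LTRing p n ≃+* LTRing p n) : Prop :=
  ∃ φ : PowerSeries (LTRing p n), PowerSeries.constantCoeff φ = 0 ∧
    IsUnit (PowerSeries.coeff 1 φ) ∧
    PowerSeries.subst F.toPowerSeries φ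
      = MvPowerSeries.subst
          ![PowerSeries.subst (MvPowerSeries.X (0 : Fin 2)) φ,
            PowerSeries.subst (MvPowerSeries.X (1 : Fin 2)) φ]
          (F.map α.toRingHom).toPowerSeries

/-- Invariance under every such automorphism (the extended stabilizer). -/
def IsInvariant (F : FormalGroup (LTRing p n)) (I : Ideal (LTRing p n)) : Prop :=
  ∀ α : LTRing p n ≃+* LTRing p n, IsDeformationAut p n F α → Ideal.map α.toRingHom I = I

/-- Invariance under the automorphisms which fix the coefficient ring (the stabilizer). -/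
def IsStabilizerInvariant (F : FormalGroup (LTRing p n)) (I : Ideal (LTRing p n)) : Prop :=
  ∀ α : LTRing p n ≃+* LTRing p n, IsDeformationAut p n F α →
    (∀ w : WittVector p (GaloisField p n),
      α (MvPowerSeries.C w) = MvPowerSeries.C w) →
    Ideal.map α.toRingHom I = I

end

end Vale.Agent.P217
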