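import Mathlib

/-!
# P217: purely inseparable extensions of exponent one and expansions in powers of one element
-/

open scoped Classical
open Polynomial

namespace Vale.Agent.P217

noncomputable section

set_option linter.unusedSectionVars false

variable {L : Type} [Field L] {p : ℕ} [hp : Fact p.Prime] [CharP L p]

/-- Powers of `c` below `p` are independent over a subfield containing `c ^ p` but not `c`. -/
theorem indep_of_pow_mem (K : Subfield L) {c : L} (hcp : c ^ p ∈ K) (hc : c ∉ K) (a : ℕ → L)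
    (ha : ∀ m < p, a m ∈ K) (h : ∑ m ∈ Finset.range p, a m * c ^ m = 0) :
    ∀ m < p, a m = 0 := by
  set cp : K := ⟨c ^ p, hcp⟩ with hcpdef
  have hirr : Irreducible (X ^ p - C cp : K[X]) := by
    refine X_pow_sub_C_irreducible_of_prime hp.out fun b hb => hc ?_
    have h1 : (b : L) ^ p = c ^ p := by simpa [hcpdef] using congrArg Subtype.val hb
    have h2 : (b : L) = c := frobenius_inj L p h1
    exact h2 ▸ b.2
  have hroot : aeval c (X ^ p - C cp : K[X]) = 0 := by
    simp only [map_sub, map_pow, aeval_X, aeval_C]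
    exact sub_eq_zero.2 rfl
  have hmin : X ^ p - C cp = minpoly K c :=
    minpoly.eq_of_irreducible_of_monic hirr hroot (monic_X_pow_sub_C _ hp.out.pos.ne')
  have hdeg : (minpoly K c).natDegree = p := by rw [← hmin, natDegree_X_pow_sub_C]
  set a' : ℕ → K := fun m => if hm : a m ∈ K then ⟨a m, hm⟩ else 0 with ha'
  set Q : K[X] := ∑ m ∈ Finset.range p, monomial m (a' m) with hQ
  have hval : ∀ m < p, (a' m : L) = a m := fun m hm => by simp [ha', ha m hm]
  have hQc : aeval c Q = 0 := by
    rw [hQ, map_sum, ← h]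
    refine Finset.sum_congr rfl fun m hm => ?_
    rw [aeval_monomial, ← hval m (Finset.mem_range.1 hm)]
    rfl
  have hcoeff : ∀ m < p, Q.coeff m = a' m := fun m hm => by
    rw [hQ, finsetSum_coeff, Finset.sum_eq_single m]
    · simp
    · intro b _ hb
      simp [coeff_monomial, hb]
    · intro hm'
      exact absurd (Finset.mem_range.2 hm) hm'
  have hQ0 : Q = 0 := by
    by_contra hne
    have h1 := natDegree_le_of_dvd (minpoly.dvd K c hQc) hne
    rw [hdeg] at h1
    have h2 : Q.natDegree ≤ p - 1 := by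
      rw [hQ]
      refine natDegree_sum_le_of_forall_le _ _ fun m hm => ?_
      refine (natDegree_monomial_le _).trans ?_
      have := Finset.mem_range.1 hm
      omega
    have := hp.out.pos
    omega
  intro m hm
  rw [← hval m hm, ← hcoeff m hm, hQ0]
  simp

/-- The set `K + K c + ... + K c^(p-1)`. -/
def extCarrier (p : ℕ) (K : Subfield L) (c : L) : Set L :=
  {z | ∃ a : ℕ → L, (∀ m, a m ∈ K) ∧ z = ∑ m ∈ Finset.range p, a m * c ^ m}

theorem extCarrier_mem_base (K : Subfield L) (c : L) {z : L} (hz : z ∈ K) :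
    z ∈ extCarrier p K c := by
  refine ⟨fun m => if m = 0 then z else 0, fun m => by by_cases hm : m = 0 <;> simp [hm, hz], ?_⟩
  rw [Finset.sum_eq_single 0]
  · simp
  · intro b _ hb
    simp [hb]
  · intro h
    exact absurd (Finset.mem_range.2 hp.out.pos) h

theorem extCarrier_add (K : Subfield L) (c : L) {x y : L} (hx : x ∈ extCarrier p K c)
    (hy : y ∈ extCarrier p K c) : x + y ∈ extCarrier p K c := by
  obtain ⟨a, ha, rfl⟩ := hx
  obtain ⟨b, hb, rfl⟩ := hy
  exact ⟨fun m => a m + b m, fun m => add_mem (ha m) (hb m), by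
    simp [add_mul, Finset.sum_add_distrib]⟩

theorem extCarrier_pow (K : Subfield L) {c : L} (hcp : c ^ p ∈ K) (e : ℕ) {z : L} (hz : z ∈ K) :
    z * c ^ e ∈ extCarrier p K c := by
  have hdiv : z * c ^ e = (z * (c ^ p) ^ (e / p)) * c ^ (e % p) := by
    rw [mul_assoc, ← pow_mul, ← pow_add, Nat.div_add_mod]
  refine ⟨fun m => if m = e % p then z * (c ^ p) ^ (e / p) else 0, fun m => ?_, ?_⟩
  · by_cases hm : m = e % p
    · simp only [hm, if_true]
      exact mul_mem hz (pow_mem hcp _)
    · simp [hm]
  · rw [Finset.sum_eq_single (e % p)]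
    · simpa using hdiv
    · intro b _ hb
      simp [hb]
    · intro h
      exact absurd (Finset.mem_range.2 (Nat.mod_lt _ hp.out.pos)) h

theorem extCarrier_sum (K : Subfield L) (c : L) {J : Type} (s : Finset J) (f : J → L)
    (hf : ∀ j ∈ s, f j ∈ extCarrier p K c) : ∑ j ∈ s, f j ∈ extCarrier p K c := by
  induction s using Finset.induction_on with
  | empty => simpa using extCarrier_mem_base (p := p) K c K.zero_mem
  | insert j s hj ih =>
    rw [Finset.sum_insert hj]
    exact extCarrier_add K c (hf j (Finset.mem_insert_self _ _))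
      (ih fun i hi => hf i (Finset.mem_insert_of_mem hi))

theorem extCarrier_mul (K : Subfield L) {c : L} (hcp : c ^ p ∈ K) {x y : L}
    (hx : x ∈ extCarrier p K c) (hy : y ∈ extCarrier p K c) : x * y ∈ extCarrier p K c := by
  obtain ⟨a, ha, rfl⟩ := hx
  obtain ⟨b, hb, rfl⟩ := hy
  rw [Finset.sum_mul_sum]
  refine extCarrier_sum K c _ _ fun i _ => extCarrier_sum K c _ _ fun j _ => ?_
  rw [mul_mul_mul_comm, ← pow_add]
  exact extCarrier_pow K hcp _ (mul_mem (ha i) (hb j))

theorem extCarrier_pow_p (K : Subfield L) {c : L} (hcp : c ^ p ∈ K) {x : L}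
    (hx : x ∈ extCarrier p K c) : x ^ p ∈ K := by
  obtain ⟨a, ha, rfl⟩ := hx
  rw [sum_pow_char p]
  refine sum_mem fun m _ => ?_
  rw [mul_pow, ← pow_mul, mul_comm m p, pow_mul]
  exact mul_mem (pow_mem (ha m) _) (pow_mem hcp _)

/-- `K (c)` when `c ^ p ∈ K`. -/
def ext (K : Subfield L) (c : L) (hcp : c ^ p ∈ K) : Subfield L where
  carrier := extCarrier p K c
  mul_mem' := extCarrier_mul K hcp
  one_mem' := extCarrier_mem_base K c K.one_mem
  add_mem' := extCarrier_add K c
  zero_mem' := extCarrier_mem_base K c K.zero_mem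
  neg_mem' := by
    rintro x ⟨a, ha, rfl⟩
    exact ⟨fun m => - a m, fun m => neg_mem (ha m), by simp [neg_mul, Finset.sum_neg_distrib]⟩
  inv_mem' := by
    intro x hx
    by_cases hx0 : x = 0
    · simpa [hx0] using extCarrier_mem_base (p := p) K c K.zero_mem
    have hkey : x⁻¹ = (x ^ p)⁻¹ * x ^ (p - 1) := by
      field_simp
      rw [← pow_succ', Nat.sub_add_cancel hp.out.one_le]
    rw [hkey]
    refine extCarrier_mul K hcp
      (extCarrier_mem_base K c (inv_mem (extCarrier_pow_p K hcp hx))) ?_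
    clear hkey hx0
    induction (p - 1) with
    | zero => simpa using extCarrier_mem_base (p := p) K c K.one_mem
    | succ m ih => rw [pow_succ]; exact extCarrier_mul K hcp ih hx

theorem le_ext (K : Subfield L) (c : L) (hcp : c ^ p ∈ K) : K ≤ ext K c hcp := fun _ hz =>
  extCarrier_mem_base K c hz

theorem self_mem_ext (K : Subfield L) (c : L) (hcp : c ^ p ∈ K) : c ∈ ext K c hcp := by
  have h : (1 : L) * c ^ 1 ∈ extCarrier p K c := extCarrier_pow K hcp 1 K.one_mem
  rwa [one_mul, pow_one] at h

/-- `y` is a combination of the powers of `t` with coefficients `p ^ r`-th powers. -/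
def Rep (p r : ℕ) (t y : L) : Prop :=
  ∃ a : ℕ → L, y = ∑ j ∈ Finset.range (p ^ r), a j ^ p ^ r * t ^ j

theorem rep_zero (t y : L) : Rep p 0 t y := ⟨fun _ => y, by simp⟩

/-- Splitting a sum over `range (P * Q)` by quotient and remainder. -/
theorem sum_range_mul {M : Type} [AddCommMonoid M] (P Q : ℕ) (f : ℕ → M) :
    ∑ j ∈ Finset.range (P * Q), f j
      = ∑ i ∈ Finset.range P, ∑ m ∈ Finset.range Q, f (i * Q + m) := by
  induction P with
  | zero => simp
  | succ P ih => rw [Finset.sum_range_succ, ← ih, Nat.succ_mul, Finset.sum_range_add]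

theorem pow_mem_frob (x : L) (r : ℕ) : x ^ p ^ (r + 1) ∈ (frobenius L p).fieldRange :=
  ⟨x ^ p ^ r, by rw [frobenius_def, ← pow_mul, pow_succ]⟩

/-- The powers of `t` below `p ^ r` are independent over `p ^ r`-th powers. -/
theorem rep_indep {t : L} (ht : t ∉ (frobenius L p).fieldRange) :
    ∀ (r : ℕ) (a : ℕ → L), ∑ j ∈ Finset.range (p ^ r), a j ^ p ^ r * t ^ j = 0 →
      ∀ j < p ^ r, a j = 0 := by
  intro r
  induction r with
  | zero =>
    intro a h j hj
    have : j = 0 := by simpa using hj
    subst this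
    simpa using h
  | succ r ih =>
    intro a h j hj
    set b : ℕ → L := fun m =>
      ∑ k ∈ Finset.range (p ^ r), a (k * p + m) ^ p ^ r * t ^ k with hb
    have h1 : ∑ m ∈ Finset.range p, b m ^ p * t ^ m = 0 := by
      rw [← h, pow_succ, sum_range_mul, Finset.sum_comm]
      refine Finset.sum_congr rfl fun m _ => ?_
      simp only [hb, sum_pow_char p, Finset.sum_mul]
      refine Finset.sum_congr rfl fun k _ => ?_
      rw [mul_pow, ← pow_mul, ← pow_succ, ← pow_mul, mul_assoc, ← pow_add]
    have h2 := indep_of_pow_mem (p := p) (frobenius L p).fieldRange ⟨t, rfl⟩ ht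
      (fun m => b m ^ p) (fun m _ => ⟨b m, rfl⟩) h1
    have hm : j % p < p := Nat.mod_lt _ hp.out.pos
    have h3 : b (j % p) = 0 := (pow_eq_zero_iff hp.out.pos.ne').1 (h2 _ hm)
    have h4 := ih (fun k => a (k * p + j % p)) h3 (j / p) (by
      rw [Nat.div_lt_iff_lt_mul hp.out.pos, ← pow_succ]
      exact hj)
    simpa [Nat.div_add_mod'] using h4

end

end Vale.Agent.P217
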