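import Vale.Agent.P217.Germs
import Vale.Agent.P217.FrobTower

/-!
# P217: descent along the slow directions

If the slow displacements `δ c_m` are independent at the scale `S` and `δ t`, `δ y` are negligible
at the scales `S ^ p ^ r`, `r ≤ r₀`, then `y` lies in `L ^ p ^ (r₀ + 1) (t)`.
-/

open scoped Classical
open Filter Asymptotics

namespace Vale.Agent.P217

noncomputable section

set_option linter.unusedSectionVars false

variable {L : Type} [Field L] {K : Type} [NormedField K] {I : Type}
  {p : ℕ} [hp : Fact p.Prime] [CharP L p] [CharP K p]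

namespace Germ

variable (G : Germ L K I)

theorem δ_isBigO (x : L) : (G.δ x) =O[G.l] G.d := by
  obtain ⟨C, -, h⟩ := G.lip x
  refine IsBigO.of_bound C ?_
  filter_upwards [h] with i hi
  rwa [Real.norm_of_nonneg (G.d_nonneg i)]

theorem sh_isBigO (x : L) : (G.sh x) =O[G.l] (fun _ => (1 : ℝ)) :=
  (G.sh_tendsto x).isBigO_one ℝ

theorem d_mul_d_isLittleO {S : I → ℝ} (hd : G.d =O[G.l] S) :
    (fun i => G.d i * G.d i) =o[G.l] S := by
  have h1 : G.d =o[G.l] (fun _ => (1 : ℝ)) := (isLittleO_one_iff ℝ).2 G.d_tendsto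
  simpa using h1.mul_isBigO hd

theorem δ_pow_isBigO (x : L) (j : ℕ) : (G.δ (x ^ j)) =O[G.l] (G.δ x) := by
  induction j with
  | zero =>
    refine (isBigO_zero _ _).congr' ?_ EventuallyEq.rfl
    filter_upwards [G.one] with i h
    simp [δ, h]
  | succ j ih =>
    have h1 : (fun i => G.sh (x ^ j) i * G.δ x i + G.ι x * G.δ (x ^ j) i) =O[G.l] (G.δ x) := by
      refine IsBigO.add ?_ (ih.const_mul_left _)
      simpa using (G.sh_isBigO (x ^ j)).mul ((isBigO_refl (G.δ x) G.l).norm_right)
    refine h1.congr' ?_ EventuallyEq.rfl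
    filter_upwards [G.mul (x ^ j) x] with i h
    simp only [δ, pow_succ, h, map_mul]
    ring

/-- `β` and `τ` give the first order expansion of `x` in the `δ c` and `δ t`. -/
def Expands (S : I → ℝ) (c : ℕ → L) (t : L) (g : ℕ) (x : L) (β : ℕ → L) (τ : L) : Prop :=
  (fun i => G.δ x i - (∑ m ∈ Finset.range g, G.ι (β m) * G.δ (c m) i) - G.ι τ * G.δ t i)
    =o[G.l] S

variable {G} {S : I → ℝ} {c : ℕ → L} {t : L} {g : ℕ}

theorem expands_sum {J : Type} (s : Finset J) (x : J → L) (β : J → ℕ → L) (τ : J → L)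
    (h : ∀ j ∈ s, G.Expands S c t g (x j) (β j) (τ j)) :
    G.Expands S c t g (∑ j ∈ s, x j) (fun m => ∑ j ∈ s, β j m) (∑ j ∈ s, τ j) := by
  have h1 := IsLittleO.sum (A := fun j i => G.δ (x j) i
    - (∑ m ∈ Finset.range g, G.ι (β j m) * G.δ (c m) i) - G.ι (τ j) * G.δ t i) h
  refine h1.congr' ?_ EventuallyEq.rfl
  filter_upwards [G.δ_sum s x] with i hi
  rw [Finset.sum_apply]
  simp only [hi, map_sum, Finset.sum_sub_distrib, Finset.sum_mul]
  rw [Finset.sum_comm]

theorem expands_mul (hd : G.d =O[G.l] S) {x y : L} {β β' : ℕ → L} {τ τ' : L}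
    (hx : G.Expands S c t g x β τ) (hy : G.Expands S c t g y β' τ') :
    G.Expands S c t g (x * y) (fun m => x * β' m + y * β m) (x * τ' + y * τ) := by
  have h1 := (hy.const_mul_left (G.ι x)).add (hx.const_mul_left (G.ι y))
  have h2 : (fun i => G.δ x i * G.δ y i) =o[G.l] S :=
    ((G.δ_isBigO x).mul (G.δ_isBigO y)).trans_isLittleO (G.d_mul_d_isLittleO hd)
  refine (h1.add h2).congr' ?_ EventuallyEq.rfl
  filter_upwards [G.δ_mul x y] with i hi
  simp only [hi, map_add, map_mul, add_mul, Finset.sum_add_distrib, mul_sub, Finset.mul_sum,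
    mul_assoc]
  abel

theorem expands_const (hd : G.d =O[G.l] S) (e : L) :
    G.Expands S c t g (e ^ p) (fun _ => 0) 0 := by
  have h1 : (fun i => G.δ e i ^ p) =o[G.l] S := by
    have h2 : (G.δ e) =o[G.l] (fun _ => (1 : ℝ)) :=
      (G.δ_isBigO e).trans_isLittleO ((isLittleO_one_iff ℝ).2 G.d_tendsto)
    have h3 : (fun i => G.δ e i ^ (p - 1) * G.δ e i) =o[G.l] S := by
      have := (h2.pow (Nat.sub_pos_of_lt hp.out.one_lt)).mul_isBigO ((G.δ_isBigO e).trans hd)
      simpa using this
    refine h3.congr_left fun i => ?_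
    rw [← pow_succ, Nat.sub_add_cancel hp.out.one_le]
  refine h1.congr' ?_ EventuallyEq.rfl
  have : ExpChar K p := ExpChar.prime hp.out
  filter_upwards [G.δ_pow_char p e 1] with i hi
  rw [pow_one] at hi
  simp [hi]

theorem expands_self {i₀ : ℕ} (hi : i₀ < g) :
    G.Expands S c t g (c i₀) (fun m => if m = i₀ then 1 else 0) 0 := by
  refine (isLittleO_zero S G.l).congr' ?_ EventuallyEq.rfl
  filter_upwards with i
  rw [Finset.sum_eq_single i₀]
  · simp
  · intro b _ hb
    simp [hb]
  · intro h
    exact absurd (Finset.mem_range.2 hi) h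

theorem expands_t : G.Expands S c t g t (fun _ => 0) 1 := by
  refine (isLittleO_zero S G.l).congr' ?_ EventuallyEq.rfl
  filter_upwards with i
  simp

theorem expands_pow (hd : G.d =O[G.l] S) {x : L} {β : ℕ → L} {τ : L}
    (hx : G.Expands S c t g x β τ) (j : ℕ) :
    G.Expands S c t g (x ^ j) (fun m => j * x ^ (j - 1) * β m) (j * x ^ (j - 1) * τ) := by
  induction j with
  | zero =>
    refine (isLittleO_zero S G.l).congr' ?_ EventuallyEq.rfl
    filter_upwards [G.one] with i h
    simp [δ, h]
  | succ j ih =>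
    rcases Nat.eq_zero_or_pos j with rfl | hj
    · simpa using hx
    have h := expands_mul hd ih hx
    have e1 : ∀ z : L, x ^ j * z + x * (j * x ^ (j - 1) * z)
        = ((j + 1 : ℕ) : L) * x ^ (j + 1 - 1) * z := fun z => by
      obtain ⟨j', rfl⟩ := Nat.exists_eq_add_of_le' hj
      simp only [Nat.add_sub_cancel]
      push_cast
      ring
    rw [pow_succ]
    simpa only [e1] using h

end Germ

/-- The subfields `L ^ p (t, c 0, ..., c (i - 1))`. -/
def tower (p : ℕ) [Fact p.Prime] [CharP L p] (c : ℕ → L) (t : L) :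
    ℕ → {F : Subfield L // (frobenius L p).fieldRange ≤ F}
  | 0 => ⟨ext (frobenius L p).fieldRange t ⟨t, rfl⟩, le_ext _ _ _⟩
  | i + 1 =>
    ⟨ext (tower p c t i).1 (c i) ((tower p c t i).2 ⟨c i, rfl⟩),
      (tower p c t i).2.trans (le_ext _ _ _)⟩

/-- The hypotheses of the descent. -/
structure SlowData (G : Germ L K I) (S : I → ℝ) (p : ℕ) [Fact p.Prime] [CharP L p]
    (c : ℕ → L) (t : L) (g r₀ : ℕ) : Prop where
  d_le : G.d =O[G.l] S
  indep : ∀ r ≤ r₀, ∀ β : ℕ → K,
    (fun i => ∑ m ∈ Finset.range g, β m * G.δ (c m) i ^ p ^ r) =o[G.l] (fun i => S i ^ p ^ r) →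
    ∀ m < g, β m = 0
  t_small : ∀ r ≤ r₀, (G.δ t) =o[G.l] (fun i => S i ^ p ^ r)
  t_not_pow : t ∉ (frobenius L p).fieldRange
  span : ∃ s : Finset L, s.card ≤ p ^ (g + 1) ∧
    ∀ z : L, ∃ a : L → L, z = ∑ b ∈ s, a b ^ p * b

namespace SlowData

variable {G : Germ L K I} {S : I → ℝ} {c : ℕ → L} {t : L} {g r₀ : ℕ}

theorem expansion (h : SlowData G S p c t g r₀) :
    ∀ i ≤ g, ∀ x ∈ (tower p c t i).1, ∃ β τ, G.Expands S c t g x β τ ∧
      (∀ m, i ≤ m → β m = 0) ∧ ((∀ m < g, β m = 0) → x ∈ (tower p c t 0).1) := by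
  intro i
  induction i with
  | zero =>
    intro _ x hx
    obtain ⟨a, ha, hxa⟩ := id hx
    choose e he using fun m => ha m
    have h1 : ∀ m ∈ Finset.range p, G.Expands S c t g (a m * t ^ m)
        (fun l => a m * ((m : L) * t ^ (m - 1) * 0) + t ^ m * 0)
        (a m * ((m : L) * t ^ (m - 1) * 1) + t ^ m * 0) := fun m _ => by
      have := Germ.expands_mul h.d_le (Germ.expands_const h.d_le (e m))
        (Germ.expands_pow h.d_le (Germ.expands_t (G := G) (S := S) (c := c) (t := t) (g := g)) m)
      rwa [show e m ^ p = a m from he m] at this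
    refine ⟨_, _, hxa ▸ Germ.expands_sum _ _ _ _ h1, fun m _ => by simp, fun _ => hx⟩
  | succ i ih =>
    intro hi x hx
    have hig : i < g := hi
    obtain ⟨a, ha, rfl⟩ := id hx
    by_cases hall : ∀ m < p, m ≠ 0 → a m = 0
    · have hx0 : ∑ m ∈ Finset.range p, a m * c i ^ m = a 0 := by
        rw [Finset.sum_eq_single 0]
        · simp
        · intro m hm hm0
          simp [hall m (Finset.mem_range.1 hm) hm0]
        · intro h0
          exact absurd (Finset.mem_range.2 hp.out.pos) h0
      obtain ⟨β, τ, h1, h2, h3⟩ := ih hig.le (a 0) (ha 0)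
      rw [hx0]
      exact ⟨β, τ, h1, fun m hm => h2 m (by omega), h3⟩
    · choose β τ h1 h2 _ using fun m => ih hig.le (a m) (ha m)
      have h4 : ∀ m ∈ Finset.range p, G.Expands S c t g (a m * c i ^ m)
          (fun l => a m * ((m : L) * c i ^ (m - 1) * (if l = i then 1 else 0)) + c i ^ m * β m l)
          (a m * ((m : L) * c i ^ (m - 1) * 0) + c i ^ m * τ m) := fun m _ =>
        Germ.expands_mul h.d_le (h1 m) (Germ.expands_pow h.d_le (Germ.expands_self hig) m)
      refine ⟨_, _, Germ.expands_sum _ _ _ _ h4, fun l hl => ?_, fun hz => ?_⟩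
      · refine Finset.sum_eq_zero fun m _ => ?_
        rw [h2 m l (by omega), if_neg (by omega : ¬ l = i)]
        simp
      · exfalso
        apply hall
        have hci : c i ∉ (tower p c t i).1 := by
          intro hmem
          obtain ⟨β', τ', e1, e2, -⟩ := ih hig.le (c i) hmem
          have e3 : (fun j => ∑ m ∈ Finset.range g,
              G.ι ((if m = i then 1 else 0) - β' m) * G.δ (c m) j ^ p ^ 0)
              =o[G.l] (fun j => S j ^ p ^ 0) := by
            have et : (G.δ t) =o[G.l] S := by simpa using h.t_small 0 (Nat.zero_le _)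
            have := (e1.add (et.const_mul_left (G.ι τ')))
            simp only [pow_zero, pow_one]
            refine this.congr_left fun j => ?_
            simp only [map_sub, sub_mul, Finset.sum_sub_distrib]
            rw [Finset.sum_eq_single (f := fun m => G.ι (if m = i then 1 else 0) * G.δ (c m) j) i]
            · simp
            · intro b _ hb
              simp [hb]
            · intro hno
              exact absurd (Finset.mem_range.2 hig) hno
          have e4 := h.indep 0 (Nat.zero_le _) _ e3 i hig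
          have e5 : (if i = i then (1 : L) else 0) - β' i = 0 :=
            G.ι.injective (by simpa using e4)
          rw [e2 i le_rfl] at e5
          simp at e5
        have hsum : ∑ m ∈ Finset.range p, ((m + 1 : ℕ) : L) *
            (if m + 1 < p then a (m + 1) else 0) * c i ^ m = 0 := by
          have h5 := hz i hig
          have h6 : ∑ m ∈ Finset.range p, a m * ((m : L) * c i ^ (m - 1)) = 0 := by
            rw [← h5]
            refine Finset.sum_congr rfl fun m _ => ?_
            rw [if_pos rfl, h2 m i le_rfl]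
            ring
          obtain ⟨q, hq⟩ := Nat.exists_eq_add_of_le' hp.out.one_le
          have h7 : ∑ m ∈ Finset.range q, a (m + 1) * (((m + 1 : ℕ) : L) * c i ^ m) = 0 := by
            rw [hq, Finset.sum_range_succ'] at h6
            simpa using h6
          rw [show Finset.range p = Finset.range (q + 1) by rw [hq], Finset.sum_range_succ,
            if_neg (by omega), mul_zero, zero_mul, add_zero, ← h7]
          refine Finset.sum_congr rfl fun m hm => ?_
          rw [Finset.mem_range] at hm
          rw [if_pos (by omega)]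
          ring
        have h8 := indep_of_pow_mem (p := p) _ ((tower p c t i).2 ⟨c i, rfl⟩) hci
          (fun m => ((m + 1 : ℕ) : L) * (if m + 1 < p then a (m + 1) else 0))
          (fun m _ => mul_mem (natCast_mem _ _) (by
            split_ifs
            · exact ha _
            · exact zero_mem _)) hsum
        intro m hm hm0
        have h9 := h8 (m - 1) (by omega)
        rw [Nat.sub_add_cancel (Nat.pos_of_ne_zero hm0), if_pos hm] at h9
        refine (mul_eq_zero.1 h9).resolve_left ?_
        intro h0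
        have hdvd := (CharP.cast_eq_zero_iff L p m).1 h0
        exact (fun hdvd => absurd (Nat.le_of_dvd (Nat.pos_of_ne_zero hm0) hdvd) (by omega)) hdvd

theorem c_notMem (h : SlowData G S p c t g r₀) {i : ℕ} (hi : i < g) :
    c i ∉ (tower p c t i).1 := by
  intro hmem
  obtain ⟨β', τ', e1, e2, -⟩ := h.expansion i hi.le (c i) hmem
  have e3 : (fun j => ∑ m ∈ Finset.range g,
      G.ι ((if m = i then 1 else 0) - β' m) * G.δ (c m) j ^ p ^ 0)
      =o[G.l] (fun j => S j ^ p ^ 0) := by
    have et : (G.δ t) =o[G.l] S := by simpa using h.t_small 0 (Nat.zero_le _)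
    simp only [pow_zero, pow_one]
    refine (e1.add (et.const_mul_left (G.ι τ'))).congr_left fun j => ?_
    simp only [map_sub, sub_mul, Finset.sum_sub_distrib]
    rw [Finset.sum_eq_single (f := fun m => G.ι (if m = i then 1 else 0) * G.δ (c m) j) i]
    · simp
    · intro b _ hb
      simp [hb]
    · intro hno
      exact absurd (Finset.mem_range.2 hi) hno
  have e5 : (if i = i then (1 : L) else 0) - β' i = 0 :=
    G.ι.injective (by simpa using h.indep 0 (Nat.zero_le _) _ e3 i hi)
  rw [e2 i le_rfl] at e5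
  simp at e5

theorem tower_indep (h : SlowData G S p c t g r₀) :
    ∀ i ≤ g, ∃ (ι' : Type) (_ : Fintype ι') (f : ι' → L), Fintype.card ι' = p ^ (i + 1) ∧
      (∀ j, f j ∈ (tower p c t i).1) ∧
      ∀ a : ι' → L, (∀ j, a j ∈ (frobenius L p).fieldRange) → ∑ j, a j * f j = 0 →
        ∀ j, a j = 0 := by
  intro i
  induction i with
  | zero =>
    intro _
    refine ⟨Fin p, inferInstance, fun j => t ^ (j : ℕ), by simp, fun j => ?_, fun a ha h0 j => ?_⟩
    · exact pow_mem (show t ∈ (tower p c t 0).1 from self_mem_ext (p := p) (frobenius L p).fieldRange t ⟨t, rfl⟩) _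
    · have h1 := indep_of_pow_mem (p := p) (frobenius L p).fieldRange ⟨t, rfl⟩ h.t_not_pow
        (fun m => if hm : m < p then a ⟨m, hm⟩ else 0)
        (fun m hm => by simp only [hm, dif_pos]; exact ha _) (by
          rw [← Fin.sum_univ_eq_sum_range]
          refine Eq.trans (Finset.sum_congr rfl fun m _ => ?_) h0
          simp)
      simpa using h1 j j.2
  | succ i ih =>
    intro hi
    obtain ⟨ι', inst, f, hcard, hmem, hind⟩ := ih (by omega)
    refine ⟨ι' × Fin p, inferInstance, fun j => f j.1 * c i ^ (j.2 : ℕ),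
      by simp [hcard, pow_succ], fun j => mul_mem (show f j.1 ∈ (tower p c t (i + 1)).1 from
          le_ext (p := p) (tower p c t i).1 (c i) ((tower p c t i).2 ⟨c i, rfl⟩) (hmem _))
        (pow_mem (show c i ∈ (tower p c t (i + 1)).1 from
          self_mem_ext (p := p) (tower p c t i).1 (c i) ((tower p c t i).2 ⟨c i, rfl⟩)) _), fun a ha h0 j => ?_⟩
    set b : ℕ → L := fun m => if hm : m < p then ∑ k, a (k, ⟨m, hm⟩) * f k else 0 with hb
    have h1 := indep_of_pow_mem (p := p) _ ((tower p c t i).2 ⟨c i, rfl⟩) (h.c_notMem hi) b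
      (fun m hm => by
        simp only [hb, hm, dif_pos]
        exact sum_mem fun k _ => mul_mem ((tower p c t i).2 (ha _)) (hmem k)) (by
      rw [← Fin.sum_univ_eq_sum_range, ← h0, Fintype.sum_prod_type, Finset.sum_comm]
      refine Finset.sum_congr rfl fun m _ => ?_
      simp only [hb, Fin.is_lt, dif_pos, Fin.eta, Finset.sum_mul, mul_assoc])
    have h2 := h1 j.2 j.2.2
    simp only [hb, Fin.is_lt, dif_pos, Fin.eta] at h2
    exact hind (fun k => a (k, j.2)) (fun k => ha _) h2 j.1

theorem tower_top (h : SlowData G S p c t g r₀) (z : L) : z ∈ (tower p c t g).1 := by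
  obtain ⟨ι', inst, f, hcard, hmem, hind⟩ := h.tower_indep g le_rfl
  obtain ⟨s, hs, hspan⟩ := h.span
  by_contra hz
  let F := (frobenius L p).fieldRange
  have hli : LinearIndependent F (fun o : Option ι' => o.elim z f) := by
    rw [Fintype.linearIndependent_iff]
    intro a ha
    rw [Fintype.sum_option] at ha
    simp only [Option.elim_none, Option.elim_some] at ha
    have ha' : (a none : L) * z + ∑ j, (a (some j) : L) * f j = 0 := ha
    have h0 : (a none : L) = 0 := by
      by_contra hne
      refine hz ?_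
      have hz' : z = (a none : L)⁻¹ * -∑ j, (a (some j) : L) * f j := by
        rw [← eq_neg_of_add_eq_zero_left ha', inv_mul_cancel_left₀ hne]
      rw [hz']
      exact mul_mem (inv_mem ((tower p c t g).2 (a none).2))
        (neg_mem (sum_mem fun j _ => mul_mem ((tower p c t g).2 (a (some j)).2) (hmem j)))
    rw [h0, zero_mul, zero_add] at ha'
    intro o
    cases o with
    | none => exact Subtype.ext h0
    | some j => exact Subtype.ext (hind _ (fun j => (a (some j)).2) ha' j)
  have htop : Submodule.span F (s : Set L) = ⊤ := by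
    rw [eq_top_iff]
    intro w _
    obtain ⟨a, rfl⟩ := hspan w
    refine sum_mem fun b hb => ?_
    exact Submodule.smul_mem _ (⟨a b ^ p, a b, rfl⟩ : F) (Submodule.subset_span hb)
  have hle := linearIndependent_le_span _ hli (s : Set L) htop
  simp [hcard] at hle
  norm_cast at hle
  omega

/-- The descent. -/
theorem rep (h : SlowData G S p c t g r₀) {y : L}
    (hy : ∀ r ≤ r₀, (G.δ y) =o[G.l] (fun i => S i ^ p ^ r)) :
    ∀ r ≤ r₀ + 1, Rep p r t y := by
  have : ExpChar K p := ExpChar.prime hp.out
  intro r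
  induction r with
  | zero => exact fun _ => rep_zero t y
  | succ r ih =>
    intro hr
    have hr₀ : r ≤ r₀ := by omega
    obtain ⟨a, ha⟩ := ih (by omega)
    have hex : ∀ j, ∃ β τ, G.Expands S c t g (a j) β τ ∧
        ((∀ m < g, β m = 0) → a j ∈ (tower p c t 0).1) := fun j => by
      obtain ⟨β, τ, h1, -, h3⟩ := h.expansion g le_rfl (a j) (h.tower_top _)
      exact ⟨β, τ, h1, h3⟩
    choose β τ hβ hβ0 using hex
    have hA : ∀ j, (fun i => G.δ (a j) i ^ p ^ r
        - ∑ m ∈ Finset.range g, G.ι (β j m) ^ p ^ r * G.δ (c m) i ^ p ^ r)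
        =o[G.l] (fun i => S i ^ p ^ r) := fun j => by
      have et : (G.δ t) =o[G.l] S := by simpa using h.t_small 0 (Nat.zero_le _)
      have h1 := ((hβ j).add (et.const_mul_left (G.ι (τ j)))).pow
        (pow_pos hp.out.pos r)
      refine h1.congr_left fun i => ?_
      simp only [sub_add_cancel, sub_pow_expChar_pow, sum_pow_char_pow p, mul_pow]
    have hB : ∀ j, (fun i => G.δ (a j ^ p ^ r * t ^ j) i - G.ι (t ^ j) *
        ∑ m ∈ Finset.range g, G.ι (β j m) ^ p ^ r * G.δ (c m) i ^ p ^ r)
        =o[G.l] (fun i => S i ^ p ^ r) := fun j => by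
      have h1 : (fun i => G.sh (a j ^ p ^ r) i * G.δ (t ^ j) i) =o[G.l] (fun i => S i ^ p ^ r) := by
        have h2 := ((G.δ_pow_isBigO t j).trans_isLittleO (h.t_small r hr₀))
        simpa using (G.sh_isBigO (a j ^ p ^ r)).mul_isLittleO h2
      refine (h1.add ((hA j).const_mul_left (G.ι (t ^ j)))).congr' ?_ EventuallyEq.rfl
      filter_upwards [G.mul (a j ^ p ^ r) (t ^ j), G.δ_pow_char p (a j) r] with i h3 h4
      rw [mul_sub, ← h4]
      simp only [Germ.δ, h3, map_mul]
      ring
    have hC : (fun i => ∑ m ∈ Finset.range g,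
        G.ι (∑ j ∈ Finset.range (p ^ r), β j m ^ p ^ r * t ^ j) * G.δ (c m) i ^ p ^ r)
        =o[G.l] (fun i => S i ^ p ^ r) := by
      have h1 := (hy r hr₀).sub (IsLittleO.sum (s := Finset.range (p ^ r)) fun j _ => hB j)
      refine h1.congr' ?_ EventuallyEq.rfl
      filter_upwards [G.δ_sum (Finset.range (p ^ r)) fun j => a j ^ p ^ r * t ^ j] with i h2
      rw [Finset.sum_apply, Finset.sum_sub_distrib, ← h2, ← ha, sub_sub_cancel]
      simp only [map_sum, map_mul, map_pow, Finset.mul_sum, Finset.sum_mul]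
      rw [Finset.sum_comm]
      exact Finset.sum_congr rfl fun _ _ => Finset.sum_congr rfl fun _ _ => by ring
    have hzero : ∀ j < p ^ r, ∀ m < g, β j m = 0 := fun j hj m hm => by
      refine rep_indep h.t_not_pow r (fun j => β j m) ?_ j hj
      exact G.ι.injective (by rw [map_zero]; exact h.indep r hr₀ _ hC m hm)
    have hmem : ∀ j < p ^ r, ∃ e : ℕ → L, a j = ∑ m ∈ Finset.range p, e m ^ p * t ^ m :=
      fun j hj => by
      obtain ⟨b, hb, hbe⟩ := hβ0 j (hzero j hj)
      choose e he using fun m => hb m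
      refine ⟨e, hbe.trans (Finset.sum_congr rfl fun m _ => ?_)⟩
      rw [← he m, frobenius_def]
    choose! e he using hmem
    refine ⟨fun k => e (k % p ^ r) (k / p ^ r), ha.trans ?_⟩
    rw [pow_succ', sum_range_mul, Finset.sum_comm]
    refine Finset.sum_congr rfl fun j hj => ?_
    rw [Finset.mem_range] at hj
    rw [he j hj, sum_pow_char_pow p, Finset.sum_mul]
    refine Finset.sum_congr rfl fun m _ => ?_
    have hmod : (m * p ^ r + j) % p ^ r = j := by
      rw [add_comm, Nat.add_mul_mod_self_right, Nat.mod_eq_of_lt hj]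
    have hdiv : (m * p ^ r + j) / p ^ r = m := by
      rw [add_comm, Nat.add_mul_div_right _ _ (pow_pos hp.out.pos r), Nat.div_eq_of_lt hj, zero_add]
    simp only [hmod, hdiv]
    rw [mul_pow, ← pow_mul, ← pow_mul, pow_add]
    ring

end SlowData

end

end Vale.Agent.P217
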