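import Vale.Agent.P217.HighDefs

/-! # P217 interface: displacement of torsion points -/

open scoped Classical

namespace Vale.Agent.P217

noncomputable section

variable {p n : ℕ} [hp : Fact p.Prime] {F : FormalGroup (LTRing p n)}
  {K : Type} [NormedField K] [IsUltrametricDist K] [CompleteSpace K] {ψ : LTRing p n →+* K}
  {h : ℕ} {S₀ c : ℕ}

theorem near_moveDist (D : ActFamily p n F S₀ c) (i : ActIdx p n) :
    Near p n ψ (movedPoint ψ D i) (moveDist ψ D i) := by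
  refine ⟨NNReal.coe_nonneg _, fun w => ?_, fun m => ?_⟩
  · show ψ ((D i).α (MvPowerSeries.C w)) = _
    rw [(D i).fix w]
  · have h1 := Finset.le_sup
      (f := fun m => ‖movedPoint ψ D i (MvPowerSeries.X m) - ψ (MvPowerSeries.X m)‖₊)
      (Finset.mem_univ m)
    exact_mod_cast h1

theorem moveDist_lt_one (hn : 0 < n) (hc : 1 ≤ c) (hψ : IsPoint p n ψ)
    (D : ActFamily p n F S₀ c) (i : ActIdx p n) : moveDist ψ D i < 1 := by
  obtain ⟨θ, hθ0, hθ1, hθ⟩ := hψ.contracting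
  refine lt_of_le_of_lt ?_ hθ1
  rw [moveDist, ← Real.le_toNNReal_iff_coe_le hθ0.le]
  refine Finset.sup_le fun m _ => (Real.le_toNNReal_iff_coe_le hθ0.le).2 ?_
  show ‖movedPoint ψ D i (MvPowerSeries.X m) - ψ (MvPowerSeries.X m)‖ ≤ θ
  rw [movedPoint, RingHom.comp_apply, ← map_sub]
  exact hθ _ (Ideal.pow_le_self (by omega) ((D i).near _))

/-- `φ` moves the disc isometrically. -/
theorem norm_ev_hom_sub (hn : 0 < n) (hψ : IsPoint p n ψ) {S : ℕ} {a : GaloisField p n}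
    (d : ActData p n F S a c) {x y : K} (hx : ‖x‖ < 1) (hy : ‖y‖ < 1) :
    ‖ev ψ d.φ x - ev ψ d.φ y‖ = ‖x - y‖ := by
  set g : PowerSeries (LTRing p n) := PowerSeries.mk fun m => PowerSeries.coeff (m + 2) d.φ with hg
  have hdec : d.φ = PowerSeries.C (PowerSeries.coeff 1 d.φ) * PowerSeries.X ^ 1
      + PowerSeries.X ^ 2 * g := by
    ext m
    rw [map_add, PowerSeries.coeff_C_mul, PowerSeries.coeff_X_pow, PowerSeries.coeff_X_pow_mul',
      hg, PowerSeries.coeff_mk]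
    rcases m with - | - | m
    · simp [d.φ_zero]
    · simp
    · simp
  have he : ∀ t : K, ‖t‖ < 1 →
      ev ψ d.φ t = ψ (PowerSeries.coeff 1 d.φ) * t + t ^ 2 * ev ψ g t := by
    intro t ht
    conv_lhs => rw [hdec]
    rw [ev_add hψ _ _ ht, ev_mul hψ _ _ ht, ev_mul hψ _ _ ht, ev_C hψ, ev_X_pow hψ, ev_X_pow hψ,
      pow_one]
  have hu : ‖ψ (PowerSeries.coeff 1 d.φ)‖ = 1 := by
    obtain ⟨u, hu⟩ := d.φ_unit
    refine le_antisymm (hψ.le_one _) ?_
    have h1 : ψ (u : LTRing p n) * ψ ((u⁻¹ : _ˣ) : LTRing p n) = 1 := by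
      rw [← map_mul, Units.mul_inv, map_one]
    have h2 := congrArg norm h1
    rw [norm_mul, norm_one] at h2
    rw [← hu]
    calc (1 : ℝ) = ‖ψ (u : LTRing p n)‖ * ‖ψ ((u⁻¹ : _ˣ) : LTRing p n)‖ := h2.symm
      _ ≤ ‖ψ (u : LTRing p n)‖ := mul_le_of_le_one_right (norm_nonneg _) (hψ.le_one _)
  rcases eq_or_ne x y with rfl | hne
  · simp
  have hpos : 0 < ‖x - y‖ := norm_pos_iff.2 (sub_ne_zero.2 hne)
  have hhi : ‖x ^ 2 * ev ψ g x - y ^ 2 * ev ψ g y‖ < ‖x - y‖ := by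
    rw [show x ^ 2 * ev ψ g x - y ^ 2 * ev ψ g y
      = (x - y) * (x + y) * ev ψ g x + y ^ 2 * (ev ψ g x - ev ψ g y) by ring]
    refine norm_add_lt_of_lt ?_ ?_
    · rw [norm_mul, norm_mul]
      refine lt_of_le_of_lt (mul_le_of_le_one_right (by positivity) (norm_ev_le_one hψ g hx)) ?_
      exact mul_lt_of_lt_one_right hpos (norm_add_lt_of_lt hx hy)
    · rw [norm_mul, norm_pow]
      refine lt_of_le_of_lt (mul_le_mul_of_nonneg_left (norm_ev_sub_le hψ g hx hy) (by positivity)) ?_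
      exact mul_lt_of_lt_one_left hpos (pow_lt_one₀ (norm_nonneg _) hy two_ne_zero)
  rw [he x hx, he y hy, show ψ (PowerSeries.coeff 1 d.φ) * x + x ^ 2 * ev ψ g x
      - (ψ (PowerSeries.coeff 1 d.φ) * y + y ^ 2 * ev ψ g y)
      = ψ (PowerSeries.coeff 1 d.φ) * (x - y) + (x ^ 2 * ev ψ g x - y ^ 2 * ev ψ g y) by ring]
  have h3 : ‖ψ (PowerSeries.coeff 1 d.φ) * (x - y)‖ = ‖x - y‖ := by rw [norm_mul, hu, one_mul]
  rw [IsUltrametricDist.norm_add_eq_max_of_norm_ne_norm (by rw [h3]; exact hhi.ne'), h3,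
    max_eq_left hhi.le]

theorem iterate_pSeries_lt (hψ : IsPoint p n ψ) {y : K} (hy : ‖y‖ < 1) (l : ℕ) :
    ‖(ev ψ (pSeries p n F))^[l] y‖ < 1 := by
  induction l with
  | zero => simpa using hy
  | succ l ih =>
    rw [Function.iterate_succ_apply']
    exact lt_of_le_of_lt (norm_ev_le hψ _ (pSeries_constantCoeff p n) ih) ih

theorem iterate_pSeries_fadd (hψ : IsPoint p n ψ) (hF : HasHazewinkelLog p n F) {a b : K}
    (ha : ‖a‖ < 1) (hb : ‖b‖ < 1) (l : ℕ) :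
    (ev ψ (pSeries p n F))^[l] (fadd ψ F a b)
      = fadd ψ F ((ev ψ (pSeries p n F))^[l] a) ((ev ψ (pSeries p n F))^[l] b) := by
  induction l with
  | zero => rfl
  | succ l ih =>
    rw [Function.iterate_succ_apply', Function.iterate_succ_apply', Function.iterate_succ_apply',
      ih, ev_pSeries_fadd hψ hF (iterate_pSeries_lt hψ ha l) (iterate_pSeries_lt hψ hb l)]

omit [IsUltrametricDist K] [CompleteSpace K] in
theorem iterate_step {x : ℕ → K} (hstep : ∀ l, ev ψ (pSeries p n F) (x (l + 1)) = x l) (kl : ℕ)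
    (l : ℕ) : (ev ψ (pSeries p n F))^[l] (x (l + kl)) = x kl := by
  induction l with
  | zero => simp
  | succ l ih => rw [Function.iterate_succ_apply, Nat.succ_add, hstep, ih]

theorem iterate_hom (hn : 0 < n) (hψ : IsPoint p n ψ) {S : ℕ} {a : GaloisField p n}
    (d : ActData p n F S a c) {y : K} (hy : ‖y‖ < 1) (l : ℕ) :
    ev ψ d.φ ((ev ψ (pSeries p n F))^[l] y)
      = (ev (ψ.comp d.α.toRingHom) (pSeries p n F))^[l] (ev ψ d.φ y) := by
  induction l with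
  | zero => rfl
  | succ l ih =>
    rw [Function.iterate_succ_apply', Function.iterate_succ_apply', ← ih,
      ev_hom_pSeries hn hψ d (iterate_pSeries_lt hψ hy l)]

theorem iterate_near {ψ' : LTRing p n →+* K} (hψ : IsPoint p n ψ) (hψ' : IsPoint p n ψ') {D : ℝ}
    (hD : Near p n ψ ψ' D) {y : K} (hy : ‖y‖ < 1) (l : ℕ) :
    ‖(ev ψ' (pSeries p n F))^[l] y - (ev ψ (pSeries p n F))^[l] y‖ ≤ D := by
  induction l with
  | zero => simpa using hD.1
  | succ l ih =>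
    rw [Function.iterate_succ_apply', Function.iterate_succ_apply']
    set a := (ev ψ (pSeries p n F))^[l] y
    have ha : ‖a‖ < 1 := iterate_pSeries_lt hψ hy l
    rw [← sub_add_sub_cancel _ (ev ψ' (pSeries p n F) a)]
    refine (IsUltrametricDist.norm_add_le_max _ _).trans (max_le ?_ ?_)
    · exact (norm_ev_sub_le hψ' _ (iterate_pSeries_lt hψ' hy l) ha).trans ih
    · exact (near_ev_sub_le hψ hψ' hD _ (pSeries_constantCoeff p n) ha).trans
        (mul_le_of_le_one_right hD.1 ha.le)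

/-- The common part of the two displacement statements: for large `l` the displacement is, up to
the parameter error, the iterate of a small point with known leading part. -/
theorem displacement_split (hn : 0 < n) (hF : HasHazewinkelLog p n F) (hh : h < n)
    (hψ : IsPoint p n ψ) (hst : OnStratum p n h ψ) (D : ActFamily p n F S₀ c)
    {x : ℕ → K} {w : ℝ} (hw : 0 < w) (hx : ∀ l, ‖x l‖ < 1)
    (hstep : ∀ l, ev ψ (pSeries p n F) (x (l + 1)) = x l)
    (hslope : ∃ l₀, ∀ l ≥ l₀, ‖x l‖ = Real.exp (-(w / ((p : ℝ) ^ n) ^ l))) (kl : ℕ)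
    (i : ActIdx p n) :
    ∃ l₀, ∀ l ≥ l₀, (tropOf ψ hh hψ hst).iterN l (lvlArg p n w kl (S₀ + i.1))
        = (tropOf ψ hh hψ hst).N (lvlArg p n w kl (S₀ + i.1)) ∧ ∃ E : K,
      ‖ψ (teich p n i.2) * x (l + kl) ^ p ^ (S₀ + i.1)‖
        ≤ Real.exp (-(lvlArg p n w kl (S₀ + i.1) / (tropOf ψ hh hψ hst).q ^ l)) ∧
      ‖E - ψ (teich p n i.2) * x (l + kl) ^ p ^ (S₀ + i.1)‖
        < Real.exp (-(lvlArg p n w kl (S₀ + i.1) / (tropOf ψ hh hψ hst).q ^ l)) ∧
      ‖(ev ψ (D i).φ (x kl) - x kl) - (fadd ψ F (x kl) ((ev ψ (pSeries p n F))^[l] E) - x kl)‖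
        ≤ moveDist ψ D i := by
  set T := tropOf ψ hh hψ hst with hT
  set z := lvlArg p n w kl (S₀ + i.1) with hz
  have hppos : (0 : ℝ) < p := by exact_mod_cast hp.out.pos
  have hzpos : 0 < z := div_pos (mul_pos (pow_pos hppos _) hw) (pow_pos (pow_pos hppos _) _)
  obtain ⟨θ, hθ0, hθ1, hθ⟩ := hψ.contracting
  obtain ⟨l₁, hl₁⟩ := hslope
  obtain ⟨l₂, hl₂⟩ := Filter.eventually_atTop.1
    ((T.tendsto_div z).eventually (gt_mem_nhds (neg_pos.2 (Real.log_neg hθ0 hθ1))))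
  obtain ⟨l₃, hl₃⟩ := T.iterN_eventually z hzpos
  refine ⟨max l₁ (max l₂ l₃), fun l hl => ⟨hl₃ l (by omega), ?_⟩⟩
  have hlt : θ < Real.exp (-(z / T.q ^ l)) := by
    have h1 := hl₂ l (by omega)
    calc θ = Real.exp (Real.log θ) := (Real.exp_log hθ0).symm
      _ < Real.exp (-(z / T.q ^ l)) := Real.exp_lt_exp.2 (by linarith)
  obtain ⟨E, hE1, hE2, hE3⟩ := exists_displacement hn hψ hF (D i) hθ (hx (l + kl))
  have hA : ‖ψ (teich p n i.2) * x (l + kl) ^ p ^ (S₀ + i.1)‖ ≤ Real.exp (-(z / T.q ^ l)) := by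
    rw [norm_mul, norm_pow, hl₁ (l + kl) (by omega)]
    refine le_trans (mul_le_of_le_one_left (by positivity) (hψ.le_one _)) (le_of_eq ?_)
    rw [exp_pow_mul]
    congr 1
    show -((p : ℝ) ^ (S₀ + i.1) * (w / ((p : ℝ) ^ n) ^ (l + kl)))
      = -((p : ℝ) ^ (S₀ + i.1) * w / ((p : ℝ) ^ n) ^ kl / ((p : ℝ) ^ n) ^ l)
    rw [div_div, pow_add ((p : ℝ) ^ n), mul_comm (((p : ℝ) ^ n) ^ l)]
    ring
  refine ⟨E, hA, lt_of_le_of_lt hE3 (lt_of_le_of_lt
    (mul_le_of_le_one_right hθ0.le (hx _).le) hlt), ?_⟩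
  rw [sub_sub_sub_cancel_right]
  have hfl : ‖fadd ψ F (x (l + kl)) E‖ < 1 := norm_fadd_lt hψ (hx _) hE1
  have h1 := iterate_hom hn hψ (D i) (hx (l + kl)) l
  rw [iterate_step hstep kl l, hE2] at h1
  have h2 := iterate_pSeries_fadd hψ hF (hx (l + kl)) hE1 l
  rw [iterate_step hstep kl l] at h2
  rw [h1, ← h2]
  exact iterate_near hψ (isPoint_comp hn hψ _) (near_moveDist D i) hfl l

theorem displacement_le (hn : 0 < n) (hF : HasHazewinkelLog p n F) (hh : h < n) (hc : 1 ≤ c)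
    (hψ : IsPoint p n ψ) (hst : OnStratum p n h ψ) (D : ActFamily p n F S₀ c)
    {x : ℕ → K} {w : ℝ} (hw : 0 < w) (hx : ∀ l, ‖x l‖ < 1)
    (hstep : ∀ l, ev ψ (pSeries p n F) (x (l + 1)) = x l)
    (hslope : ∃ l₀, ∀ l ≥ l₀, ‖x l‖ = Real.exp (-(w / ((p : ℝ) ^ n) ^ l))) (kl : ℕ) :
    ∀ i : ActIdx p n, ‖ev ψ (D i).φ (x kl) - x kl‖ ≤
      max (Real.exp (-((tropOf ψ hh hψ hst).N (lvlArg p n w kl (S₀ + i.1)))))
        (moveDist ψ D i) := by
  intro i
  obtain ⟨l₀, hl₀⟩ := displacement_split hn hF hh hψ hst D hw hx hstep hslope kl i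
  obtain ⟨hN, E, hA, hEA, hsplit⟩ := hl₀ l₀ le_rfl
  set T := tropOf ψ hh hψ hst with hT
  set z := lvlArg p n w kl (S₀ + i.1) with hz
  have hppos : (0 : ℝ) < p := by exact_mod_cast hp.out.pos
  have hzpos : 0 < z := div_pos (mul_pos (pow_pos hppos _) hw) (pow_pos (pow_pos hppos _) _)
  set A := ψ (teich p n i.2) * x (l₀ + kl) ^ p ^ (S₀ + i.1)
  have hE : ‖E‖ ≤ Real.exp (-(z / T.q ^ l₀)) := by
    rw [← sub_add_cancel E A]
    exact (IsUltrametricDist.norm_add_le_max _ _).trans (max_le hEA.le hA)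
  have hE1 : ‖E‖ < 1 := lt_of_le_of_lt hE
    (Real.exp_lt_one_iff.2 (neg_neg_iff_pos.2 (div_pos hzpos (pow_pos T.q_pos _))))
  have hb := norm_iterate_le hn hF hh hψ hst l₀ hzpos hE
  rw [hN] at hb
  have hb' : ‖fadd ψ F (x kl) ((ev ψ (pSeries p n F))^[l₀] E) - x kl‖ ≤ Real.exp (-T.N z) := by
    have := norm_fadd_sub_fadd (F := F) hψ (hx kl) (iterate_pSeries_lt (F := F) hψ hE1 l₀)
      (by simp : ‖(0 : K)‖ < 1)
    rw [(fadd_zero hψ (hx kl)).1, sub_zero] at this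
    rw [this]
    exact hb
  rw [← sub_add_cancel (ev ψ (D i).φ (x kl) - x kl)
    (fadd ψ F (x kl) ((ev ψ (pSeries p n F))^[l₀] E) - x kl)]
  exact (IsUltrametricDist.norm_add_le_max _ _).trans
    (max_le (hsplit.trans (le_max_right _ _)) (hb'.trans (le_max_left _ _)))

theorem displacement_leading (hn : 0 < n) (hF : HasHazewinkelLog p n F) (hh : h < n) (hc : 1 ≤ c)
    (hψ : IsPoint p n ψ) (hst : OnStratum p n h ψ) (D : ActFamily p n F S₀ c)
    {x : ℕ → K} {w : ℝ} (hw : 0 < w) (hx : ∀ l, ‖x l‖ < 1)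
    (hstep : ∀ l, ev ψ (pSeries p n F) (x (l + 1)) = x l)
    (hslope : ∃ l₀, ∀ l ≥ l₀, ‖x l‖ = Real.exp (-(w / ((p : ℝ) ^ n) ^ l))) (kl : ℕ)
    (hkl : 1 ≤ kl) :
    ∀ i : ActIdx p n, ∃ l₀, ∀ l ≥ l₀,
      ‖(ev ψ (D i).φ (x kl) - x kl) -
          ∑ J ∈ Act ψ (tropOf ψ hh hψ hst) l (lvlArg p n w kl (S₀ + i.1)),
            lamCoeff ψ l J * (ψ (teich p n i.2) * x (l + kl) ^ p ^ (S₀ + i.1)) ^ p ^ J‖
        < Real.exp (-((tropOf ψ hh hψ hst).N (lvlArg p n w kl (S₀ + i.1))))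
      ∨ ‖(ev ψ (D i).φ (x kl) - x kl) -
          ∑ J ∈ Act ψ (tropOf ψ hh hψ hst) l (lvlArg p n w kl (S₀ + i.1)),
            lamCoeff ψ l J * (ψ (teich p n i.2) * x (l + kl) ^ p ^ (S₀ + i.1)) ^ p ^ J‖
        ≤ moveDist ψ D i := by
  intro i
  obtain ⟨l₀, hl₀⟩ := displacement_split hn hF hh hψ hst D hw hx hstep hslope kl i
  refine ⟨l₀, fun l hl => ?_⟩
  obtain ⟨hN, E, hA, hEA, hsplit⟩ := hl₀ l hl
  set T := tropOf ψ hh hψ hst with hT
  set z := lvlArg p n w kl (S₀ + i.1) with hz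
  have hppos : (0 : ℝ) < p := by exact_mod_cast hp.out.pos
  have hzpos : 0 < z := div_pos (mul_pos (pow_pos hppos _) hw) (pow_pos (pow_pos hppos _) _)
  have hXpos : 0 < z / T.q ^ l := div_pos hzpos (pow_pos T.q_pos _)
  set A := ψ (teich p n i.2) * x (l + kl) ^ p ^ (S₀ + i.1) with hAdef
  set B := Real.exp (-(z / T.q ^ l)) with hB
  set R := Real.exp (-T.N z) with hR
  have hE : ‖E‖ ≤ B := by
    rw [← sub_add_cancel E A]
    exact (IsUltrametricDist.norm_add_le_max _ _).trans (max_le hEA.le hA)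
  have hE1 : ‖E‖ < 1 := lt_of_le_of_lt hE (Real.exp_lt_one_iff.2 (neg_neg_iff_pos.2 hXpos))
  obtain ⟨-, happ⟩ := iterate_approx hn hF hh hψ hst hXpos hE l
  have hiter : T.step^[l] (z / T.q ^ l) = T.N z := hN
  rw [← hT, hiter] at happ
  set b := (ev ψ (pSeries p n F))^[l] E with hbdef
  have hbR : ‖b‖ ≤ R := by
    have := norm_iterate_le hn hF hh hψ hst l hzpos hE
    rwa [hN] at this
  have hb1 : ‖b‖ < 1 := iterate_pSeries_lt hψ hE1 l
  -- the group law costs a strictly smaller term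
  have h2 : ‖fadd ψ F (x kl) b - x kl - b‖ < R := by
    rw [sub_sub]
    refine lt_of_le_of_lt (norm_fadd_sub_add_le hψ (hx kl) hb1) ?_
    exact lt_of_le_of_lt (mul_le_mul_of_nonneg_left hbR (norm_nonneg _))
      (mul_lt_of_lt_one_left (Real.exp_pos _) (hx kl))
  -- the active part at `E` and at the model point agree up to smaller terms
  have h3 : ‖∑ J ∈ Finset.range (n * l + 1), lamCoeff ψ l J * (E ^ p ^ J - A ^ p ^ J)‖ < R := by
    refine norm_sum_lt (Real.exp_pos _) fun J _ => ?_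
    rcases eq_or_ne (lamCoeff ψ l J) 0 with h0 | hne
    · rw [h0, zero_mul, norm_zero]
      exact Real.exp_pos _
    have hJ1 : 1 ≤ p ^ J := Nat.one_le_pow _ _ hp.out.pos
    have hlt : ‖E ^ p ^ J - A ^ p ^ J‖ < B ^ p ^ J :=
      calc ‖E ^ p ^ J - A ^ p ^ J‖ ≤ ‖E - A‖ * B ^ (p ^ J - 1) := norm_pow_sub_pow_le_mul hE hA _
        _ < B * B ^ (p ^ J - 1) := mul_lt_mul_of_pos_right hEA (pow_pos (Real.exp_pos _) _)
        _ = B ^ p ^ J := by rw [← pow_succ', Nat.sub_add_cancel hJ1]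
    rw [norm_mul]
    refine lt_of_lt_of_le (mul_lt_mul_of_pos_left hlt (norm_pos_iff.2 hne)) ?_
    have := lamCoeff_bound' hh hψ hst l J (z / T.q ^ l)
    rwa [← hT, hiter] at this
  have h4 : ‖∑ J ∈ Finset.range (n * l + 1) \ Act ψ T l z, lamCoeff ψ l J * A ^ p ^ J‖ < R := by
    refine norm_sum_lt (Real.exp_pos _) fun J hJ => ?_
    obtain ⟨-, hJ2⟩ := Finset.mem_sdiff.1 hJ
    rw [norm_mul, norm_pow]
    refine lt_of_le_of_lt
      (mul_le_mul_of_nonneg_left (pow_le_pow_left₀ (norm_nonneg _) hA _) (norm_nonneg _)) ?_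
    refine lt_of_le_of_ne ?_ fun he => hJ2 ((mem_Act_iff hh hψ hst).2 ?_)
    · have := lamCoeff_bound' hh hψ hst l J (z / T.q ^ l)
      rwa [← hT, hiter] at this
    · rw [← hT, hN]
      exact he
  have hsum := Finset.sum_sdiff (s₁ := Act ψ T l z) (s₂ := Finset.range (n * l + 1))
    (f := fun J => lamCoeff ψ l J * A ^ p ^ J) (Finset.filter_subset _ _)
  have hsmall := norm_add_lt_of_lt (norm_add_lt_of_lt h2 happ) (norm_add_lt_of_lt h3 h4)
  simp only [mul_sub, Finset.sum_sub_distrib] at hsmall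
  rw [← hsum] at hsmall
  have e : ev ψ (D i).φ (x kl) - x kl - ∑ J ∈ Act ψ T l z, lamCoeff ψ l J * A ^ p ^ J
      = (ev ψ (D i).φ (x kl) - x kl - (fadd ψ F (x kl) b - x kl))
        + (fadd ψ F (x kl) b - x kl - b
          + (b - ∑ J ∈ Finset.range (n * l + 1), lamCoeff ψ l J * E ^ p ^ J)
          + (∑ J ∈ Finset.range (n * l + 1), lamCoeff ψ l J * E ^ p ^ J
            - (∑ J ∈ Finset.range (n * l + 1) \ Act ψ T l z, lamCoeff ψ l J * A ^ p ^ J
              + ∑ J ∈ Act ψ T l z, lamCoeff ψ l J * A ^ p ^ J)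
            + ∑ J ∈ Finset.range (n * l + 1) \ Act ψ T l z, lamCoeff ψ l J * A ^ p ^ J)) := by
    ring
  rw [e]
  rcases lt_or_ge (moveDist ψ D i) R with hlt | hge
  · exact Or.inl (norm_add_lt_of_lt (lt_of_le_of_lt hsplit hlt) hsmall)
  · exact Or.inr ((IsUltrametricDist.norm_add_le_max _ _).trans
      (max_le hsplit (hsmall.le.trans hge)))

end

end Vale.Agent.P217
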