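import Mathlib.Algebra.BigOperators.Intervals
import Mathlib.Algebra.Polynomial.AlgebraMap
import Mathlib.Algebra.Polynomial.Derivative
import Mathlib.Algebra.Polynomial.Expand
import Mathlib.NumberTheory.Basic
import Mathlib.Tactic

/-!
The parameters of the logarithm obtained from a `p`-typical logarithm by a strict isomorphism
`∑^F b_k x^(p^k)`, `b_0 = 1`: they are integral (congruences of Dwork type), they depend
polynomially on the `b_k`, and their linear part is triangular modulo the maximal ideal.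
-/

open scoped BigOperators
open Finset

namespace Vale.Agent.P217.EtaR

section Defs

variable {K L : Type*} [CommRing K] [CommRing L]

/-- The coefficients `γ` with `l_N = ∑_k γ_{N-k} β_k^(p^(N-k))`, where `β_0 = 1`. -/
def gam (p : ℕ) (l β : ℕ → K) : ℕ → K
  | 0 => 1
  | N + 1 => l (N + 1) - ∑ k : Fin (N + 1), gam p l β (N - k.1) * β (k.1 + 1) ^ p ^ (N - k.1)
  decreasing_by omega

/-- The parameters of a logarithm `g`: `par g N` is the parameter with index `N + 1`. -/
def par (p : ℕ) (g : ℕ → K) : ℕ → K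
  | N => (p : K) * g (N + 1) - ∑ j : Fin N, g (j.1 + 1) * par p g (N - 1 - j.1) ^ p ^ (j.1 + 1)
  decreasing_by omega

variable {p : ℕ} {l β : ℕ → K}

lemma gam_zero : gam p l β 0 = 1 := by rw [gam]

lemma gam_succ (N : ℕ) : gam p l β (N + 1)
    = l (N + 1) - ∑ k ∈ range (N + 1), gam p l β (N - k) * β (k + 1) ^ p ^ (N - k) := by
  rw [gam, Fin.sum_univ_eq_sum_range (fun k => gam p l β (N - k) * β (k + 1) ^ p ^ (N - k))]

lemma eq_gam_add (l0 : l 0 = 1) : ∀ N, l N
    = gam p l β N + ∑ k ∈ range N, gam p l β (N - 1 - k) * β (k + 1) ^ p ^ (N - 1 - k)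
  | 0 => by simp [gam_zero, l0]
  | N + 1 => by rw [gam_succ, Nat.add_sub_cancel, sub_add_cancel]

lemma par_eq (g : ℕ → K) (N : ℕ) : par p g N
    = (p : K) * g (N + 1) - ∑ j ∈ range N, g (j + 1) * par p g (N - 1 - j) ^ p ^ (j + 1) := by
  rw [par, Fin.sum_univ_eq_sum_range (fun j => g (j + 1) * par p g (N - 1 - j) ^ p ^ (j + 1))]

lemma mul_eq_sum_par {g : ℕ → K} (g0 : g 0 = 1) (N : ℕ) :
    (p : K) * g (N + 1) = ∑ j ∈ range (N + 1), g j * par p g (N - j) ^ p ^ j := by
  rw [sum_range_succ', g0, pow_zero, pow_one, one_mul, Nat.sub_zero, par_eq g N,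
    show ∑ j ∈ range N, g (j + 1) * par p g (N - (j + 1)) ^ p ^ (j + 1)
      = ∑ j ∈ range N, g (j + 1) * par p g (N - 1 - j) ^ p ^ (j + 1) from
      sum_congr rfl fun j _ => by rw [show N - (j + 1) = N - 1 - j by omega]]
  ring

lemma gam_congr {β' : ℕ → K} : ∀ N, (∀ k, 1 ≤ k → k ≤ N → β k = β' k) →
    gam p l β N = gam p l β' N := by
  intro N
  induction N using Nat.strong_induction_on with
  | _ N ih =>
    intro h
    rcases N with _ | N
    · rw [gam_zero, gam_zero]
    rw [gam_succ, gam_succ]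
    refine congrArg _ (sum_congr rfl fun k hk => ?_)
    have := mem_range.1 hk
    rw [ih (N - k) (by omega) fun i h1 h2 => h i h1 (by omega), h (k + 1) (by omega) (by omega)]

lemma gam_eq_self (hp : p ≠ 0) (l0 : l 0 = 1) :
    ∀ N, (∀ k, 1 ≤ k → k ≤ N → β k = 0) → gam p l β N = l N
  | 0, _ => by rw [gam_zero, l0]
  | N + 1, h => by
    rw [gam_succ, sum_eq_zero, sub_zero]
    intro k hk
    have := mem_range.1 hk
    rw [h (k + 1) (by omega) (by omega), zero_pow (pow_ne_zero _ hp), mul_zero]

lemma par_congr {g g' : ℕ → K} : ∀ N, (∀ j, 1 ≤ j → j ≤ N + 1 → g j = g' j) →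
    par p g N = par p g' N := by
  intro N
  induction N using Nat.strong_induction_on with
  | _ N ih =>
    intro h
    rw [par_eq, par_eq, h (N + 1) (by omega) le_rfl]
    refine congrArg _ (sum_congr rfl fun k hk => ?_)
    have := mem_range.1 hk
    rw [ih (N - 1 - k) (by omega) fun i h1 h2 => h i h1 (by omega), h (k + 1) (by omega) (by omega)]

lemma map_gam (f : K →+* L) : ∀ N, f (gam p l β N) = gam p (f ∘ l) (f ∘ β) N := by
  intro N
  induction N using Nat.strong_induction_on with
  | _ N ih =>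
    rcases N with _ | N
    · rw [gam_zero, gam_zero, map_one]
    rw [gam_succ, gam_succ, map_sub, map_sum]
    refine congrArg₂ _ rfl (sum_congr rfl fun k hk => ?_)
    rw [map_mul, map_pow, ih _ (by omega)]
    rfl

lemma map_par (f : K →+* L) (g : ℕ → K) : ∀ N, f (par p g N) = par p (f ∘ g) N := by
  intro N
  induction N using Nat.strong_induction_on with
  | _ N ih =>
    rw [par_eq, par_eq, map_sub, map_sum, map_mul, map_natCast]
    refine congrArg₂ _ rfl (sum_congr rfl fun k hk => ?_)
    have := mem_range.1 hk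
    rw [map_mul, map_pow, ih _ (by omega)]
    rfl

lemma map_par_gam (f : K →+* L) (N : ℕ) :
    f (par p (gam p l β) N) = par p (gam p (f ∘ l) (f ∘ β)) N := by
  rw [map_par]
  exact par_congr N fun j _ _ => map_gam f j

end Defs

variable {A K : Type*} [CommRing A] [CommRing K]

/-- The multiples of `p` of the integral elements. -/
def pMul (p : ℕ) (ι : A →+* K) : AddSubgroup K :=
  ((AddMonoidHom.mulLeft (p : K)).comp ι.toAddMonoidHom).range

lemma mem_pMul {p : ℕ} {ι : A →+* K} {x : K} : x ∈ pMul p ι ↔ ∃ a, (p : K) * ι a = x := Iff.rfl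

/-- A `p`-typical logarithm `l` with parameters `u` and a Frobenius lift. -/
structure IsFrame (p : ℕ) (ι : A →+* K) (σ : A →+* A) (τ : K →+* K) (u : ℕ → A) (l : ℕ → K) :
    Prop where
  prime : p.Prime
  inj : Function.Injective ι
  frob : ∀ a, (p : A) ∣ σ a - a ^ p
  comm : ∀ a, τ (ι a) = ι (σ a)
  unit : IsUnit (p : K)
  l_zero : l 0 = 1
  funEq : ∀ m, (p : K) * l (m + 1)
    = ∑ i ∈ range (m + 1), ι (u (i + 1)) * (τ ^ (i + 1)) (l (m - i))
  recur : ∀ m, (p : K) * l (m + 1) = ∑ j ∈ range (m + 1), l j * ι (u (m + 1 - j)) ^ p ^ j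

namespace IsFrame

variable {p : ℕ} {ι : A →+* K} {σ : A →+* A} {τ : K →+* K} {u : ℕ → A} {l : ℕ → K}

lemma pow_comm' (h : IsFrame p ι σ τ u l) (i : ℕ) (a : A) : (τ ^ i) (ι a) = ι ((σ ^ i) a) := by
  induction i with
  | zero => simp
  | succ i ih => rw [pow_succ', pow_succ', RingHom.coe_mul, RingHom.coe_mul, Function.comp_apply,
      Function.comp_apply, ih, h.comm]

lemma frob_pow (h : IsFrame p ι σ τ u l) (i : ℕ) (a : A) :
    (p : A) ∣ (σ ^ i) a - a ^ p ^ i := by
  induction i with
  | zero => simp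
  | succ i ih =>
    rw [pow_succ', RingHom.coe_mul, Function.comp_apply, pow_succ p i, pow_mul]
    have h2 : (p : A) ∣ (σ ^ i) a ^ p - (a ^ p ^ i) ^ p :=
      ih.trans (sub_dvd_pow_sub_pow _ _ _)
    have := dvd_add (h.frob ((σ ^ i) a)) h2
    rwa [sub_add_sub_cancel] at this

lemma den_log (h : IsFrame p ι σ τ u l) : ∀ m, (p : K) ^ m * l m ∈ ι.range := by
  intro m
  induction m using Nat.strong_induction_on with
  | _ m ih =>
    rcases m with _ | m
    · simp [h.l_zero]
    rw [pow_succ, mul_assoc, h.recur, mul_sum]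
    refine sum_mem fun j hj => ?_
    have := mem_range.1 hj
    rw [show (p : K) ^ m * (l j * ι (u (m + 1 - j)) ^ p ^ j)
      = (p : K) ^ (m - j) * ((p : K) ^ j * l j) * ι (u (m + 1 - j)) ^ p ^ j by
        rw [show (p : K) ^ m = (p : K) ^ (m - j) * (p : K) ^ j by
          rw [← pow_add]; congr 1; omega]
        ring]
    exact mul_mem (mul_mem (pow_mem (natCast_mem _ p) _) (ih j (by omega))) (pow_mem (ι.mem_range_self _) _)

lemma den (h : IsFrame p ι σ τ u l) (b : ℕ → A) :
    ∀ m, (p : K) ^ m * gam p l (ι ∘ b) m ∈ ι.range := by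
  intro m
  induction m using Nat.strong_induction_on with
  | _ m ih =>
    rcases m with _ | m
    · simp [gam_zero]
    rw [gam_succ, mul_sub, mul_sum]
    refine sub_mem (h.den_log _) (sum_mem fun k hk => ?_)
    have := mem_range.1 hk
    rw [show (p : K) ^ (m + 1) = (p : K) ^ (k + 1) * (p : K) ^ (m - k) by
      rw [← pow_add]; congr 1; omega]
    rw [mul_assoc, ← mul_assoc ((p : K) ^ (m - k))]
    exact mul_mem (pow_mem (natCast_mem _ p) _)
      (mul_mem (ih _ (by omega)) (pow_mem (ι.mem_range_self _) _))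

/-- The congruence behind both integrality statements. -/
lemma twist (h : IsFrame p ι σ τ u l) (b : ℕ → A) (c a : A) (i r : ℕ) :
    ι c * ((τ ^ i) (gam p l (ι ∘ b) r) * (ι ((σ ^ i) a) ^ p ^ r - ι a ^ p ^ (i + r)))
      ∈ pMul p ι := by
  obtain ⟨d, hd⟩ := h.den b r
  obtain ⟨q, hq⟩ := dvd_sub_pow_of_dvd_sub (h.frob_pow i a) r
  refine mem_pMul.2 ⟨c * (σ ^ i) d * q, ?_⟩
  have e : (p : K) ^ r * (τ ^ i) (gam p l (ι ∘ b) r) = ι ((σ ^ i) d) := by
    rw [← h.pow_comm', hd, map_mul, map_pow, map_natCast]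
  rw [← pow_mul, ← pow_add] at hq
  rw [← map_pow ι, ← map_pow ι, ← map_sub, hq, map_mul, map_mul, map_mul, map_pow, map_natCast, ← e]
  ring

/-- The defect of the functional equation. -/
lemma defect (h : IsFrame p ι σ τ u l) (b : ℕ → A) : ∀ N, (p : K) * gam p l (ι ∘ b) (N + 1)
    - ∑ i ∈ range (N + 1), ι (u (i + 1)) * (τ ^ (i + 1)) (gam p l (ι ∘ b) (N - i))
      ∈ pMul p ι := by
  intro N
  induction N using Nat.strong_induction_on with
  | _ N ih =>
  set g := gam p l (ι ∘ b) with hg
  -- the defects at the lower indices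
  have hd : ∀ M, ∃ e, M ≤ N → (p : K) * g M
      = (p : K) * ι e + ∑ i ∈ range M, ι (u (i + 1)) * (τ ^ (i + 1)) (g (M - 1 - i)) := by
    rintro (_ | M)
    · exact ⟨1, fun _ => by simp [hg, gam_zero]⟩
    · by_cases hM : M + 1 ≤ N
      · obtain ⟨e, he⟩ := mem_pMul.1 (ih M (by omega))
        refine ⟨e, fun _ => ?_⟩
        rw [he, Nat.add_sub_cancel, sub_add_cancel]
      · exact ⟨0, fun h' => absurd h' hM⟩
  choose e he using hd
  set X : ℕ → ℕ → K := fun i k => ι (u (i + 1)) * ((τ ^ (i + 1)) (g (N - i - 1 - k))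
    * ι ((σ ^ (i + 1)) (b (k + 1))) ^ p ^ (N - i - 1 - k)) with hX
  set Y : ℕ → ℕ → K := fun i k => ι (u (i + 1)) * ((τ ^ (i + 1)) (g (N - i - 1 - k))
    * ι (b (k + 1)) ^ p ^ (i + 1 + (N - i - 1 - k))) with hY
  have key : (p : K) * g (N + 1) - ∑ i ∈ range (N + 1), ι (u (i + 1)) * (τ ^ (i + 1)) (g (N - i))
      = ∑ i ∈ range (N + 1), ∑ k ∈ range (N - i), (X i k - Y i k)
        - ∑ k ∈ range (N + 1), (p : K) * ι (e (N - k) * b (k + 1) ^ p ^ (N - k)) := by
    have h1 : ∀ i ∈ range (N + 1), ι (u (i + 1)) * (τ ^ (i + 1)) (l (N - i))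
        = ι (u (i + 1)) * (τ ^ (i + 1)) (g (N - i)) + ∑ k ∈ range (N - i), X i k := by
      intro i _
      rw [eq_gam_add (p := p) (β := ι ∘ b) h.l_zero (N - i), ← hg, map_add, map_sum, mul_add, mul_sum]
      refine congrArg _ (sum_congr rfl fun k _ => ?_)
      rw [map_mul, map_pow, Function.comp_apply, h.pow_comm']
    have h2 : ∀ k ∈ range (N + 1), (p : K) * (g (N - k) * ι (b (k + 1)) ^ p ^ (N - k))
        = (p : K) * ι (e (N - k) * b (k + 1) ^ p ^ (N - k)) + ∑ i ∈ range (N - k), Y i k := by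
      intro k hk
      rw [← mul_assoc, he (N - k) (by omega), add_mul, sum_mul, map_mul, map_pow, mul_assoc]
      refine congrArg _ (sum_congr rfl fun i hi => ?_)
      have := mem_range.1 hi
      simp only [hY]
      rw [show N - k - 1 - i = N - i - 1 - k by omega,
        show i + 1 + (N - i - 1 - k) = N - k by omega, mul_assoc]
    have h3 : ∑ k ∈ range (N + 1), ∑ i ∈ range (N - k), Y i k
        = ∑ i ∈ range (N + 1), ∑ k ∈ range (N - i), Y i k :=
      sum_comm' fun k i => by simp only [mem_range]; omega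
    rw [hg, gam_succ, ← hg]
    simp only [Function.comp_apply, mul_sub, mul_sum]
    rw [h.funEq, sum_congr rfl h1, sum_congr rfl h2, sum_add_distrib, sum_add_distrib, h3]
    simp only [sum_sub_distrib]
    ring
  rw [key]
  refine sub_mem (sum_mem fun i _ => sum_mem fun k _ => ?_) (sum_mem fun k _ => mem_pMul.2 ⟨_, rfl⟩)
  simp only [hX, hY]
  rw [← mul_sub, ← mul_sub]
  exact h.twist b _ _ _ _

/-- The parameters are integral. -/
theorem par_mem (h : IsFrame p ι σ τ u l) (b : ℕ → A) :
    ∀ N, par p (gam p l (ι ∘ b)) N ∈ ι.range := by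
  intro N
  induction N using Nat.strong_induction_on with
  | _ N ih =>
  set g := gam p l (ι ∘ b) with hg
  set w := par p g with hw
  have ha' : ∀ M, ∃ a, M < N → ι a = w M := fun M => by
    by_cases hM : M < N
    · obtain ⟨a, ha⟩ := ih M hM
      exact ⟨a, fun _ => ha⟩
    · exact ⟨0, fun h' => absurd h' hM⟩
  choose a ha using ha'
  have hd' : ∀ M, ∃ e, (p : K) * g (M + 1)
      = (p : K) * ι e + ∑ i ∈ range (M + 1), ι (u (i + 1)) * (τ ^ (i + 1)) (g (M - i)) := by
    intro M
    obtain ⟨e, he⟩ := mem_pMul.1 (h.defect b M)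
    exact ⟨e, by rw [he, sub_add_cancel]⟩
  choose e he using hd'
  suffices H : (p : K) * w N ∈ pMul p ι by
    obtain ⟨c, hc⟩ := mem_pMul.1 H
    exact ⟨c, h.unit.mul_left_cancel hc⟩
  set X : ℕ → ℕ → K := fun i r => ι (u (i + 1)) * ((τ ^ (i + 1)) (g r)
    * ι ((σ ^ (i + 1)) (a (N - 1 - i - r))) ^ p ^ r) with hX
  set Y : ℕ → ℕ → K := fun i r => ι (u (i + 1)) * ((τ ^ (i + 1)) (g r)
    * ι (a (N - 1 - i - r)) ^ p ^ (i + 1 + r)) with hY
  have key : (p : K) * w N = ∑ i ∈ range N, ∑ r ∈ range (N - i), (X i r - Y i r)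
      + (p : K) * ι (p * e N + u (N + 1))
      - ∑ j ∈ range N, (p : K) * ι (e j * a (N - 1 - j) ^ p ^ (j + 1)) := by
    have h1 : ∀ i ∈ range N, (p : K) * (ι (u (i + 1)) * (τ ^ (i + 1)) (g (N - i)))
        = ∑ r ∈ range (N - i), X i r := by
      intro i hi
      have := mem_range.1 hi
      obtain ⟨M, hM⟩ : ∃ M, N - i = M + 1 := ⟨N - i - 1, by omega⟩
      have e1 := congrArg (τ ^ (i + 1)) (mul_eq_sum_par (p := p) (g := g) gam_zero M)
      rw [map_mul, map_natCast, map_sum] at e1
      rw [hM, mul_left_comm, e1, mul_sum]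
      refine sum_congr rfl fun r hr => ?_
      have := mem_range.1 hr
      simp only [hX]
      rw [show N - 1 - i - r = M - r by omega, map_mul, map_pow, ← hw,
        ← ha (M - r) (by omega), h.pow_comm']
    have h2 : ∀ j ∈ range N, (p : K) * (g (j + 1) * w (N - 1 - j) ^ p ^ (j + 1))
        = (p : K) * ι (e j * a (N - 1 - j) ^ p ^ (j + 1))
          + ∑ i ∈ range (j + 1), Y i (j - i) := by
      intro j hj
      have := mem_range.1 hj
      rw [← mul_assoc, he j, add_mul, sum_mul, ← ha (N - 1 - j) (by omega), map_mul, map_pow,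
        mul_assoc]
      refine congrArg _ (sum_congr rfl fun i hi => ?_)
      have := mem_range.1 hi
      simp only [hY]
      rw [show N - 1 - i - (j - i) = N - 1 - j by omega, show i + 1 + (j - i) = j + 1 by omega,
        mul_assoc]
    rw [hw, par_eq, ← hw, mul_sub, he N, mul_add, mul_sum, mul_sum, sum_range_succ,
      sum_congr rfl h1, sum_congr rfl h2, sum_add_distrib, sum_range_diag_flip N Y, Nat.sub_self,
      hg, gam_zero, map_one, map_add, map_mul, map_natCast]
    simp only [sum_sub_distrib]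
    ring
  rw [key]
  refine sub_mem (add_mem (sum_mem fun i _ => sum_mem fun r _ => ?_) (mem_pMul.2 ⟨_, rfl⟩))
    (sum_mem fun k _ => mem_pMul.2 ⟨_, rfl⟩)
  simp only [hX, hY]
  rw [← mul_sub, ← mul_sub]
  exact h.twist b _ _ _ _

/-- The parameters of `l` itself. -/
lemma par_self (h : IsFrame p ι σ τ u l) : ∀ N, par p l N = ι (u (N + 1)) := by
  intro N
  induction N using Nat.strong_induction_on with
  | _ N ih =>
    rw [par_eq, h.recur, sum_range_succ', h.l_zero, pow_zero, pow_one, one_mul, Nat.sub_zero]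
    rw [show ∑ j ∈ range N, l (j + 1) * par p l (N - 1 - j) ^ p ^ (j + 1)
      = ∑ j ∈ range N, l (j + 1) * ι (u (N + 1 - (j + 1))) ^ p ^ (j + 1) from
      sum_congr rfl fun j hj => by
        have := mem_range.1 hj
        rw [ih _ (by omega), show N - 1 - j + 1 = N + 1 - (j + 1) by omega]]
    ring

/-- The integral parameters. -/
noncomputable def V (h : IsFrame p ι σ τ u l) (b : ℕ → A) (N : ℕ) : A := (h.par_mem b N).choose

lemma map_V (h : IsFrame p ι σ τ u l) (b : ℕ → A) (N : ℕ) :
    ι (h.V b N) = par p (gam p l (ι ∘ b)) N := (h.par_mem b N).choose_spec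

lemma V_congr (h : IsFrame p ι σ τ u l) {b b' : ℕ → A} {N : ℕ}
    (hb : ∀ k, 1 ≤ k → k ≤ N + 1 → b k = b' k) : h.V b N = h.V b' N := by
  refine h.inj ?_
  rw [h.map_V, h.map_V]
  exact par_congr N fun j _ hj => gam_congr j fun k h1 h2 => by
    simp only [Function.comp_apply, hb k h1 (by omega)]

lemma V_eq (h : IsFrame p ι σ τ u l) {b : ℕ → A} {N : ℕ}
    (hb : ∀ k, 1 ≤ k → k ≤ N + 1 → b k = 0) : h.V b N = u (N + 1) := by
  refine h.inj ?_
  rw [h.map_V, ← h.par_self N]
  exact par_congr N fun j _ hj => gam_eq_self h.prime.ne_zero h.l_zero j fun k h1 h2 => by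
    simp only [Function.comp_apply, hb k h1 (by omega), map_zero]

section Linear

open Polynomial

variable (h : IsFrame p ι σ τ u l)

/-- The frame over the polynomial rings in one variable `Z`, with `σ Z = Z ^ p`. -/
lemma poly (h : IsFrame p ι σ τ u l) :
    IsFrame p (mapRingHom ι) (eval₂RingHom (C.comp σ) (X ^ p)) (eval₂RingHom (C.comp τ) (X ^ p))
      (fun i => C (u i)) (fun i => C (l i)) := by
  have hpow : ∀ i (x : K), ((eval₂RingHom (C.comp τ) (X ^ p) : K[X] →+* K[X]) ^ i) (C x)
      = C ((τ ^ i) x) := by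
    intro i x
    induction i with
    | zero => simp
    | succ i ih => rw [pow_succ', pow_succ', RingHom.coe_mul, RingHom.coe_mul, Function.comp_apply,
        Function.comp_apply, ih, coe_eval₂RingHom, eval₂_C, RingHom.comp_apply]
  refine ⟨h.prime, Polynomial.map_injective ι h.inj, fun f => ?_, fun f => ?_, ?_, ?_,
    fun m => ?_, fun m => ?_⟩
  · induction f using Polynomial.induction_on' with
    | add f g hf hg =>
      obtain ⟨r, hr⟩ := exists_add_pow_prime_eq h.prime f g
      rw [map_add, hr]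
      have := dvd_sub (dvd_add hf hg) ⟨f * g * r, rfl⟩
      convert this using 1
      ring
    | monomial m a =>
      rw [← C_mul_X_pow_eq_monomial, map_mul, map_pow, mul_pow, coe_eval₂RingHom, eval₂_C, eval₂_X,
        RingHom.comp_apply, ← map_pow C, ← pow_mul, ← pow_mul, mul_comm p m, ← sub_mul, ← map_sub]
      obtain ⟨q, hq⟩ := h.frob a
      exact ⟨C q * X ^ (m * p), by rw [hq, map_mul, map_natCast]; ring⟩
  · revert f
    rw [← funext_iff]
    have : ((eval₂RingHom (C.comp τ) (X ^ p) : K[X] →+* K[X])).comp (mapRingHom ι)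
        = (mapRingHom ι).comp (eval₂RingHom (C.comp σ) (X ^ p)) := by
      refine Polynomial.ringHom_ext (fun a => ?_) ?_
      · simp [h.comm]
      · simp
    exact funext fun f => RingHom.congr_fun this f
  · rw [← map_natCast (C (R := K)) p]
    exact h.unit.map C
  · show C (l 0) = 1
    rw [h.l_zero, map_one]
  · show (p : K[X]) * C (l (m + 1)) = _
    rw [← map_natCast (C (R := K)) p, ← map_mul, h.funEq, map_sum]
    exact sum_congr rfl fun i _ => by rw [hpow, map_mul, coe_mapRingHom, map_C]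
  · show (p : K[X]) * C (l (m + 1)) = _
    rw [← map_natCast (C (R := K)) p, ← map_mul, h.recur, map_sum]
    exact sum_congr rfl fun i _ => by rw [map_mul, coe_mapRingHom, map_C, map_pow]

/-- The sequence `b` with the variable added at the index `k`. -/
noncomputable def shift (b : ℕ → A) (k : ℕ) : ℕ → A[X] := fun j => C (b j) + if j = k then X else 0

lemma eval_shift (b : ℕ → A) (k : ℕ) (δ : A) (N : ℕ) :
    (h.poly.V (shift b k) N).eval δ = h.V (Function.update b k (b k + δ)) N := by
  refine h.inj ?_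
  rw [h.map_V, ← eval₂_at_apply, ← eval_map, ← coe_mapRingHom, h.poly.map_V, ← coe_evalRingHom,
    map_par_gam]
  refine par_congr N fun j _ _ => ?_
  refine Eq.trans ?_ (gam_congr j fun i _ _ => rfl)
  congr 1
  · funext i
    simp
  · funext i
    simp only [Function.comp_apply, shift, coe_mapRingHom, coe_evalRingHom]
    by_cases hi : i = k
    · subst hi
      simp
    · simp [hi]

lemma eval_shift_zero (b : ℕ → A) (k N : ℕ) : (h.poly.V (shift b k) N).eval 0 = h.V b N := by
  rw [h.eval_shift b k 0 N]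
  simp

/-- Changing one `b_k` changes every parameter by a multiple of the change. -/
lemma V_update_dvd (b : ℕ → A) (k : ℕ) (δ : A) (N : ℕ) :
    δ ∣ h.V (Function.update b k (b k + δ)) N - h.V b N := by
  rw [← h.eval_shift, ← h.eval_shift_zero b k N]
  simpa using sub_dvd_eval_sub δ 0 (h.poly.V (shift b k) N)

/-- The triangular shape of the linear part modulo an ideal containing `p`. -/
lemma derivative_shift {n : ℕ} (hn : 0 < n) {b : ℕ → A} {k : ℕ} (hk : 1 ≤ k) {m : Ideal A} (hpm : (p : A) ∈ m)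
    (hres : ∀ M, M + 1 ≠ n → h.V b M ∈ m) (hone : h.V b (n - 1) - 1 ∈ m) (N : ℕ) :
    (N + 1 < n + k → (derivative (h.poly.V (shift b k) N)).eval 0 ∈ m) ∧
    (N + 1 = n + k → (derivative (h.poly.V (shift b k) N)).eval 0 - 1 ∈ m) := by
  set D : K[X] → K := fun f => (derivative f).eval 0 with hD
  set G : ℕ → K[X] := gam p (fun i => C (l i)) (mapRingHom ι ∘ shift b k) with hG
  set W : ℕ → A[X] := h.poly.V (shift b k) with hW
  set d : ℕ → A := fun N => (derivative (W N)).eval 0 with hd
  set g := gam p l (ι ∘ b) with hg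
  have hWK : ∀ M, (W M).map ι = par p G M := fun M => h.poly.map_V (shift b k) M
  have hG0 : ∀ M, (G M).eval 0 = g M := by
    intro M
    rw [hG, ← coe_evalRingHom, map_gam]
    refine Eq.trans ?_ (gam_congr M fun i _ _ => rfl)
    congr 1
    · funext i; simp
    · funext i
      simp only [Function.comp_apply, shift, coe_mapRingHom, coe_evalRingHom]
      split_ifs <;> simp
  have hDW : ∀ M, D ((W M).map ι) = ι (d M) := fun M => by
    simp only [hD, hd, derivative_map]
    rw [eval_map, ← eval₂_at_apply, map_zero]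
  have hW0 : ∀ M, ((W M).map ι).eval 0 = ι (h.V b M) := fun M => by
    rw [← h.eval_shift_zero b k M, eval_map, ← eval₂_at_apply, map_zero]
  -- the linear part of `γ`
  have hDg : ∀ j, ∃ c : A, D (G j) = ι c ∧ (j < k → c = 0) ∧ (j = k → c = -1) := by
    intro j
    induction j using Nat.strong_induction_on with
    | _ j ih =>
    rcases j with _ | j
    · exact ⟨0, by simp [hD, hG, gam_zero], fun _ => rfl, by omega⟩
    choose c hc hc0 hc1 using ih
    have hterm : ∀ i ∈ range (j + 1), ∃ t : A,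
        D (G (j - i) * (mapRingHom ι ∘ shift b k) (i + 1) ^ p ^ (j - i)) = ι t ∧
          (j + 1 < k → t = 0) ∧ (j + 1 = k → t = if i = j then 1 else 0) := by
      intro i hi
      have := mem_range.1 hi
      obtain ⟨a, ha⟩ := h.den b (j - i)
      refine ⟨c (j - i) (by omega) * b (i + 1) ^ p ^ (j - i)
        + a * b (i + 1) ^ (p ^ (j - i) - 1) * (if i + 1 = k then 1 else 0), ?_, ?_, ?_⟩
      · have hBD : D ((mapRingHom ι ∘ shift b k) (i + 1)) = ι (if i + 1 = k then 1 else 0) := by
          simp only [hD, Function.comp_apply, shift, coe_mapRingHom]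
          split_ifs <;> simp
        have hB0 : ((mapRingHom ι ∘ shift b k) (i + 1)).eval 0 = ι (b (i + 1)) := by
          simp only [Function.comp_apply, shift, coe_mapRingHom]
          split_ifs <;> simp
        simp only [hD] at hBD hc ⊢
        rw [derivative_mul, derivative_pow, eval_add, eval_mul, eval_mul, eval_mul, eval_mul,
          eval_pow, eval_pow, eval_C, hc _ (by omega), hB0, hBD, hG0, map_add, map_mul, map_mul,
          map_mul, map_pow, map_pow, ha, ← hg, Nat.cast_pow]
        ring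
      · intro hj
        rw [hc0 _ _ (by omega), if_neg (by omega)]
        ring
      · intro hj
        rw [hc0 _ _ (by omega)]
        by_cases hij : i = j
        · subst hij
          rw [Nat.sub_self, gam_zero, pow_zero, one_mul] at ha
          rw [if_pos (by omega), if_pos rfl, h.inj (ha.trans (map_one ι).symm)]
          simp
        · rw [if_neg (by omega), if_neg hij]
          ring
    choose! t ht ht0 ht1 using hterm
    refine ⟨-∑ i ∈ range (j + 1), t i, ?_, ?_, ?_⟩
    · simp only [hD] at ht ⊢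
      rw [hG, gam_succ, ← hG, derivative_sub, derivative_C, zero_sub, derivative_sum, eval_neg,
        eval_finsetSum, sum_congr rfl ht, map_neg, map_sum]
    · intro hj
      rw [sum_eq_zero fun i hi => ht0 i hi hj, neg_zero]
    · intro hj
      rw [sum_congr rfl fun i hi => ht1 i hi hj, sum_ite_eq' (range (j + 1)) j, if_pos (by simp)]
  choose c hc hc0 hc1 using hDg
  -- the linear part of the parameters
  show (N + 1 < n + k → d N ∈ m) ∧ (N + 1 = n + k → d N - 1 ∈ m)
  induction N using Nat.strong_induction_on with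
  | _ N ih =>
  choose a ha using fun j => h.den b (j + 1)
  have key : d N = (p : A) * c (N + 1) - ∑ j ∈ range N, (c (j + 1) * h.V b (N - 1 - j) ^ p ^ (j + 1)
      + a j * h.V b (N - 1 - j) ^ (p ^ (j + 1) - 1) * d (N - 1 - j)) := by
    refine h.inj ?_
    rw [← hDW, hWK]
    simp only [hD] at hc hDW ⊢
    rw [par_eq, derivative_sub, derivative_sum, derivative_mul, derivative_natCast, zero_mul,
      zero_add, eval_sub, eval_mul, eval_natCast, hc, eval_finsetSum, map_sub, map_mul,
      map_natCast, map_sum]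
    refine congrArg _ (sum_congr rfl fun j hj => ?_)
    rw [derivative_mul, derivative_pow, eval_add, eval_mul, eval_mul, eval_mul, eval_mul, eval_pow,
      eval_pow, eval_C, hc, hG0, ← hWK, hDW, hW0, map_add, map_mul, map_mul, map_mul, map_pow,
      map_pow, ha, ← hg, Nat.cast_pow]
    ring
  have hsec : N + 1 ≤ n + k → ∀ j ∈ range N,
      a j * h.V b (N - 1 - j) ^ (p ^ (j + 1) - 1) * d (N - 1 - j) ∈ m := by
    intro hN j hj
    have := mem_range.1 hj
    by_cases hM : N - 1 - j + 1 = n
    · exact Ideal.mul_mem_left _ _ ((ih (N - 1 - j) (by omega)).1 (by omega))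
    · refine Ideal.mul_mem_right _ _ (Ideal.mul_mem_left _ _ ?_)
      exact Ideal.pow_mem_of_mem _ (hres _ hM) _
        (Nat.sub_pos_of_lt (Nat.one_lt_pow (by omega) h.prime.one_lt))
  constructor
  · intro hN
    rw [key]
    refine sub_mem (Ideal.mul_mem_right _ _ hpm) (sum_mem fun j hj => add_mem ?_ (hsec hN.le j hj))
    by_cases hM : N - 1 - j + 1 = n
    · have := mem_range.1 hj
      rw [hc0 (j + 1) (by omega), zero_mul]
      exact zero_mem _
    · exact Ideal.mul_mem_left _ _ (Ideal.pow_mem_of_mem _ (hres _ hM) _ (pow_pos h.prime.pos _))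
  · intro hN
    have hmem : k - 1 ∈ range N := mem_range.2 (by omega)
    rw [key, ← add_sum_erase _ _ hmem, show k - 1 + 1 = k by omega,
      show N - 1 - (k - 1) = n - 1 by omega, hc1 k rfl]
    have hx : h.V b (n - 1) ^ p ^ k - 1 ∈ m := by
      have := Ideal.mem_of_dvd m (sub_dvd_pow_sub_pow (h.V b (n - 1)) 1 (p ^ k)) hone
      rwa [one_pow] at this
    have hs : ∑ j ∈ (range N).erase (k - 1), (c (j + 1) * h.V b (N - 1 - j) ^ p ^ (j + 1)
        + a j * h.V b (N - 1 - j) ^ (p ^ (j + 1) - 1) * d (N - 1 - j)) ∈ m := by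
      refine sum_mem fun j hj => add_mem ?_ (hsec hN.le j (mem_of_mem_erase hj))
      have := mem_range.1 (mem_of_mem_erase hj)
      have := ne_of_mem_erase hj
      exact Ideal.mul_mem_left _ _
        (Ideal.pow_mem_of_mem _ (hres _ (by omega)) _ (pow_pos h.prime.pos _))
    have h2 := hsec hN.le (k - 1) hmem
    rw [show k - 1 + 1 = k by omega, show N - 1 - (k - 1) = n - 1 by omega] at h2
    have := sub_mem (add_mem (Ideal.mul_mem_right (c (N + 1)) m hpm) hx) (add_mem h2 hs)
    convert this using 1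
    ring

/-- Changing `b_k` by `δ`: the parameters below `n + k` keep their class modulo `m * I`, the one
with index `n + k` moves by `δ`. -/
theorem V_update {n : ℕ} (hn : 0 < n) {b : ℕ → A} {k : ℕ} (hk : 1 ≤ k) {m I : Ideal A} (hpm : (p : A) ∈ m)
    (hres : ∀ M, M + 1 ≠ n → h.V b M ∈ m) (hone : h.V b (n - 1) - 1 ∈ m) {δ : A} (hδ : δ ∈ I)
    (hδm : δ ∈ m) (N : ℕ) :
    (N + 1 < n + k → h.V (Function.update b k (b k + δ)) N - h.V b N ∈ m * I) ∧
    (N + 1 = n + k → h.V (Function.update b k (b k + δ)) N - h.V b N - δ ∈ m * I) := by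
  set W := h.poly.V (shift b k) N with hW
  have e1 : W.coeff 1 = (derivative W).eval 0 := by
    rw [← coeff_zero_eq_eval_zero, coeff_derivative]; simp
  have e2 : h.V (Function.update b k (b k + δ)) N - h.V b N
      = W.coeff 1 * δ + δ * δ * (W.divX.divX).eval δ := by
    rw [← h.eval_shift, ← h.eval_shift_zero b k N, ← hW]
    conv_lhs => arg 1; rw [← divX_mul_X_add W, ← divX_mul_X_add W.divX, coeff_divX]
    rw [← coeff_zero_eq_eval_zero]
    simp
    ring
  obtain ⟨h1, h2⟩ := h.derivative_shift hn hk hpm hres hone N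
  have hsq : δ * δ * (W.divX.divX).eval δ ∈ m * I :=
    Ideal.mul_mem_right _ _ (Ideal.mul_mem_mul hδm hδ)
  refine ⟨fun hN => ?_, fun hN => ?_⟩
  · rw [e2, e1]
    exact add_mem (Ideal.mul_mem_mul (h1 hN) hδ) hsq
  · have := add_mem (Ideal.mul_mem_mul (h2 hN) hδ) hsq
    rw [e2, e1]
    convert this using 1
    ring

end Linear

end IsFrame

end Vale.Agent.P217.EtaR
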