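import Mathlib

/-!
# Evaluation of multivariate power series on the open unit polydisc

For a ring homomorphism `ψ : R →+* K` of image in the unit ball of a complete ultrametric field,
the value at a point of the open polydisc is a ring homomorphism which respects substitution.
-/

open scoped Classical
open MvPowerSeries Finset

namespace Vale.Agent.P217.EvalMv

noncomputable section

/-- A monomial at a point. -/
def mon {σ K : Type*} [Fintype σ] [CommMonoid K] (x : σ → K) (d : σ →₀ ℕ) : K :=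
  ∏ i, x i ^ d i

/-- The value at `x` of a series specialised by `ψ`. -/
def evMv {σ R K : Type*} [Fintype σ] [CommRing R] [NormedField K] (ψ : R →+* K)
    (f : MvPowerSeries σ R) (x : σ → K) : K :=
  ∑' d : σ →₀ ℕ, ψ (coeff d f) * mon x d

section decomposition

variable {σ R : Type*} [CommRing R]

/-- A series of order at least `N` lies in the `N`-th power of the ideal of the variables. -/
theorem mem_span_X_pow [Fintype σ] : ∀ (N : ℕ) (f : MvPowerSeries σ R),
    (∀ d : σ →₀ ℕ, d.degree < N → coeff d f = 0) →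
    f ∈ (Ideal.span (Set.range (X : σ → MvPowerSeries σ R))) ^ N
  | 0, f, _ => by simp
  | N + 1, f, hf => by
    let e := Fintype.equivFin σ
    let g : σ → MvPowerSeries σ R := fun i d =>
      if ∀ j, e j < e i → d j = 0 then coeff (d + Finsupp.single i 1) f else 0
    have hg : ∀ i d, coeff d (g i)
        = if ∀ j, e j < e i → d j = 0 then coeff (d + Finsupp.single i 1) f else 0 :=
      fun _ _ => rfl
    have hsum : f = ∑ i, X i * g i := by
      ext d
      rw [map_sum]
      simp_rw [show ∀ i : σ, (X i : MvPowerSeries σ R) = monomial (Finsupp.single i 1) 1 from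
        fun i => rfl, coeff_monomial_mul, one_mul, Finsupp.single_le_iff]
      by_cases hd : d = 0
      · subst hd
        rw [hf 0 (by simp)]
        simp
      · have hne : d.support.Nonempty := Finsupp.support_nonempty_iff.2 hd
        obtain ⟨i₀, hi₀, hmin⟩ := d.support.exists_min_image e hne
        have h1 : 1 ≤ d i₀ := Nat.one_le_iff_ne_zero.2 (Finsupp.mem_support_iff.1 hi₀)
        rw [Finset.sum_eq_single i₀]
        · rw [if_pos h1, hg, if_pos, tsub_add_cancel_of_le (Finsupp.single_le_iff.2 h1)]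
          intro j hj
          have : d j = 0 := by
            by_contra h
            exact not_le_of_gt hj (hmin j (Finsupp.mem_support_iff.2 h))
          simp [Finsupp.tsub_apply, this]
        · intro i _ hi
          split_ifs with h
          · rw [hg, if_neg]
            intro h'
            have hlt : e i₀ < e i := lt_of_le_of_ne
              (hmin i (Finsupp.mem_support_iff.2 (by omega)))
              (fun he => hi (e.injective he).symm)
            have := h' i₀ hlt
            rw [Finsupp.tsub_apply, Finsupp.single_apply, if_neg hi] at this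
            omega
          · rfl
        · simp
    rw [hsum, pow_succ']
    refine Ideal.sum_mem _ fun i _ => Ideal.mul_mem_mul (Ideal.subset_span ⟨i, rfl⟩) ?_
    refine mem_span_X_pow N (g i) fun d hd => ?_
    rw [hg]
    split_ifs
    · apply hf
      rw [map_add, Finsupp.degree_single]
      omega
    · rfl

/-- A series differs from its truncation by a series of high order. -/
theorem coeff_sub_truncTotal [Finite σ] (N : ℕ) (f : MvPowerSeries σ R) {d : σ →₀ ℕ}
    (hd : d.degree < N) :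
    coeff d (f - ((truncTotal N f : MvPolynomial σ R) : MvPowerSeries σ R)) = 0 := by
  rw [map_sub, MvPolynomial.coeff_coe, sub_eq_zero]
  exact (coeff_truncTotal f hd).symm

end decomposition

section monomials

variable {σ : Type*} [Fintype σ] {K : Type*} [NormedField K]

theorem mon_zero (x : σ → K) : mon x 0 = 1 := by simp [mon]

theorem mon_add (x : σ → K) (d e : σ →₀ ℕ) : mon x (d + e) = mon x d * mon x e := by
  simp [mon, pow_add, Finset.prod_mul_distrib]

theorem mon_single (x : σ → K) (i : σ) (m : ℕ) : mon x (Finsupp.single i m) = x i ^ m := by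
  rw [mon, Finset.prod_eq_single i]
  · simp
  · intro j _ hj
    simp [Finsupp.single_apply, Ne.symm hj]
  · simp

theorem norm_mon_le {x : σ → K} {ρ : ℝ} (hx : ∀ i, ‖x i‖ ≤ ρ) (d : σ →₀ ℕ) :
    ‖mon x d‖ ≤ ρ ^ d.degree := by
  rw [mon, norm_prod, Finsupp.degree_eq_sum, ← Finset.prod_pow_eq_pow_sum]
  exact Finset.prod_le_prod (fun i _ => norm_nonneg _)
    fun i _ => by rw [norm_pow]; exact pow_le_pow_left₀ (norm_nonneg _) (hx i) _

/-- A radius strictly less than `1` for a point of the open polydisc. -/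
theorem exists_radius {x : σ → K} (hx : ∀ i, ‖x i‖ < 1) :
    ∃ ρ : ℝ, 0 ≤ ρ ∧ ρ < 1 ∧ ∀ i, ‖x i‖ ≤ ρ := by
  refine ⟨((Finset.univ : Finset σ).sup fun i => ‖x i‖₊ : NNReal), NNReal.coe_nonneg _, ?_,
    fun i => ?_⟩
  · rw [← NNReal.coe_one, NNReal.coe_lt_coe, Finset.sup_lt_iff (by simp)]
    intro i _
    exact_mod_cast hx i
  · rw [← coe_nnnorm, NNReal.coe_le_coe]
    exact Finset.le_sup (f := fun i => ‖x i‖₊) (Finset.mem_univ i)

end monomials

variable {σ τ R : Type*} [Fintype σ] [Fintype τ] [CommRing R] {K : Type*} [NormedField K]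
  [IsUltrametricDist K] [CompleteSpace K] {ψ : R →+* K} (hψ : ∀ r, ‖ψ r‖ ≤ 1)

include hψ

theorem norm_term_le {x : σ → K} {ρ : ℝ} (hx : ∀ i, ‖x i‖ ≤ ρ) (f : MvPowerSeries σ R)
    (d : σ →₀ ℕ) : ‖ψ (coeff d f) * mon x d‖ ≤ ρ ^ d.degree := by
  rw [norm_mul]
  calc ‖ψ (coeff d f)‖ * ‖mon x d‖ ≤ 1 * ρ ^ d.degree :=
        mul_le_mul (hψ _) (norm_mon_le hx d) (norm_nonneg _) zero_le_one
    _ = ρ ^ d.degree := one_mul _

theorem summable_term {x : σ → K} (hx : ∀ i, ‖x i‖ < 1) (f : MvPowerSeries σ R) :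
    Summable fun d : σ →₀ ℕ => ψ (coeff d f) * mon x d := by
  obtain ⟨ρ, h0, h1, hρ⟩ := exists_radius hx
  rw [NonarchimedeanAddGroup.summable_iff_tendsto_cofinite_zero,
    NormedAddGroup.tendsto_nhds_zero]
  intro ε hε
  obtain ⟨N, hN⟩ := exists_pow_lt_of_lt_one hε h1
  rw [Filter.eventually_cofinite]
  refine (Finsupp.finite_of_degree_lt N).subset fun d hd => ?_
  by_contra h
  refine hd (lt_of_le_of_lt ((norm_term_le hψ hρ f d).trans ?_) hN)
  exact pow_le_pow_of_le_one h0 h1.le (not_lt.1 h)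

theorem evMv_add {x : σ → K} (hx : ∀ i, ‖x i‖ < 1) (f g : MvPowerSeries σ R) :
    evMv ψ (f + g) x = evMv ψ f x + evMv ψ g x := by
  rw [evMv, evMv, evMv, ← (summable_term hψ hx f).tsum_add (summable_term hψ hx g)]
  simp [add_mul]

theorem evMv_sub {x : σ → K} (hx : ∀ i, ‖x i‖ < 1) (f g : MvPowerSeries σ R) :
    evMv ψ (f - g) x = evMv ψ f x - evMv ψ g x := by
  rw [eq_sub_iff_add_eq, ← evMv_add hψ hx, sub_add_cancel]

omit hψ in
theorem nonarchimedeanRing : NonarchimedeanRing K where
  is_nonarchimedean :=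
    (IsUltrametricDist.nonarchimedeanAddGroup (M := K)).is_nonarchimedean

omit hψ in
theorem summable_mul {α β : Type*} {u : α → K} {v : β → K} (hu : Summable u) (hv : Summable v) :
    Summable fun z : α × β => u z.1 * v z.2 := by
  have := nonarchimedeanRing (K := K)
  exact Summable.mul_of_nonarchimedean hu hv

theorem summable_prod_term {x : σ → K} (hx : ∀ i, ‖x i‖ < 1) (f g : MvPowerSeries σ R) :
    Summable fun z : (σ →₀ ℕ) × (σ →₀ ℕ) =>
      (ψ (coeff z.1 f) * mon x z.1) * (ψ (coeff z.2 g) * mon x z.2) :=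
  summable_mul (u := fun d => ψ (coeff d f) * mon x d) (v := fun d => ψ (coeff d g) * mon x d)
    (summable_term hψ hx f) (summable_term hψ hx g)

omit hψ in
theorem sum_antidiagonal_term (x : σ → K) (f g : MvPowerSeries σ R) (d : σ →₀ ℕ) :
    ∑ z ∈ Finset.HasAntidiagonal.antidiagonal d,
      (ψ (coeff z.1 f) * mon x z.1) * (ψ (coeff z.2 g) * mon x z.2)
    = ψ (coeff d (f * g)) * mon x d := by
  rw [coeff_mul, map_sum, Finset.sum_mul]
  refine Finset.sum_congr rfl fun kl hkl => ?_
  rw [Finset.HasAntidiagonal.mem_antidiagonal] at hkl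
  rw [← hkl, mon_add, map_mul]
  ring

theorem evMv_mul {x : σ → K} (hx : ∀ i, ‖x i‖ < 1) (f g : MvPowerSeries σ R) :
    evMv ψ (f * g) x = evMv ψ f x * evMv ψ g x := by
  refine ((Summable.tsum_mul_tsum_eq_tsum_sum_antidiagonal (summable_term hψ hx f)
    (summable_term hψ hx g) (summable_prod_term hψ hx f g)).trans ?_).symm
  exact tsum_congr (sum_antidiagonal_term x f g)

omit hψ in
theorem evMv_monomial (x : σ → K) (d : σ →₀ ℕ) (r : R) :
    evMv ψ (monomial d r) x = ψ r * mon x d := by
  rw [evMv, tsum_eq_single d]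
  · rw [coeff_monomial_same]
  · intro e he
    rw [coeff_monomial_ne he, map_zero, zero_mul]

omit hψ in
theorem evMv_C (x : σ → K) (r : R) : evMv ψ (C r) x = ψ r := by
  rw [← monomial_zero_eq_C_apply, evMv_monomial, mon_zero, mul_one]

omit hψ in
theorem evMv_X (x : σ → K) (i : σ) : evMv ψ (X i) x = x i := by
  rw [show (X i : MvPowerSeries σ R) = monomial (Finsupp.single i 1) 1 from rfl, evMv_monomial,
    mon_single, map_one, one_mul, pow_one]

omit hψ in
theorem evMv_zero (x : σ → K) : evMv ψ (0 : MvPowerSeries σ R) x = 0 := by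
  simp [evMv]

/-- Evaluation as a ring homomorphism. -/
def evHom {x : σ → K} (hx : ∀ i, ‖x i‖ < 1) : MvPowerSeries σ R →+* K where
  toFun f := evMv ψ f x
  map_one' := by rw [← map_one C, evMv_C, map_one]
  map_mul' := evMv_mul hψ hx
  map_zero' := evMv_zero x
  map_add' := evMv_add hψ hx

theorem evHom_apply {x : σ → K} (hx : ∀ i, ‖x i‖ < 1) (f : MvPowerSeries σ R) :
    evHom hψ hx f = evMv ψ f x := rfl

omit hψ in
/-- A termwise bound bounds the value. -/
theorem norm_evMv_le_of_terms {x : σ → K} {C : ℝ} (hC : 0 ≤ C) (f : MvPowerSeries σ R)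
    (h : ∀ d, ‖ψ (coeff d f) * mon x d‖ ≤ C) : ‖evMv ψ f x‖ ≤ C :=
  IsUltrametricDist.norm_tsum_le_of_forall_le_of_nonneg hC h

/-- The value of a series of order at least `N`. -/
theorem norm_evMv_le_pow {x : σ → K} {ρ : ℝ} (h0 : 0 ≤ ρ) (h1 : ρ ≤ 1) (hx : ∀ i, ‖x i‖ ≤ ρ)
    {f : MvPowerSeries σ R} {N : ℕ} (hf : ∀ d : σ →₀ ℕ, d.degree < N → coeff d f = 0) :
    ‖evMv ψ f x‖ ≤ ρ ^ N := by
  refine norm_evMv_le_of_terms (pow_nonneg h0 N) f fun d => ?_
  rcases lt_or_ge d.degree N with h | h
  · rw [hf d h, map_zero, zero_mul, norm_zero]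
    exact pow_nonneg h0 N
  · exact (norm_term_le hψ hx f d).trans (pow_le_pow_of_le_one h0 h1 h)

theorem norm_evMv_le_one {x : σ → K} (hx : ∀ i, ‖x i‖ ≤ 1) (f : MvPowerSeries σ R) :
    ‖evMv ψ f x‖ ≤ 1 := by
  simpa using norm_evMv_le_pow hψ zero_le_one le_rfl hx (f := f) (N := 0) (by simp)

theorem norm_evMv_le_radius {x : σ → K} {ρ : ℝ} (h0 : 0 ≤ ρ) (h1 : ρ ≤ 1) (hx : ∀ i, ‖x i‖ ≤ ρ)
    {f : MvPowerSeries σ R} (hf : constantCoeff f = 0) : ‖evMv ψ f x‖ ≤ ρ := by
  refine (norm_evMv_le_pow hψ h0 h1 hx (N := 1) fun d hd => ?_).trans_eq (pow_one ρ)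
  rw [Nat.lt_one_iff, Finsupp.degree_eq_zero_iff] at hd
  rw [hd, coeff_zero_eq_constantCoeff_apply, hf]

theorem norm_evMv_lt_one {x : σ → K} (hx : ∀ i, ‖x i‖ < 1) {f : MvPowerSeries σ R}
    (hf : constantCoeff f = 0) : ‖evMv ψ f x‖ < 1 := by
  obtain ⟨ρ, h0, h1, hρ⟩ := exists_radius hx
  exact lt_of_le_of_lt (norm_evMv_le_radius hψ h0 h1.le hρ hf) h1

omit hψ in
theorem coeff_subst_eq_zero {g : σ → MvPowerSeries τ R} (hg : ∀ i, constantCoeff (g i) = 0)
    {r : MvPowerSeries σ R} {N : ℕ} (hr : ∀ d : σ →₀ ℕ, d.degree < N → coeff d r = 0)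
    {e : τ →₀ ℕ} (he : e.degree < N) : coeff e (subst g r) = 0 := by
  apply coeff_of_lt_order
  refine lt_of_lt_of_le ?_ (le_order_subst (hasSubst_of_constantCoeff_zero hg) r)
  refine lt_of_lt_of_le (show (e.degree : ℕ∞) < 1 * (N : ℕ∞) by simpa using he) ?_
  exact mul_le_mul' (le_iInf fun i => one_le_order_iff_constCoeff_eq_zero.2 (hg i))
    (nat_le_order fun d hd => hr d hd)

/-- Evaluation respects substitution. -/
theorem evMv_subst {g : σ → MvPowerSeries τ R} (hg : ∀ i, constantCoeff (g i) = 0)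
    {x : τ → K} (hx : ∀ i, ‖x i‖ < 1) (f : MvPowerSeries σ R) :
    evMv ψ (subst g f) x = evMv ψ f (fun i => evMv ψ (g i) x) := by
  have hs := hasSubst_of_constantCoeff_zero hg
  obtain ⟨ρ, h0, h1, hρ⟩ := exists_radius hx
  have hy : ∀ i, ‖evMv ψ (g i) x‖ ≤ ρ := fun i => norm_evMv_le_radius hψ h0 h1.le hρ (hg i)
  have hy1 : ∀ i, ‖evMv ψ (g i) x‖ < 1 := fun i => lt_of_le_of_lt (hy i) h1
  have hpoly : ∀ P : MvPolynomial σ R,
      evMv ψ (subst g (P : MvPowerSeries σ R)) x
        = evMv ψ (P : MvPowerSeries σ R) (fun i => evMv ψ (g i) x) := by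
    intro P
    have key : ((evHom hψ hx).comp (substAlgHom hs).toRingHom).comp
        (MvPolynomial.coeToMvPowerSeries.ringHom (σ := σ) (R := R))
          = (evHom hψ hy1).comp (MvPolynomial.coeToMvPowerSeries.ringHom (σ := σ) (R := R)) := by
      apply MvPolynomial.ringHom_ext
      · intro r
        simp only [RingHom.comp_apply, MvPolynomial.coeToMvPowerSeries.ringHom_apply,
          MvPolynomial.coe_C, AlgHom.toRingHom_eq_coe, RingHom.coe_coe, substAlgHom_apply,
          evHom_apply, subst_C, evMv_C]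
      · intro i
        simp only [RingHom.comp_apply, MvPolynomial.coeToMvPowerSeries.ringHom_apply,
          MvPolynomial.coe_X, AlgHom.toRingHom_eq_coe, RingHom.coe_coe, substAlgHom_apply,
          evHom_apply, subst_X hs, evMv_X]
    simpa [evHom_apply, substAlgHom_apply] using RingHom.congr_fun key P
  rw [← sub_eq_zero, ← norm_eq_zero]
  refine le_antisymm (le_of_forall_pos_le_add fun ε hε => ?_) (norm_nonneg _)
  obtain ⟨N, hN⟩ := exists_pow_lt_of_lt_one hε h1
  rw [zero_add]
  refine le_trans ?_ hN.le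
  have hr := fun d => coeff_sub_truncTotal N f (d := d)
  have hdiff : evMv ψ (subst g f) x - evMv ψ f (fun i => evMv ψ (g i) x)
      = evMv ψ (subst g (f - ((truncTotal N f : MvPolynomial σ R) : MvPowerSeries σ R))) x
        + -evMv ψ (f - ((truncTotal N f : MvPolynomial σ R) : MvPowerSeries σ R))
            (fun i => evMv ψ (g i) x) := by
    rw [subst_sub hs, evMv_sub hψ hx, evMv_sub hψ hy1, hpoly]
    ring
  rw [hdiff]
  refine (IsUltrametricDist.norm_add_le_max _ _).trans (max_le ?_ ?_)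
  · exact norm_evMv_le_pow hψ h0 h1.le hρ fun e he => coeff_subst_eq_zero hg hr he
  · rw [norm_neg]
    exact norm_evMv_le_pow hψ h0 h1.le hy hr

omit hψ in
/-- Evaluation after a change of coefficients. -/
theorem evMv_map (α : R →+* R) (f : MvPowerSeries σ R) (x : σ → K) :
    evMv ψ (MvPowerSeries.map α f) x = evMv (ψ.comp α) f x := by
  simp [evMv]

end

end Vale.Agent.P217.EvalMv
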