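import Vale.Agent.P217.Ring
import Vale.Agent.P217.Model
import Vale.Agent.P217.EvalMv

/-! # P217 interface: evaluation of series at a point -/

open scoped Classical

namespace Vale.Agent.P217

open EvalMv

noncomputable section

variable {p n : ℕ} [hp : Fact p.Prime] {K : Type} [NormedField K] [IsUltrametricDist K]
  [CompleteSpace K] {ψ ψ' : LTRing p n →+* K}

omit [IsUltrametricDist K] [CompleteSpace K] in
theorem ev_eq_evMv (f : PowerSeries (LTRing p n)) (x : K) :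
    ev ψ f x = evMv ψ f (fun _ : Unit => x) := by
  rw [ev, evMv, ← (Equiv.finsuppUnique (ι := Unit) (M := ℕ)).tsum_eq]
  refine tsum_congr fun d => ?_
  have hd : d = Finsupp.single () (d ()) := Finsupp.unique_single d
  conv_rhs => rw [hd, mon_single]
  rfl

omit [IsUltrametricDist K] [CompleteSpace K] in
theorem ev2_eq_evMv (f : MvPowerSeries (Fin 2) (LTRing p n)) (x y : K) :
    ev2 ψ f x y = evMv ψ f ![x, y] := by
  rw [ev2, evMv]
  refine tsum_congr fun d => ?_
  simp [mon, Fin.prod_univ_two]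

omit [IsUltrametricDist K] [CompleteSpace K] in
theorem pair_norm_lt {x y : K} (hx : ‖x‖ < 1) (hy : ‖y‖ < 1) :
    ∀ i, ‖(![x, y] : Fin 2 → K) i‖ < 1 := by
  intro i
  fin_cases i
  · exact hx
  · exact hy

omit [CompleteSpace K] in
theorem norm_pow_sub_pow_le {x y : K} (hx : ‖x‖ ≤ 1) (hy : ‖y‖ ≤ 1) :
    ∀ i : ℕ, ‖x ^ i - y ^ i‖ ≤ ‖x - y‖
  | 0 => by simp
  | i + 1 => by
    rw [show x ^ (i + 1) - y ^ (i + 1) = x * (x ^ i - y ^ i) + (x - y) * y ^ i by ring]
    refine (IsUltrametricDist.norm_add_le_max _ _).trans (max_le ?_ ?_)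
    · rw [norm_mul]
      exact (mul_le_mul hx (norm_pow_sub_pow_le hx hy i) (norm_nonneg _) zero_le_one).trans_eq
        (one_mul _)
    · rw [norm_mul, norm_pow]
      exact mul_le_of_le_one_right (norm_nonneg _) (pow_le_one₀ (norm_nonneg _) hy)

omit [CompleteSpace K] in
theorem norm_le_pow_of_mem (hψ : IsPoint p n ψ) {θ : ℝ} (h0 : 0 ≤ θ)
    (h : ∀ x ∈ mIdeal p n, ‖ψ x‖ ≤ θ) :
    ∀ (N : ℕ) (z : LTRing p n), z ∈ mIdeal p n ^ N → ‖ψ z‖ ≤ θ ^ N
  | 0, z, _ => by simpa using hψ.le_one z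
  | N + 1, z, hz => by
    rw [pow_succ] at hz
    refine Submodule.mul_induction_on hz (fun r hr t ht => ?_) (fun u v hu hv => ?_)
    · rw [map_mul, norm_mul, pow_succ]
      exact mul_le_mul (norm_le_pow_of_mem hψ h0 h N r hr) (h t ht) (norm_nonneg _)
        (pow_nonneg h0 N)
    · rw [map_add]
      exact (IsUltrametricDist.norm_add_le_max _ _).trans (max_le hu hv)

theorem X_mem_mIdeal (i : Fin (n - 1)) : (MvPowerSeries.X i : LTRing p n) ∈ mIdeal p n := by
  refine Ideal.subset_span ⟨i.1 + 1, show i.1 + 1 < n by omega, ?_⟩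
  rw [ltU, if_neg (Nat.succ_ne_zero _), dif_pos (show i.1 + 1 - 1 < n - 1 by omega)]
  congr

theorem sub_truncTotal_mem (N : ℕ) (f : LTRing p n) :
    f - ((MvPowerSeries.truncTotal N f : MvPolynomial (Fin (n - 1))
      (WittVector p (GaloisField p n))) : LTRing p n) ∈ mIdeal p n ^ N := by
  refine Ideal.pow_right_mono ?_ N (mem_span_X_pow N _ fun d hd => coeff_sub_truncTotal N f hd)
  rw [Ideal.span_le]
  rintro _ ⟨i, rfl⟩
  exact X_mem_mIdeal i

omit [CompleteSpace K] in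
theorem near_poly (hψ : IsPoint p n ψ) (hψ' : IsPoint p n ψ') {D : ℝ} (hD : Near p n ψ ψ' D)
    (P : MvPolynomial (Fin (n - 1)) (WittVector p (GaloisField p n))) :
    ‖ψ' (P : LTRing p n) - ψ (P : LTRing p n)‖ ≤ D := by
  induction P using MvPolynomial.induction_on with
  | C w =>
    rw [MvPolynomial.coe_C, hD.2.1, sub_self, norm_zero]
    exact hD.1
  | add P Q hP hQ =>
    rw [MvPolynomial.coe_add, map_add, map_add, add_sub_add_comm]
    exact (IsUltrametricDist.norm_add_le_max _ _).trans (max_le hP hQ)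
  | mul_X P i hP =>
    rw [MvPolynomial.coe_mul, MvPolynomial.coe_X, map_mul, map_mul,
      show ψ' (P : LTRing p n) * ψ' (MvPowerSeries.X i) - ψ (P : LTRing p n) * ψ (MvPowerSeries.X i)
        = ψ' (P : LTRing p n) * (ψ' (MvPowerSeries.X i) - ψ (MvPowerSeries.X i))
          + (ψ' (P : LTRing p n) - ψ (P : LTRing p n)) * ψ (MvPowerSeries.X i) by ring]
    refine (IsUltrametricDist.norm_add_le_max _ _).trans (max_le ?_ ?_)
    · rw [norm_mul]
      exact (mul_le_mul (hψ'.le_one _) (hD.2.2 i) (norm_nonneg _) zero_le_one).trans_eq (one_mul _)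
    · rw [norm_mul]
      exact (mul_le_mul hP (hψ.le_one _) (norm_nonneg _) hD.1).trans_eq (mul_one _)

omit [IsUltrametricDist K] [CompleteSpace K] in
theorem coeff_ne_zero_ne {N : ℕ} {f : PowerSeries (LTRing p n)}
    (hf : PowerSeries.constantCoeff f = 0) (h : PowerSeries.coeff N f ≠ 0) : 1 ≤ N := by
  rcases Nat.eq_zero_or_pos N with rfl | hN
  · rw [PowerSeries.coeff_zero_eq_constantCoeff_apply] at h
    exact absurd hf h
  · exact hN

theorem nmulSeries_constantCoeff (F : FormalGroup (LTRing p n)) :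
    ∀ m, PowerSeries.constantCoeff (nmulSeries p n F m) = 0
  | 0 => map_zero _
  | m + 1 => by
    have h : ∀ i : Fin 2, MvPowerSeries.constantCoeff
        ((![nmulSeries p n F m, PowerSeries.X] : Fin 2 → PowerSeries (LTRing p n)) i) = 0 := by
      intro i
      fin_cases i
      · exact nmulSeries_constantCoeff F m
      · exact PowerSeries.constantCoeff_X
    exact MvPowerSeries.constantCoeff_subst_eq_zero
      (MvPowerSeries.hasSubst_of_constantCoeff_zero h) h F.zero_constantCoeff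

/-- The series `F(X, Y) - X - Y`. -/
def crossPart (F : FormalGroup (LTRing p n)) : MvPowerSeries (Fin 2) (LTRing p n) :=
  F.toPowerSeries - MvPowerSeries.X 0 - MvPowerSeries.X 1

theorem coeff_single_zero (F : FormalGroup (LTRing p n)) (i : ℕ) :
    MvPowerSeries.coeff (Finsupp.single 0 i) F.toPowerSeries = if i = 1 then 1 else 0 := by
  have h := congrArg (PowerSeries.coeff i) F.Xzero_eq_X
  rw [PowerSeries.coeff_X, FormalGroup.Xzero, PowerSeries.coeff,
    MvPowerSeries.coeff_subst (a := ![PowerSeries.X, 0]) MvPowerSeries.HasSubst.X_zero,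
    finsum_eq_single _ (Finsupp.single (0 : Fin 2) i)] at h
  · simpa [Finsupp.prod_single_index] using h
  · intro d hd
    rw [Finsupp.prod_fintype _ _ (fun _ => by simp), Fin.prod_univ_two]
    by_cases h1 : d 1 = 0
    · have h0 : d 0 ≠ i := fun h' => hd (by ext s; fin_cases s <;> simp [h', h1])
      have hx : MvPowerSeries.coeff (Finsupp.single () i)
          ((PowerSeries.X : PowerSeries (LTRing p n)) ^ d 0) = 0 := by
        change PowerSeries.coeff i ((PowerSeries.X : PowerSeries (LTRing p n)) ^ d 0) = 0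
        rw [PowerSeries.coeff_X_pow, if_neg (Ne.symm h0)]
      simp [h1, hx]
    · simp [h1]

theorem coeff_single_one (F : FormalGroup (LTRing p n)) (i : ℕ) :
    MvPowerSeries.coeff (Finsupp.single 1 i) F.toPowerSeries = if i = 1 then 1 else 0 := by
  have h := congrArg (PowerSeries.coeff i) F.zeroX_eq_X
  rw [PowerSeries.coeff_X, FormalGroup.zeroX, PowerSeries.coeff,
    MvPowerSeries.coeff_subst (a := ![0, PowerSeries.X]) MvPowerSeries.HasSubst.zero_X,
    finsum_eq_single _ (Finsupp.single (1 : Fin 2) i)] at h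
  · simpa [Finsupp.prod_single_index] using h
  · intro d hd
    rw [Finsupp.prod_fintype _ _ (fun _ => by simp), Fin.prod_univ_two]
    by_cases h1 : d 0 = 0
    · have h0 : d 1 ≠ i := fun h' => hd (by ext s; fin_cases s <;> simp [h', h1])
      have hx : MvPowerSeries.coeff (Finsupp.single () i)
          ((PowerSeries.X : PowerSeries (LTRing p n)) ^ d 1) = 0 := by
        change PowerSeries.coeff i ((PowerSeries.X : PowerSeries (LTRing p n)) ^ d 1) = 0
        rw [PowerSeries.coeff_X_pow, if_neg (Ne.symm h0)]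
      simp [h1, hx]
    · simp [h1]

theorem coeff_crossPart (F : FormalGroup (LTRing p n)) {d : Fin 2 →₀ ℕ} (hd : d 0 = 0 ∨ d 1 = 0) :
    MvPowerSeries.coeff d (crossPart F) = 0 := by
  rw [crossPart, map_sub, map_sub, MvPowerSeries.coeff_X, MvPowerSeries.coeff_X]
  rcases hd with h | h
  · have e : d = Finsupp.single 1 (d 1) := by ext s; fin_cases s <;> simp [h]
    rw [e, coeff_single_one]
    simp [Finsupp.single_eq_single_iff]
  · have e : d = Finsupp.single 0 (d 0) := by ext s; fin_cases s <;> simp [h]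
    rw [e, coeff_single_zero]
    simp [Finsupp.single_eq_single_iff]

theorem fadd_eq (hψ : IsPoint p n ψ) (F : FormalGroup (LTRing p n)) {x y : K} (hx : ‖x‖ < 1)
    (hy : ‖y‖ < 1) : fadd ψ F x y = x + y + evMv ψ (crossPart F) ![x, y] := by
  rw [fadd, ev2_eq_evMv, crossPart, evMv_sub hψ.le_one (pair_norm_lt hx hy),
    evMv_sub hψ.le_one (pair_norm_lt hx hy), evMv_X, evMv_X]
  simp only [Matrix.cons_val_zero, Matrix.cons_val_one, Matrix.cons_val_fin_one]
  ring

theorem norm_cross_le (hψ : IsPoint p n ψ) (F : FormalGroup (LTRing p n)) {x y : K}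
    (hx : ‖x‖ < 1) (hy : ‖y‖ < 1) : ‖evMv ψ (crossPart F) ![x, y]‖ ≤ ‖x‖ * ‖y‖ := by
  refine norm_evMv_le_of_terms (mul_nonneg (norm_nonneg _) (norm_nonneg _)) _ fun d => ?_
  by_cases hd : d 0 = 0 ∨ d 1 = 0
  · rw [coeff_crossPart F hd, map_zero, zero_mul, norm_zero]
    positivity
  · rw [not_or] at hd
    rw [norm_mul]
    refine (mul_le_mul (hψ.le_one _) ?_ (norm_nonneg _) zero_le_one).trans_eq (one_mul _)
    simp only [mon, Fin.prod_univ_two, Matrix.cons_val_zero, Matrix.cons_val_one,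
      Matrix.cons_val_fin_one, norm_mul, norm_pow]
    exact mul_le_mul (pow_le_of_le_one (norm_nonneg _) hx.le hd.1)
      (pow_le_of_le_one (norm_nonneg _) hy.le hd.2) (by positivity) (norm_nonneg _)

theorem norm_cross_sub_le (hψ : IsPoint p n ψ) (F : FormalGroup (LTRing p n)) {x y y' : K}
    (hx : ‖x‖ < 1) (hy : ‖y‖ < 1) (hy' : ‖y'‖ < 1) :
    ‖evMv ψ (crossPart F) ![x, y] - evMv ψ (crossPart F) ![x, y']‖ ≤ ‖x‖ * ‖y - y'‖ := by
  rw [evMv, evMv, ← (summable_term hψ.le_one (pair_norm_lt hx hy) _).tsum_sub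
    (summable_term hψ.le_one (pair_norm_lt hx hy') _)]
  refine IsUltrametricDist.norm_tsum_le_of_forall_le_of_nonneg
    (mul_nonneg (norm_nonneg _) (norm_nonneg _)) fun d => ?_
  by_cases hd : d 0 = 0 ∨ d 1 = 0
  · rw [coeff_crossPart F hd, map_zero, zero_mul, zero_mul, sub_zero, norm_zero]
    positivity
  · rw [not_or] at hd
    rw [← mul_sub, norm_mul]
    refine (mul_le_mul (hψ.le_one _) ?_ (norm_nonneg _) zero_le_one).trans_eq (one_mul _)
    simp only [mon, Fin.prod_univ_two, Matrix.cons_val_zero, Matrix.cons_val_one,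
      Matrix.cons_val_fin_one, ← mul_sub, norm_mul, norm_pow]
    exact mul_le_mul (pow_le_of_le_one (norm_nonneg _) hx.le hd.1)
      (norm_pow_sub_pow_le hy.le hy'.le (d 1)) (norm_nonneg _) (norm_nonneg _)

theorem summable_ev (hψ : IsPoint p n ψ) (f : PowerSeries (LTRing p n)) {x : K} (hx : ‖x‖ < 1) :
    Summable fun i : ℕ => ψ (PowerSeries.coeff i f) * x ^ i := by
  have h := summable_term (σ := Unit) hψ.le_one (x := fun _ => x) (fun _ => hx) f
  rw [← (Equiv.finsuppUnique (ι := Unit) (M := ℕ)).summable_iff]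
  refine h.congr fun d => ?_
  have hd : d = Finsupp.single () (d ()) := Finsupp.unique_single d
  conv_lhs => rw [hd, mon_single]
  rfl

theorem ev_sub (hψ : IsPoint p n ψ) (f g : PowerSeries (LTRing p n)) {x : K} (hx : ‖x‖ < 1) :
    ev ψ (f - g) x = ev ψ f x - ev ψ g x := by
  simp only [ev_eq_evMv]
  exact evMv_sub hψ.le_one (fun _ => hx) f g

theorem ev_X (x : K) : ev ψ (PowerSeries.X : PowerSeries (LTRing p n)) x = x := by
  rw [ev_eq_evMv]
  exact evMv_X _ ()


theorem ev_add (hψ : IsPoint p n ψ) (f g : PowerSeries (LTRing p n)) {x : K} (hx : ‖x‖ < 1) :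
    ev ψ (f + g) x = ev ψ f x + ev ψ g x := by
  simp only [ev_eq_evMv]
  exact evMv_add hψ.le_one (fun _ => hx) f g

theorem ev_mul (hψ : IsPoint p n ψ) (f g : PowerSeries (LTRing p n)) {x : K} (hx : ‖x‖ < 1) :
    ev ψ (f * g) x = ev ψ f x * ev ψ g x := by
  simp only [ev_eq_evMv]
  exact evMv_mul hψ.le_one (fun _ => hx) f g

theorem ev_C (hψ : IsPoint p n ψ) (r : LTRing p n) (x : K) :
    ev ψ (PowerSeries.C r) x = ψ r := by
  rw [ev_eq_evMv]
  exact evMv_C _ r

theorem ev_X_pow (hψ : IsPoint p n ψ) (m : ℕ) (x : K) :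
    ev ψ (PowerSeries.X ^ m) x = x ^ m := by
  rw [ev, tsum_eq_single m]
  · simp [PowerSeries.coeff_X_pow]
  · intro i hi
    simp [PowerSeries.coeff_X_pow, hi]

theorem ev_map (α : LTRing p n →+* LTRing p n) (f : PowerSeries (LTRing p n)) (x : K) :
    ev ψ (f.map α) x = ev (ψ.comp α) f x := by
  simp [ev]

theorem norm_ev_le_one (hψ : IsPoint p n ψ) (f : PowerSeries (LTRing p n)) {x : K}
    (hx : ‖x‖ < 1) : ‖ev ψ f x‖ ≤ 1 := by
  rw [ev_eq_evMv]
  exact norm_evMv_le_one hψ.le_one (fun _ => hx.le) f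

theorem norm_ev_le (hψ : IsPoint p n ψ) (f : PowerSeries (LTRing p n))
    (hf : PowerSeries.constantCoeff f = 0) {x : K} (hx : ‖x‖ < 1) : ‖ev ψ f x‖ ≤ ‖x‖ := by
  rw [ev_eq_evMv]
  exact norm_evMv_le_radius hψ.le_one (norm_nonneg x) hx.le (fun _ => le_rfl) hf

theorem norm_ev_sub_le (hψ : IsPoint p n ψ) (f : PowerSeries (LTRing p n)) {x y : K}
    (hx : ‖x‖ < 1) (hy : ‖y‖ < 1) : ‖ev ψ f x - ev ψ f y‖ ≤ ‖x - y‖ := by
  rw [ev, ev, ← (summable_ev hψ f hx).tsum_sub (summable_ev hψ f hy)]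
  refine IsUltrametricDist.norm_tsum_le_of_forall_le_of_nonneg (norm_nonneg _) fun i => ?_
  rw [← mul_sub, norm_mul]
  refine (mul_le_mul (hψ.le_one _) (norm_pow_sub_pow_le hx.le hy.le i) (norm_nonneg _)
    zero_le_one).trans_eq (one_mul _)

theorem ev_subst (hψ : IsPoint p n ψ) (f g : PowerSeries (LTRing p n))
    (hg : PowerSeries.constantCoeff g = 0) {x : K} (hx : ‖x‖ < 1) :
    ev ψ (PowerSeries.subst g f) x = ev ψ f (ev ψ g x) := by
  simp only [ev_eq_evMv]
  exact evMv_subst hψ.le_one (g := fun _ : Unit => g) (fun _ => hg) (fun _ => hx) f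

theorem ev_subst_two (hψ : IsPoint p n ψ) (f : MvPowerSeries (Fin 2) (LTRing p n))
    (g g' : PowerSeries (LTRing p n)) (hg : PowerSeries.constantCoeff g = 0)
    (hg' : PowerSeries.constantCoeff g' = 0) {x : K} (hx : ‖x‖ < 1) :
    ev ψ (MvPowerSeries.subst ![g, g'] f) x = ev2 ψ f (ev ψ g x) (ev ψ g' x) := by
  simp only [ev_eq_evMv, ev2_eq_evMv]
  refine (evMv_subst hψ.le_one (g := ![g, g']) ?_ (fun _ => hx) f).trans (congrArg _ ?_)
  · intro i
    fin_cases i
    · exact hg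
    · exact hg'
  · funext i
    fin_cases i <;> rfl

theorem near_norm_sub_le (hψ : IsPoint p n ψ) (hψ' : IsPoint p n ψ') {D : ℝ}
    (hD : Near p n ψ ψ' D) (f : LTRing p n) : ‖ψ' f - ψ f‖ ≤ D := by
  obtain ⟨θ, h0, h1, hθ⟩ := hψ.contracting
  obtain ⟨θ', h0', h1', hθ'⟩ := hψ'.contracting
  refine le_of_forall_pos_le_add fun ε hε => ?_
  obtain ⟨N, hN⟩ := exists_pow_lt_of_lt_one hε (max_lt h1 h1')
  have hP := near_poly hψ hψ' hD (MvPowerSeries.truncTotal N f)
  have hr := sub_truncTotal_mem N f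
  generalize ((MvPowerSeries.truncTotal N f : MvPolynomial (Fin (n - 1))
      (WittVector p (GaloisField p n))) : LTRing p n) = P at hP hr
  have hε' : ∀ {t : ℝ}, 0 ≤ t → t ≤ max θ θ' → t ^ N ≤ D + ε := fun ht htm =>
    ((pow_le_pow_left₀ ht htm N).trans hN.le).trans (le_add_of_nonneg_left hD.1)
  rw [show ψ' f - ψ f = (ψ' P - ψ P) + (ψ' (f - P) + -ψ (f - P)) by
    rw [map_sub, map_sub]; ring]
  refine (IsUltrametricDist.norm_add_le_max _ _).trans (max_le ?_ ?_)
  · exact hP.trans (le_add_of_nonneg_right hε.le)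
  refine (IsUltrametricDist.norm_add_le_max _ _).trans (max_le ?_ ?_)
  · exact (norm_le_pow_of_mem hψ' h0'.le hθ' N _ hr).trans (hε' h0'.le (le_max_right _ _))
  · rw [norm_neg]
    exact (norm_le_pow_of_mem hψ h0.le hθ N _ hr).trans (hε' h0.le (le_max_left _ _))

theorem near_ev_sub_le (hψ : IsPoint p n ψ) (hψ' : IsPoint p n ψ') {D : ℝ}
    (hD : Near p n ψ ψ' D) (f : PowerSeries (LTRing p n))
    (hf : PowerSeries.constantCoeff f = 0) {x : K} (hx : ‖x‖ < 1) :
    ‖ev ψ' f x - ev ψ f x‖ ≤ D * ‖x‖ := by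
  rw [ev, ev, ← (summable_ev hψ' f hx).tsum_sub (summable_ev hψ f hx)]
  refine IsUltrametricDist.norm_tsum_le_of_forall_le_of_nonneg
    (mul_nonneg hD.1 (norm_nonneg _)) fun i => ?_
  by_cases hi : PowerSeries.coeff i f = 0
  · rw [hi, map_zero, map_zero, sub_self, norm_zero]
    exact mul_nonneg hD.1 (norm_nonneg _)
  · rw [← sub_mul, norm_mul, norm_pow]
    exact mul_le_mul (near_norm_sub_le hψ hψ' hD _)
      (pow_le_of_le_one (norm_nonneg _) hx.le
        (Nat.one_le_iff_ne_zero.1 (coeff_ne_zero_ne hf hi)))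
      (by positivity) hD.1

theorem isPoint_comp (hn : 0 < n) (hψ : IsPoint p n ψ) (α : LTRing p n ≃+* LTRing p n) :
    IsPoint p n (ψ.comp α.toRingHom) := by
  obtain ⟨θ, h0, h1, hθ⟩ := hψ.contracting
  refine ⟨fun x => hψ.le_one _, θ, h0, h1, fun x hx => hθ _ ?_⟩
  rw [mIdeal_eq_maximalIdeal p n hn, IsLocalRing.mem_maximalIdeal, mem_nonunits_iff] at hx ⊢
  intro hu
  have h' := hu.map α.symm.toRingHom
  simp at h'
  exact hx h'

theorem isPoint_frobTwist (hψ : IsPoint p n ψ) {r : ℕ} (h' : IsFrobTwist p n r ψ ψ') :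
    IsPoint p n ψ' := by
  obtain ⟨θ, h0, h1, hθ⟩ := hψ.contracting
  have hq : p ^ r ≠ 0 := pow_ne_zero _ hp.out.ne_zero
  refine ⟨fun x => ?_, θ ^ p ^ r, pow_pos h0 _, pow_lt_one₀ h0.le h1 hq, fun x hx => ?_⟩
  · rw [h', norm_pow]
    exact pow_le_one₀ (norm_nonneg _) (hψ.le_one x)
  · rw [h', norm_pow]
    exact pow_le_pow_left₀ (norm_nonneg _) (hθ x hx) _

theorem ev_frobTwist (hψ : IsPoint p n ψ) (hchar : (p : K) = 0) {r : ℕ}
    (h' : IsFrobTwist p n r ψ ψ') (f : PowerSeries (LTRing p n)) {x : K} (hx : ‖x‖ < 1) :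
    ev ψ' f (x ^ p ^ r) = ev ψ f x ^ p ^ r := by
  haveI : CharP K p := (CharP.charP_iff_prime_eq_zero hp.out).2 hchar
  have hs := summable_ev hψ f hx
  have h := hs.map_tsum (iterateFrobenius K p r) (by
    rw [show (⇑(iterateFrobenius K p r) : K → K) = fun y => y ^ p ^ r from
      funext fun y => iterateFrobenius_def p r y]
    exact continuous_pow _)
  simp only [iterateFrobenius_def] at h
  rw [ev, ev, h]
  refine tsum_congr fun i => ?_
  rw [h', mul_pow, ← pow_mul, ← pow_mul, mul_comm i]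

/-! The group on the open disc. -/

variable {F : FormalGroup (LTRing p n)}

theorem norm_fadd_lt (hψ : IsPoint p n ψ) {x y : K} (hx : ‖x‖ < 1) (hy : ‖y‖ < 1) :
    ‖fadd ψ F x y‖ < 1 := by
  rw [fadd, ev2_eq_evMv]
  exact norm_evMv_lt_one hψ.le_one (pair_norm_lt hx hy) F.zero_constantCoeff

theorem norm_fadd_sub_add_le (hψ : IsPoint p n ψ) {x y : K} (hx : ‖x‖ < 1) (hy : ‖y‖ < 1) :
    ‖fadd ψ F x y - (x + y)‖ ≤ ‖x‖ * ‖y‖ := by
  rw [fadd_eq hψ F hx hy, add_sub_cancel_left]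
  exact norm_cross_le hψ F hx hy

theorem fadd_assoc (hψ : IsPoint p n ψ) {x y z : K} (hx : ‖x‖ < 1) (hy : ‖y‖ < 1)
    (hz : ‖z‖ < 1) : fadd ψ F (fadd ψ F x y) z = fadd ψ F x (fadd ψ F y z) := by
  have hx3 : ∀ i, ‖(![x, y, z] : Fin 3 → K) i‖ < 1 := by
    intro i
    fin_cases i
    exacts [hx, hy, hz]
  have h := congrArg (fun G => evMv ψ G ![x, y, z]) F.assoc
  have hX : ∀ i j : Fin 3, ∀ s : Fin 2, MvPowerSeries.constantCoeff
      ((![MvPowerSeries.X i, MvPowerSeries.X j] :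
        Fin 2 → MvPowerSeries (Fin 3) (LTRing p n)) s) = 0 := by
    intro i j s
    fin_cases s <;> simp
  have hin : ∀ i j : Fin 3, MvPowerSeries.constantCoeff (MvPowerSeries.subst
      (![MvPowerSeries.X i, MvPowerSeries.X j] : Fin 2 → MvPowerSeries (Fin 3) (LTRing p n))
      F.toPowerSeries) = 0 := fun i j =>
    MvPowerSeries.constantCoeff_subst_eq_zero
      (MvPowerSeries.hasSubst_of_constantCoeff_zero (hX i j)) (hX i j) F.zero_constantCoeff
  have hval : ∀ i j : Fin 3, evMv ψ (MvPowerSeries.subst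
      (![MvPowerSeries.X i, MvPowerSeries.X j] : Fin 2 → MvPowerSeries (Fin 3) (LTRing p n))
      F.toPowerSeries) ![x, y, z]
        = fadd ψ F ((![x, y, z] : Fin 3 → K) i) ((![x, y, z] : Fin 3 → K) j) := by
    intro i j
    rw [evMv_subst hψ.le_one (hX i j) hx3, fadd, ev2_eq_evMv]
    refine congrArg _ (funext fun s => ?_)
    fin_cases s <;> exact evMv_X _ _
  rw [evMv_subst hψ.le_one ?_ hx3, evMv_subst hψ.le_one ?_ hx3] at h
  · simp only [fadd, ev2_eq_evMv]
    simp only [fadd, ev2_eq_evMv] at hval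
    convert h using 2
    · funext s
      fin_cases s
      · exact (hval 0 1).symm
      · exact (evMv_X (ψ := ψ) ![x, y, z] (2 : Fin 3)).symm
    · funext s
      fin_cases s
      · exact (evMv_X (ψ := ψ) ![x, y, z] (0 : Fin 3)).symm
      · exact (hval 1 2).symm
  · intro s
    fin_cases s
    · exact MvPowerSeries.constantCoeff_X _
    · exact hin 1 2
  · intro s
    fin_cases s
    · exact hin 0 1
    · exact MvPowerSeries.constantCoeff_X _

theorem fadd_comm (hψ : IsPoint p n ψ) (hF : HasHazewinkelLog p n F) {x y : K} (hx : ‖x‖ < 1)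
    (hy : ‖y‖ < 1) : fadd ψ F x y = fadd ψ F y x := by
  haveI := hazewinkel_isComm p n hF
  have h := congrArg (fun G => evMv ψ G ![x, y]) (FormalGroup.IsComm.comm (F := F))
  rw [evMv_subst hψ.le_one ?_ (pair_norm_lt hx hy)] at h
  · rw [fadd, fadd, ev2_eq_evMv, ev2_eq_evMv, h]
    refine congrArg _ (funext fun s => ?_)
    fin_cases s <;> exact evMv_X _ _
  · intro s
    fin_cases s <;> exact MvPowerSeries.constantCoeff_X _

theorem fadd_zero (hψ : IsPoint p n ψ) {x : K} (hx : ‖x‖ < 1) :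
    fadd ψ F x 0 = x ∧ fadd ψ F 0 x = x := by
  have h0 : ‖(0 : K)‖ < 1 := by simp
  constructor
  · have hc : ‖evMv ψ (crossPart F) ![x, (0 : K)]‖ ≤ 0 := by simpa using norm_cross_le hψ F hx h0
    rw [fadd_eq hψ F hx h0, norm_le_zero_iff.1 hc, add_zero, add_zero]
  · have hc : ‖evMv ψ (crossPart F) ![(0 : K), x]‖ ≤ 0 := by simpa using norm_cross_le hψ F h0 hx
    rw [fadd_eq hψ F h0 hx, norm_le_zero_iff.1 hc, zero_add, add_zero]

theorem norm_fadd_sub_fadd (hψ : IsPoint p n ψ) {x y y' : K} (hx : ‖x‖ < 1) (hy : ‖y‖ < 1)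
    (hy' : ‖y'‖ < 1) : ‖fadd ψ F x y - fadd ψ F x y'‖ = ‖y - y'‖ := by
  rw [fadd_eq hψ F hx hy, fadd_eq hψ F hx hy',
    show ∀ u v : K, x + y + u - (x + y' + v) = (y - y') + (u - v) from fun u v => by ring]
  rcases eq_or_ne y y' with rfl | hne
  · simp
  have hpos : 0 < ‖y - y'‖ := norm_pos_iff.2 (sub_ne_zero.2 hne)
  have hlt : ‖evMv ψ (crossPart F) ![x, y] - evMv ψ (crossPart F) ![x, y']‖ < ‖y - y'‖ :=
    lt_of_le_of_lt (norm_cross_sub_le hψ F hx hy hy') (mul_lt_of_lt_one_left hpos hx)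
  rw [IsUltrametricDist.norm_add_eq_max_of_norm_ne_norm hlt.ne', max_eq_left hlt.le]

theorem exists_fadd_eq (hψ : IsPoint p n ψ) {x z : K} (hx : ‖x‖ < 1) (hz : ‖z‖ < 1) :
    ∃ y : K, ‖y‖ < 1 ∧ fadd ψ F x y = z ∧ ‖y‖ = ‖z - x‖ := by
  have hr1 : ‖z - x‖ < 1 := by
    rw [sub_eq_add_neg]
    exact lt_of_le_of_lt (IsUltrametricDist.norm_add_le_max _ _) (max_lt hz (by rwa [norm_neg]))
  let T : K → K := fun y => z - x - evMv ψ (crossPart F) ![x, y]
  have hball : ∀ {y : K}, ‖y‖ ≤ ‖z - x‖ → ‖T y‖ ≤ ‖z - x‖ := fun {y} hy => by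
    simp only [T]
    rw [sub_eq_add_neg (z - x)]
    refine (IsUltrametricDist.norm_add_le_max _ _).trans (max_le le_rfl ?_)
    rw [norm_neg]
    exact (norm_cross_le hψ F hx (lt_of_le_of_lt hy hr1)).trans
      ((mul_le_of_le_one_left (norm_nonneg _) hx.le).trans hy)
  have hcontr : ∀ {y y' : K}, ‖y‖ ≤ ‖z - x‖ → ‖y'‖ ≤ ‖z - x‖ →
      ‖T y - T y'‖ ≤ ‖x‖ * ‖y - y'‖ := fun {y y'} hy hy' => by
    simp only [T]
    rw [sub_sub_sub_cancel_left, norm_sub_rev y y']
    exact norm_cross_sub_le hψ F hx (lt_of_le_of_lt hy' hr1) (lt_of_le_of_lt hy hr1)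
  have hin : ∀ k, ‖T^[k] 0‖ ≤ ‖z - x‖ := by
    intro k
    induction k with
    | zero => simp
    | succ k ih => rw [Function.iterate_succ_apply']; exact hball ih
  have hstep : ∀ k, dist (T^[k] 0) (T^[k + 1] 0) ≤ ‖z - x‖ * ‖x‖ ^ k := by
    intro k
    induction k with
    | zero => simpa [dist_eq_norm] using hin 1
    | succ k ih =>
      rw [dist_eq_norm] at ih ⊢
      calc ‖T^[k + 1] 0 - T^[k + 1 + 1] 0‖ = ‖T (T^[k] 0) - T (T^[k + 1] 0)‖ := by
            simp only [Function.iterate_succ_apply']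
        _ ≤ ‖x‖ * ‖T^[k] 0 - T^[k + 1] 0‖ := hcontr (hin k) (hin (k + 1))
        _ ≤ ‖x‖ * (‖z - x‖ * ‖x‖ ^ k) := mul_le_mul_of_nonneg_left ih (norm_nonneg _)
        _ = ‖z - x‖ * ‖x‖ ^ (k + 1) := by rw [pow_succ', mul_left_comm]
  obtain ⟨y, hy⟩ := cauchySeq_tendsto_of_complete
    (cauchySeq_of_le_geometric ‖x‖ ‖z - x‖ hx hstep)
  have hyr : ‖y‖ ≤ ‖z - x‖ := le_of_tendsto hy.norm (Filter.Eventually.of_forall hin)
  have hfix : T y = y := by
    refine tendsto_nhds_unique ?_ ((Filter.tendsto_add_atTop_iff_nat 1).2 hy)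
    rw [tendsto_iff_norm_sub_tendsto_zero]
    refine squeeze_zero (fun _ => norm_nonneg _) (fun k => ?_)
      (tendsto_iff_norm_sub_tendsto_zero.1 hy)
    rw [Function.iterate_succ_apply']
    exact (hcontr (hin k) hyr).trans (mul_le_of_le_one_left (norm_nonneg _) hx.le)
  have hy1 : ‖y‖ < 1 := lt_of_le_of_lt hyr hr1
  have heq : fadd ψ F x y = z := by
    rw [fadd_eq hψ F hx hy1]
    simp only [T] at hfix
    linear_combination -hfix
  refine ⟨y, hy1, heq, ?_⟩
  have h0 : ‖(0 : K)‖ < 1 := by simp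
  have h := norm_fadd_sub_fadd hψ (F := F) hx hy1 h0
  rw [heq, (fadd_zero hψ hx).1, sub_zero] at h
  exact h.symm

theorem near_fadd_sub_le (hψ : IsPoint p n ψ) (hψ' : IsPoint p n ψ') {D : ℝ}
    (hD : Near p n ψ ψ' D) {x y : K} (hx : ‖x‖ < 1) (hy : ‖y‖ < 1) :
    ‖fadd ψ' F x y - fadd ψ F x y‖ ≤ D * max ‖x‖ ‖y‖ := by
  rw [fadd, fadd, ev2_eq_evMv, ev2_eq_evMv, evMv, evMv,
    ← (summable_term hψ'.le_one (pair_norm_lt hx hy) _).tsum_sub
      (summable_term hψ.le_one (pair_norm_lt hx hy) _)]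
  have hC : 0 ≤ D * max ‖x‖ ‖y‖ := mul_nonneg hD.1 (le_max_of_le_left (norm_nonneg _))
  refine IsUltrametricDist.norm_tsum_le_of_forall_le_of_nonneg hC fun d => ?_
  by_cases hd : d = 0
  · rw [hd, MvPowerSeries.coeff_zero_eq_constantCoeff_apply, F.zero_constantCoeff, map_zero,
      map_zero, sub_self, norm_zero]
    exact hC
  · rw [← sub_mul, norm_mul]
    have hρ : ∀ i, ‖(![x, y] : Fin 2 → K) i‖ ≤ max ‖x‖ ‖y‖ := by
      intro i
      fin_cases i
      · exact le_max_left _ _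
      · exact le_max_right _ _
    exact mul_le_mul (near_norm_sub_le hψ hψ' hD _)
      ((norm_mon_le hρ d).trans (pow_le_of_le_one (le_max_of_le_left (norm_nonneg _))
        (max_le hx.le hy.le) (fun h => hd ((Finsupp.degree_eq_zero_iff d).1 h))))
      (norm_nonneg _) hD.1

theorem ev_nmul_fadd (hψ : IsPoint p n ψ) (hF : HasHazewinkelLog p n F) {x y : K}
    (hx : ‖x‖ < 1) (hy : ‖y‖ < 1) : ∀ m : ℕ,
    ev ψ (nmulSeries p n F m) (fadd ψ F x y)
      = fadd ψ F (ev ψ (nmulSeries p n F m) x) (ev ψ (nmulSeries p n F m) y)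
  | 0 => by
    have h0 : ∀ t : K, ev ψ (nmulSeries p n F 0) t = 0 := fun t => by simp [nmulSeries, ev]
    rw [h0, h0, h0, (fadd_zero hψ (show ‖(0 : K)‖ < 1 by simp)).1]
  | m + 1 => by
    have hs : ∀ {t : K}, ‖t‖ < 1 → ev ψ (nmulSeries p n F (m + 1)) t
        = fadd ψ F (ev ψ (nmulSeries p n F m) t) t := fun {t} ht => by
      rw [nmulSeries, ev_subst_two hψ _ _ _ (nmulSeries_constantCoeff F m)
        PowerSeries.constantCoeff_X ht, ev_X]
      rfl
    have hA : ∀ {t : K}, ‖t‖ < 1 → ‖ev ψ (nmulSeries p n F m) t‖ < 1 := fun {t} ht =>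
      lt_of_le_of_lt (norm_ev_le hψ _ (nmulSeries_constantCoeff F m) ht) ht
    have hB := norm_fadd_lt hψ (F := F) hx hy
    rw [hs hx, hs hy, hs hB, ev_nmul_fadd hψ hF hx hy m,
      fadd_assoc hψ (hA hx) (hA hy) hB,
      fadd_assoc hψ (hA hx) hx (norm_fadd_lt hψ (hA hy) hy),
      ← fadd_assoc hψ (hA hy) hx hy, fadd_comm hψ hF (hA hy) hx,
      fadd_assoc hψ hx (hA hy) hy]

theorem ev_pSeries_fadd (hψ : IsPoint p n ψ) (hF : HasHazewinkelLog p n F) {x y : K}
    (hx : ‖x‖ < 1) (hy : ‖y‖ < 1) :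
    ev ψ (pSeries p n F) (fadd ψ F x y)
      = fadd ψ F (ev ψ (pSeries p n F) x) (ev ψ (pSeries p n F) y) := by
  exact ev_nmul_fadd hψ hF (F := F) hx hy p

theorem ev_hom_fadd {S : ℕ} {a : GaloisField p n} {c : ℕ} (hn : 0 < n) (hψ : IsPoint p n ψ)
    (d : ActData p n F S a c) {x y : K} (hx : ‖x‖ < 1) (hy : ‖y‖ < 1) :
    ev ψ d.φ (fadd ψ F x y)
      = fadd (ψ.comp d.α.toRingHom) F (ev ψ d.φ x) (ev ψ d.φ y) := by
  have hxy := pair_norm_lt (K := K) hx hy
  have h := congrArg (fun G => evMv ψ G ![x, y]) d.φ_hom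
  have hXs : ∀ i : Fin 2, evMv ψ (PowerSeries.subst (MvPowerSeries.X i) d.φ) ![x, y]
      = ev ψ d.φ ((![x, y] : Fin 2 → K) i) := by
    intro i
    rw [ev_eq_evMv]
    refine (evMv_subst hψ.le_one (g := fun _ : Unit => MvPowerSeries.X i)
      (fun _ => MvPowerSeries.constantCoeff_X i) hxy d.φ).trans ?_
    exact congrArg _ (funext fun _ => evMv_X _ i)
  have hc : ∀ i : Fin 2,
      MvPowerSeries.constantCoeff (PowerSeries.subst
        (MvPowerSeries.X i : MvPowerSeries (Fin 2) (LTRing p n)) d.φ) = 0 := fun i =>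
    PowerSeries.constantCoeff_subst_eq_zero (MvPowerSeries.constantCoeff_X i) _ d.φ_zero
  rw [show evMv ψ (PowerSeries.subst F.toPowerSeries d.φ) ![x, y]
      = ev ψ d.φ (fadd ψ F x y) by
        rw [ev_eq_evMv, fadd, ev2_eq_evMv]
        exact evMv_subst hψ.le_one (g := fun _ : Unit => F.toPowerSeries)
          (fun _ => F.zero_constantCoeff) hxy d.φ,
    evMv_subst hψ.le_one ?_ hxy] at h
  · rw [h, fadd, ev2_eq_evMv]
    refine (evMv_map d.α.toRingHom F.toPowerSeries _).trans (congrArg _ ?_)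
    funext i
    fin_cases i
    · exact hXs 0
    · exact hXs 1
  · intro i
    fin_cases i
    · exact hc 0
    · exact hc 1

theorem ev_hom_pSeries {S : ℕ} {a : GaloisField p n} {c : ℕ} (hn : 0 < n) (hψ : IsPoint p n ψ)
    (d : ActData p n F S a c) {x : K} (hx : ‖x‖ < 1) :
    ev ψ d.φ (ev ψ (pSeries p n F) x)
      = ev (ψ.comp d.α.toRingHom) (pSeries p n F) (ev ψ d.φ x) := by
  have hp0 : PowerSeries.constantCoeff (pSeries p n F) = 0 := nmulSeries_constantCoeff F p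
  rw [← ev_subst hψ d.φ (pSeries p n F) hp0 hx, pSeries_comm p n d.α d.φ d.φ_zero d.φ_hom,
    ev_subst hψ _ d.φ d.φ_zero hx]
  exact ev_map d.α.toRingHom _ _

theorem ev_pSeries_gSeries (hψ : IsPoint p n ψ) (hF : HasHazewinkelLog p n F) {h : ℕ}
    (hh : h ≤ n) (hkill : ∀ i < h, ψ (ltU p n i) = 0) {x : K} (hx : ‖x‖ < 1) :
    ev ψ (pSeries p n F) x = ev ψ (gSeries p n F h) (x ^ p ^ h) := by
  have hinj : Function.Injective fun j : ℕ => p ^ h * j :=
    mul_right_injective₀ (pow_ne_zero _ hp.out.ne_zero)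
  rw [ev, ev, ← hinj.tsum_eq ?_]
  · refine tsum_congr fun j => ?_
    rw [gSeries, PowerSeries.coeff_mk, ← pow_mul]
  · intro N hN
    have hdvd : p ^ h ∣ N := by
      by_contra hnd
      refine hN ?_
      have hle : heightIdeal p n h ≤ RingHom.ker ψ := by
        rw [heightIdeal, Ideal.span_le]
        rintro _ ⟨i, hi, rfl⟩
        exact hkill i hi
      show ψ _ * x ^ N = 0
      rw [RingHom.mem_ker.1 (hle (pSeries_coeff_mem p n hF hh hnd)), zero_mul]
    obtain ⟨j, rfl⟩ := hdvd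
    exact ⟨j, rfl⟩

/-- The displacement series: `φ(x) = x +_F D` with `D` close to `a x^{p^S}`. -/
theorem exists_displacement {S : ℕ} {a : GaloisField p n} {c : ℕ} (hn : 0 < n)
    (hψ : IsPoint p n ψ) (hF : HasHazewinkelLog p n F) (d : ActData p n F S a c)
    {θ : ℝ} (hθ : ∀ y ∈ mIdeal p n, ‖ψ y‖ ≤ θ) {x : K} (hx : ‖x‖ < 1) :
    ∃ D : K, ‖D‖ < 1 ∧ ev ψ d.φ x = fadd ψ F x D ∧
      ‖D - ψ (teich p n a) * x ^ p ^ S‖ ≤ θ * ‖x‖ := by
  let g : PowerSeries (LTRing p n) := PowerSeries.C (teich p n a) * PowerSeries.X ^ p ^ S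
  have hq : p ^ S ≠ 0 := pow_ne_zero _ hp.out.ne_zero
  have hg : PowerSeries.constantCoeff g = 0 := by
    simp only [g, map_mul, map_pow, PowerSeries.constantCoeff_X, zero_pow hq, mul_zero]
  let S₀ : PowerSeries (LTRing p n) :=
    MvPowerSeries.subst ![PowerSeries.X, g] F.toPowerSeries
  have hS₀ : PowerSeries.constantCoeff S₀ = 0 := by
    have h2 : ∀ i : Fin 2, MvPowerSeries.constantCoeff
        ((![PowerSeries.X, g] : Fin 2 → PowerSeries (LTRing p n)) i) = 0 := by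
      intro i
      fin_cases i
      · exact PowerSeries.constantCoeff_X
      · exact hg
    exact MvPowerSeries.constantCoeff_subst_eq_zero
      (MvPowerSeries.hasSubst_of_constantCoeff_zero h2) h2 F.zero_constantCoeff
  have hz : ‖ev ψ d.φ x‖ < 1 := lt_of_le_of_lt (norm_ev_le hψ _ d.φ_zero hx) hx
  obtain ⟨D, hD1, hDeq, -⟩ := exists_fadd_eq hψ (F := F) hx hz
  have hw : ev ψ g x = ψ (teich p n a) * x ^ p ^ S := by
    simp only [g]
    rw [ev_mul hψ _ _ hx, ev_C hψ, ev_X_pow hψ]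
  have hw1 : ‖ψ (teich p n a) * x ^ p ^ S‖ < 1 := by
    rw [← hw]
    exact lt_of_le_of_lt (norm_ev_le hψ _ hg hx) hx
  refine ⟨D, hD1, hDeq.symm, ?_⟩
  rw [← norm_fadd_sub_fadd hψ (F := F) hx hD1 hw1, hDeq]
  have hS : ev ψ S₀ x = fadd ψ F x (ψ (teich p n a) * x ^ p ^ S) := by
    rw [ev_subst_two hψ _ _ _ PowerSeries.constantCoeff_X hg hx, ev_X, hw]
    rfl
  have hθ0 : 0 ≤ θ := (norm_nonneg _).trans (hθ 0 (Submodule.zero_mem _))
  rw [← hS, ← ev_sub hψ _ _ hx, ev]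
  refine IsUltrametricDist.norm_tsum_le_of_forall_le_of_nonneg
    (mul_nonneg hθ0 (norm_nonneg _)) fun i => ?_
  by_cases hi : PowerSeries.coeff i (d.φ - S₀) = 0
  · rw [hi, map_zero, zero_mul, norm_zero]
    exact mul_nonneg hθ0 (norm_nonneg _)
  · rw [norm_mul, norm_pow]
    refine mul_le_mul (hθ _ ?_) (pow_le_of_le_one (norm_nonneg _) hx.le
      (Nat.one_le_iff_ne_zero.1 (coeff_ne_zero_ne (by rw [map_sub, d.φ_zero, hS₀, sub_zero]) hi)))
      (by positivity) hθ0
    rw [map_sub]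
    exact d.φ_res i

end

end Vale.Agent.P217
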