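import Mathlib.RingTheory.MvPowerSeries.Expand
import Mathlib.NumberTheory.Basic
import Mathlib.Algebra.CharP.Quotient
import Mathlib.Algebra.BigOperators.Intervals

/-!
The functional equation lemma, in the form: if `H - ∑ s_i (σ^i H)(x^(p^i))` has integral
coefficients and `H = ∑ l_k G^(p^k)`, where `l` solves the same functional equation, then
`G` has integral coefficients.
-/

open scoped BigOperators
open MvPowerSeries Finset

namespace Vale.Agent.P217.FEL

variable {I : Type*}

/-- Agreement below a degree. -/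
def Agree {R : Type*} [CommRing R] (N : ℕ) (f g : MvPowerSeries I R) : Prop :=
  ∀ e : I →₀ ℕ, e.degree < N → coeff e f = coeff e g

lemma Agree.mul {R : Type*} [CommRing R] {N : ℕ} {f f' g g' : MvPowerSeries I R}
    (hf : Agree N f f') (hg : Agree N g g') : Agree N (f * g) (f' * g') := by
  classical
  intro e he
  rw [coeff_mul, coeff_mul]
  refine sum_congr rfl fun x hx => ?_
  rw [mem_antidiagonal] at hx
  have : x.1.degree + x.2.degree = e.degree := by rw [← hx, map_add]
  rw [hf _ (by omega), hg _ (by omega)]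

lemma Agree.pow {R : Type*} [CommRing R] {N : ℕ} {f g : MvPowerSeries I R}
    (h : Agree N f g) : ∀ m : ℕ, Agree N (f ^ m) (g ^ m)
  | 0 => fun _ _ => by simp
  | m + 1 => by rw [pow_succ, pow_succ]; exact (Agree.pow h m).mul h

lemma coeff_pow_eq_zero {R : Type*} [CommRing R] {f : MvPowerSeries I R}
    (hf : constantCoeff f = 0) {m : ℕ} {e : I →₀ ℕ} (he : e.degree < m) :
    coeff e (f ^ m) = 0 := by
  classical
  induction m generalizing e with
  | zero => omega
  | succ m ih =>
    rw [pow_succ', coeff_mul]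
    refine sum_eq_zero fun x hx => ?_
    rw [mem_antidiagonal] at hx
    rcases eq_or_ne x.1 0 with h | h
    · rw [h, coeff_zero_eq_constantCoeff_apply, hf, zero_mul]
    · have h1 : x.1.degree ≠ 0 := fun h' => h ((Finsupp.degree_eq_zero_iff _).1 h')
      have : x.1.degree + x.2.degree = e.degree := by rw [← hx, map_add]
      rw [ih (by omega), mul_zero]

/-- Coefficients of a power `≥ 2` depend only on the lower coefficients. -/
lemma Agree.coeff_pow {R : Type*} [CommRing R] {N : ℕ} {f g : MvPowerSeries I R}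
    (h : Agree N f g) (hf : constantCoeff f = 0) (hg : constantCoeff g = 0) {m : ℕ} (hm : 2 ≤ m)
    {e : I →₀ ℕ} (he : e.degree ≤ N) : coeff e (f ^ m) = coeff e (g ^ m) := by
  classical
  obtain ⟨r, rfl⟩ : ∃ r, m = r + 1 := ⟨m - 1, by omega⟩
  rw [pow_succ', pow_succ', coeff_mul, coeff_mul]
  refine sum_congr rfl fun x hx => ?_
  rw [mem_antidiagonal] at hx
  have hsum : x.1.degree + x.2.degree = e.degree := by rw [← hx, map_add]
  rcases eq_or_ne x.1 0 with h1 | h1
  · rw [h1, coeff_zero_eq_constantCoeff_apply, coeff_zero_eq_constantCoeff_apply, hf, hg,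
      zero_mul, zero_mul]
  rcases eq_or_ne x.2 0 with h2 | h2
  · rw [h2, coeff_zero_eq_constantCoeff_apply, coeff_zero_eq_constantCoeff_apply, map_pow, map_pow,
      hf, hg, zero_pow (by omega), mul_zero, mul_zero]
  have d1 : x.1.degree ≠ 0 := fun h' => h1 ((Finsupp.degree_eq_zero_iff _).1 h')
  have d2 : x.2.degree ≠ 0 := fun h' => h2 ((Finsupp.degree_eq_zero_iff _).1 h')
  rw [h _ (by omega), h.pow r _ (by omega)]

/-- Congruence between the twisted expansion and the power, modulo `p`. -/
lemma prime_dvd_expand_sub_pow {A : Type*} [CommRing A] {p : ℕ} [hp : Fact p.Prime] {σ : A →+* A}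
    (hσ : ∀ a, (p : A) ∣ σ a - a ^ p) (f : MvPowerSeries I A) (i : ℕ) :
    (p : MvPowerSeries I A) ∣
      expand (p ^ i) (pow_ne_zero i hp.out.ne_zero) (map (σ ^ i) f) - f ^ p ^ i := by
  suffices H : ∀ e, (p : A) ∣
      coeff e (expand (p ^ i) (pow_ne_zero i hp.out.ne_zero) (map (σ ^ i) f) - f ^ p ^ i) by
    choose c hc using H
    let q : MvPowerSeries I A := c
    refine ⟨q, MvPowerSeries.ext fun e => ?_⟩
    rw [show (p : MvPowerSeries I A) = C (p : A) from (map_natCast C p).symm, coeff_C_mul, hc e]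
    rfl
  by_cases hu : IsUnit (p : A)
  · exact fun e => hu.dvd
  intro e
  have : CharP (A ⧸ Ideal.span {(p : A)}) p := CharP.quotient A p hu
  set π := Ideal.Quotient.mk (Ideal.span {(p : A)}) with hπ
  have : ExpChar (A ⧸ Ideal.span {(p : A)}) p := ExpChar.prime hp.out
  have hfr : π.comp (σ ^ i) = (iterateFrobenius _ p i).comp π := by
    refine RingHom.ext fun a => ?_
    simp only [RingHom.comp_apply, iterateFrobenius_def]
    induction i generalizing a with
    | zero => simp
    | succ i ih =>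
      rw [pow_succ', RingHom.coe_mul, Function.comp_apply]
      have h1 : π (σ ((σ ^ i) a)) = π ((σ ^ i) a) ^ p := by
        rw [← map_pow, hπ, Ideal.Quotient.mk_eq_mk_iff_sub_mem, Ideal.mem_span_singleton]
        exact hσ _
      rw [h1, ih, ← pow_mul, ← pow_succ]
  have hmap : map π (expand (p ^ i) (pow_ne_zero i hp.out.ne_zero) (map (σ ^ i) f) - f ^ p ^ i)
      = 0 := by
    rw [map_sub, map_pow, map_expand, MvPowerSeries.map_map, hfr, ← MvPowerSeries.map_map, ← map_expand,
      map_iterateFrobenius_expand p hp.out.ne_zero, sub_self]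
  have := congrArg (coeff e) hmap
  rw [coeff_map, map_zero] at this
  rwa [hπ, Ideal.Quotient.eq_zero_iff_mem, Ideal.mem_span_singleton] at this

variable {A K : Type*} [CommRing A] [CommRing K] {ι : A →+* K} {σ : A →+* A} {τ : K →+* K}

lemma pow_apply_map (hτ : ∀ a, τ (ι a) = ι (σ a)) (i : ℕ) (a : A) :
    (τ ^ i) (ι a) = ι ((σ ^ i) a) := by
  induction i with
  | zero => simp
  | succ i ih => rw [pow_succ', pow_succ', RingHom.coe_mul, RingHom.coe_mul, Function.comp_apply,
      Function.comp_apply, ih, hτ]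

/-- The denominators of the coefficients of a logarithm. -/
lemma pow_mul_coeff_mem {p : ℕ} (hτ : ∀ a, τ (ι a) = ι (σ a)) {s l : ℕ → K}
    (hs : ∀ i, (p : K) * s (i + 1) ∈ ι.range) (l0 : l 0 = 1)
    (lS : ∀ m, l (m + 1) = ∑ i ∈ range (m + 1), s (i + 1) * (τ ^ (i + 1)) (l (m - i))) :
    ∀ m, (p : K) ^ m * l m ∈ ι.range := by
  intro m
  induction m using Nat.strong_induction_on with
  | _ m ih =>
    rcases m with _ | m
    · simp [l0]
    rw [lS, mul_sum]
    refine sum_mem fun i hi => ?_
    have hi' : i ≤ m := Nat.lt_succ_iff.1 (mem_range.1 hi)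
    obtain ⟨a, ha⟩ := ih (m - i) (by omega)
    have h2 : (τ ^ (i + 1)) ((p : K) ^ (m - i) * l (m - i)) ∈ ι.range :=
      ⟨(σ ^ (i + 1)) a, by rw [← pow_apply_map hτ, ha]⟩
    rw [map_mul, map_pow, map_natCast] at h2
    have e : (p : K) ^ (m + 1) * (s (i + 1) * (τ ^ (i + 1)) (l (m - i)))
        = (p : K) ^ i * ((p : K) * s (i + 1) * ((p : K) ^ (m - i) * (τ ^ (i + 1)) (l (m - i)))) := by
      conv_lhs => rw [show m + 1 = i + (m - i) + 1 by omega, pow_succ, pow_add]
      ring
    rw [e]
    exact mul_mem (pow_mem (natCast_mem _ p) i) (mul_mem (hs i) h2)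

/-- **Functional equation lemma.** -/
theorem integral {p : ℕ} [hp : Fact p.Prime] (hσ : ∀ a, (p : A) ∣ σ a - a ^ p)
    (hτ : ∀ a, τ (ι a) = ι (σ a)) {s l : ℕ → K} (hs : ∀ i, (p : K) * s (i + 1) ∈ ι.range)
    (l0 : l 0 = 1)
    (lS : ∀ m, l (m + 1) = ∑ i ∈ range (m + 1), s (i + 1) * (τ ^ (i + 1)) (l (m - i)))
    {H G : MvPowerSeries I K} (H0 : constantCoeff H = 0)
    (hH : ∀ e : I →₀ ℕ, coeff e H - ∑ i ∈ range e.degree, s (i + 1)
      * coeff e (expand (p ^ (i + 1)) (pow_ne_zero _ hp.out.ne_zero) (map (τ ^ (i + 1)) H))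
        ∈ ι.range)
    (hG : ∀ e : I →₀ ℕ, coeff e H = ∑ k ∈ range (e.degree + 1), l k * coeff e (G ^ p ^ k)) :
    ∀ e, coeff e G ∈ ι.range := by
  classical
  have G0 : constantCoeff G = 0 := by
    have := hG 0
    simp only [map_zero, zero_add, range_one, sum_singleton, l0, one_mul, pow_zero, pow_one,
      coeff_zero_eq_constantCoeff_apply, H0] at this
    exact this.symm
  suffices ∀ N, ∀ e : I →₀ ℕ, e.degree = N → coeff e G ∈ ι.range from fun e => this _ e rfl
  intro N
  induction N using Nat.strong_induction_on with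
  | _ N ih =>
  intro e he
  let G' : MvPowerSeries I A := fun d =>
    if h : d.degree < N ∧ d ≠ 0 then (ih d.degree h.1 d rfl).choose else 0
  have hA : Agree N G (map ι G') := by
    intro d hd
    rcases eq_or_ne d 0 with rfl | hne
    · rw [coeff_zero_eq_constantCoeff_apply, G0, coeff_map, coeff_apply]
      simp [G']
    · rw [coeff_map, show coeff d G' = (ih d.degree hd d rfl).choose from dif_pos ⟨hd, hne⟩]
      exact (ih d.degree hd d rfl).choose_spec.symm
  have G0' : constantCoeff (map ι G') = 0 := by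
    rw [← coeff_zero_eq_constantCoeff_apply, coeff_map, coeff_apply]
    simp [G']
  -- the coefficients of `H` below degree `N`
  have hHd : ∀ d : I →₀ ℕ, d.degree < N →
      coeff d H = ∑ j ∈ range (N + 1), l j * coeff d (map ι G' ^ p ^ j) := by
    intro d hd
    rw [hG d]
    refine (sum_congr rfl fun k _ => ?_).trans (sum_subset (range_mono (by omega)) fun k _ hk => ?_)
    · rw [hA.pow _ d hd]
    · rw [mem_range, not_lt] at hk
      rw [coeff_pow_eq_zero G0' (lt_of_lt_of_le (by omega)
        (Nat.lt_pow_self hp.out.one_lt).le), mul_zero]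
  set X : ℕ → K := fun k => coeff e (map ι G' ^ p ^ k) with hX
  set Y : ℕ → ℕ → K := fun i j => coeff e
    (map ι ((expand (p ^ i) (pow_ne_zero i hp.out.ne_zero) (map (σ ^ i) G')) ^ p ^ j)) with hY
  have hτι : ∀ i, (map (τ ^ i)).comp (map ι (σ := I)) = (map ι).comp (map (σ ^ i)) := fun i => by
    refine RingHom.ext fun f => MvPowerSeries.ext fun d => ?_
    rw [RingHom.comp_apply, RingHom.comp_apply, coeff_map, coeff_map, coeff_map, coeff_map, pow_apply_map hτ]
  have hExp : ∀ i, coeff e (expand (p ^ (i + 1)) (pow_ne_zero _ hp.out.ne_zero) (map (τ ^ (i + 1)) H))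
      = ∑ j ∈ range (N + 1), (τ ^ (i + 1)) (l j) * Y (i + 1) j := by
    intro i
    have hne := pow_ne_zero (i + 1) hp.out.ne_zero
    have hY' : ∀ j, Y (i + 1) j = coeff e (expand (p ^ (i + 1)) hne
        (map (τ ^ (i + 1)) (map ι G' ^ p ^ j))) := fun j => by
      simp only [hY]
      rw [map_pow, map_expand, map_pow (map (τ ^ (i + 1))), map_pow (expand _ hne),
        ← RingHom.comp_apply (map ι), ← hτι]
      rfl
    simp only [hY']
    by_cases hdiv : ∀ x, p ^ (i + 1) ∣ e x
    · obtain ⟨d, rfl⟩ : ∃ d, p ^ (i + 1) • d = e :=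
        ⟨e.mapRange (fun a => a / p ^ (i + 1)) (by simp),
          by ext x; simp [Nat.mul_div_cancel' (hdiv x)]⟩
      rcases eq_or_ne d 0 with rfl | hd0
      · simp only [smul_zero, coeff_zero_eq_constantCoeff_apply, constantCoeff_expand]
        simp only [← coeff_zero_eq_constantCoeff_apply, coeff_map]
        simp [H0, G0', zero_pow, hp.out.ne_zero]
      have hd : d.degree < N := by
        rw [← he, map_nsmul, smul_eq_mul]
        have : d.degree ≠ 0 := fun h' => hd0 ((Finsupp.degree_eq_zero_iff _).1 h')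
        exact lt_mul_left (by omega) (Nat.one_lt_pow (by omega) hp.out.one_lt)
      simp only [coeff_expand_smul, coeff_map, hHd d hd, map_sum, map_mul]
    · push Not at hdiv
      obtain ⟨x, hx⟩ := hdiv
      simp only [coeff_expand_of_not_dvd _ hne _ hx, mul_zero, sum_const_zero]
  have hdiff : ∀ i j, s (i + 1) * (τ ^ (i + 1)) (l j) * (Y (i + 1) j - X (i + 1 + j))
      ∈ ι.range := by
    intro i j
    obtain ⟨q, hq⟩ := dvd_sub_pow_of_dvd_sub (prime_dvd_expand_sub_pow hσ G' (i + 1)) j
    obtain ⟨a, ha⟩ := pow_mul_coeff_mem hτ hs l0 lS j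
    obtain ⟨b, hb⟩ := hs i
    have e1 : Y (i + 1) j - X (i + 1 + j) = (p : K) ^ (j + 1) * ι (coeff e q) := by
      simp only [hY, hX]
      rw [pow_add p (i + 1) j, pow_mul, ← map_pow (map ι), ← map_pow (map ι), ← map_sub,
        ← map_sub, hq, coeff_map,
        show (p : MvPowerSeries I A) = C (p : A) from (map_natCast C p).symm, ← map_pow,
        coeff_C_mul, map_mul, map_pow, map_natCast]
    have e2 : (p : K) ^ j * (τ ^ (i + 1)) (l j) = ι ((σ ^ (i + 1)) a) := by
      rw [← pow_apply_map hτ, ha, map_mul, map_pow, map_natCast]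
    refine ⟨b * (σ ^ (i + 1)) a * coeff e q, ?_⟩
    rw [map_mul, map_mul, ← e2, hb, e1]
    ring
  -- the main congruence
  have hXbig : ∀ k, N < k + 1 → k ≠ 0 → X k = 0 ∨ k = N := fun k hk _ => by
    rcases (show k = N ∨ N < k by omega) with h | h
    · exact Or.inr h
    · exact Or.inl (coeff_pow_eq_zero G0' (by rw [he]; exact h.trans (Nat.lt_pow_self hp.out.one_lt)))
  have hsum : ∑ k ∈ range N, l (k + 1) * X (k + 1) =
      ∑ i ∈ range N, ∑ j ∈ range (N + 1), s (i + 1) * (τ ^ (i + 1)) (l j) * X (i + 1 + j) := by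
    have h1 : ∀ k ∈ range N, l (k + 1) * X (k + 1) = ∑ i ∈ range (k + 1),
        s (i + 1) * (τ ^ (i + 1)) (l (k - i)) * X (i + 1 + (k - i)) := fun k _ => by
      rw [lS, sum_mul]
      refine sum_congr rfl fun i hi => ?_
      rw [show i + 1 + (k - i) = k + 1 by have := mem_range.1 hi; omega]
    rw [sum_congr rfl h1,
      sum_range_diag_flip N (fun i j => s (i + 1) * (τ ^ (i + 1)) (l j) * X (i + 1 + j))]
    refine sum_congr rfl fun i hi => sum_subset (range_mono (by omega)) fun j _ hj => ?_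
    rw [mem_range, not_lt] at hj
    rw [show X (i + 1 + j) = 0 from coeff_pow_eq_zero G0' (by
      rw [he]; exact lt_of_lt_of_le (by omega) (Nat.lt_pow_self hp.out.one_lt).le), mul_zero]
  have hGe : coeff e G = coeff e H - ∑ k ∈ range N, l (k + 1) * X (k + 1) := by
    rw [hG e, he, sum_range_succ', l0, one_mul, pow_zero, pow_one]
    have : ∀ k ∈ range N, l (k + 1) * coeff e (G ^ p ^ (k + 1)) = l (k + 1) * X (k + 1) := by
      intro k _
      rw [hA.coeff_pow G0 G0' (Nat.one_lt_pow (by omega) hp.out.one_lt) he.le]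
    rw [sum_congr rfl this]
    ring
  have key : coeff e G = (coeff e H - ∑ i ∈ range N, s (i + 1)
      * coeff e (expand (p ^ (i + 1)) (pow_ne_zero _ hp.out.ne_zero) (map (τ ^ (i + 1)) H)))
      + ∑ i ∈ range N, ∑ j ∈ range (N + 1),
          s (i + 1) * (τ ^ (i + 1)) (l j) * (Y (i + 1) j - X (i + 1 + j)) := by
    rw [hGe, hsum]
    simp only [hExp, mul_sum, mul_sub, sum_sub_distrib, mul_assoc]
    ring
  rw [key]
  exact add_mem (by simpa only [he] using hH e)
    (sum_mem fun i _ => sum_mem fun j _ => hdiff i j)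

end Vale.Agent.P217.FEL
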