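import Vale.Agent.P217.Defs
import Vale.Agent.P217.FEL

/-!
The formal group law with Hazewinkel's logarithm over the Lubin-Tate ring exists.
-/

open scoped BigOperators
open Finset

namespace Vale.Agent.P217

noncomputable section

variable (p n : ℕ) [hp : Fact p.Prime]

/-- The embedding of the Lubin-Tate ring into its fraction field. -/
abbrev ltEmb : LTRing p n →+* LTField p n := algebraMap _ _

/-- The Frobenius lift: Witt Frobenius on the coefficients, `u_i ↦ u_i ^ p`. -/
def ltFrob : LTRing p n →+* LTRing p n :=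
  ((MvPowerSeries.expand p hp.out.ne_zero :
      LTRing p n →ₐ[WittVector p (GaloisField p n)] LTRing p n) : LTRing p n →+* LTRing p n).comp
    (MvPowerSeries.map WittVector.frobenius)

lemma witt_dvd_frobenius_sub (w : WittVector p (GaloisField p n)) :
    (p : WittVector p (GaloisField p n)) ∣ WittVector.frobenius w - w ^ p := by
  rw [← Ideal.mem_span_singleton, WittVector.mem_span_p_iff_coeff_zero_eq_zero,
    ← WittVector.constantCoeff_apply, map_sub, map_pow, WittVector.constantCoeff_apply,
    WittVector.constantCoeff_apply, WittVector.coeff_frobenius_charP, sub_self]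

lemma dvd_ltFrob_sub (a : LTRing p n) : (p : LTRing p n) ∣ ltFrob p n a - a ^ p := by
  have h := FEL.prime_dvd_expand_sub_pow (witt_dvd_frobenius_sub p n) a 1
  simp only [pow_one] at h
  exact h

lemma ltFrob_injective : Function.Injective (ltFrob p n) := by
  intro a b h
  simp only [ltFrob, RingHom.comp_apply, RingHom.coe_coe] at h
  have h' : MvPowerSeries.map WittVector.frobenius a = MvPowerSeries.map WittVector.frobenius b :=
    MvPowerSeries.ext fun d => by
      have := congrArg (MvPowerSeries.coeff (p • d)) h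
      rwa [MvPowerSeries.coeff_expand_smul, MvPowerSeries.coeff_expand_smul] at this
  ext d : 1
  have := congrArg (MvPowerSeries.coeff d) h'
  rw [MvPowerSeries.coeff_map, MvPowerSeries.coeff_map] at this
  exact (WittVector.frobenius_bijective p _).injective this

/-- The extension of the Frobenius lift to the fraction field. -/
def ltFrobK : LTField p n →+* LTField p n :=
  IsFractionRing.lift (g := (ltEmb p n).comp (ltFrob p n))
    ((IsFractionRing.injective (LTRing p n) (LTField p n)).comp (ltFrob_injective p n))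

lemma ltFrobK_emb (a : LTRing p n) :
    ltFrobK p n (ltEmb p n a) = ltEmb p n (ltFrob p n a) := by
  rw [ltFrobK, IsFractionRing.lift_algebraMap]
  rfl

lemma ltFrob_ltU {i : ℕ} (hi : i ≠ 0) : ltFrob p n (ltU p n i) = ltU p n i ^ p := by
  rw [ltU, if_neg hi]
  split_ifs with h1 h2
  · simp [ltFrob, MvPowerSeries.map_X]
  · simp
  · simp [hp.out.ne_zero]

lemma pow_ltFrobK_u {i : ℕ} (hi : i ≠ 0) (k : ℕ) :
    (ltFrobK p n ^ k) (ltEmb p n (ltU p n i)) = ltEmb p n (ltU p n i) ^ p ^ k := by
  induction k with
  | zero => simp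
  | succ k ih =>
    rw [pow_succ, RingHom.coe_mul, Function.comp_apply, ltFrobK_emb, ltFrob_ltU p n hi, map_pow,
      map_pow, ih, ← pow_mul, ← pow_succ]

/-- `u_i / p`. -/
def ltS (i : ℕ) : LTField p n := (p : LTField p n)⁻¹ * ltEmb p n (ltU p n i)

lemma natCast_prime_ne_zero : (p : LTField p n) ≠ 0 := by
  rw [← map_natCast (ltEmb p n)]
  refine (map_ne_zero_iff _ (IsFractionRing.injective (LTRing p n) (LTField p n))).2 fun h => ?_
  have := congrArg MvPowerSeries.constantCoeff h
  rw [map_natCast, map_zero] at this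
  exact WittVector.p_nonzero p _ this

lemma prime_mul_ltS (i : ℕ) : (p : LTField p n) * ltS p n i = ltEmb p n (ltU p n i) := by
  rw [ltS, mul_inv_cancel_left₀ (natCast_prime_ne_zero p n)]

lemma logCoeff_succ (m : ℕ) : logCoeff p n (m + 1) = ∑ j ∈ range (m + 1),
    (p : LTField p n)⁻¹ * (logCoeff p n j * ltEmb p n (ltU p n (m + 1 - j)) ^ p ^ j) := by
  rw [logCoeff, mul_sum, ← Fin.sum_univ_eq_sum_range]
  refine Finset.sum_congr rfl fun j _ => ?_
  rw [map_pow]

/-- The functional equation of the logarithm. -/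
lemma logCoeff_funEq : ∀ m, logCoeff p n (m + 1)
    = ∑ i ∈ range (m + 1), ltS p n (i + 1) * (ltFrobK p n ^ (i + 1)) (logCoeff p n (m - i)) := by
  intro m
  induction m using Nat.strong_induction_on with
  | _ m ih =>
  set U : ℕ → LTField p n := fun i => ltEmb p n (ltU p n i) with hU
  have h1 : ∀ k ∈ range m, (p : LTField p n)⁻¹ * (logCoeff p n (k + 1) * U (m - k) ^ p ^ (k + 1))
      = ∑ i ∈ range (k + 1), ltS p n (i + 1) * ((p : LTField p n)⁻¹ *
          ((ltFrobK p n ^ (i + 1)) (logCoeff p n (k - i))
            * U (m - i - (k - i)) ^ p ^ (i + 1 + (k - i)))) := by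
    intro k hk
    rw [ih k (mem_range.1 hk), sum_mul, mul_sum]
    refine sum_congr rfl fun i hi => ?_
    have hi' := mem_range.1 hi
    rw [show m - i - (k - i) = m - k by omega, show i + 1 + (k - i) = k + 1 by omega]
    ring
  have h2 : ∀ i ∈ range m, ∑ j ∈ range (m - i), ltS p n (i + 1) * ((p : LTField p n)⁻¹ *
      ((ltFrobK p n ^ (i + 1)) (logCoeff p n j) * U (m - i - j) ^ p ^ (i + 1 + j)))
      = ltS p n (i + 1) * (ltFrobK p n ^ (i + 1)) (logCoeff p n (m - i)) := by
    intro i hi
    obtain ⟨r, hr⟩ : ∃ r, m - i = r + 1 := ⟨m - i - 1, by have := mem_range.1 hi; omega⟩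
    rw [hr, logCoeff_succ, map_sum, mul_sum]
    refine sum_congr rfl fun j hj => ?_
    have hj' := mem_range.1 hj
    simp only [map_mul, map_inv₀, map_natCast, map_pow, hU,
      pow_ltFrobK_u p n (show r + 1 - j ≠ 0 by omega)]
    rw [← pow_mul, ← pow_add]
  rw [logCoeff_succ, sum_range_succ', sum_range_succ _ m,
    show logCoeff p n 0 = 1 by rw [logCoeff], Nat.sub_self,
    show (ltFrobK p n ^ (m + 1)) (logCoeff p n 0) = 1 by rw [logCoeff, map_one]]
  refine congrArg₂ (· + ·) ?_ (by simp [ltS])
  calc _ = ∑ k ∈ range m, ∑ i ∈ range (k + 1), ltS p n (i + 1) * ((p : LTField p n)⁻¹ *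
          ((ltFrobK p n ^ (i + 1)) (logCoeff p n (k - i))
            * U (m - i - (k - i)) ^ p ^ (i + 1 + (k - i)))) :=
        sum_congr rfl fun k hk => by rw [Nat.add_sub_add_right]; exact h1 k hk
    _ = _ := (sum_range_diag_flip m (fun i j => ltS p n (i + 1) * ((p : LTField p n)⁻¹ *
          ((ltFrobK p n ^ (i + 1)) (logCoeff p n j) * U (m - i - j) ^ p ^ (i + 1 + j))))).trans
        (sum_congr rfl h2)

lemma coeff_ltLog_pow (k : ℕ) : PowerSeries.coeff (p ^ k) (ltLog p n) = logCoeff p n k := by
  rw [ltLog, PowerSeries.coeff_mk, Nat.log_pow hp.out.one_lt, if_pos rfl]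

lemma coeff_ltLog_of_ne {N : ℕ} (h : ∀ k, p ^ k ≠ N) : PowerSeries.coeff N (ltLog p n) = 0 := by
  rw [ltLog, PowerSeries.coeff_mk, if_neg (h _)]

lemma coeff_zero_ltLog : PowerSeries.constantCoeff (ltLog p n) = 0 := by
  rw [← PowerSeries.coeff_zero_eq_constantCoeff_apply]
  exact coeff_ltLog_of_ne p n fun k => (pow_ne_zero k hp.out.ne_zero)

lemma coeff_one_ltLog : PowerSeries.coeff 1 (ltLog p n) = 1 := by
  simpa [logCoeff] using coeff_ltLog_pow p n 0

lemma coeff_subst_ltLog {I : Type*} {G : MvPowerSeries I (LTField p n)}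
    (hG : MvPowerSeries.constantCoeff G = 0) (e : I →₀ ℕ) :
    MvPowerSeries.coeff e (PowerSeries.subst G (ltLog p n))
      = ∑ k ∈ range (e.degree + 1), logCoeff p n k * MvPowerSeries.coeff e (G ^ p ^ k) := by
  classical
  rw [PowerSeries.coeff_subst (PowerSeries.HasSubst.of_constantCoeff_zero hG)]
  rw [finsum_eq_sum_of_support_subset _ (s := (range (e.degree + 1)).image (p ^ ·)) ?_,
    sum_image fun a _ b _ h => Nat.pow_right_injective hp.out.two_le h]
  · exact sum_congr rfl fun k _ => by rw [coeff_ltLog_pow, smul_eq_mul]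
  intro N hN
  rw [Function.mem_support, smul_eq_mul] at hN
  simp only [coe_image, Set.mem_image, mem_coe, mem_range]
  by_contra! hc
  refine hN ?_
  by_cases hk : ∃ k, p ^ k = N
  · obtain ⟨k, rfl⟩ := hk
    rw [FEL.coeff_pow_eq_zero hG, mul_zero]
    refine lt_of_lt_of_le ?_ (Nat.lt_pow_self hp.out.one_lt).le
    by_contra hle
    exact hc k (by omega) rfl
  · push Not at hk
    rw [coeff_ltLog_of_ne p n hk, zero_mul]

/-- The logarithm in one variable satisfies the functional equation. -/
lemma ltLog_X_defect {I : Type*} (a : I) (e : I →₀ ℕ) :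
    MvPowerSeries.coeff e (PowerSeries.subst (MvPowerSeries.X a) (ltLog p n))
      - ∑ i ∈ range e.degree, ltS p n (i + 1) * MvPowerSeries.coeff e
        (MvPowerSeries.expand (p ^ (i + 1)) (pow_ne_zero _ hp.out.ne_zero)
          (MvPowerSeries.map (ltFrobK p n ^ (i + 1))
            (PowerSeries.subst (MvPowerSeries.X a) (ltLog p n)))) ∈ (ltEmb p n).range := by
  classical
  have hterm : ∀ i, MvPowerSeries.coeff e
      (MvPowerSeries.expand (p ^ (i + 1)) (pow_ne_zero _ hp.out.ne_zero)
        (MvPowerSeries.map (ltFrobK p n ^ (i + 1))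
          (PowerSeries.subst (MvPowerSeries.X a) (ltLog p n))))
      = if e = Finsupp.single a (e a) ∧ p ^ (i + 1) ∣ e a then
          (ltFrobK p n ^ (i + 1)) (PowerSeries.coeff (e a / p ^ (i + 1)) (ltLog p n)) else 0 := by
    intro i
    have hq := pow_ne_zero (i + 1) hp.out.ne_zero
    by_cases hdiv : ∀ x, p ^ (i + 1) ∣ e x
    · obtain ⟨d, rfl⟩ : ∃ d, p ^ (i + 1) • d = e :=
        ⟨e.mapRange (fun a => a / p ^ (i + 1)) (by simp),
          by ext x; simp [Nat.mul_div_cancel' (hdiv x)]⟩
      rw [MvPowerSeries.coeff_expand_smul, MvPowerSeries.coeff_map,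
        PowerSeries.coeff_subst_single]
      have : p ^ (i + 1) • d = Finsupp.single a ((p ^ (i + 1) • d) a) ↔
          d = Finsupp.single a (d a) := by
        rw [Finsupp.smul_apply, ← Finsupp.smul_single, nsmul_right_inj hq]
      simp only [this]
      simp [hp.out.pos, apply_ite (ltFrobK p n ^ (i + 1))]
    · push Not at hdiv
      obtain ⟨x, hx⟩ := hdiv
      rw [MvPowerSeries.coeff_expand_of_not_dvd _ hq _ hx, if_neg]
      rintro ⟨h1, h2⟩
      rw [h1, Finsupp.single_apply] at hx
      split_ifs at hx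
      · exact hx h2
      · exact hx (dvd_zero _)
  simp only [hterm, PowerSeries.coeff_subst_single]
  by_cases he : e = Finsupp.single a (e a)
  swap
  · simp [he]
  simp only [← he, if_true, true_and]
  have hdeg : e.degree = e a := by conv_lhs => rw [he, Finsupp.degree_single]
  rw [hdeg]
  by_cases hk : ∃ m, p ^ m = e a
  swap
  · push Not at hk
    rw [coeff_ltLog_of_ne p n hk, sum_eq_zero, sub_zero]
    · exact zero_mem _
    intro i _
    split_ifs with hd
    · rw [coeff_ltLog_of_ne p n fun k hk' => hk (k + (i + 1))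
        (by rw [pow_add, hk', Nat.div_mul_cancel hd]), map_zero, mul_zero]
    · rw [mul_zero]
  obtain ⟨m, hm⟩ := hk
  rw [← hm, coeff_ltLog_pow]
  rcases m with _ | m
  · have : logCoeff p n 0 = 1 := by rw [logCoeff]
    simp [this, hp.out.ne_one]
  rw [← sum_subset (range_mono (Nat.lt_pow_self hp.out.one_lt).le) (fun i _ hi => ?_),
    logCoeff_funEq, sub_eq_zero.2]
  · exact zero_mem _
  · refine sum_congr rfl fun i hi => ?_
    have := mem_range.1 hi
    rw [if_pos (pow_dvd_pow p (by omega)), Nat.pow_div (by omega) hp.out.pos, coeff_ltLog_pow,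
      show m + 1 - (i + 1) = m - i by omega]
  · rw [mem_range] at hi
    rw [if_neg fun h => hi ((Nat.pow_dvd_pow_iff_le_right hp.out.one_lt).1 h), mul_zero]

lemma map_inj {I R S : Type*} [CommRing R] [CommRing S] {f : R →+* S} (hf : Function.Injective f)
    {a b : MvPowerSeries I R} (h : MvPowerSeries.map f a = MvPowerSeries.map f b) : a = b :=
  MvPowerSeries.ext fun d => hf (by rw [← MvPowerSeries.coeff_map, h, MvPowerSeries.coeff_map])

/-- A series with vanishing constant term is determined by its logarithm. -/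
lemma eq_of_ltLog_eq {I : Type*} {f g : MvPowerSeries I (LTField p n)}
    (hf : MvPowerSeries.constantCoeff f = 0) (hg : MvPowerSeries.constantCoeff g = 0)
    (h : PowerSeries.subst f (ltLog p n) = PowerSeries.subst g (ltLog p n)) : f = g := by
  have h1 : IsUnit (PowerSeries.coeff 1 (ltLog p n)) := by rw [coeff_one_ltLog]; exact isUnit_one
  set E := PowerSeries.substInvOfIsUnit (ltLog p n) h1
  have key : ∀ x : MvPowerSeries I (LTField p n), MvPowerSeries.constantCoeff x = 0 →
      PowerSeries.subst (PowerSeries.subst x (ltLog p n)) E = x := fun x hx => by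
    have hx' := PowerSeries.HasSubst.of_constantCoeff_zero hx
    rw [← PowerSeries.subst_comp_subst_apply
      (PowerSeries.HasSubst.of_constantCoeff_zero' (coeff_zero_ltLog p n)) hx',
      PowerSeries.subst_substInvOfIsUnit_left _ (coeff_zero_ltLog p n) h1, PowerSeries.subst_X hx']
  rw [← key f hf, h, key g hg]

/-- The formal group law with Hazewinkel's logarithm has integral coefficients. -/
theorem exists_formalGroup : ∃ F : FormalGroup (LTRing p n), HasHazewinkelLog p n F := by
  classical
  set ι := ltEmb p n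
  have hι : Function.Injective ι := IsFractionRing.injective _ _
  set L := ltLog p n with hL
  have h1 : IsUnit (PowerSeries.coeff 1 L) := by rw [hL, coeff_one_ltLog]; exact isUnit_one
  set E := PowerSeries.substInvOfIsUnit L h1 with hE
  set H : MvPowerSeries (Fin 2) (LTField p n) :=
    PowerSeries.subst (MvPowerSeries.X 0) L + PowerSeries.subst (MvPowerSeries.X 1) L with hH
  have H0 : MvPowerSeries.constantCoeff H = 0 := by
    rw [hH, map_add, PowerSeries.constantCoeff_subst_eq_zero (by simp) _ (coeff_zero_ltLog p n),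
      PowerSeries.constantCoeff_subst_eq_zero (by simp) _ (coeff_zero_ltLog p n), add_zero]
  set G : MvPowerSeries (Fin 2) (LTField p n) := PowerSeries.subst H E with hGdef
  have G0 : MvPowerSeries.constantCoeff G = 0 :=
    PowerSeries.constantCoeff_subst_eq_zero H0 _ (by simp [hE])
  have hH' := PowerSeries.HasSubst.of_constantCoeff_zero H0
  have hLG : PowerSeries.subst G L = H := by
    rw [hGdef, ← PowerSeries.subst_comp_subst_apply
      (PowerSeries.HasSubst.substInvOfIsUnit L h1) hH',
      PowerSeries.subst_substInvOfIsUnit_right _ (coeff_zero_ltLog p n) h1, PowerSeries.subst_X hH']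
  have hint : ∀ e, MvPowerSeries.coeff e G ∈ ι.range := by
    refine FEL.integral (σ := ltFrob p n) (τ := ltFrobK p n) (dvd_ltFrob_sub p n) (ltFrobK_emb p n)
      (s := ltS p n) (l := logCoeff p n) (fun i => ⟨_, (prime_mul_ltS p n (i + 1)).symm⟩)
      (by rw [logCoeff]) (logCoeff_funEq p n) H0 (fun e => ?_)
      (fun e => by rw [← coeff_subst_ltLog p n G0 e, hLG])
    have := add_mem (ltLog_X_defect p n (0 : Fin 2) e) (ltLog_X_defect p n (1 : Fin 2) e)
    simp only [hH, hL, map_add, mul_add, sum_add_distrib]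
    rwa [add_sub_add_comm]
  choose c hc using hint
  let G' : MvPowerSeries (Fin 2) (LTRing p n) := c
  have hmap : MvPowerSeries.map ι G' = G := MvPowerSeries.ext fun e => by
    rw [MvPowerSeries.coeff_map]; exact hc e
  have hc0 : MvPowerSeries.constantCoeff G' = 0 := hι (by
    rw [← MvPowerSeries.constantCoeff_map, hmap, G0, map_zero])
  have hlin : ∀ j : Fin 2, MvPowerSeries.coeff (Finsupp.single j 1) G' = 1 := fun j => hι (by
    rw [← MvPowerSeries.coeff_map, hmap, map_one]
    have h := congrArg (MvPowerSeries.coeff (Finsupp.single j 1)) hLG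
    rw [coeff_subst_ltLog p n G0, Finsupp.degree_single, sum_range_succ, range_one, sum_singleton,
      pow_zero, pow_one, pow_one, FEL.coeff_pow_eq_zero G0 (by
        rw [Finsupp.degree_single]; exact hp.out.one_lt), mul_zero, add_zero, hH, map_add,
      PowerSeries.coeff_subst_single, PowerSeries.coeff_subst_single] at h
    rw [show logCoeff p n 0 = 1 by rw [logCoeff], one_mul] at h
    rw [h]
    fin_cases j <;> simp [hL, coeff_one_ltLog p n])
  -- logarithm of a composite
  have hcomp : ∀ {I : Type} (a b : MvPowerSeries I (LTField p n)),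
      MvPowerSeries.constantCoeff a = 0 → MvPowerSeries.constantCoeff b = 0 →
      MvPowerSeries.constantCoeff (MvPowerSeries.subst ![a, b] G) = 0 ∧
      PowerSeries.subst (MvPowerSeries.subst ![a, b] G) L
        = PowerSeries.subst a L + PowerSeries.subst b L := by
    intro I a b ha hb
    have hab : ∀ s : Fin 2, MvPowerSeries.constantCoeff (![a, b] s) = 0 := fun s => by
      fin_cases s <;> simpa
    have hs := MvPowerSeries.hasSubst_of_constantCoeff_zero hab
    refine ⟨MvPowerSeries.constantCoeff_subst_eq_zero hs hab G0, ?_⟩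
    have h := congrArg (MvPowerSeries.subst (R := LTField p n) ![a, b]) hLG
    rw [hH, MvPowerSeries.subst_add hs] at h
    simp only [PowerSeries.subst] at h ⊢
    rw [MvPowerSeries.subst_comp_subst_apply (PowerSeries.HasSubst.of_constantCoeff_zero G0).const hs,
      MvPowerSeries.subst_comp_subst_apply (PowerSeries.HasSubst.X _).const hs,
      MvPowerSeries.subst_comp_subst_apply (PowerSeries.HasSubst.X _).const hs,
      MvPowerSeries.subst_X hs, MvPowerSeries.subst_X hs] at h
    simpa using h
  refine ⟨⟨G', hc0, hlin 0, hlin 1, ?_⟩, ?_⟩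
  · refine map_inj hι ?_
    rw [MvPowerSeries.map_subst (MvPowerSeries.HasSubst.cons_subst_zero_left (0 : Fin 3) 1 2 hc0),
      MvPowerSeries.map_subst (MvPowerSeries.HasSubst.cons_subst_zero_right (0 : Fin 3) 1 2 hc0),
      hmap]
    have e2 : ∀ f g : MvPowerSeries (Fin 3) (LTRing p n),
        (fun i => MvPowerSeries.map ι (![f, g] i)) = ![MvPowerSeries.map ι f, MvPowerSeries.map ι g] :=
      fun f g => by funext i; fin_cases i <;> rfl
    simp only [e2, MvPowerSeries.map_subst MvPowerSeries.HasSubst.X_X, hmap, MvPowerSeries.map_X]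
    set Y : Fin 3 → MvPowerSeries (Fin 3) (LTField p n) := fun i => MvPowerSeries.X i
    have hY : ∀ i, MvPowerSeries.constantCoeff (Y i) = 0 := fun i => by simp [Y]
    obtain ⟨c01, l01⟩ := hcomp (Y 0) (Y 1) (hY 0) (hY 1)
    obtain ⟨c12, l12⟩ := hcomp (Y 1) (Y 2) (hY 1) (hY 2)
    obtain ⟨cl, ll⟩ := hcomp _ (Y 2) c01 (hY 2)
    obtain ⟨cr, lr⟩ := hcomp (Y 0) _ (hY 0) c12
    refine eq_of_ltLog_eq p n cl cr ?_
    rw [ll, lr, l01, l12, add_assoc]
  · show PowerSeries.subst (MvPowerSeries.map ι G') L = _
    rw [hmap, hLG]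

end

end Vale.Agent.P217
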