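import Mathlib

/-!
# P217: perturbations of a field inside a normed field

`sh x i` is a perturbation of `ι x` which is, eventually in `i`, a ring homomorphism in `x`, and
`d i` measures its size.  We compare with a scale `L i`: `Negl r f` says `f i = o(L i ^ p^r)`.
-/

open scoped Classical
open Filter

namespace Vale.Agent.P217

noncomputable section

/-- A germ of perturbations of an embedding. -/
structure Germ (L : Type) [Field L] (K : Type) [NormedField K] (I : Type) where
  /-- The filter. -/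
  l : Filter I
  /-- The embedding. -/
  ι : L →+* K
  /-- The perturbation. -/
  sh : L → I → K
  /-- The size. -/
  d : I → ℝ
  d_nonneg : ∀ i, 0 ≤ d i
  d_tendsto : Tendsto d l (nhds 0)
  add : ∀ x y, ∀ᶠ i in l, sh (x + y) i = sh x i + sh y i
  mul : ∀ x y, ∀ᶠ i in l, sh (x * y) i = sh x i * sh y i
  one : ∀ᶠ i in l, sh 1 i = 1
  lip : ∀ x, ∃ C : ℝ, 0 < C ∧ ∀ᶠ i in l, ‖sh x i - ι x‖ ≤ C * d i

namespace Germ

variable {L : Type} [Field L] {K : Type} [NormedField K] {I : Type} (G : Germ L K I)

/-- The displacement. -/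
def δ (x : L) (i : I) : K := G.sh x i - G.ι x

theorem sh_tendsto (x : L) : Tendsto (G.sh x) G.l (nhds (G.ι x)) := by
  obtain ⟨C, hC, h⟩ := G.lip x
  rw [tendsto_iff_norm_sub_tendsto_zero]
  have hd : Tendsto (fun i => C * G.d i) G.l (nhds 0) := by
    simpa using G.d_tendsto.const_mul C
  exact squeeze_zero' (Eventually.of_forall fun i => norm_nonneg _) h hd

theorem sh_bounded (x : L) : ∀ᶠ i in G.l, ‖G.sh x i‖ ≤ ‖G.ι x‖ + 1 := by
  have h := (G.sh_tendsto x).norm.eventually (gt_mem_nhds (lt_add_one ‖G.ι x‖))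
  exact h.mono fun i hi => hi.le

theorem pow (x : L) (m : ℕ) : ∀ᶠ i in G.l, G.sh (x ^ m) i = G.sh x i ^ m := by
  induction m with
  | zero => simpa using G.one
  | succ m ih =>
    filter_upwards [ih, G.mul (x ^ m) x] with i h1 h2
    rw [pow_succ, h2, h1, pow_succ]

theorem zero : ∀ᶠ i in G.l, G.sh 0 i = 0 := by
  filter_upwards [G.add 0 0] with i h
  rw [add_zero] at h
  exact left_eq_add.1 h

theorem sum {ι' : Type} (s : Finset ι') (f : ι' → L) :
    ∀ᶠ i in G.l, G.sh (∑ j ∈ s, f j) i = ∑ j ∈ s, G.sh (f j) i := by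
  induction s using Finset.induction_on with
  | empty => simpa using G.zero
  | insert a s ha ih =>
    filter_upwards [ih, G.add (f a) (∑ j ∈ s, f j)] with i h1 h2
    simp only [Finset.sum_insert ha, h2, h1]

theorem natCast (m : ℕ) : ∀ᶠ i in G.l, G.sh (m : L) i = (m : K) := by
  induction m with
  | zero => simpa using G.zero
  | succ m ih =>
    filter_upwards [ih, G.one, G.add (m : L) 1] with i h1 h2 h3
    push_cast
    rw [h3, h1, h2]

/-- The displacement satisfies the product rule up to a product of displacements. -/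
theorem δ_mul (x y : L) : ∀ᶠ i in G.l,
    G.δ (x * y) i = G.ι x * G.δ y i + G.ι y * G.δ x i + G.δ x i * G.δ y i := by
  filter_upwards [G.mul x y] with i h
  simp only [δ, h, map_mul]
  ring

theorem δ_sum {ι' : Type} (s : Finset ι') (f : ι' → L) :
    ∀ᶠ i in G.l, G.δ (∑ j ∈ s, f j) i = ∑ j ∈ s, G.δ (f j) i := by
  filter_upwards [G.sum s f] with i h
  simp only [δ, h, map_sum, Finset.sum_sub_distrib]

theorem δ_pow_char (p : ℕ) [ExpChar K p] (x : L) (r : ℕ) :
    ∀ᶠ i in G.l, G.δ (x ^ p ^ r) i = G.δ x i ^ p ^ r := by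
  filter_upwards [G.pow x (p ^ r)] with i h
  simp only [δ, h, map_pow, sub_pow_expChar_pow]

end Germ

end

end Vale.Agent.P217
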