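import Vale.Agent.P217.Germs

/-!
# P217: following the roots of separable polynomials along a perturbation of the coefficients
-/

open scoped Classical
open Filter

namespace Vale.Agent.P217

noncomputable section

/-- A family of perturbations of an embedding of a field into a normed field. -/
structure Pert (F : Type) [Field F] (K : Type) [NormedField K] (I : Type) where
  /-- The filter. -/
  l : Filter I
  /-- The embedding. -/
  η : F →+* K
  /-- The perturbed embeddings. -/
  η' : I → F →+* K
  /-- The size. -/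
  d : I → ℝ
  d_nonneg : ∀ i, 0 ≤ d i
  d_tendsto : Tendsto d l (nhds 0)
  lip : ∀ q, ∃ C : ℝ, 0 < C ∧ ∀ᶠ i in l, ‖η' i q - η q‖ ≤ C * d i

namespace Pert

variable {F : Type} [Field F] {K : Type} [NormedField K] {I : Type} (T : Pert F K I)

theorem tendsto_of_lip {f : I → K} {a : K} {C : ℝ}
    (h : ∀ᶠ i in T.l, ‖f i - a‖ ≤ C * T.d i) : Tendsto f T.l (nhds a) := by
  rw [tendsto_iff_norm_sub_tendsto_zero]
  have hd : Tendsto (fun i => C * T.d i) T.l (nhds 0) := by
    simpa using T.d_tendsto.const_mul C
  exact squeeze_zero' (Eventually.of_forall fun i => norm_nonneg _) h hd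

theorem tendsto_coeff (q : F) : Tendsto (fun i => T.η' i q) T.l (nhds (T.η q)) := by
  obtain ⟨C, -, h⟩ := T.lip q
  exact T.tendsto_of_lip h

theorem tendsto_eval (R : Polynomial F) {w : I → K} {x : K} (hw : Tendsto w T.l (nhds x)) :
    Tendsto (fun i => (R.map (T.η' i)).eval (w i)) T.l (nhds ((R.map T.η).eval x)) := by
  induction R using Polynomial.induction_on' with
  | add P Q hP hQ =>
    simp only [Polynomial.map_add, Polynomial.eval_add]
    exact hP.add hQ
  | monomial k q =>
    simp only [Polynomial.map_monomial, Polynomial.eval_monomial]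
    exact (T.tendsto_coeff q).mul (hw.pow k)

theorem lip_eval (R : Polynomial F) (x : K) : ∃ C : ℝ, 0 < C ∧
    ∀ᶠ i in T.l, ‖(R.map (T.η' i)).eval x - (R.map T.η).eval x‖ ≤ C * T.d i := by
  induction R using Polynomial.induction_on' with
  | add P Q hP hQ =>
    obtain ⟨C, hC, h⟩ := hP
    obtain ⟨C', hC', h'⟩ := hQ
    refine ⟨C + C', add_pos hC hC', ?_⟩
    filter_upwards [h, h'] with i hi hi'
    simp only [Polynomial.map_add, Polynomial.eval_add, add_sub_add_comm]
    exact (norm_add_le _ _).trans (by rw [add_mul]; exact add_le_add hi hi')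
  | monomial k q =>
    obtain ⟨C, hC, h⟩ := T.lip q
    refine ⟨C * ‖x‖ ^ k + 1, by positivity, ?_⟩
    filter_upwards [h] with i hi
    simp only [Polynomial.map_monomial, Polynomial.eval_monomial, ← sub_mul, norm_mul, norm_pow]
    calc ‖T.η' i q - T.η q‖ * ‖x‖ ^ k ≤ C * T.d i * ‖x‖ ^ k :=
          mul_le_mul_of_nonneg_right hi (by positivity)
      _ ≤ _ := by
          have := T.d_nonneg i
          nlinarith

/-- Divided differences of a perturbed polynomial tend to the derivative. -/
theorem exists_slope (R : Polynomial F) {a b : I → K} {x : K} (ha : Tendsto a T.l (nhds x))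
    (hb : Tendsto b T.l (nhds x)) :
    ∃ H : I → K, Tendsto H T.l (nhds ((R.map T.η).derivative.eval x)) ∧
      ∀ i, (R.map (T.η' i)).eval (a i) - (R.map (T.η' i)).eval (b i) = H i * (a i - b i) := by
  induction R using Polynomial.induction_on' with
  | add P Q hP hQ =>
    obtain ⟨H, hH, h⟩ := hP
    obtain ⟨H', hH', h'⟩ := hQ
    refine ⟨fun i => H i + H' i, ?_, fun i => ?_⟩
    · simp only [Polynomial.map_add, Polynomial.derivative_add, Polynomial.eval_add]
      exact hH.add hH'
    · simp only [Polynomial.map_add, Polynomial.eval_add, add_mul, ← h i, ← h' i]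
      ring
  | monomial k q =>
    refine ⟨fun i => T.η' i q * ∑ m ∈ Finset.range k, a i ^ m * b i ^ (k - 1 - m), ?_, fun i => ?_⟩
    · simp only [Polynomial.map_monomial, Polynomial.derivative_monomial,
        Polynomial.eval_monomial, mul_assoc]
      refine (T.tendsto_coeff q).mul ?_
      have hs := tendsto_finsetSum (Finset.range k) fun m _ => (ha.pow m).mul (hb.pow (k - 1 - m))
      rwa [geom_sum₂_self] at hs
    · simp only [Polynomial.map_monomial, Polynomial.eval_monomial]
      rw [mul_assoc, geom_sum₂_mul, mul_sub]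

/-- Near a simple root, values separate points. -/
theorem exists_sep (R : Polynomial F) {a b : I → K} {x : K} (ha : Tendsto a T.l (nhds x))
    (hb : Tendsto b T.l (nhds x)) (hx : (R.map T.η).derivative.eval x ≠ 0) :
    ∃ C : ℝ, 0 < C ∧ ∀ᶠ i in T.l, ‖a i - b i‖ ≤
      C * ‖(R.map (T.η' i)).eval (a i) - (R.map (T.η' i)).eval (b i)‖ := by
  obtain ⟨H, hH, h⟩ := T.exists_slope R ha hb
  set s := ‖(R.map T.η).derivative.eval x‖ with hs
  have hs0 : 0 < s := norm_pos_iff.2 hx
  refine ⟨2 / s, by positivity, ?_⟩
  filter_upwards [hH.norm.eventually (lt_mem_nhds (show s / 2 < s by linarith))] with i hi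
  rw [h i, norm_mul]
  calc ‖a i - b i‖ = 2 / s * (s / 2 * ‖a i - b i‖) := by field_simp
    _ ≤ _ := by gcongr

/-- Equal values near a simple root force equal points. -/
theorem eventually_eq (R : Polynomial F) {a b : I → K} {x : K} (ha : Tendsto a T.l (nhds x))
    (hb : Tendsto b T.l (nhds x)) (hx : (R.map T.η).derivative.eval x ≠ 0)
    (h : ∀ᶠ i in T.l, (R.map (T.η' i)).eval (a i) = (R.map (T.η' i)).eval (b i)) :
    ∀ᶠ i in T.l, a i = b i := by
  obtain ⟨C, -, hC⟩ := T.exists_sep R ha hb hx
  filter_upwards [h, hC] with i hi hi'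
  rw [hi, sub_self, norm_zero, mul_zero, norm_le_zero_iff, sub_eq_zero] at hi'
  exact hi'

/-- A root of a monic polynomial is a limit of roots of the perturbed polynomials. -/
theorem eventually_exists_near {R : Polynomial F} (hR : R.Monic)
    (hsplit : ∀ i, (R.map (T.η' i)).Splits) {x : K} (hx : (R.map T.η).eval x = 0) {ε : ℝ}
    (hε : 0 < ε) : ∀ᶠ i in T.l, ∃ a ∈ (R.map (T.η' i)).roots, ‖a - x‖ < ε := by
  have ht : Tendsto (fun i => ‖(R.map (T.η' i)).eval x‖) T.l (nhds 0) := by
    simpa [hx] using (T.tendsto_eval R (w := fun _ => x) tendsto_const_nhds).norm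
  filter_upwards [ht.eventually (gt_mem_nhds (pow_pos hε R.natDegree))] with i hi
  by_contra hc
  push Not at hc
  set m := (R.map (T.η' i)).roots with hm
  have hcard : m.card = R.natDegree := by
    rw [hm, ← (hsplit i).natDegree_eq_card_roots,
      Polynomial.natDegree_map_eq_of_injective (T.η' i).injective]
  have hev : ‖(R.map (T.η' i)).eval x‖ = (m.map fun a => ‖x - a‖).prod := by
    rw [(hsplit i).eval_eq_prod_roots_of_monic (hR.map _), ← hm]
    induction m using Multiset.induction_on with
    | empty => simp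
    | cons a s ih => simp [ih]
  have hge : ∀ s : Multiset K, (∀ a ∈ s, ε ≤ ‖x - a‖) →
      ε ^ s.card ≤ (s.map fun a => ‖x - a‖).prod := by
    intro s
    induction s using Multiset.induction_on with
    | empty => simp
    | cons a s ih =>
      intro hs
      simp only [Multiset.card_cons, Multiset.map_cons, Multiset.prod_cons, pow_succ']
      exact mul_le_mul (hs a (Multiset.mem_cons_self a s))
        (ih fun b hb => hs b (Multiset.mem_cons_of_mem hb)) (by positivity) (norm_nonneg _)
  have h2 := hge m fun a ha => by rw [norm_sub_rev]; exact hc a ha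
  rw [hcard, ← hev] at h2
  exact absurd hi (not_lt.2 h2)

section Lift

variable {L : Type} [Field L] [Algebra F L] [Algebra.IsSeparable F L] (ι : L →+* K)

/-- The root of the perturbed minimal polynomial nearest to the embedded element. -/
def root (z : L) (i : I) : K :=
  if h : (((minpoly F z).map (T.η' i)).roots.toFinset).Nonempty then
    (Finset.exists_min_image _ (fun a => ‖a - ι z‖) h).choose
  else 0

variable {ι} (hι : ∀ q, ι (algebraMap F L q) = T.η q)
  (hsplit : ∀ (i : I) (q : Polynomial F), (q.map (T.η' i)).Splits)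

include hι in
theorem eval_map_emb (R : Polynomial F) (z : L) :
    (R.map T.η).eval (ι z) = ι (Polynomial.aeval z R) := by
  rw [show T.η = ι.comp (algebraMap F L) from RingHom.ext fun q => (hι q).symm,
    ← Polynomial.map_map, Polynomial.eval_map_apply, Polynomial.eval_map_algebraMap]

include hι in
theorem derivative_ne_zero (z : L) :
    ((minpoly F z).map T.η).derivative.eval (ι z) ≠ 0 := by
  rw [Polynomial.derivative_map, eval_map_emb T hι, map_ne_zero]
  exact (Algebra.IsSeparable.isSeparable F z).aeval_derivative_ne_zero (minpoly.aeval F z)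

include hsplit in
theorem root_spec (z : L) (i : I) :
    ((minpoly F z).map (T.η' i)).eval (T.root ι z i) = 0 ∧
      ∀ a ∈ ((minpoly F z).map (T.η' i)).roots, ‖T.root ι z i - ι z‖ ≤ ‖a - ι z‖ := by
  have hz := Algebra.IsSeparable.isIntegral F z
  have hne : (((minpoly F z).map (T.η' i)).roots.toFinset).Nonempty := by
    rw [Multiset.toFinset_nonempty]
    refine (hsplit i _).roots_ne_zero ?_
    rw [Polynomial.natDegree_map_eq_of_injective (T.η' i).injective]
    exact (minpoly.natDegree_pos hz).ne'
  rw [root, dif_pos hne]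
  obtain ⟨h1, h2⟩ := (Finset.exists_min_image _ (fun a => ‖a - ι z‖) hne).choose_spec
  exact ⟨(Polynomial.mem_roots'.1 (Multiset.mem_toFinset.1 h1)).2,
    fun a ha => h2 a (Multiset.mem_toFinset.2 ha)⟩

include hι hsplit in
theorem root_tendsto (z : L) : Tendsto (T.root ι z) T.l (nhds (ι z)) := by
  have hz := Algebra.IsSeparable.isIntegral F z
  rw [tendsto_iff_norm_sub_tendsto_zero, Metric.tendsto_nhds]
  intro ε hε
  filter_upwards [T.eventually_exists_near (minpoly.monic hz) (fun i => hsplit i _)
    (x := ι z) (by rw [eval_map_emb T hι, minpoly.aeval, map_zero]) hε] with i ⟨a, ha, hai⟩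
  simpa using ((T.root_spec hsplit z i).2 a ha).trans_lt hai

include hι hsplit in
/-- A nearby root is the nearest one. -/
theorem root_unique (z : L) {w : I → K} (hw : Tendsto w T.l (nhds (ι z)))
    (h : ∀ᶠ i in T.l, ((minpoly F z).map (T.η' i)).eval (w i) = 0) :
    ∀ᶠ i in T.l, T.root ι z i = w i := by
  refine T.eventually_eq (minpoly F z) (T.root_tendsto hι hsplit z) hw
    (derivative_ne_zero T hι z) ?_
  filter_upwards [h] with i hi
  rw [hi, (T.root_spec hsplit z i).1]

include hι hsplit in
/-- A nearby point which is a root of one of finitely many minimal polynomials is the nearest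
root. -/
theorem root_unique_of_mem (z : L) {w : I → K} (hw : Tendsto w T.l (nhds (ι z)))
    (Q : Finset (Polynomial F)) (hQ : ∀ q ∈ Q, q = minpoly F z ∨ Polynomial.aeval z q ≠ 0)
    (h : ∀ᶠ i in T.l, ∃ q ∈ Q, (q.map (T.η' i)).eval (w i) = 0) :
    ∀ᶠ i in T.l, T.root ι z i = w i := by
  refine T.root_unique hι hsplit z hw ?_
  have h2 : ∀ᶠ i in T.l, ∀ q ∈ Q, Polynomial.aeval z q ≠ 0 → (q.map (T.η' i)).eval (w i) ≠ 0 := by
    rw [Q.eventually_all]
    intro q _
    by_cases hq : Polynomial.aeval z q = 0
    · exact Eventually.of_forall fun i hi => absurd hq hi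
    · refine ((T.tendsto_eval q hw).eventually_ne ?_).mono fun i hi _ => hi
      rwa [eval_map_emb T hι, map_ne_zero]
  filter_upwards [h, h2] with i ⟨q, hq, hqw⟩ hi
  rcases hQ q hq with rfl | hne
  · exact hqw
  · exact absurd hqw (hi q hq hne)

include hι hsplit in
/-- The nearest root of a polynomial expression is the expression in the nearest root. -/
theorem root_aeval (θ : L) (q : Polynomial F) :
    ∀ᶠ i in T.l, T.root ι (Polynomial.aeval θ q) i = (q.map (T.η' i)).eval (T.root ι θ i) := by
  refine T.root_unique hι hsplit _ ?_ (Eventually.of_forall fun i => ?_)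
  · have := T.tendsto_eval q (T.root_tendsto hι hsplit θ)
    rwa [eval_map_emb T hι] at this
  · obtain ⟨r, hr⟩ := minpoly.dvd F θ
      (show Polynomial.aeval θ ((minpoly F (Polynomial.aeval θ q)).comp q) = 0 by
        rw [Polynomial.aeval_comp, minpoly.aeval])
    rw [← Polynomial.eval_comp, ← Polynomial.map_comp, hr, Polynomial.map_mul,
      Polynomial.eval_mul, (T.root_spec hsplit θ i).1, zero_mul]

theorem exists_common (x y : L) : ∃ (θ : L) (f g : Polynomial F),
    Polynomial.aeval θ f = x ∧ Polynomial.aeval θ g = y := by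
  set E := IntermediateField.adjoin F ({x, y} : Set L) with hE
  haveI : FiniteDimensional F E :=
    IntermediateField.finiteDimensional_adjoin fun z _ => Algebra.IsSeparable.isIntegral F z
  haveI : Algebra.IsSeparable F E := Algebra.isSeparable_tower_bot_of_isSeparable F E L
  obtain ⟨θ, hθ⟩ := Field.exists_primitive_element F E
  have h : Algebra.adjoin F {θ} = ⊤ := by
    rw [← IntermediateField.adjoin_simple_toSubalgebra_of_isAlgebraic
      (Algebra.IsAlgebraic.isAlgebraic θ), hθ, IntermediateField.top_toSubalgebra]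
  rw [Algebra.adjoin_singleton_eq_range_aeval, AlgHom.range_eq_top] at h
  obtain ⟨f, hf⟩ := h ⟨x, IntermediateField.subset_adjoin F _ (by simp)⟩
  obtain ⟨g, hg⟩ := h ⟨y, IntermediateField.subset_adjoin F _ (by simp)⟩
  refine ⟨θ, f, g, ?_, ?_⟩
  · simpa [Polynomial.aeval_algHom_apply] using congrArg E.val hf
  · simpa [Polynomial.aeval_algHom_apply] using congrArg E.val hg

include hι hsplit in
theorem root_add (x y : L) :
    ∀ᶠ i in T.l, T.root ι (x + y) i = T.root ι x i + T.root ι y i := by
  obtain ⟨θ, f, g, rfl, rfl⟩ := exists_common (F := F) x y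
  filter_upwards [T.root_aeval hι hsplit θ f, T.root_aeval hι hsplit θ g,
    T.root_aeval hι hsplit θ (f + g)] with i h1 h2 h3
  rw [← map_add, h1, h2, h3, Polynomial.map_add, Polynomial.eval_add]

include hι hsplit in
theorem root_mul (x y : L) :
    ∀ᶠ i in T.l, T.root ι (x * y) i = T.root ι x i * T.root ι y i := by
  obtain ⟨θ, f, g, rfl, rfl⟩ := exists_common (F := F) x y
  filter_upwards [T.root_aeval hι hsplit θ f, T.root_aeval hι hsplit θ g,
    T.root_aeval hι hsplit θ (f * g)] with i h1 h2 h3
  rw [← map_mul, h1, h2, h3, Polynomial.map_mul, Polynomial.eval_mul]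

include hι hsplit in
theorem root_one : ∀ᶠ i in T.l, T.root ι (1 : L) i = 1 := by
  refine T.root_unique hι hsplit 1 (w := fun _ => 1) ?_ (Eventually.of_forall fun i => ?_)
  · rw [map_one]
    exact tendsto_const_nhds
  · simp [minpoly.one]

include hι hsplit in
theorem root_lip (z : L) :
    ∃ C : ℝ, 0 < C ∧ ∀ᶠ i in T.l, ‖T.root ι z i - ι z‖ ≤ C * T.d i := by
  obtain ⟨C, hC, h1⟩ := T.exists_sep (minpoly F z) (T.root_tendsto hι hsplit z)
    (b := fun _ => ι z) tendsto_const_nhds (derivative_ne_zero T hι z)
  obtain ⟨C', hC', h2⟩ := T.lip_eval (minpoly F z) (ι z)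
  refine ⟨C * C', mul_pos hC hC', ?_⟩
  filter_upwards [h1, h2] with i hi hi'
  refine hi.trans ?_
  rw [(T.root_spec hsplit z i).1, zero_sub, norm_neg, mul_assoc]
  refine mul_le_mul_of_nonneg_left ?_ hC.le
  rwa [eval_map_emb T hι (minpoly F z) z, minpoly.aeval, map_zero, sub_zero] at hi'

/-- The germ following the roots. -/
def toGerm (hι : ∀ q, ι (algebraMap F L q) = T.η q)
    (hsplit : ∀ (i : I) (q : Polynomial F), (q.map (T.η' i)).Splits) : Germ L K I where
  l := T.l
  ι := ι
  sh := T.root ι
  d := T.d
  d_nonneg := T.d_nonneg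
  d_tendsto := T.d_tendsto
  add := T.root_add hι hsplit
  mul := T.root_mul hι hsplit
  one := T.root_one hι hsplit
  lip := T.root_lip hι hsplit

end Lift

end Pert

end

end Vale.Agent.P217
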