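import Vale.Agent.P217.HighDefs
import Vale.Agent.P217.Germs
import Vale.Agent.P217.NearRoot

/-! # P217: the germ of the action on the separable closure -/

open scoped Classical
open Filter

namespace Vale.Agent.P217

noncomputable section

variable {p n : ℕ} [hp : Fact p.Prime]

section Twist

variable (P : Ideal (LTRing p n)) [P.IsPrime] (α : LTRing p n ≃+* LTRing p n)
  (hα : Ideal.map α.toRingHom P = P)

/-- The automorphism induced on the residue field of an invariant prime. -/
def resEquiv : FractionRing (LTRing p n ⧸ P) ≃+* FractionRing (LTRing p n ⧸ P) :=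
  IsFractionRing.ringEquivOfRingEquiv (Ideal.quotientEquiv P P α hα.symm)

/-- An extension to the algebraic closure. -/
def resTwist : ResAlg p n P ≃+* ResAlg p n P :=
  IsAlgClosure.equivOfEquiv (ResAlg p n P) (ResAlg p n P) (resEquiv P α hα)

theorem resTwist_algebraMap (q : FractionRing (LTRing p n ⧸ P)) :
    resTwist P α hα (algebraMap _ (ResAlg p n P) q)
      = algebraMap _ (ResAlg p n P) (resEquiv P α hα q) :=
  IsAlgClosure.equivOfEquiv_algebraMap _ _ _ _

theorem resTwist_resMap (x : LTRing p n) :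
    resTwist P α hα (resMap p n P x) = resMap p n P (α x) := by
  simp only [resMap, RingHom.comp_apply, resTwist_algebraMap, resEquiv,
    IsFractionRing.ringEquivOfRingEquiv_algebraMap, Ideal.quotientEquiv_apply,
    Ideal.quotientMap_mk]
  rfl

theorem resTwist_comp : (resTwist P α hα).toRingHom.comp (resMap p n P)
    = (resMap p n P).comp α.toRingHom :=
  RingHom.ext (resTwist_resMap P α hα)

end Twist

variable {F : FormalGroup (LTRing p n)}

section Point

variable {K : Type} [NormedField K] [IsUltrametricDist K] [CompleteSpace K]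
  (ψ : LTRing p n →+* K) {S₀ c : ℕ} (D : ActFamily p n F S₀ c)

theorem moveDist_nonneg (i : ActIdx p n) : 0 ≤ moveDist ψ D i := NNReal.coe_nonneg _

theorem near_movedPoint (i : ActIdx p n) :
    Near p n ψ (movedPoint ψ D i) (moveDist ψ D i) := by
  refine ⟨moveDist_nonneg ψ D i, fun w => ?_, fun m => ?_⟩
  · simp [movedPoint, (D i).fix w]
  · have : ‖movedPoint ψ D i (MvPowerSeries.X m) - ψ (MvPowerSeries.X m)‖₊
        ≤ (Finset.univ : Finset (Fin (n - 1))).sup fun m =>
          ‖movedPoint ψ D i (MvPowerSeries.X m) - ψ (MvPowerSeries.X m)‖₊ :=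
      Finset.le_sup (f := fun m => ‖movedPoint ψ D i (MvPowerSeries.X m) - ψ (MvPowerSeries.X m)‖₊)
        (Finset.mem_univ m)
    exact NNReal.coe_le_coe.2 this

variable {ψ} in
theorem movedPoint_sub_le (hn : 0 < n) (hψ : IsPoint p n ψ) (i : ActIdx p n) (f : LTRing p n) :
    ‖movedPoint ψ D i f - ψ f‖ ≤ moveDist ψ D i :=
  near_norm_sub_le hψ (isPoint_comp hn hψ _) (near_movedPoint ψ D i) f

/-- Torsion is killed after the transport by an element of the stabilizer. -/
theorem hom_torsion {d : ℕ} {S : ℕ} {a : GaloisField p n} (hn : 0 < n) {ψ : LTRing p n →+* K}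
    (hψ : IsPoint p n ψ) (E : ActData p n F S a c) {x : (Fin d → ℤ_[p]) → ℕ → K}
    (hx : IsTorsion ψ F d x) (e : Fin d → ℤ_[p]) (l : ℕ) :
    (ev (ψ.comp E.α.toRingHom) (pSeries p n F))^[l] (ev ψ E.φ (x e l)) = 0 ∧
      ∀ m, m < l →
        ‖(ev (ψ.comp E.α.toRingHom) (pSeries p n F))^[m] (ev ψ E.φ (x e l))‖ < 1 := by
  have key : ∀ m, m ≤ l → (ev (ψ.comp E.α.toRingHom) (pSeries p n F))^[m] (ev ψ E.φ (x e l))
      = ev ψ E.φ (x e (l - m)) := by
    intro m
    induction m with
    | zero => intro _; simp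
    | succ m ih =>
      intro hm
      rw [Function.iterate_succ_apply', ih (by omega), ← ev_hom_pSeries hn hψ E (hx.norm_lt e _),
        show l - m = (l - (m + 1)) + 1 by omega, hx.step]
  refine ⟨?_, fun m hm => ?_⟩
  · have h0 : ‖ev ψ E.φ (x e 0)‖ ≤ ‖x e 0‖ := norm_ev_le hψ _ E.φ_zero (hx.norm_lt e 0)
    rw [hx.level_zero e, norm_zero, norm_le_zero_iff] at h0
    rw [key l le_rfl, Nat.sub_self, hx.level_zero e, h0]
  · rw [key m hm.le]
    exact (norm_ev_le hψ _ E.φ_zero (hx.norm_lt e _)).trans_lt (hx.norm_lt e _)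

/-- There are only finitely many torsion points of a given level. -/
theorem torsion_finite {d : ℕ} {ψ : LTRing p n →+* K} (hψ : IsPoint p n ψ)
    {x : (Fin d → ℤ_[p]) → ℕ → K} (hx : IsTorsion ψ F d x) (l : ℕ) :
    Set.Finite (Set.range fun e => x e l) := by
  haveI : NeZero (p ^ l) := ⟨pow_ne_zero l hp.out.ne_zero⟩
  let rep : (Fin d → ZMod (p ^ l)) → Fin d → ℤ_[p] := fun r i => ((r i).val : ℤ_[p])
  refine (Set.finite_range fun r => x (rep r) l).subset ?_
  rintro _ ⟨e, rfl⟩
  refine ⟨fun i => PadicInt.toZModPow l (e i), ?_⟩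
  set e0 := rep fun i => PadicInt.toZModPow l (e i) with he0
  have hdvd : ∀ i, (p : ℤ_[p]) ^ l ∣ (e - e0) i := by
    intro i
    rw [← Ideal.mem_span_singleton, ← PadicInt.ker_toZModPow l, RingHom.mem_ker]
    simp [he0, rep]
  have h0 : x (e - e0) l = 0 := (hx.eq_zero_iff _ l).2 hdvd
  calc x e0 l = fadd ψ F (x e0 l) 0 := ((fadd_zero hψ (hx.norm_lt e0 l)).1).symm
    _ = x (e0 + (e - e0)) l := by rw [← h0, hx.add]
    _ = x e l := by rw [add_sub_cancel]

end Point

/-- The perturbations of the embedding of the residue field. -/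
def resPert (hn : 0 < n) (P : Ideal (LTRing p n)) [P.IsPrime] (U : UField)
    (j : ResAlg p n P →+* U.K) (hpt : IsPoint p n (j.comp (resMap p n P))) {S₀ c : ℕ}
    (D : ActFamily p n F S₀ c) (hinv : ∀ i, Ideal.map (D i).α.toRingHom P = P)
    (hd : Tendsto (moveDist (j.comp (resMap p n P)) D) (actFilter p n) (nhds 0)) :
    Pert (FractionRing (LTRing p n ⧸ P)) U.K (ActIdx p n) where
  l := actFilter p n
  η := j.comp (algebraMap _ (ResAlg p n P))
  η' i := (j.comp (algebraMap _ (ResAlg p n P))).comp (resEquiv P (D i).α (hinv i)).toRingHom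
  d := moveDist (j.comp (resMap p n P)) D
  d_nonneg := moveDist_nonneg _ D
  d_tendsto := hd
  lip := by
    intro q
    obtain ⟨a, b, hb, rfl⟩ := IsFractionRing.div_surjective (LTRing p n ⧸ P) q
    obtain ⟨f, rfl⟩ := Ideal.Quotient.mk_surjective a
    obtain ⟨g, rfl⟩ := Ideal.Quotient.mk_surjective b
    set ψ := j.comp (resMap p n P) with hψ
    have hval : ∀ (i : ActIdx p n) (y : LTRing p n),
        j (algebraMap _ (ResAlg p n P) (resEquiv P (D i).α (hinv i)
          (algebraMap _ (FractionRing (LTRing p n ⧸ P)) (Ideal.Quotient.mk P y))))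
          = movedPoint ψ D i y := by
      intro i y
      rw [← resTwist_algebraMap]
      exact congrArg j (resTwist_resMap P _ (hinv i) y)
    have hval0 : ∀ y : LTRing p n,
        j (algebraMap _ (ResAlg p n P)
          (algebraMap _ (FractionRing (LTRing p n ⧸ P)) (Ideal.Quotient.mk P y))) = ψ y :=
      fun y => rfl
    have hg0 : ψ g ≠ 0 := by
      rw [← hval0, map_ne_zero, map_ne_zero]
      exact IsFractionRing.to_map_ne_zero_of_mem_nonZeroDivisors hb
    have hgpos : 0 < ‖ψ g‖ := norm_pos_iff.2 hg0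
    refine ⟨(‖ψ f‖ + ‖ψ g‖) * (2 / ‖ψ g‖ ^ 2) + 1, by positivity, ?_⟩
    filter_upwards [hd.eventually (gt_mem_nhds (half_pos hgpos))] with i hi
    simp only [RingHom.comp_apply, RingEquiv.toRingHom_eq_coe, RingHom.coe_coe, map_div₀, hval,
      hval0]
    set d := moveDist ψ D i with hdd
    have hd0 : 0 ≤ d := moveDist_nonneg _ D i
    have hf' := movedPoint_sub_le D hn hpt i f
    have hg' := movedPoint_sub_le D hn hpt i g
    rw [← hdd] at hf' hg'
    have hlow : ‖ψ g‖ / 2 ≤ ‖movedPoint ψ D i g‖ := by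
      have h1 := norm_sub_norm_le (ψ g) (ψ g - movedPoint ψ D i g)
      rw [sub_sub_cancel, norm_sub_rev] at h1
      linarith
    have hne : movedPoint ψ D i g ≠ 0 := norm_pos_iff.1 (by linarith)
    rw [div_sub_div _ _ hne hg0, norm_div, norm_mul, div_le_iff₀ (by positivity),
      show movedPoint ψ D i f * ψ g - movedPoint ψ D i g * ψ f
        = (movedPoint ψ D i f - ψ f) * ψ g - (movedPoint ψ D i g - ψ g) * ψ f by ring]
    have h2 : ‖(movedPoint ψ D i f - ψ f) * ψ g - (movedPoint ψ D i g - ψ g) * ψ f‖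
        ≤ d * (‖ψ g‖ + ‖ψ f‖) := by
      refine (norm_sub_le _ _).trans ?_
      rw [norm_mul, norm_mul, mul_add]
      gcongr
    refine h2.trans ?_
    calc d * (‖ψ g‖ + ‖ψ f‖)
        = (‖ψ f‖ + ‖ψ g‖) * (2 / ‖ψ g‖ ^ 2) * d * (‖ψ g‖ / 2 * ‖ψ g‖) := by field_simp; ring
      _ ≤ ((‖ψ f‖ + ‖ψ g‖) * (2 / ‖ψ g‖ ^ 2) + 1) * d *
          (‖movedPoint ψ D i g‖ * ‖ψ g‖) := by gcongr; linarith

theorem exists_germ (hn : 0 < n) {F : FormalGroup (LTRing p n)} (hF : HasHazewinkelLog p n F)
    {h : ℕ} (hh : h < n) (P : Ideal (LTRing p n)) [P.IsPrime] (U : UField)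
    (j : ResAlg p n P →+* U.K) (hpt : IsPoint p n (j.comp (resMap p n P)))
    (hst : OnStratum p n h (j.comp (resMap p n P))) {S₀ c : ℕ} (D : ActFamily p n F S₀ c)
    (hinv : ∀ i, Ideal.map (D i).α.toRingHom P = P)
    (x : (Fin (n - h) → ℤ_[p]) → ℕ → ResAlg p n P)
    (hx : IsTorsion (j.comp (resMap p n P)) F (n - h) (fun e l => j (x e l)))
    (halg : ∀ e l, ∃ Q : Polynomial (LTRing p n), Q.IsDistinguishedAt (mIdeal p n) ∧
      Q.eval₂ (resMap p n P) (x e l) = 0)
    (hd : Tendsto (moveDist (j.comp (resMap p n P)) D) (actFilter p n) (nhds 0))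
    (hclose : ∀ e l, Tendsto
      (fun i => ev (j.comp (resMap p n P)) (D i).φ (j (x e l)) - j (x e l))
      (actFilter p n) (nhds 0)) :
    ∃ G : Germ (separableClosure (FractionRing (LTRing p n ⧸ P)) (ResAlg p n P)) U.K (ActIdx p n),
      G.l = actFilter p n ∧ (∀ z, G.ι z = j (z : ResAlg p n P)) ∧
      G.d = moveDist (j.comp (resMap p n P)) D ∧
      ∀ e l (hs : x e l ^ p ^ (h * l) ∈
          separableClosure (FractionRing (LTRing p n ⧸ P)) (ResAlg p n P)),
        ∀ᶠ i in actFilter p n,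
          G.sh ⟨x e l ^ p ^ (h * l), hs⟩ i
            = ev (j.comp (resMap p n P)) (D i).φ (j (x e l)) ^ p ^ (h * l) := by
  set Fld := FractionRing (LTRing p n ⧸ P) with hFld
  set T := resPert hn P U j hpt D hinv hd with hT
  set L := separableClosure Fld (ResAlg p n P) with hL
  set ι : L →+* U.K := j.comp L.val.toRingHom with hιdef
  have hι : ∀ q, ι (algebraMap Fld L q) = T.η q := fun q => rfl
  have hsplit : ∀ (i : ActIdx p n) (q : Polynomial Fld), (q.map (T.η' i)).Splits := by
    intro i q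
    show (q.map ((j.comp (algebraMap Fld (ResAlg p n P))).comp
      (resEquiv P (D i).α (hinv i)).toRingHom)).Splits
    rw [← Polynomial.map_map, ← Polynomial.map_map]
    exact (IsAlgClosed.splits _).map j
  refine ⟨T.toGerm hι hsplit, rfl, fun z => rfl, rfl, ?_⟩
  intro e l hs
  set ψ := j.comp (resMap p n P) with hψ
  set z : L := ⟨x e l ^ p ^ (h * l), hs⟩ with hz
  have hjinj : Function.Injective j := j.injective
  -- the possible values
  set S : Set (ResAlg p n P) := Set.range fun y => x y l ^ p ^ (h * l) with hS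
  have hSfin : S.Finite := by
    have h1 : (Set.range fun y => x y l).Finite := by
      refine ((torsion_finite hpt hx l).preimage hjinj.injOn).subset ?_
      rintro _ ⟨y, rfl⟩
      exact ⟨y, rfl⟩
    refine (h1.image fun w => w ^ p ^ (h * l)).subset ?_
    rintro _ ⟨y, rfl⟩
    exact ⟨_, ⟨y, rfl⟩, rfl⟩
  set Q : Finset (Polynomial Fld) := hSfin.toFinset.image (minpoly Fld) with hQ
  have hw : Tendsto (fun i => ev ψ (D i).φ (j (x e l)) ^ p ^ (h * l)) (actFilter p n)
      (nhds (ι z)) := by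
    have h1 := ((hclose e l).add_const (j (x e l))).pow (p ^ (h * l))
    simp only [sub_add_cancel, zero_add] at h1
    have h2 : ι z = j (x e l) ^ p ^ (h * l) := map_pow j _ _
    rw [h2]
    exact h1
  refine T.root_unique_of_mem hι hsplit z hw Q ?_ (Eventually.of_forall fun i => ?_)
  · intro q hq
    obtain ⟨v, hv, rfl⟩ := Finset.mem_image.1 hq
    by_cases hne : Polynomial.aeval z (minpoly Fld v) = 0
    · left
      have hzint := Algebra.IsSeparable.isIntegral Fld z
      have hirr : Irreducible (minpoly Fld v) :=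
        minpoly.irreducible (Algebra.IsIntegral.isIntegral v)
      exact minpoly.eq_of_irreducible_of_monic hirr hne
        (minpoly.monic (Algebra.IsIntegral.isIntegral v))
    · exact Or.inr hne
  · set σ := resTwist P (D i).α (hinv i) with hσ
    set j' : ResAlg p n P →+* U.K := j.comp σ.toRingHom with hj'
    have hj'ψ : j'.comp (resMap p n P) = ψ.comp (D i).α.toRingHom := by
      rw [hj', RingHom.comp_assoc, hσ, resTwist_comp, hψ, RingHom.comp_assoc]
    have hpt' : IsPoint p n (j'.comp (resMap p n P)) := by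
      rw [hj'ψ]; exact isPoint_comp hn hpt _
    have hx' := torsion_transfer hn hF hh P U U j j' hpt hpt' hst x hx halg
    rw [hj'ψ] at hx'
    obtain ⟨hkill, hnorm⟩ := hom_torsion hn hpt (D i) hx e l
    obtain ⟨y, hy⟩ := hx'.surj l (ev ψ (D i).φ (j (x e l)))
      ((norm_ev_le hpt _ (D i).φ_zero (hx.norm_lt e l)).trans_lt (hx.norm_lt e l)) hkill hnorm
    refine ⟨minpoly Fld (x y l ^ p ^ (h * l)), Finset.mem_image.2
      ⟨_, hSfin.mem_toFinset.2 ⟨y, rfl⟩, rfl⟩, ?_⟩
    have hval : T.η' i = j'.comp (algebraMap Fld (ResAlg p n P)) :=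
      RingHom.ext fun q => congrArg j (resTwist_algebraMap P _ (hinv i) q).symm
    rw [← hy, ← map_pow j', hval, ← Polynomial.map_map, Polynomial.eval_map_apply,
      Polynomial.eval_map_algebraMap, minpoly.aeval, map_zero]

end

end Vale.Agent.P217
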