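import Vale.Agent.P217.Tropical

/-!
P217, helper29: the tropical lemma of step (3) of the invariant-prime proof.

`F` is, on `[z0, ∞)`, the minimum of the lines `C i + p ^ i * z` (`i` in `L`), and has the
self-similarity `F (p ^ n * z) = c + p ^ h * F z` coming from the lines.  If two points
`w₁ p^S`, `w₂ p^S` have values related by `p ^ R` and minimisers congruent up to the shift `R`
modulo `n`, for all `S`, then `w₂ = p ^ (m n) w₁` and `R = m h`.
-/

namespace Vale.Agent.P217.TropicalRigid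

open Finset

/-- A function which is the minimum of lines with slopes powers of `p`, self-similar of
period `n` in the exponent of the variable and drop `d` in the exponent of the slope. -/
structure Tower (p n d : ℕ) where
  F : ℝ → ℝ
  C : ℤ → ℝ
  L : Set ℤ
  z0 : ℝ
  z0_pos : 0 < z0
  le : ∀ z, z0 ≤ z → ∀ i ∈ L, F z ≤ C i + (p : ℝ) ^ i * z
  attained : ∀ z, z0 ≤ z → ∃ i ∈ L, F z = C i + (p : ℝ) ^ i * z
  shift : ∀ z, z0 ≤ z → ∀ i ∈ L, F z = C i + (p : ℝ) ^ i * z →
    i - (d : ℤ) ∈ L ∧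
      F ((p : ℝ) ^ n * z) = C (i - (d : ℤ)) + (p : ℝ) ^ (i - (d : ℤ)) * ((p : ℝ) ^ n * z)

variable {p n d : ℕ}

/-- `i` is a minimiser of the tower at `z`. -/
def Tower.IsMin (T : Tower p n d) (z : ℝ) (i : ℤ) : Prop :=
  i ∈ T.L ∧ T.F z = T.C i + (p : ℝ) ^ i * z

lemma Tower.isMin_shift (T : Tower p n d) {z : ℝ} {i : ℤ} (hz : T.z0 ≤ z) (h : T.IsMin z i) :
    T.IsMin ((p : ℝ) ^ n * z) (i - d) :=
  T.shift z hz i h.1 h.2

lemma Tower.isMin_anti (T : Tower p n d) (hp : 1 < p) {z z' : ℝ} {i j : ℤ} (hz : T.z0 ≤ z)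
    (hzz : z < z') (hi : T.IsMin z i) (hj : T.IsMin z' j) : j ≤ i := by
  by_contra hcon
  push Not at hcon
  have h1 := T.le z hz j hj.1
  have h2 := T.le z' (hz.trans hzz.le) i hi.1
  have hlt : (p : ℝ) ^ i < (p : ℝ) ^ j := zpow_lt_zpow_right₀ (by exact_mod_cast hp) hcon
  rw [hi.2] at h1
  rw [hj.2] at h2
  nlinarith [mul_lt_mul_of_pos_left hzz (sub_pos.2 hlt)]

lemma Tower.incr (T : Tower p n d) (hp : 1 < p) {z : ℝ} {i j : ℤ} (hz : T.z0 ≤ z)
    (hi : T.IsMin z i) (hj : T.IsMin ((p : ℝ) * z) j) :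
    (p : ℝ) ^ j * (((p : ℝ) - 1) * z) ≤ T.F ((p : ℝ) * z) - T.F z ∧
      T.F ((p : ℝ) * z) - T.F z ≤ (p : ℝ) ^ i * (((p : ℝ) - 1) * z) := by
  have hp1 : (1 : ℝ) ≤ (p : ℝ) := by exact_mod_cast hp.le
  have hz' : T.z0 ≤ (p : ℝ) * z := hz.trans (le_mul_of_one_le_left
    (T.z0_pos.le.trans hz) hp1)
  have h1 := T.le z hz j hj.1
  have h2 := T.le _ hz' i hi.1
  constructor
  · rw [hj.2]; nlinarith [h1]
  · rw [hi.2]; nlinarith [h2]

lemma Tower.isMin_shift_iter (T : Tower p n d) (hp : 1 < p) {z : ℝ} {i : ℤ} (hz : T.z0 ≤ z)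
    (h : T.IsMin z i) : ∀ m : ℕ, T.IsMin ((p : ℝ) ^ (m * n) * z) (i - m * d)
  | 0 => by simpa using h
  | m + 1 => by
    have hzm : T.z0 ≤ (p : ℝ) ^ (m * n) * z := hz.trans (le_mul_of_one_le_left
      (T.z0_pos.le.trans hz) (one_le_pow₀ (by exact_mod_cast hp.le)))
    have := T.isMin_shift hzm (T.isMin_shift_iter hp hz h m)
    have e1 : (p : ℝ) ^ ((m + 1) * n) * z = (p : ℝ) ^ n * ((p : ℝ) ^ (m * n) * z) := by ring
    have e2 : i - ((m + 1 : ℕ) : ℤ) * d = i - m * d - d := by push_cast; ring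
    rwa [e1, e2]

/-- The integer combinatorics: two periodic non-increasing sequences which stay congruent
up to `R` modulo `n` have equal drops, and either a step without drop exists. -/
lemma drops {n d : ℕ} (hdn : d < n) (R : ℤ) (a b : ℕ → ℤ)
    (ha : ∀ S, a (S + 1) ≤ a S) (hb : ∀ S, b (S + 1) ≤ b S)
    (hap : ∀ S, a (S + n) = a S - d) (hbp : ∀ S, b (S + n) = b S - d)
    (hc : ∀ S, (n : ℤ) ∣ b S - a S - R) :
    (∀ S, b S - a S = b 0 - a 0) ∧ ∃ S, a (S + 1) = a S := by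
  have hn : 1 ≤ n := by omega
  have bound : ∀ (f : ℕ → ℤ), (∀ S, f (S + 1) ≤ f S) → (∀ S, f (S + n) = f S - d) →
      ∀ S, f S - f (S + 1) ≤ d := by
    intro f hf hp S
    have hanti : Antitone f := antitone_nat_of_succ_le hf
    have := hanti (show S + 1 ≤ S + n by omega)
    rw [hp S] at this
    omega
  constructor
  · intro S
    induction S with
    | zero => rfl
    | succ S ih =>
      rw [← ih]
      have h1 := hc S
      have h2 := hc (S + 1)
      have h3 : (n : ℤ) ∣ (b (S + 1) - a (S + 1)) - (b S - a S) := by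
        rw [show b (S + 1) - a (S + 1) - (b S - a S) =
          b (S + 1) - a (S + 1) - R - (b S - a S - R) by ring]
        exact dvd_sub h2 h1
      have := bound a ha hap S
      have := bound b hb hbp S
      have := ha S
      have := hb S
      have h0 := Int.eq_zero_of_dvd_of_natAbs_lt_natAbs h3 (by omega)
      omega
  · by_contra hcon
    push Not at hcon
    have hstep : ∀ S, a (S + 1) ≤ a S - 1 := fun S => by
      have := lt_of_le_of_ne (ha S) (hcon S)
      omega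
    have hk : ∀ k : ℕ, a k ≤ a 0 - k := by
      intro k
      induction k with
      | zero => simp
      | succ k ih => have := hstep k; push_cast; omega
    have h1 := hk n
    have h2 := hap 0
    rw [Nat.zero_add] at h2
    omega

/-- Periodic extension of a choice on `[0, n)`. -/
private def ext (n d : ℕ) (f : ℕ → ℤ) (S : ℕ) : ℤ := f (S % n) - (S / n : ℕ) * d

/-- **The tropical lemma.** -/
theorem rigid {h : ℕ} (T : Tower p n d) (hp : 1 < p) (hd : h + d = n) (hh : 1 ≤ h)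
    (R : ℤ) (C' : ℝ) {w₁ w₂ : ℝ} (hw₁ : T.z0 ≤ w₁) (hw₂ : T.z0 ≤ w₂)
    (hval : ∀ S : ℕ,
      T.F (w₂ * (p : ℝ) ^ S) = (p : ℝ) ^ R * T.F (w₁ * (p : ℝ) ^ S) + C')
    (hcls : ∀ S : ℕ, ∃ i₁ i₂, T.IsMin (w₁ * (p : ℝ) ^ S) i₁ ∧
      T.IsMin (w₂ * (p : ℝ) ^ S) i₂ ∧ (n : ℤ) ∣ i₂ - i₁ - R) :
    ∃ m : ℤ, R = m * h ∧ w₂ = (p : ℝ) ^ (m * n) * w₁ := by
  have hn : 0 < n := by omega
  have hdn : d < n := by omega
  have hp0 : (0 : ℝ) < p := by exact_mod_cast (by omega : 0 < p)
  have hp1 : (1 : ℝ) < p := by exact_mod_cast hp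
  have hw₁' : 0 < w₁ := T.z0_pos.trans_le hw₁
  have hw₂' : 0 < w₂ := T.z0_pos.trans_le hw₂
  have hbig : ∀ {w : ℝ}, T.z0 ≤ w → ∀ S : ℕ, T.z0 ≤ w * (p : ℝ) ^ S := fun {w} hw S =>
    hw.trans (le_mul_of_one_le_right (T.z0_pos.le.trans hw) (one_le_pow₀ hp1.le))
  choose f g hf hg hfg using hcls
  -- periodic choices of minimisers
  set a : ℕ → ℤ := ext n d f with ha_def
  set b : ℕ → ℤ := ext n d g with hb_def
  have hext : ∀ {w : ℝ} {φ : ℕ → ℤ}, T.z0 ≤ w → (∀ S, T.IsMin (w * (p : ℝ) ^ S) (φ S)) →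
      ∀ S, T.IsMin (w * (p : ℝ) ^ S) (ext n d φ S) := by
    intro w φ hw hφ S
    have := T.isMin_shift_iter hp (hbig hw (S % n)) (hφ (S % n)) (S / n)
    have e : (p : ℝ) ^ (S / n * n) * (w * (p : ℝ) ^ (S % n)) = w * (p : ℝ) ^ S := by
      rw [mul_left_comm, ← pow_add, mul_comm (S / n) n, Nat.div_add_mod]
    rw [e] at this
    exact this
  have hA := hext hw₁ hf
  have hB := hext hw₂ hg
  have hper : ∀ (φ : ℕ → ℤ) S, ext n d φ (S + n) = ext n d φ S - d := by
    intro φ S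
    simp only [ext, Nat.add_mod_right, Nat.add_div_right S hn, Nat.cast_succ]
    ring
  have hanti : ∀ {w : ℝ} {c : ℕ → ℤ}, T.z0 ≤ w → (∀ S, T.IsMin (w * (p : ℝ) ^ S) (c S)) →
      ∀ S, c (S + 1) ≤ c S := by
    intro w c hw hc S
    have hz := hbig hw S
    refine T.isMin_anti hp hz ?_ (hc S) (hc (S + 1))
    rw [pow_succ, ← mul_assoc]
    exact lt_mul_of_one_lt_right (T.z0_pos.trans_le hz) hp1
  have hcong : ∀ S, (n : ℤ) ∣ b S - a S - R := by
    intro S
    have := hfg (S % n)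
    simp only [ha_def, hb_def, ext]
    convert this using 1
    ring
  obtain ⟨hK, S₀, hS₀⟩ := drops hdn R a b (hanti hw₁ hA) (hanti hw₂ hB)
    (hper f) (hper g) hcong
  obtain ⟨m', hm'⟩ := hcong 0
  -- the flat step pins the ratio
  have hbS : b (S₀ + 1) = b S₀ := by
    have := hK S₀
    have := hK (S₀ + 1)
    omega
  have hsucc : ∀ w : ℝ, w * (p : ℝ) ^ (S₀ + 1) = (p : ℝ) * (w * (p : ℝ) ^ S₀) := fun w => by
    ring
  have hA1 : T.IsMin ((p : ℝ) * (w₁ * (p : ℝ) ^ S₀)) (a S₀) := by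
    rw [← hsucc, ← hS₀]; exact hA (S₀ + 1)
  have hB1 : T.IsMin ((p : ℝ) * (w₂ * (p : ℝ) ^ S₀)) (b S₀) := by
    rw [← hsucc, ← hbS]; exact hB (S₀ + 1)
  have iA := T.incr hp (hbig hw₁ S₀) (hA S₀) hA1
  have iB := T.incr hp (hbig hw₂ S₀) (hB S₀) hB1
  have eA := le_antisymm iA.2 iA.1
  have eB := le_antisymm iB.2 iB.1
  rw [← hsucc] at eA eB
  have key : (p : ℝ) ^ (b S₀) * w₂ = (p : ℝ) ^ R * ((p : ℝ) ^ (a S₀) * w₁) := by
    have h0 : ((p : ℝ) - 1) * (p : ℝ) ^ S₀ ≠ 0 :=
      mul_ne_zero (by linarith) (pow_ne_zero _ hp0.ne')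
    apply mul_right_cancel₀ h0
    have e2 := hval (S₀ + 1)
    have e1 := hval S₀
    linear_combination e2 - e1 - eB + (p : ℝ) ^ R * eA
  have hw : w₂ = (p : ℝ) ^ (-m' * n) * w₁ := by
    have hexp : R + a S₀ - b S₀ = -m' * n := by
      have := hK S₀
      linarith [hm']
    rw [← hexp, sub_eq_add_neg, zpow_add₀ hp0.ne', zpow_add₀ hp0.ne', zpow_neg]
    field_simp
    linear_combination key
  refine ⟨-m', ?_, hw⟩
  -- uniqueness of the minimiser in the middle of the flat step identifies the shift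
  have uniq : ∀ {w : ℝ} {c : ℕ → ℤ}, T.z0 ≤ w → (∀ S, T.IsMin (w * (p : ℝ) ^ S) (c S)) →
      c (S₀ + 1) = c S₀ → ∀ j, T.IsMin ((((p : ℝ) + 1) / 2) * (w * (p : ℝ) ^ S₀)) j →
        j = c S₀ := by
    intro w c hw hc hflat j hj
    have hz := hbig hw S₀
    have hzpos := T.z0_pos.trans_le hz
    have l1 : w * (p : ℝ) ^ S₀ < (((p : ℝ) + 1) / 2) * (w * (p : ℝ) ^ S₀) :=
      lt_mul_of_one_lt_left hzpos (by linarith)
    have l2 : (((p : ℝ) + 1) / 2) * (w * (p : ℝ) ^ S₀) < w * (p : ℝ) ^ (S₀ + 1) := by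
      rw [hsucc]
      exact mul_lt_mul_of_pos_right (by linarith) hzpos
    have h1 := T.isMin_anti hp hz l1 (hc S₀) hj
    have h2 := T.isMin_anti hp (hz.trans l1.le) l2 hj (hc (S₀ + 1))
    omega
  set t : ℝ := ((p : ℝ) + 1) / 2 with ht
  have mid : ∀ {w : ℝ}, T.z0 ≤ w → T.z0 ≤ t * (w * (p : ℝ) ^ S₀) := fun {w} hw =>
    (hbig hw S₀).trans (le_mul_of_one_le_left (T.z0_pos.le.trans (hbig hw S₀))
      (by rw [ht]; linarith))
  obtain ⟨ja, hja, hja'⟩ := T.attained _ (mid hw₁)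
  obtain ⟨jb, hjb, hjb'⟩ := T.attained _ (mid hw₂)
  have ua := uniq hw₁ hA hS₀ ja ⟨hja, hja'⟩
  have ub := uniq hw₂ hB hbS jb ⟨hjb, hjb'⟩
  have hKS := hK S₀
  have hdZ : (d : ℤ) = n - h := by omega
  rcases le_total 0 (-m') with hpos | hneg
  · obtain ⟨k, hk⟩ := Int.eq_ofNat_of_zero_le hpos
    have hmove := T.isMin_shift_iter hp (mid hw₁) ⟨hja, hja'⟩ k
    have e : (p : ℝ) ^ (k * n) * (t * (w₁ * (p : ℝ) ^ S₀)) = t * (w₂ * (p : ℝ) ^ S₀) := by
      rw [hw, hk, ← Nat.cast_mul, zpow_natCast]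
      ring
    rw [e] at hmove
    have := uniq hw₂ hB hbS _ hmove
    rw [ua, hdZ] at this
    linear_combination -hm' - hKS - this + ((n : ℤ) - h) * hk
  · obtain ⟨k, hk⟩ := Int.eq_ofNat_of_zero_le (neg_nonneg.2 hneg)
    rw [neg_neg] at hk
    have hmove := T.isMin_shift_iter hp (mid hw₂) ⟨hjb, hjb'⟩ k
    have e : (p : ℝ) ^ (k * n) * (t * (w₂ * (p : ℝ) ^ S₀)) = t * (w₁ * (p : ℝ) ^ S₀) := by
      rw [hw, hk, neg_mul, ← Nat.cast_mul, zpow_neg, zpow_natCast]
      field_simp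
    rw [e] at hmove
    have := uniq hw₁ hA hS₀ _ hmove
    rw [ub, hdZ] at this
    linear_combination -hm' - hKS + this - ((n : ℤ) - h) * hk

/-- Constructor from the self-similarity `F (p ^ n z) = c + p ^ h F z` of the function and the
matching shift of the lines. -/
def Tower.ofSelfSimilar (h : ℕ) (hp : 0 < p) (hd : h + d = n) (F : ℝ → ℝ) (C : ℤ → ℝ) (L : Set ℤ)
    (z0 : ℝ) (z0_pos : 0 < z0) (le : ∀ z, z0 ≤ z → ∀ i ∈ L, F z ≤ C i + (p : ℝ) ^ i * z)
    (attained : ∀ z, z0 ≤ z → ∃ i ∈ L, F z = C i + (p : ℝ) ^ i * z) (c : ℝ)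
    (hF : ∀ z, z0 ≤ z → F ((p : ℝ) ^ n * z) = c + (p : ℝ) ^ h * F z)
    (hL : ∀ i ∈ L, i - (d : ℤ) ∈ L)
    (hC : ∀ i ∈ L, C (i - (d : ℤ)) = c + (p : ℝ) ^ h * C i) : Tower p n d where
  F := F
  C := C
  L := L
  z0 := z0
  z0_pos := z0_pos
  le := le
  attained := attained
  shift z hz i hi hmin := by
    refine ⟨hL i hi, ?_⟩
    rw [hF z hz, hmin, hC i hi]
    have hp' : (p : ℝ) ≠ 0 := by exact_mod_cast hp.ne'
    have : (p : ℝ) ^ (i - (d : ℤ)) * (p : ℝ) ^ n = (p : ℝ) ^ i * (p : ℝ) ^ h := by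
      rw [← zpow_natCast, ← zpow_natCast, ← zpow_add₀ hp', ← zpow_add₀ hp']
      congr 1
      omega
    linear_combination -z * this

/-- The lemma with hypotheses only for all large `S`. -/
theorem rigid_eventually {h : ℕ} (T : Tower p n d) (hp : 1 < p) (hd : h + d = n) (hh : 1 ≤ h)
    (R : ℤ) (C' : ℝ) {w₁ w₂ : ℝ} (S₁ : ℕ) (hw₁ : T.z0 ≤ w₁) (hw₂ : T.z0 ≤ w₂)
    (hval : ∀ S : ℕ, S₁ ≤ S →
      T.F (w₂ * (p : ℝ) ^ S) = (p : ℝ) ^ R * T.F (w₁ * (p : ℝ) ^ S) + C')
    (hcls : ∀ S : ℕ, S₁ ≤ S → ∃ i₁ i₂, T.IsMin (w₁ * (p : ℝ) ^ S) i₁ ∧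
      T.IsMin (w₂ * (p : ℝ) ^ S) i₂ ∧ (n : ℤ) ∣ i₂ - i₁ - R) :
    ∃ m : ℤ, R = m * h ∧ w₂ = (p : ℝ) ^ (m * n) * w₁ := by
  have h1 : (1 : ℝ) ≤ (p : ℝ) ^ S₁ := one_le_pow₀ (by exact_mod_cast hp.le)
  have e : ∀ (w : ℝ) S, w * (p : ℝ) ^ S₁ * (p : ℝ) ^ S = w * (p : ℝ) ^ (S₁ + S) := fun w S => by
    ring
  obtain ⟨m, hm, hw⟩ := rigid T hp hd hh R C'
    (hw₁.trans (le_mul_of_one_le_right (T.z0_pos.le.trans hw₁) h1))
    (hw₂.trans (le_mul_of_one_le_right (T.z0_pos.le.trans hw₂) h1))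
    (fun S => by rw [e, e]; exact hval _ (by omega))
    (fun S => by rw [e, e]; exact hcls _ (by omega))
  refine ⟨m, hm, mul_right_cancel₀ (b := (p : ℝ) ^ S₁) (by positivity) ?_⟩
  linear_combination hw

/-- A sequence rising by at most `1` per step and by `h ≥ 1` per period takes every large
integer value at arbitrarily large arguments. -/
theorem covers {n h : ℕ} (hh : 1 ≤ h) (f : ℕ → ℤ) (S₁ : ℕ)
    (hstep : ∀ S, S₁ ≤ S → f (S + 1) ≤ f S + 1)
    (hper : ∀ S, S₁ ≤ S → f (S + n) = f S + h) :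
    ∀ K : ℤ, f S₁ ≤ K → ∃ S, S₁ ≤ S ∧ f S = K := by
  intro K hK
  have hgrow : ∀ k : ℕ, f (S₁ + k * n) = f S₁ + k * h := by
    intro k
    induction k with
    | zero => simp
    | succ k ih =>
      rw [show S₁ + (k + 1) * n = (S₁ + k * n) + n by ring, hper _ (by omega), ih]
      push_cast
      ring
  have hex : ∃ S, K ≤ f (S₁ + S) := by
    refine ⟨(K - f S₁).toNat * n, ?_⟩
    rw [hgrow]
    have h1 : ((K - f S₁).toNat : ℤ) = K - f S₁ := Int.toNat_of_nonneg (by omega)
    have h2 : ((K - f S₁).toNat : ℤ) * 1 ≤ ((K - f S₁).toNat : ℤ) * h :=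
      mul_le_mul_of_nonneg_left (by exact_mod_cast hh) (by positivity)
    omega
  refine ⟨S₁ + Nat.find hex, by omega, le_antisymm ?_ (Nat.find_spec hex)⟩
  rcases Nat.eq_zero_or_pos (Nat.find hex) with h0 | hpos
  · rw [h0]; simpa using hK
  · have h1 := Nat.find_min hex (Nat.sub_lt hpos Nat.one_pos)
    have h2 := hstep (S₁ + (Nat.find hex - 1)) (by omega)
    rw [show S₁ + (Nat.find hex - 1) + 1 = S₁ + Nat.find hex by omega] at h2
    omega

/-- Two consecutive equal Frobenius powers force an element of the prime field. -/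
theorem mem_prime_field {K : Type*} [Field K] (p : ℕ) [hp : Fact p.Prime] [CharP K p]
    {μ r : K} (J : ℕ) (h₀ : μ ^ p ^ J = r) (h₁ : μ ^ p ^ (J + 1) = r) :
    ∃ a : ℕ, a < p ∧ μ = (a : K) := by
  have hμ : μ ^ p = μ := by
    apply iterateFrobenius_inj K p J
    simp only [iterateFrobenius_def, ← pow_mul, ← pow_succ', h₁, h₀]
  obtain ⟨a, ha⟩ : ∃ a : ZMod p, ZMod.castHom dvd_rfl K a = μ := by
    by_contra hne
    push Not at hne
    classical
    let φ := ZMod.castHom (dvd_rfl : p ∣ p) K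
    let P : Polynomial K := Polynomial.X ^ p - Polynomial.X
    have hP : P ≠ 0 := FiniteField.X_pow_card_sub_X_ne_zero K hp.out.one_lt
    let s : Finset K := insert μ (Finset.univ.image φ)
    have hs : s.card = p + 1 := by
      rw [Finset.card_insert_of_notMem (by simpa [φ] using hne),
        Finset.card_image_of_injective _ φ.injective, Finset.card_univ, ZMod.card]
    have hroots : s ⊆ P.roots.toFinset := by
      intro x hx
      rw [Multiset.mem_toFinset, Polynomial.mem_roots hP]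
      rcases Finset.mem_insert.1 hx with rfl | hx
      · simp [P, hμ]
      · obtain ⟨y, -, rfl⟩ := Finset.mem_image.1 hx
        simp [P, ← map_pow, ZMod.pow_card]
    have h1 := Finset.card_le_card hroots
    have h2 := (Multiset.toFinset_card_le P.roots).trans (Polynomial.card_roots' P)
    have h3 : P.natDegree = p := FiniteField.X_pow_card_sub_X_natDegree_eq K hp.out.one_lt
    omega
  refine ⟨a.val, ZMod.val_lt a, ?_⟩
  rw [← ha, ← map_natCast (ZMod.castHom (dvd_rfl : p ∣ p) K), ZMod.natCast_val, ZMod.cast_id]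

/-- An element fixed by Frobenius is in the prime field. -/
theorem mem_range_of_pow_eq {K : Type*} [Field K] (p : ℕ) [Fact p.Prime] [CharP K p] {μ : K}
    (hμ : μ ^ p = μ) : ∃ a : ℕ, a < p ∧ μ = (a : K) :=
  mem_prime_field p (μ := μ) (r := μ) 0 (by simp) (by simpa using hμ)

/-- Moore: a combination of `F_p`-independent elements whose Frobenius twists vanish at all large
levels is zero. -/
theorem moore {K : Type*} [Field K] (p : ℕ) [Fact p.Prime] [CharP K p] {ι : Type*} [Fintype ι]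
    (lam : ι → K) (hind : ∀ c : ι → ℕ, (∀ i, c i < p) → ∑ i, (c i : K) * lam i = 0 → ∀ i, c i = 0)
    (β : ι → K) (K₀ : ℕ) (hβ : ∀ J, K₀ ≤ J → ∑ i, β i * lam i ^ p ^ J = 0) : β = 0 := by
  classical
  suffices h : ∀ N, ∀ (γ : ι → K) (J₀ : ℕ), (univ.filter fun i => γ i ≠ 0).card ≤ N →
      (∀ J, J₀ ≤ J → ∑ i, γ i * lam i ^ p ^ J = 0) → γ = 0 from h _ β K₀ le_rfl hβ
  intro N
  induction N with
  | zero =>
    intro γ J₀ hc _
    funext i
    by_contra hne
    have : 0 < (univ.filter fun i => γ i ≠ 0).card :=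
      Finset.card_pos.2 ⟨i, by simpa using hne⟩
    omega
  | succ N ih =>
    intro γ J₀ hc hγ
    by_contra hne
    obtain ⟨i₀, hi₀⟩ : ∃ i, γ i ≠ 0 := by
      by_contra hall
      push Not at hall
      exact hne (funext hall)
    set δ : ι → K := fun i => γ i / γ i₀ with hδ_def
    have hδ : ∀ J, J₀ ≤ J → ∑ i, δ i * lam i ^ p ^ J = 0 := by
      intro J hJ
      simp only [hδ_def, div_mul_eq_mul_div, ← Finset.sum_div, hγ J hJ, zero_div]
    have hε : (fun i => δ i ^ p - δ i) = 0 := by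
      refine ih _ (J₀ + 1) ?_ ?_
      · have hsub : (univ.filter fun i => δ i ^ p - δ i ≠ 0) ⊆
            (univ.filter fun i => γ i ≠ 0).erase i₀ := by
          intro i hi
          simp only [mem_filter, mem_univ, true_and] at hi
          refine mem_erase.2 ⟨?_, ?_⟩
          · rintro rfl
            simp [hδ_def, div_self hi₀] at hi
          · simp only [mem_filter, mem_univ, true_and]
            intro h0
            simp [hδ_def, h0, zero_pow (Fact.out : p.Prime).ne_zero] at hi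
        have h1 := Finset.card_le_card hsub
        rw [Finset.card_erase_of_mem (by simp [hi₀])] at h1
        omega
      · intro J hJ
        obtain ⟨J', rfl⟩ : ∃ J', J = J' + 1 := ⟨J - 1, by omega⟩
        have h1 := congrArg (frobenius K p) (hδ J' (by omega))
        rw [map_sum, map_zero] at h1
        simp only [map_mul, frobenius_def, ← pow_mul, ← pow_succ] at h1
        simp only [sub_mul, Finset.sum_sub_distrib, h1, hδ (J' + 1) (by omega), sub_zero]
    have hfix : ∀ i, ∃ a : ℕ, a < p ∧ δ i = (a : K) := fun i =>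
      mem_range_of_pow_eq p (sub_eq_zero.1 (congrFun hε i))
    choose c hc' hcδ using hfix
    have h2 : (∑ i, (c i : K) * lam i) ^ p ^ J₀ = 0 := by
      rw [← iterateFrobenius_def, map_sum]
      simp only [map_mul, map_natCast, iterateFrobenius_def]
      simpa only [hcδ] using hδ J₀ le_rfl
    have h3 := hind c hc' (by simpa using (pow_eq_zero_iff (by
      exact pow_ne_zero _ (Fact.out : p.Prime).ne_zero)).1 h2) i₀
    have h4 : δ i₀ = 1 := div_self hi₀
    rw [hcδ, h3, Nat.cast_zero] at h4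
    exact zero_ne_one h4

section Approx

variable {p : ℕ} [hp : Fact p.Prime] {K : Type} [NormedField K] [IsUltrametricDist K]

/-- An element nearly fixed by Frobenius is near an integer in `[0, p)`. -/
theorem near_natCast (hpK : ‖(p : K)‖ < 1) {δ : K} (hδ : ‖δ‖ ≤ 1) (h : ‖δ ^ p - δ‖ < 1) :
    ∃ a : ℕ, a < p ∧ ‖δ - (a : K)‖ < 1 := by
  by_contra hne
  push Not at hne
  set D : Polynomial ℤ := ∏ a ∈ Finset.range p, (Polynomial.X - Polynomial.C (a : ℤ))
    - (Polynomial.X ^ p - Polynomial.X) with hD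
  have hD0 : D.map (Int.castRingHom (ZMod p)) = 0 := by
    rw [hD, Polynomial.map_sub, Polynomial.map_prod, Polynomial.map_sub, Polynomial.map_pow,
      Polynomial.map_X, sub_eq_zero]
    simp only [Polynomial.map_sub, Polynomial.map_X, eq_intCast, Int.cast_natCast, Polynomial.map_natCast]
    have h1 := Polynomial.prod_multiset_X_sub_C_of_monic_of_roots_card_eq
      (Polynomial.monic_X_pow_sub (n := p) (by rw [Polynomial.degree_X]; exact_mod_cast hp.out.one_lt) : (Polynomial.X ^ p - Polynomial.X : Polynomial (ZMod p)).Monic) (by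
        rw [FiniteField.X_pow_card_sub_X_natDegree_eq _ hp.out.one_lt,
          show (Polynomial.X ^ p - Polynomial.X : Polynomial (ZMod p))
            = Polynomial.X ^ Fintype.card (ZMod p) - Polynomial.X by rw [ZMod.card],
          FiniteField.roots_X_pow_card_sub_X]
        simp)
    rw [show (Polynomial.X ^ p - Polynomial.X : Polynomial (ZMod p))
        = Polynomial.X ^ Fintype.card (ZMod p) - Polynomial.X by rw [ZMod.card]] at h1 ⊢
    rw [FiniteField.roots_X_pow_card_sub_X] at h1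
    rw [← h1]
    refine Finset.prod_bij' (fun a _ => (a : ZMod p)) (fun z _ => z.val) ?_ ?_ ?_ ?_ ?_
    · intro a _; exact Finset.mem_univ _
    · intro z _; exact Finset.mem_range.2 (ZMod.val_lt z)
    · intro a ha; exact ZMod.val_natCast_of_lt (Finset.mem_range.1 ha)
    · intro z _; exact ZMod.natCast_zmod_val z
    · intro a _; simp
  have hdvd : Polynomial.C (p : ℤ) ∣ D := by
    rw [Polynomial.C_dvd_iff_dvd_coeff]
    intro i
    rw [← ZMod.intCast_zmod_eq_zero_iff_dvd]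
    have := congrArg (fun q : Polynomial (ZMod p) => q.coeff i) hD0
    simpa using this
  obtain ⟨E, hE⟩ := hdvd
  have hprod : ‖∏ a ∈ Finset.range p, (δ - (a : K))‖ = 1 := by
    rw [norm_prod]
    refine Finset.prod_eq_one fun a ha => le_antisymm ?_ (hne a (Finset.mem_range.1 ha))
    rw [sub_eq_add_neg]
    exact (IsUltrametricDist.norm_add_le_max _ _).trans
      (max_le hδ (by rw [norm_neg]; exact IsUltrametricDist.norm_natCast_le_one K a))
  have hev := congrArg (Polynomial.eval₂ (Int.castRingHom K) δ) hE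
  rw [hD, Polynomial.eval₂_sub, Polynomial.eval₂_finsetProd, Polynomial.eval₂_sub,
    Polynomial.eval₂_pow, Polynomial.eval₂_X, Polynomial.eval₂_mul, Polynomial.eval₂_C] at hev
  simp only [Polynomial.eval₂_sub, Polynomial.eval₂_X, eq_intCast,
    Int.cast_natCast, Polynomial.eval₂_natCast] at hev
  have hE1 : ‖Polynomial.eval₂ (Int.castRingHom K) δ E‖ ≤ 1 := by
    rw [Polynomial.eval₂_eq_sum, Polynomial.sum_def]
    refine IsUltrametricDist.norm_sum_le_of_forall_le_of_nonneg zero_le_one fun i _ => ?_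
    rw [norm_mul, norm_pow]
    exact mul_le_one₀ (IsUltrametricDist.norm_intCast_le_one K _) (by positivity)
      (pow_le_one₀ (norm_nonneg _) hδ)
  have hlt : ‖(p : K) * Polynomial.eval₂ (Int.castRingHom K) δ E‖ < 1 := by
    rw [norm_mul]
    exact lt_of_le_of_lt (mul_le_of_le_one_right (norm_nonneg _) hE1) hpK
  rw [← hev] at hlt
  have h2 := norm_add_lt_of_lt hlt h
  rw [sub_add_cancel, hprod] at h2
  exact lt_irrefl 1 h2

/-- Approximate Moore: if all nontrivial `F_p`-combinations of the units `μ i` are units and the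
twisted combinations with coefficients `β` have norm `< B` at all large levels, all `β i` have
norm `< B`. -/
theorem moore_approx (hpK : ‖(p : K)‖ < 1) {ι : Type*} [Fintype ι] (μ : ι → K)
    (hμ : ∀ i, ‖μ i‖ ≤ 1)
    (hind : ∀ c : ι → ℕ, (∀ i, c i < p) → (∃ i, c i ≠ 0) → ‖∑ i, (c i : K) * μ i‖ = 1)
    (β : ι → K) {B : ℝ} (K₀ : ℕ) (hβ : ∀ J, K₀ ≤ J → ‖∑ i, β i * μ i ^ p ^ J‖ < B) :
    ∀ i, ‖β i‖ < B := by
  classical
  have key : ∀ N, ∀ (γ : ι → K) (J₀ : ℕ), (∀ i, ‖γ i‖ ≤ 1) →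
      (univ.filter fun i => ‖γ i‖ = 1).card ≤ N →
      (∀ J, J₀ ≤ J → ‖∑ i, γ i * μ i ^ p ^ J‖ < 1) → ∀ i, ‖γ i‖ < 1 := by
    intro N
    induction N with
    | zero =>
      intro γ _ hle hc _ i
      refine lt_of_le_of_ne (hle i) fun he => ?_
      have : 0 < (univ.filter fun i => ‖γ i‖ = 1).card := Finset.card_pos.2 ⟨i, by simp [he]⟩
      omega
    | succ N ih =>
      intro γ J₀ hle hc hγ
      by_contra hall
      push Not at hall
      obtain ⟨i₀, hi₀'⟩ := hall
      have hi₀ : ‖γ i₀‖ = 1 := le_antisymm (hle i₀) hi₀'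
      have hne : γ i₀ ≠ 0 := fun h0 => by rw [h0, norm_zero] at hi₀; exact zero_ne_one hi₀
      set δ : ι → K := fun i => γ i / γ i₀ with hδdef
      have hδle : ∀ i, ‖δ i‖ = ‖γ i‖ := fun i => by rw [hδdef, norm_div, hi₀, div_one]
      have hδ : ∀ J, J₀ ≤ J → ‖∑ i, δ i * μ i ^ p ^ J‖ < 1 := fun J hJ => by
        simp only [hδdef, div_mul_eq_mul_div, ← Finset.sum_div, norm_div, hi₀, div_one]
        exact hγ J hJ
      have hε : ∀ i, ‖δ i ^ p - δ i‖ < 1 := by
        refine ih (fun i => δ i ^ p - δ i) (J₀ + 1) (fun i => ?_) ?_ fun J hJ => ?_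
        · rw [sub_eq_add_neg]
          refine (IsUltrametricDist.norm_add_le_max _ _).trans (max_le ?_ ?_)
          · rw [norm_pow, hδle]; exact pow_le_one₀ (norm_nonneg _) (hle i)
          · rw [norm_neg, hδle]; exact hle i
        · have hsub : (univ.filter fun i => ‖δ i ^ p - δ i‖ = 1) ⊆
              (univ.filter fun i => ‖γ i‖ = 1).erase i₀ := by
            intro i hi
            simp only [mem_filter, mem_univ, true_and] at hi
            refine mem_erase.2 ⟨?_, ?_⟩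
            · rintro rfl
              simp [hδdef, div_self hne] at hi
            · simp only [mem_filter, mem_univ, true_and]
              refine le_antisymm (hle i) (not_lt.1 fun hlt => ?_)
              have h1 : ‖δ i ^ p‖ < 1 := by
                rw [norm_pow, hδle]; exact pow_lt_one₀ (norm_nonneg _) hlt hp.out.ne_zero
              have h2 : ‖-δ i‖ < 1 := by rw [norm_neg, hδle]; exact hlt
              have := norm_add_lt_of_lt h1 h2
              rw [← sub_eq_add_neg, hi] at this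
              exact lt_irrefl 1 this
          have h1 := Finset.card_le_card hsub
          rw [Finset.card_erase_of_mem (by simp [hi₀])] at h1
          omega
        · obtain ⟨J', rfl⟩ : ∃ J', J = J' + 1 := ⟨J - 1, by omega⟩
          have hterm : ∀ i ∈ univ, ‖δ i * μ i ^ p ^ J'‖ ≤ 1 := fun i _ => by
            rw [norm_mul, norm_pow, hδle]
            exact mul_le_one₀ (hle i) (by positivity) (pow_le_one₀ (norm_nonneg _) (hμ i))
          have h1 : ‖(∑ i, δ i * μ i ^ p ^ J') ^ p‖ < 1 := by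
            rw [norm_pow]; exact pow_lt_one₀ (norm_nonneg _) (hδ J' (by omega)) hp.out.ne_zero
          have h2 := lt_of_le_of_lt
            (norm_sum_pow_prime_sub_le (p := p) univ _ zero_le_one hterm) (by simpa using hpK)
          have h3 := norm_add_lt_of_lt (norm_add_lt_of_lt h1
            (by rwa [norm_sub_rev] at h2)) (by simpa using hδ (J' + 1) (by omega) :
              ‖-∑ i, δ i * μ i ^ p ^ (J' + 1)‖ < 1)
          rw [add_sub_cancel, ← sub_eq_add_neg] at h3
          simpa only [mul_pow, ← pow_mul, ← pow_succ, sub_mul, Finset.sum_sub_distrib] using h3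
      choose c hc' hcδ using fun i => near_natCast hpK (by rw [hδle]; exact hle i) (hε i)
      have h0 : c i₀ ≠ 0 := fun h0 => by
        have := hcδ i₀
        simp [hδdef, div_self hne, h0] at this
      have hu := hind c hc' ⟨i₀, h0⟩
      have hlev : ‖(∑ i, (c i : K) * μ i) ^ p ^ J₀‖ < 1 := by
        have h1 := lt_of_le_of_lt (norm_sum_pow_sub_le (p := p) univ (fun i => (c i : K) * μ i)
          zero_le_one (fun i _ => by
            rw [norm_mul]
            exact mul_le_one₀ (IsUltrametricDist.norm_natCast_le_one K _) (norm_nonneg _) (hμ i))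
          J₀) (by simpa using hpK)
        have h2 : ‖∑ i, (((c i : K) ^ p ^ J₀ - δ i) * μ i ^ p ^ J₀)‖ < 1 := by
          refine norm_sum_lt one_pos fun i _ => ?_
          rw [norm_mul, norm_pow]
          refine lt_of_le_of_lt (mul_le_of_le_one_right (norm_nonneg _)
            (pow_le_one₀ (norm_nonneg _) (hμ i))) ?_
          have hdvd : (p : ℤ) ∣ (c i : ℤ) ^ p ^ J₀ - (c i : ℤ) := by
            rw [← ZMod.intCast_zmod_eq_zero_iff_dvd]
            push_cast
            rw [ZMod.pow_card_pow, sub_self]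
          obtain ⟨k, hk⟩ := hdvd
          have hk' : (c i : K) ^ p ^ J₀ - (c i : K) = (p : K) * (k : K) := by
            exact_mod_cast congrArg (fun t : ℤ => (t : K)) hk
          have h3 : ‖(p : K) * (k : K)‖ < 1 := by
            rw [norm_mul]
            exact lt_of_le_of_lt (mul_le_of_le_one_right (norm_nonneg _)
              (IsUltrametricDist.norm_intCast_le_one K k)) hpK
          have := norm_add_lt_of_lt (hk' ▸ h3 : ‖(c i : K) ^ p ^ J₀ - (c i : K)‖ < 1)
            (by rw [norm_sub_rev]; exact hcδ i : ‖(c i : K) - δ i‖ < 1)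
          rwa [sub_add_sub_cancel] at this
        have := norm_add_lt_of_lt (norm_add_lt_of_lt h1 h2) (hδ J₀ le_rfl)
        simpa [mul_pow, sub_mul, Finset.sum_sub_distrib] using this
      rw [norm_pow, hu, one_pow] at hlev
      exact lt_irrefl 1 hlev
  intro i
  by_contra hcon
  rw [not_lt] at hcon
  have hB : 0 < B := lt_of_le_of_lt (norm_nonneg _) (hβ K₀ le_rfl)
  obtain ⟨i₁, -, hi₁⟩ := Finset.exists_max_image univ (fun i => ‖β i‖) ⟨i, mem_univ i⟩
  have hm : B ≤ ‖β i₁‖ := hcon.trans (hi₁ i (mem_univ _))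
  have hne : β i₁ ≠ 0 := norm_pos_iff.1 (hB.trans_le hm)
  have := key _ (fun j => β j / β i₁) K₀ (fun j => by
      rw [norm_div]; exact div_le_one_of_le₀ (hi₁ j (mem_univ _)) (norm_nonneg _))
    le_rfl (fun J hJ => by
      simp only [div_mul_eq_mul_div, ← Finset.sum_div, norm_div]
      rw [div_lt_one (hB.trans_le hm)]
      exact (hβ J hJ).trans_le hm) i₁
  rw [div_self hne, norm_one] at this
  exact lt_irrefl 1 this

end Approx

end Vale.Agent.P217.TropicalRigid
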