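import Vale.Agent.P217.HighDefs
import Vale.Agent.P217.TropicalRigid

/-!
# P217: rigidity of a pair of torsion sequences with related displacements

Two leading terms related by `f₂^(p^b) ≈ ρ f₁^(p^a)` for every digit match exponent by exponent
modulo `n`.  A depth step without drop then pins the ratio of the slopes, and two consecutive
depths pin the residue of the ratio of the two sequences.
-/

open scoped Classical

namespace Vale.Agent.P217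

noncomputable section

namespace PairRigid

/-- The integral part of an exponent active on a segment is active at both ends. -/
theorem maj_linear (T : Trop) {y z : ℝ} {i : ℤ} (hy : 0 < y) (hz : 0 < z) (hi : T.Maj i y)
    (hi' : T.Maj i z) : T.N z - T.N y = (T.p : ℝ) ^ i * (z - y) := by
  have h1 := hi z hz
  have h2 := hi' y hy
  linarith

/-- A step without drop exists in every window of `n` steps. -/
theorem exists_flat (T : Trop) (hh : 1 ≤ T.h) {Z : ℕ → ℝ} (hpos : ∀ S, 0 < Z S)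
    (hstep : ∀ S, Z (S + 1) = (T.p : ℝ) * Z S) {S₁ : ℕ}
    (hlin : ∀ S, S₁ ≤ S → T.N (T.q * Z S) = T.v T.h + (T.p : ℝ) ^ T.h * T.N (Z S))
    (hex : ∀ S, ∃ i, T.Maj i (Z S)) :
    ∃ S, S₁ ≤ S ∧ ∃ i, T.Maj i (Z S) ∧ T.Maj i (Z (S + 1)) := by
  by_contra hno
  simp only [not_exists, not_and] at hno
  choose f hf using hex
  have hlt : ∀ S, S₁ ≤ S → f (S + 1) < f S := by
    intro S hS
    refine lt_of_le_of_ne (T.maj_antitone (hpos S) ?_ (hf S) (hf (S + 1))) fun he => ?_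
    · rw [hstep]; exact lt_mul_of_one_lt_left (hpos S) T.one_lt_p
    · exact hno S hS (f S) (hf S) (he ▸ hf (S + 1))
  have hdrop : ∀ k : ℕ, f (S₁ + k) ≤ f S₁ - k := by
    intro k
    induction k with
    | zero => simp
    | succ k ih =>
      have := hlt (S₁ + k) (Nat.le_add_right _ _)
      push_cast
      rw [← Nat.add_assoc]
      omega
  have hpow : ∀ k : ℕ, Z (S₁ + k) = (T.p : ℝ) ^ k * Z S₁ := by
    intro k
    induction k with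
    | zero => simp
    | succ k ih => rw [← Nat.add_assoc, hstep, ih, pow_succ]; ring
  have hq : Z (S₁ + T.n) = T.q * Z S₁ := hpow T.n
  have hsh : T.Maj (f S₁ - ((T.n : ℤ) - T.h)) (Z (S₁ + T.n)) := by
    rw [hq]; exact T.maj_shift (hf S₁) (hpos S₁) (hlin S₁ le_rfl)
  obtain ⟨m, hm⟩ : ∃ m, T.n = m + 1 := ⟨T.n - 1, by have := T.n_pos; omega⟩
  have hle : f S₁ - ((T.n : ℤ) - T.h) ≤ f (S₁ + m) := by
    refine T.maj_antitone (hpos _) ?_ (hf _) hsh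
    rw [hm, ← Nat.add_assoc, hstep]
    exact lt_mul_of_one_lt_left (hpos _) T.one_lt_p
  have hne : f S₁ - ((T.n : ℤ) - T.h) ≠ f (S₁ + m) := by
    intro he
    refine hno (S₁ + m) (Nat.le_add_right _ _) _ (hf _) ?_
    rw [← he]
    rw [hm, ← Nat.add_assoc] at hsh
    rwa [hm]
  have := hdrop m
  omega

variable {p n : ℕ} [hp : Fact p.Prime]
  {K : Type} [NormedField K] [IsUltrametricDist K] [CompleteSpace K] {ψ : LTRing p n →+* K}

/-- An exponent majorising at two points is active at both, for all large levels. -/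
theorem mem_act_of_maj {h : ℕ} (hh : h < n) (hψ : IsPoint p n ψ) (hst : OnStratum p n h ψ)
    {y z : ℝ} {i : ℤ} (hy : 0 < y) (hyz : y < z) (hi : (tropOf ψ hh hψ hst).Maj i y)
    (hi' : (tropOf ψ hh hψ hst).Maj i z) :
    ∃ l₀ : ℕ, ∀ l ≥ l₀, ∃ J : ℕ, (J : ℤ) - n * l = i ∧ J ∈ Act ψ (tropOf ψ hh hψ hst) l y ∧
      J ∈ Act ψ (tropOf ψ hh hψ hst) l z := by
  set T := tropOf ψ hh hψ hst with hT
  set x := (y + z) / 2 with hx
  have hyx : y < x := by rw [hx]; linarith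
  have hxz : x < z := by rw [hx]; linarith
  have hxpos : 0 < x := hy.trans hyx
  have hz : 0 < z := hy.trans hyz
  obtain ⟨l₁, h₁⟩ := act_spec hh hψ hst hxpos
  obtain ⟨l₂, h₂⟩ := T.iterN_eventually x hxpos
  obtain ⟨l₃, h₃⟩ := T.iterN_eventually y hy
  obtain ⟨l₄, h₄⟩ := T.iterN_eventually z hz
  refine ⟨max (max l₁ l₂) (max l₃ l₄), fun l hl => ?_⟩
  simp only [ge_iff_le, max_le_iff] at hl
  obtain ⟨⟨J, hJ⟩, hmaj⟩ := h₁ l hl.1.1
  have hJx := hmaj J hJ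
  have hJi : (J : ℤ) - n * l = i :=
    le_antisymm (T.maj_antitone hy hyx hi hJx) (T.maj_antitone hxpos hxz hJx hi')
  have hlin := maj_linear T hy hxpos hi (hJi ▸ hJx)
  have hlin' := maj_linear T hxpos hz (hJi ▸ hJx) hi'
  have heq := (Finset.mem_filter.1 hJ).2
  have hrange := (Finset.mem_filter.1 hJ).1
  have hconv : ∀ w : ℝ, (p : ℝ) ^ J * (w / T.q ^ l) = (T.p : ℝ) ^ i * w := by
    intro w
    show (p : ℝ) ^ J * (w / ((p : ℝ) ^ n) ^ l) = (p : ℝ) ^ i * w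
    rw [← hJi, zpow_sub₀ (Nat.cast_ne_zero.2 hp.out.ne_zero), ← Nat.cast_mul, zpow_natCast,
      zpow_natCast, pow_mul]
    ring
  have hmem : ∀ w : ℝ, T.iterN l w = T.N x + (T.p : ℝ) ^ i * (w - x) →
      J ∈ Act ψ T l w := by
    intro w hw
    refine Finset.mem_filter.2 ⟨hrange, ?_⟩
    have hc : ‖lamCoeff ψ l J‖ = Real.exp (-T.N x + (T.p : ℝ) ^ i * x) := by
      rw [h₂ l hl.1.2, hconv] at heq
      rw [Real.exp_add, ← heq, mul_assoc, ← Real.exp_add, neg_add_cancel, Real.exp_zero, mul_one]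
    rw [hc, hconv, ← Real.exp_add, hw]
    congr 1
    ring
  refine ⟨J, hJi, hmem y ?_, hmem z ?_⟩
  · rw [h₃ l hl.2.1]; linarith
  · rw [h₄ l hl.2.2]; linarith

omit [IsUltrametricDist K] [CompleteSpace K] in
theorem teich_pow_mod (hn : 0 < n) (a : GaloisField p n) (E : ℕ) :
    ψ (teich p n a) ^ p ^ E = ψ (teich p n a) ^ p ^ (E % n) := by
  have hT : ∀ m : ℕ, ψ (teich p n a) ^ m = ψ (teich p n (a ^ m)) := fun m => by
    rw [← map_pow]; simp [teich, map_pow]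
  haveI : Fintype (GaloisField p n) := Fintype.ofFinite _
  have hcard : Fintype.card (GaloisField p n) = p ^ n := by
    rw [← Nat.card_eq_fintype_card, GaloisField.card p n hn.ne']
  rw [hT, hT]
  congr 2
  conv_lhs => rw [← Nat.mod_add_div E n, pow_add, pow_mul, pow_mul, ← hcard]
  rw [FiniteField.pow_card_pow]

/-- The leading exponents of one side, with their coefficients. -/
def coef (ψ : LTRing p n →+* K) (ξ : K) (l e J : ℕ) : K :=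
  lamCoeff ψ l J ^ p ^ e * ξ ^ p ^ (J + e)

omit [IsUltrametricDist K] [CompleteSpace K] in
theorem norm_coef {h : ℕ} (hh : h < n) (hψ : IsPoint p n ψ) (hst : OnStratum p n h ψ) {l J : ℕ}
    {z : ℝ} {ξ : K} (hJ : J ∈ Act ψ (tropOf ψ hh hψ hst) l z)
    (hξ : ‖ξ‖ = Real.exp (-(z / (tropOf ψ hh hψ hst).q ^ l))) (e : ℕ) :
    ‖coef ψ ξ l e J‖ = Real.exp (-(tropOf ψ hh hψ hst).iterN l z) ^ p ^ e := by
  rw [coef, norm_mul, norm_pow, norm_pow, hξ, pow_add, pow_mul, ← mul_pow, exp_pow_mul]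
  congr 1
  exact (Finset.mem_filter.1 hJ).2

/-- Exponent matching for one relation valid at all digits. -/
theorem match_act (hn : 0 < n) (hψ : IsPoint p n ψ) (A₁ A₂ : Finset ℕ) (c₁ c₂ : ℕ → K)
    (hA₁ : ∀ J ∈ A₁, ∀ J' ∈ A₁, J % n = J' % n → J = J')
    (hA₂ : ∀ J ∈ A₂, ∀ J' ∈ A₂, J % n = J' % n → J = J')
    (hne₁ : A₁.Nonempty) (hne₂ : A₂.Nonempty) {e₁ e₂ : ℕ} {L₁ L₂ : ℝ}
    (hc₁ : ∀ J ∈ A₁, ‖c₁ J‖ = L₁) (hc₂ : ∀ J ∈ A₂, ‖c₂ J‖ = L₂)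
    (hrel : ∀ a : GaloisField p n,
      ‖∑ J ∈ A₂, c₂ J * ψ (teich p n a) ^ p ^ (J + e₂)
        - ∑ J ∈ A₁, c₁ J * ψ (teich p n a) ^ p ^ (J + e₁)‖ < max L₂ L₁) :
    L₁ = L₂ ∧ ∀ J₁ ∈ A₁, ∃ J₂ ∈ A₂, (J₂ + e₂) % n = (J₁ + e₁) % n ∧
      ‖c₂ J₂ - c₁ J₁‖ < L₁ := by
  haveI : Fintype (GaloisField p n) := Fintype.ofFinite _
  set Φ : GaloisField p n → K := fun a =>
    ∑ J ∈ A₂, c₂ J * ψ (teich p n a) ^ p ^ (J + e₂)
      - ∑ J ∈ A₁, c₁ J * ψ (teich p n a) ^ p ^ (J + e₁) with hΦ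
  obtain ⟨a₀, -, ha₀⟩ := Finset.exists_max_image Finset.univ (fun a => ‖Φ a‖)
    Finset.univ_nonempty
  set d₂ : ℕ → K := fun r => ∑ J ∈ A₂ with (J + e₂) % n = r, c₂ J with hd₂
  set d₁ : ℕ → K := fun r => ∑ J ∈ A₁ with (J + e₁) % n = r, c₁ J with hd₁
  have hgroup : ∀ (A : Finset ℕ) (c : ℕ → K) (e : ℕ) (a : GaloisField p n),
      ∑ J ∈ A, c J * ψ (teich p n a) ^ p ^ (J + e)
        = ∑ r ∈ Finset.range n, (∑ J ∈ A with (J + e) % n = r, c J)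
            * ψ (teich p n a) ^ p ^ r := by
    intro A c e a
    rw [← Finset.sum_fiberwise_of_maps_to (t := Finset.range n) (g := fun J => (J + e) % n)
      (fun J _ => Finset.mem_range.2 (Nat.mod_lt _ hn))]
    refine Finset.sum_congr rfl fun r _ => ?_
    rw [Finset.sum_mul]
    refine Finset.sum_congr rfl fun J hJ => ?_
    rw [teich_pow_mod hn a (J + e), (Finset.mem_filter.1 hJ).2]
  have hle : ∀ r ∈ Finset.range n, ‖d₂ r - d₁ r‖ ≤ ‖Φ a₀‖ := by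
    refine norm_char_le hn hψ (Finset.range n) (fun J hJ J' hJ' he => ?_) _ (norm_nonneg _)
      fun a => le_trans (le_of_eq ?_) (ha₀ a (Finset.mem_univ _))
    · rwa [Nat.mod_eq_of_lt (Finset.mem_range.1 hJ),
        Nat.mod_eq_of_lt (Finset.mem_range.1 hJ')] at he
    · simp only [hΦ, hgroup, hd₁, hd₂, sub_mul, Finset.sum_sub_distrib]
  have hlt : ∀ r, r < n → ‖d₂ r - d₁ r‖ < max L₂ L₁ := fun r hr =>
    lt_of_le_of_lt (hle r (Finset.mem_range.2 hr)) (hrel a₀)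
  have hfib : ∀ (A : Finset ℕ) (c : ℕ → K) (e : ℕ),
      (∀ J ∈ A, ∀ J' ∈ A, J % n = J' % n → J = J') → ∀ J ∈ A,
      ∑ J' ∈ A with (J' + e) % n = (J + e) % n, c J' = c J := by
    intro A c e hA J hJ
    refine Finset.sum_eq_single_of_mem J (Finset.mem_filter.2 ⟨hJ, rfl⟩) fun J' hJ' hne => ?_
    obtain ⟨h1, h2⟩ := Finset.mem_filter.1 hJ'
    exact absurd (hA J' h1 J hJ (Nat.ModEq.add_right_cancel' e h2)) hne
  -- every exponent of the larger side has a partner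
  have side : ∀ (A B : Finset ℕ) (c d : ℕ → K) (e f : ℕ) (L M : ℝ),
      (∀ J ∈ A, ∀ J' ∈ A, J % n = J' % n → J = J') →
      (∀ J ∈ B, ∀ J' ∈ B, J % n = J' % n → J = J') →
      (∀ J ∈ A, ‖c J‖ = L) → (∀ J ∈ B, ‖d J‖ = M) → M ≤ L →
      (∀ r, r < n → ‖(∑ J ∈ A with (J + e) % n = r, c J)
        - ∑ J ∈ B with (J + f) % n = r, d J‖ < L) →
      ∀ J ∈ A, ∃ J' ∈ B, (J' + f) % n = (J + e) % n ∧ ‖c J - d J'‖ < L ∧ M = L := by
    intro A B c d e f L M hA hB hcL hdM hML hr J hJ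
    have h1 := hr ((J + e) % n) (Nat.mod_lt _ hn)
    rw [hfib A c e hA J hJ] at h1
    by_cases hpart : ∃ J' ∈ B, (J' + f) % n = (J + e) % n
    · obtain ⟨J', hJ', he⟩ := hpart
      have h2 := hfib B d f hB J' hJ'
      rw [he] at h2
      rw [h2] at h1
      refine ⟨J', hJ', he, h1, le_antisymm hML (not_lt.1 fun hlt' => ?_)⟩
      have h3 : ‖d J'‖ < L := by rwa [hdM J' hJ']
      have h4 := norm_add_lt_of_lt h1 h3
      rw [sub_add_cancel, hcL J hJ] at h4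
      exact lt_irrefl _ h4
    · rw [Finset.filter_false_of_mem (fun J' hJ' he => hpart ⟨J', hJ', he⟩),
        Finset.sum_empty, sub_zero, hcL J hJ] at h1
      exact absurd h1 (lt_irrefl _)
  obtain ⟨J₁, hJ₁⟩ := hne₁
  obtain ⟨J₂, hJ₂⟩ := hne₂
  have heq : L₁ = L₂ := by
    rcases le_total L₁ L₂ with hle' | hle'
    · obtain ⟨_, -, -, -, h⟩ := side A₂ A₁ c₂ c₁ e₂ e₁ L₂ L₁ hA₂ hA₁ hc₂ hc₁ hle'
        (fun r hr => by simpa [hd₁, hd₂, max_eq_left hle'] using hlt r hr) J₂ hJ₂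
      exact h
    · obtain ⟨_, -, -, -, h⟩ := side A₁ A₂ c₁ c₂ e₁ e₂ L₁ L₂ hA₁ hA₂ hc₁ hc₂ hle'
        (fun r hr => by
          rw [norm_sub_rev]; simpa [hd₁, hd₂, max_eq_right hle'] using hlt r hr) J₁ hJ₁
      exact h.symm
  refine ⟨heq, fun J hJ => ?_⟩
  obtain ⟨J', hJ', he, hn', -⟩ := side A₁ A₂ c₁ c₂ e₁ e₂ L₁ L₂ hA₁ hA₂ hc₁ hc₂ heq.ge
    (fun r hr => by
      rw [norm_sub_rev]; simpa [hd₁, hd₂, max_eq_right heq.ge] using hlt r hr) J hJ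
  exact ⟨J', hJ', he, by rwa [norm_sub_rev]⟩

theorem lvlArg_succ (w : ℝ) (kl S : ℕ) : lvlArg p n w kl (S + 1) = p * lvlArg p n w kl S := by
  simp only [lvlArg, pow_succ]; ring

theorem lvlArg_pos {w : ℝ} (hw : 0 < w) (kl S : ℕ) : 0 < lvlArg p n w kl S := by
  have : (0 : ℝ) < p := by exact_mod_cast hp.out.pos
  simp only [lvlArg]; positivity

theorem lvlArg_tendsto {w : ℝ} (hw : 0 < w) (kl : ℕ) :
    Filter.Tendsto (lvlArg p n w kl) Filter.atTop Filter.atTop := by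
  have hp1 : (1 : ℝ) < p := by exact_mod_cast hp.out.one_lt
  refine Filter.Tendsto.atTop_div_const (by positivity) ?_
  exact (tendsto_pow_atTop_atTop_of_one_lt hp1).atTop_mul_const hw

/-- The leading sum at a power, as a combination of the characters. -/
theorem lead_pow (hchar : (p : K) = 0) (A : Finset ℕ) (ξ τ : K) (l P b : ℕ) :
    ((∑ J ∈ A, lamCoeff ψ l J * (τ * ξ) ^ p ^ J) ^ p ^ P) ^ p ^ b
      = ∑ J ∈ A, coef ψ ξ l (P + b) J * τ ^ p ^ (J + (P + b)) := by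
  haveI : CharP K p := (CharP.charP_iff_prime_eq_zero hp.out).2 hchar
  rw [← pow_mul, ← pow_add, sum_pow_char_pow]
  refine Finset.sum_congr rfl fun J _ => ?_
  rw [coef, mul_pow, ← pow_mul, ← pow_add, mul_pow]
  ring

end PairRigid

open PairRigid

variable {p n : ℕ} [hp : Fact p.Prime]
  {K : Type} [NormedField K] [IsUltrametricDist K] [CompleteSpace K] {ψ : LTRing p n →+* K}

theorem pair_rigid (hn : 0 < n) {h : ℕ} (hh1 : 1 ≤ h) (hh : h < n) (hψ : IsPoint p n ψ)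
    (hst : OnStratum p n h ψ) (hchar : (p : K) = 0) {S₀ kl : ℕ} {w₁ w₂ : ℝ}
    (hw₁ : 0 < w₁) (hw₂ : 0 < w₂) (x₁ x₂ : ℕ → K) (f₁ f₂ : ActIdx p n → K)
    (hlead₁ : HasLead ψ (tropOf ψ hh hψ hst) S₀ kl x₁ w₁ f₁)
    (hlead₂ : HasLead ψ (tropOf ψ hh hψ hst) S₀ kl x₂ w₂ f₂)
    (hslope₁ : ∃ l₀, ∀ l ≥ l₀, ‖x₁ l‖ = Real.exp (-(w₁ / ((p : ℝ) ^ n) ^ l)))
    (hslope₂ : ∃ l₀, ∀ l ≥ l₀, ‖x₂ l‖ = Real.exp (-(w₂ / ((p : ℝ) ^ n) ^ l)))
    {a b : ℕ} {ρ : K} (hρ : ρ ≠ 0)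
    (hrel : ∀ᶠ i in actFilter p n, ‖f₂ i ^ p ^ b - ρ * f₁ i ^ p ^ a‖ <
      max (leadSize p n (tropOf ψ hh hψ hst) S₀ kl w₂ i ^ p ^ b)
        (‖ρ‖ * leadSize p n (tropOf ψ hh hψ hst) S₀ kl w₁ i ^ p ^ a)) :
    (∃ m : ℤ, w₂ = ((p : ℝ) ^ n) ^ m * w₁) ∧
      (w₁ = w₂ → ∀ L : ℕ, ∃ c : ℕ, 0 < c ∧ c < p ∧
        ∃ l ≥ L, ‖x₂ l - (c : K) * x₁ l‖ < Real.exp (-(w₁ / ((p : ℝ) ^ n) ^ l))) := by
  haveI : CharP K p := (CharP.charP_iff_prime_eq_zero hp.out).2 hchar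
  haveI : Fintype (GaloisField p n) := Fintype.ofFinite _
  set T := tropOf ψ hh hψ hst with hT
  set α := h * kl + a with hα
  set β := h * kl + b with hβ
  obtain ⟨m₁, hm₁⟩ := hslope₁
  obtain ⟨m₂, hm₂⟩ := hslope₂
  obtain ⟨z₀, hz₀⟩ := T.N_eventually_linear
  -- all large depths
  obtain ⟨S₁, hS₁⟩ : ∃ S₁, S₀ ≤ S₁ ∧ ∀ S, S₁ ≤ S →
      z₀ ≤ lvlArg p n w₁ kl S ∧ z₀ ≤ lvlArg p n w₂ kl S ∧
      ∀ t : GaloisField p n,
        (∃ l₀, ∀ l ≥ l₀,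
          ‖f₁ (S - S₀, t) - (∑ J ∈ Act ψ T l (lvlArg p n w₁ kl S),
              lamCoeff ψ l J * (ψ (teich p n t) * x₁ (l + kl) ^ p ^ S) ^ p ^ J) ^ p ^ (h * kl)‖
            < Real.exp (-((p : ℝ) ^ (h * kl) * T.N (lvlArg p n w₁ kl S)))) ∧
        (∃ l₀, ∀ l ≥ l₀,
          ‖f₂ (S - S₀, t) - (∑ J ∈ Act ψ T l (lvlArg p n w₂ kl S),
              lamCoeff ψ l J * (ψ (teich p n t) * x₂ (l + kl) ^ p ^ S) ^ p ^ J) ^ p ^ (h * kl)‖
            < Real.exp (-((p : ℝ) ^ (h * kl) * T.N (lvlArg p n w₂ kl S)))) ∧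
        ‖f₂ (S - S₀, t) ^ p ^ b - ρ * f₁ (S - S₀, t) ^ p ^ a‖ <
          max (Real.exp (-((p : ℝ) ^ (h * kl) * T.N (lvlArg p n w₂ kl S))) ^ p ^ b)
            (‖ρ‖ * Real.exp (-((p : ℝ) ^ (h * kl) * T.N (lvlArg p n w₁ kl S))) ^ p ^ a) := by
    obtain ⟨k, hk⟩ := Filter.eventually_atTop.1
      (((lvlArg_tendsto (p := p) (n := n) hw₁ kl).eventually_ge_atTop z₀).and
        ((lvlArg_tendsto (p := p) (n := n) hw₂ kl).eventually_ge_atTop z₀))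
    obtain ⟨k', hk'⟩ := Filter.eventually_atTop.1
      (Filter.eventually_comap.1 ((hlead₁.and hlead₂).and hrel))
    refine ⟨max k (k' + S₀), le_max_of_le_right (Nat.le_add_left _ _), fun S hS => ?_⟩
    refine ⟨(hk S (le_of_max_le_left hS)).1, (hk S (le_of_max_le_left hS)).2, fun t => ?_⟩
    have hS' : k' + S₀ ≤ S := le_of_max_le_right hS
    have h3 := hk' (S - S₀) (by omega) (S - S₀, t) rfl
    have hsum : S₀ + (S - S₀) = S := by omega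
    have hTh : T.h = h := rfl
    simp only [leadSize, hsum, hTh] at h3
    exact ⟨h3.1.1, h3.1.2, h3.2⟩
  obtain ⟨-, hS₁⟩ := hS₁
  -- matching at each large depth
  have hdist : ∀ (z : ℝ), z₀ ≤ z → 0 < z → ∀ l, (∀ J ∈ Act ψ T l z,
      T.Maj ((J : ℤ) - n * l) z) →
      ∀ J ∈ Act ψ T l z, ∀ J' ∈ Act ψ T l z, J % n = J' % n → J = J' := by
    intro z hz hzpos l hmaj J hJ J' hJ' he
    obtain ⟨l', hl'⟩ := act_spec hh hψ hst (mul_pos T.q_pos hzpos)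
    obtain ⟨⟨j, hj⟩, hjm⟩ := hl' l' le_rfl
    have hex : ∃ i, T.Maj i (T.q * z) := ⟨_, hjm j hj⟩
    have e1 := T.maj_diff (hmaj J hJ) (hmaj J' hJ') hzpos (hz₀ z hz) hex
    have e2 := T.maj_diff (hmaj J' hJ') (hmaj J hJ) hzpos (hz₀ z hz) hex
    have hTn : T.n = n := rfl
    have hTh : T.h = h := rfl
    rw [hTn, hTh] at e1 e2
    have hdvd : (n : ℤ) ∣ (J : ℤ) - J' := Int.modEq_iff_dvd.1 (Int.natCast_modEq_iff.2 he.symm)
    have := Int.eq_zero_of_dvd_of_natAbs_lt_natAbs hdvd (by omega)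
    omega
  have hmatch : ∀ S, S₁ ≤ S → ∃ l₀, ∀ l ≥ l₀,
      Real.exp (-T.N (lvlArg p n w₂ kl S)) ^ p ^ β
        = ‖ρ‖ * Real.exp (-T.N (lvlArg p n w₁ kl S)) ^ p ^ α ∧
      ∀ J₁ ∈ Act ψ T l (lvlArg p n w₁ kl S), ∃ J₂ ∈ Act ψ T l (lvlArg p n w₂ kl S),
        (J₂ + β) % n = (J₁ + α) % n ∧
        ‖coef ψ (x₂ (l + kl) ^ p ^ S) l β J₂ - ρ * coef ψ (x₁ (l + kl) ^ p ^ S) l α J₁‖
          < ‖ρ‖ * Real.exp (-T.N (lvlArg p n w₁ kl S)) ^ p ^ α := by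
    intro S hS
    obtain ⟨hz1, hz2, hd⟩ := hS₁ S hS
    choose u hu using fun t => (hd t).1
    choose v hv using fun t => (hd t).2.1
    have hr := fun t => (hd t).2.2
    obtain ⟨l₁, h₁⟩ := act_spec hh hψ hst (lvlArg_pos (p := p) (n := n) hw₁ kl S)
    obtain ⟨l₂, h₂⟩ := act_spec hh hψ hst (lvlArg_pos (p := p) (n := n) hw₂ kl S)
    obtain ⟨l₃, h₃⟩ := T.iterN_eventually _ (lvlArg_pos (p := p) (n := n) hw₁ kl S)
    obtain ⟨l₄, h₄⟩ := T.iterN_eventually _ (lvlArg_pos (p := p) (n := n) hw₂ kl S)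
    refine ⟨(Finset.univ.sup fun t => max (u t) (v t))
      + (l₁ + l₂ + l₃ + l₄ + m₁ + m₂), fun l hl => ?_⟩
    have hξ : ∀ (w : ℝ) (x : K), ‖x‖ = Real.exp (-(w / ((p : ℝ) ^ n) ^ (l + kl))) →
        ‖x ^ p ^ S‖ = Real.exp (-(lvlArg p n w kl S / T.q ^ l)) := by
      intro w x hx
      rw [norm_pow, hx, exp_pow_mul]
      congr 2
      show _ = (p : ℝ) ^ S * w / ((p : ℝ) ^ n) ^ kl / ((p : ℝ) ^ n) ^ l
      rw [pow_add]; ring
    have hξ₁ := hξ w₁ _ (hm₁ (l + kl) (by omega))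
    have hξ₂ := hξ w₂ _ (hm₂ (l + kl) (by omega))
    obtain ⟨hne₁, hmaj₁⟩ := h₁ l (by omega)
    obtain ⟨hne₂, hmaj₂⟩ := h₂ l (by omega)
    have hmain := match_act hn hψ (Act ψ T l (lvlArg p n w₁ kl S))
      (Act ψ T l (lvlArg p n w₂ kl S))
      (fun J => ρ * coef ψ (x₁ (l + kl) ^ p ^ S) l α J)
      (fun J => coef ψ (x₂ (l + kl) ^ p ^ S) l β J)
      (hdist _ hz1 (lvlArg_pos hw₁ kl S) l hmaj₁) (hdist _ hz2 (lvlArg_pos hw₂ kl S) l hmaj₂)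
      hne₁ hne₂ (e₁ := α) (e₂ := β)
      (L₁ := ‖ρ‖ * Real.exp (-T.N (lvlArg p n w₁ kl S)) ^ p ^ α)
      (L₂ := Real.exp (-T.N (lvlArg p n w₂ kl S)) ^ p ^ β)
      (fun J hJ => by rw [norm_mul, norm_coef hh hψ hst hJ hξ₁, ← hT, h₃ l (by omega)])
      (fun J hJ => by rw [norm_coef hh hψ hst hJ hξ₂, ← hT, h₄ l (by omega)])
      (fun t => ?_)
    · exact ⟨hmain.1.symm, hmain.2⟩
    have htl : max (u t) (v t) ≤ l :=
      le_trans (Finset.le_sup (f := fun t => max (u t) (v t)) (Finset.mem_univ t)) (by omega)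
    have e1 := hu t l (le_of_max_le_left htl)
    have e2 := hv t l (le_of_max_le_right htl)
    have e3 := hr t
    simp only [mul_assoc ρ, ← Finset.mul_sum]
    rw [hα, hβ, ← lead_pow hchar, ← lead_pow hchar]
    have hexp' : ∀ (N : ℝ) (c : ℕ),
        Real.exp (-N) ^ p ^ (h * kl + c) = Real.exp (-((p : ℝ) ^ (h * kl) * N)) ^ p ^ c :=
      fun N c => by rw [pow_add, pow_mul, exp_pow_mul]
    rw [hexp', hexp']
    set g₁ := (∑ J ∈ Act ψ T l (lvlArg p n w₁ kl S),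
      lamCoeff ψ l J * (ψ (teich p n t) * x₁ (l + kl) ^ p ^ S) ^ p ^ J) ^ p ^ (h * kl)
    set g₂ := (∑ J ∈ Act ψ T l (lvlArg p n w₂ kl S),
      lamCoeff ψ l J * (ψ (teich p n t) * x₂ (l + kl) ^ p ^ S) ^ p ^ J) ^ p ^ (h * kl)
    set f₁' := f₁ (S - S₀, t)
    set f₂' := f₂ (S - S₀, t)
    have hsplit : g₂ ^ p ^ b - ρ * g₁ ^ p ^ a
        = (f₂' ^ p ^ b - ρ * f₁' ^ p ^ a)
          + (-(f₂' - g₂) ^ p ^ b + ρ * (f₁' - g₁) ^ p ^ a) := by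
      rw [sub_pow_char_pow, sub_pow_char_pow]; ring
    rw [hsplit]
    refine norm_add_lt_of_lt e3 (norm_add_lt_of_lt ?_ ?_)
    · rw [norm_neg, norm_pow]
      exact lt_max_of_lt_left (pow_lt_pow_left₀ e2 (norm_nonneg _)
        (pow_ne_zero _ hp.out.ne_zero))
    · rw [norm_mul, norm_pow]
      exact lt_max_of_lt_right (mul_lt_mul_of_pos_left (pow_lt_pow_left₀ e1 (norm_nonneg _)
        (pow_ne_zero _ hp.out.ne_zero)) (norm_pos_iff.2 hρ))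
  -- a flat step
  obtain ⟨S, hS, i, hiS, hiS'⟩ := exists_flat T hh1 (Z := lvlArg p n w₁ kl)
    (fun S => lvlArg_pos hw₁ kl S) (fun S => lvlArg_succ w₁ kl S)
    (fun S hS => hz₀ _ (hS₁ S hS).1)
    (fun S => by
      obtain ⟨l, hl⟩ := act_spec hh hψ hst (lvlArg_pos (p := p) (n := n) hw₁ kl S)
      obtain ⟨⟨J, hJ⟩, hJm⟩ := hl l le_rfl
      exact ⟨_, hJm J hJ⟩)
  have hp0 : (p : ℝ) ≠ 0 := Nat.cast_ne_zero.2 hp.out.ne_zero
  have hp1 : (1 : ℝ) < p := by exact_mod_cast hp.out.one_lt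
  have hz1 := lvlArg_pos (p := p) (n := n) hw₁ kl S
  have hz2 := lvlArg_pos (p := p) (n := n) hw₂ kl S
  have hzz1 : lvlArg p n w₁ kl S < lvlArg p n w₁ kl (S + 1) := by
    rw [lvlArg_succ]; exact lt_mul_of_one_lt_left hz1 hp1
  have hzz2 : lvlArg p n w₂ kl S < lvlArg p n w₂ kl (S + 1) := by
    rw [lvlArg_succ]; exact lt_mul_of_one_lt_left hz2 hp1
  obtain ⟨la, hla⟩ := mem_act_of_maj hh hψ hst hz1 hzz1 hiS hiS'
  obtain ⟨lb, hlb⟩ := hmatch S hS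
  obtain ⟨lc, hlc⟩ := hmatch (S + 1) (by omega)
  obtain ⟨ld, hld⟩ := act_spec hh hψ hst hz2
  obtain ⟨le', hle'⟩ := act_spec hh hψ hst (lvlArg_pos (p := p) (n := n) hw₂ kl (S + 1))
  -- data at one large level
  obtain ⟨li, hli⟩ := T.iterN_eventually _ hz1
  obtain ⟨li', hli'⟩ := T.iterN_eventually _ (lvlArg_pos (p := p) (n := n) hw₁ kl (S + 1))
  have key : ∀ L : ℕ, ∃ l ≥ L + (m₁ + m₂), ∃ J J₂ J₂' : ℕ, (J : ℤ) - n * l = i ∧
      (J₂ : ℤ) - n * l = (J₂' : ℤ) - n * l ∧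
      T.Maj ((J₂ : ℤ) - n * l) (lvlArg p n w₂ kl S) ∧
      T.Maj ((J₂ : ℤ) - n * l) (lvlArg p n w₂ kl (S + 1)) ∧
      (J₂ + β) % n = (J + α) % n ∧
      Real.exp (-T.N (lvlArg p n w₂ kl S)) ^ p ^ β
        = ‖ρ‖ * Real.exp (-T.N (lvlArg p n w₁ kl S)) ^ p ^ α ∧
      Real.exp (-T.N (lvlArg p n w₂ kl (S + 1))) ^ p ^ β
        = ‖ρ‖ * Real.exp (-T.N (lvlArg p n w₁ kl (S + 1))) ^ p ^ α ∧
      J ∈ Act ψ T l (lvlArg p n w₁ kl S) ∧ J ∈ Act ψ T l (lvlArg p n w₁ kl (S + 1)) ∧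
      (T.iterN l (lvlArg p n w₁ kl S) = T.N (lvlArg p n w₁ kl S) ∧
        T.iterN l (lvlArg p n w₁ kl (S + 1)) = T.N (lvlArg p n w₁ kl (S + 1))) ∧
      ‖coef ψ (x₂ (l + kl) ^ p ^ S) l β J₂ - ρ * coef ψ (x₁ (l + kl) ^ p ^ S) l α J‖
          < ‖ρ‖ * Real.exp (-T.N (lvlArg p n w₁ kl S)) ^ p ^ α ∧
      ‖coef ψ (x₂ (l + kl) ^ p ^ (S + 1)) l β J₂'
          - ρ * coef ψ (x₁ (l + kl) ^ p ^ (S + 1)) l α J‖
          < ‖ρ‖ * Real.exp (-T.N (lvlArg p n w₁ kl (S + 1))) ^ p ^ α := by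
    intro L
    set l := L + (m₁ + m₂) + (la + lb + lc + ld + le' + li + li')
    obtain ⟨J, hJi, hJ, hJ'⟩ := hla l (by omega)
    obtain ⟨hv, hb'⟩ := hlb l (by omega)
    obtain ⟨hv', hc'⟩ := hlc l (by omega)
    obtain ⟨J₂, hJ₂, hcl, hres⟩ := hb' J hJ
    obtain ⟨J₂', hJ₂', hcl', hres'⟩ := hc' J hJ'
    have hM := (hld l (by omega)).2 J₂ hJ₂
    have hM' := (hle' l (by omega)).2 J₂' hJ₂'
    have hanti := T.maj_antitone hz2 hzz2 hM hM'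
    have hqlt : lvlArg p n w₂ kl (S + 1) < T.q * lvlArg p n w₂ kl S := by
      rw [lvlArg_succ]
      refine mul_lt_mul_of_pos_right ?_ hz2
      show (p : ℝ) < (p : ℝ) ^ n
      calc (p : ℝ) = (p : ℝ) ^ 1 := (pow_one _).symm
        _ < (p : ℝ) ^ n := pow_lt_pow_right₀ hp1 (by omega)
    have hge := T.maj_antitone (lvlArg_pos hw₂ kl (S + 1)) hqlt hM'
      (T.maj_shift hM hz2 (hz₀ _ (hS₁ S hS).2.1))
    have hTn : T.n = n := rfl
    have hTh : T.h = h := rfl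
    rw [hTn, hTh] at hge
    have hdvd : (n : ℤ) ∣ (J₂ : ℤ) - J₂' := by
      have hmod : J₂ % n = J₂' % n := Nat.ModEq.add_right_cancel' β (hcl.trans hcl'.symm)
      exact Int.modEq_iff_dvd.1 (Int.natCast_modEq_iff.2 hmod.symm)
    have h0 := Int.eq_zero_of_dvd_of_natAbs_lt_natAbs hdvd (by omega)
    have heq : (J₂ : ℤ) - n * l = (J₂' : ℤ) - n * l := by omega
    exact ⟨l, by omega, J, J₂, J₂', hJi, heq, hM, heq ▸ hM', hcl, hv, hv', hJ, hJ', ⟨hli l (by omega), hli' l (by omega)⟩, hres, hres'⟩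
  obtain ⟨l, -, J, J₂, J₂', hJi, heq, hM, hM', hcl, hv, hv', -⟩ := key 0
  set j : ℤ := (J₂ : ℤ) - n * l with hj
  have hlog : ∀ S : ℕ, Real.exp (-T.N (lvlArg p n w₂ kl S)) ^ p ^ β
        = ‖ρ‖ * Real.exp (-T.N (lvlArg p n w₁ kl S)) ^ p ^ α →
      (p : ℝ) ^ β * T.N (lvlArg p n w₂ kl S)
        = (p : ℝ) ^ α * T.N (lvlArg p n w₁ kl S) - Real.log ‖ρ‖ := by
    intro S hS
    rw [exp_pow_mul, exp_pow_mul, ← Real.exp_log (norm_pos_iff.2 hρ), ← Real.exp_add] at hS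
    have := Real.exp_injective hS
    linarith
  have hratio : (p : ℝ) ^ ((β : ℤ) + j) * w₂ = (p : ℝ) ^ ((α : ℤ) + i) * w₁ := by
    have e2 := maj_linear T hz2 (lvlArg_pos hw₂ kl (S + 1)) hM hM'
    have e1 := maj_linear T hz1 (lvlArg_pos hw₁ kl (S + 1)) hiS hiS'
    have hsub : ∀ w : ℝ, lvlArg p n w kl (S + 1) - lvlArg p n w kl S
        = ((p : ℝ) - 1) * ((p : ℝ) ^ S / ((p : ℝ) ^ n) ^ kl) * w := fun w => by
      rw [lvlArg_succ, lvlArg]; ring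
    rw [hsub] at e1 e2
    have hTp : (T.p : ℝ) = p := rfl
    rw [hTp] at e1 e2
    have l0 := hlog S hv
    have l1 := hlog (S + 1) hv'
    have hc0 : ((p : ℝ) - 1) * ((p : ℝ) ^ S / ((p : ℝ) ^ n) ^ kl) ≠ 0 :=
      mul_ne_zero (by linarith) (by positivity)
    apply mul_left_cancel₀ hc0
    rw [zpow_add₀ hp0, zpow_add₀ hp0, zpow_natCast, zpow_natCast]
    linear_combination (p : ℝ) ^ α * e1 - (p : ℝ) ^ β * e2 + l1 - l0
  have hdiv : (n : ℤ) ∣ ((α : ℤ) + i) - ((β : ℤ) + j) := by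
    have h1 : (n : ℤ) ∣ ((J + α : ℕ) : ℤ) - ((J₂ + β : ℕ) : ℤ) :=
      Int.modEq_iff_dvd.1 (Int.natCast_modEq_iff.2 hcl)
    rw [← hJi, hj]
    push_cast at h1 ⊢
    convert h1 using 1
    ring
  refine ⟨?_, fun hw L => ?_⟩
  · obtain ⟨m, hm⟩ := hdiv
    refine ⟨m, ?_⟩
    rw [← zpow_natCast (p : ℝ) n, ← zpow_mul, ← hm, zpow_sub₀ hp0]
    field_simp
    linear_combination hratio
  -- equal slopes: the exponents agree
  have hexp : (β : ℤ) + j = (α : ℤ) + i := by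
    rw [← hw] at hratio
    exact (zpow_right_inj₀ (by linarith) hp1.ne').1 (mul_right_cancel₀ hw₁.ne' hratio)
  obtain ⟨l, hl, J, J₂, J₂', hJi', heq', hM2, hM2', hcl2, hv, hv2', hJA, hJA', ⟨hitS, hitS'⟩, hres, hres'⟩ :=
    key L
  rw [← hw] at hM hM' hM2 hM2'
  have hji : j = i := le_antisymm (T.maj_antitone hz1 hzz1 hiS hM')
    (T.maj_antitone hz1 hzz1 hM hiS')
  have hji2 : (J₂ : ℤ) - n * l = i := le_antisymm (T.maj_antitone hz1 hzz1 hiS hM2')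
    (T.maj_antitone hz1 hzz1 hM2 hiS')
  have hJJ : J₂ = J := by omega
  have hJJ' : J₂' = J := by omega
  have hαβ : α = β := by omega
  rw [hJJ, ← hαβ] at hres
  rw [hJJ', ← hαβ] at hres'
  rw [← hw, ← hαβ] at hv
  have hρ1 : ‖ρ‖ = 1 := by
    refine mul_right_cancel₀
      (b := Real.exp (-T.N (lvlArg p n w₁ kl S)) ^ p ^ α) (pow_ne_zero _ (Real.exp_pos _).ne') ?_
    rw [one_mul]; exact hv.symm
  rw [hρ1, one_mul] at hres hres'
  set ξ₁ := x₁ (l + kl)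
  set ξ₂ := x₂ (l + kl)
  have hn1 := hm₁ (l + kl) (by omega)
  have hn2 := hm₂ (l + kl) (by omega)
  rw [← hw] at hn2
  have hne : ξ₁ ≠ 0 := norm_pos_iff.1 (by rw [hn1]; exact Real.exp_pos _)
  set μ := ξ₂ / ξ₁ with hμ
  have hμ1 : ‖μ‖ = 1 := by rw [hμ, norm_div, hn1, hn2, div_self (Real.exp_pos _).ne']
  set E := J + α with hE
  have hstepμ : ∀ S' : ℕ, J ∈ Act ψ T l (lvlArg p n w₁ kl S') →
      T.iterN l (lvlArg p n w₁ kl S') = T.N (lvlArg p n w₁ kl S') →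
      ‖coef ψ (ξ₂ ^ p ^ S') l α J - ρ * coef ψ (ξ₁ ^ p ^ S') l α J‖
        < Real.exp (-T.N (lvlArg p n w₁ kl S')) ^ p ^ α →
      ‖μ ^ p ^ (S' + E) - ρ‖ < 1 := by
    intro S' hJS hiter hr
    have hξ : ‖ξ₁ ^ p ^ S'‖ = Real.exp (-(lvlArg p n w₁ kl S' / T.q ^ l)) := by
      rw [norm_pow, hn1, exp_pow_mul]
      congr 2
      show _ = (p : ℝ) ^ S' * w₁ / ((p : ℝ) ^ n) ^ kl / ((p : ℝ) ^ n) ^ l
      rw [pow_add]; ring
    have hnc := norm_coef hh hψ hst hJS hξ α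
    rw [← hT, hiter] at hnc
    have hfac : coef ψ (ξ₂ ^ p ^ S') l α J - ρ * coef ψ (ξ₁ ^ p ^ S') l α J
        = coef ψ (ξ₁ ^ p ^ S') l α J * (μ ^ p ^ (S' + E) - ρ) := by
      have hμpow : ξ₁ ^ p ^ (S' + E) * μ ^ p ^ (S' + E) = ξ₂ ^ p ^ (S' + E) := by
        rw [← mul_pow, hμ, mul_div_cancel₀ _ hne]
      simp only [coef, ← pow_mul, ← pow_add, ← hE]
      linear_combination (lamCoeff ψ l J ^ p ^ α) * (-1 : K) * hμpow
    rw [hfac, norm_mul, hnc] at hr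
    exact (mul_lt_iff_lt_one_right (pow_pos (Real.exp_pos _) _)).1 hr
  have r0 := hstepμ S hJA hitS hres
  have r1 := hstepμ (S + 1) hJA' hitS' hres'
  have hfrob : ‖(μ ^ p - μ) ^ p ^ (S + E)‖ < 1 := by
    rw [sub_pow_char_pow, ← pow_mul, ← pow_succ', show S + E + 1 = S + 1 + E by omega]
    have := norm_add_lt_of_lt r1 (by rwa [norm_sub_rev] at r0 : ‖ρ - μ ^ p ^ (S + E)‖ < 1)
    rwa [sub_add_sub_cancel] at this
  rw [norm_pow, pow_lt_one_iff_of_nonneg (norm_nonneg _) (pow_ne_zero _ hp.out.ne_zero)] at hfrob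
  obtain ⟨c, hcp, hc⟩ := TropicalRigid.near_natCast (p := p)
    (by rw [hchar, norm_zero]; exact one_pos) hμ1.le hfrob
  refine ⟨c, Nat.pos_of_ne_zero fun h0 => ?_, hcp, l + kl, by omega, ?_⟩
  · rw [h0, Nat.cast_zero, sub_zero, hμ1] at hc; exact lt_irrefl _ hc
  · have : ξ₂ - (c : K) * ξ₁ = ξ₁ * (μ - c) := by rw [hμ]; field_simp
    rw [this, norm_mul, hn1]
    exact mul_lt_of_lt_one_right (Real.exp_pos _) hc

end

end Vale.Agent.P217
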