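import Vale.Agent.P217.Ring
import Vale.Agent.P217.Model

/-! # P217: reduction of the theorem to the core statement -/

namespace Vale.Agent.P217

noncomputable section

variable (p n : ℕ) [hp : Fact p.Prime]

/-- The core statement at height `h`: no near-invariant prime on the stratum `h` whose
specialisation jumps by at least two. -/
def CoreStatement (F : FormalGroup (LTRing p n)) (h : ℕ) : Prop :=
  ∀ (P : Ideal (LTRing p n)) (k c : ℕ), P.IsPrime → h + 2 ≤ k → k ≤ n →
    heightIdeal p n h ≤ P → ltU p n h ∉ P →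
    (P ⊔ Ideal.span {ltU p n h}).radical = heightIdeal p n k →
    IsNearInvariant p n F c P → False

theorem invariant_heightIdeal (_hn : 0 < n) {F : FormalGroup (LTRing p n)}
    (hF : HasHazewinkelLog p n F) {h : ℕ} (hh : h ≤ n) :
    IsInvariant p n F (heightIdeal p n h) :=
  heightIdeal_isInvariant p n hF hh

/-- Two primes which differ are separated modulo a power of the maximal ideal. -/
lemma exists_not_le_sup_pow (hn : 0 < n) {R S : Ideal (LTRing p n)} [R.IsPrime] (h : ¬ S ≤ R) :
    ∃ c, ¬ S ≤ R ⊔ mIdeal p n ^ c := by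
  obtain ⟨x, hxS, hxR⟩ := SetLike.not_le_iff_exists.1 h
  by_contra! hall
  refine hxR (Ideal.Quotient.eq_zero_iff_mem.1 ?_)
  have : IsLocalRing (LTRing p n ⧸ R) :=
    IsLocalRing.of_surjective' _ Ideal.Quotient.mk_surjective
  have hne : (mIdeal p n).map (Ideal.Quotient.mk R) ≠ ⊤ := fun htop => by
    have h1 := congrArg (Ideal.comap (Ideal.Quotient.mk R)) htop
    rw [Ideal.comap_map_of_surjective' _ Ideal.Quotient.mk_surjective, Ideal.comap_top,
      Ideal.mk_ker, mIdeal_eq_maximalIdeal p n hn,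
      sup_eq_left.2 (IsLocalRing.le_maximalIdeal (Ideal.IsPrime.ne_top inferInstance))] at h1
    exact (IsLocalRing.maximalIdeal.isMaximal _).ne_top h1
  have hb : (Ideal.Quotient.mk R) x ∈ ⨅ i : ℕ, (mIdeal p n).map (Ideal.Quotient.mk R) ^ i := by
    rw [Submodule.mem_iInf]
    intro i
    have hm := Ideal.mem_map_of_mem (Ideal.Quotient.mk R) (hall i hxS)
    rwa [Ideal.map_sup, Ideal.map_quotient_self, bot_sup_eq, Ideal.map_pow] at hm
  rwa [Ideal.iInf_pow_eq_bot_of_isLocalRing _ hne, Submodule.mem_bot] at hb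

/-- An automorphism maps a minimal prime of a fixed ideal to such a prime. -/
lemma map_mem_minimalPrimes (α : LTRing p n ≃+* LTRing p n) {Q R : Ideal (LTRing p n)}
    (hQ : Ideal.map α.toRingHom Q = Q) (hR : R ∈ Q.minimalPrimes) :
    Ideal.map α.toRingHom R ∈ Q.minimalPrimes := by
  have hRp : R.IsPrime := hR.1.1
  have hsurj : Function.Surjective α.toRingHom := α.surjective
  have hker : RingHom.ker α.toRingHom ≤ R := by
    rw [(RingHom.injective_iff_ker_eq_bot α.toRingHom).1 α.injective]; exact bot_le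
  refine ⟨⟨Ideal.map_isPrime_of_surjective hsurj hker,
    hQ.symm.le.trans (Ideal.map_mono hR.1.2)⟩, fun T hT hTR => ?_⟩
  have hTp : T.IsPrime := hT.1
  have h1 : T.comap α.toRingHom ≤ R := by
    refine (Ideal.comap_mono hTR).trans ?_
    rw [Ideal.comap_map_of_surjective' _ hsurj, sup_eq_left.2 hker]
  have h2 : Q ≤ T.comap α.toRingHom := by
    rw [← Ideal.map_le_iff_le_comap, hQ]
    exact hT.2
  refine le_trans (Ideal.map_mono (hR.2 ⟨inferInstance, h2⟩ h1)) ?_
  exact Ideal.map_comap_le

/-- The minimal primes over a near-invariant ideal are near-invariant. -/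
lemma exists_nearInvariant_minimalPrime (hn : 0 < n) {F : FormalGroup (LTRing p n)}
    {Q R : Ideal (LTRing p n)} {c : ℕ} (hQ : IsNearInvariant p n F c Q)
    (hR : R ∈ Q.minimalPrimes) : ∃ c', IsNearInvariant p n F c' R := by
  classical
  have hfin := Ideal.finite_minimalPrimes_of_isNoetherianRing (LTRing p n) Q
  have hRp : R.IsPrime := hR.1.1
  have hsep : ∀ S ∈ Q.minimalPrimes, ∃ e, S ≠ R → ¬ S ≤ R ⊔ mIdeal p n ^ e := fun S hS => by
    by_cases hSR : S = R
    · exact ⟨0, fun h => absurd hSR h⟩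
    · obtain ⟨e, he⟩ := exists_not_le_sup_pow p n hn (R := R) (S := S)
        fun hle => hSR (le_antisymm hle (hR.2 hS.1 hle))
      exact ⟨e, fun _ => he⟩
  choose! e he using hsep
  refine ⟨max c (hfin.toFinset.sup e), fun α h1 h2 h3 => ?_⟩
  have hmem := map_mem_minimalPrimes p n α
    (hQ α h1 h2 fun x => Ideal.pow_le_pow_right (le_max_left _ _) (h3 x)) hR
  by_contra hne
  refine he _ hmem hne ?_
  rw [Ideal.map_le_iff_le_comap]
  intro x hx
  rw [Ideal.mem_comap, ← add_sub_cancel x (α.toRingHom x)]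
  refine add_mem (Ideal.mem_sup_left hx) (Ideal.mem_sup_right (Ideal.pow_le_pow_right ?_ (h3 x)))
  exact le_trans (Finset.le_sup (hfin.mem_toFinset.2 hmem)) (le_max_right _ _)

/-- If the minimal primes over `Q` are height ideals, so is the radical. -/
lemma radical_eq_heightIdeal {Q : Ideal (LTRing p n)} (hQ : Q ≠ ⊤)
    (h : ∀ R ∈ Q.minimalPrimes, ∃ k ≤ n, R = heightIdeal p n k) :
    ∃ k ≤ n, Q.radical = heightIdeal p n k := by
  obtain ⟨M, hM, hQM⟩ := Ideal.exists_le_maximal Q hQ
  have := hM.isPrime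
  obtain ⟨R, hR, -⟩ := Ideal.exists_minimalPrimes_le hQM
  obtain ⟨k, hk, rfl⟩ := h R hR
  refine ⟨k, hk, ?_⟩
  rw [← Ideal.sInf_minimalPrimes]
  refine le_antisymm (sInf_le hR) (le_sInf fun S hS => ?_)
  obtain ⟨k', -, rfl⟩ := h S hS
  rcases le_total k k' with hle | hle
  · exact heightIdeal_mono p n hle
  · exact hR.2 hS.1 (heightIdeal_mono p n hle)

/-- A prime between two consecutive height ideals avoiding the new generator is the smaller one. -/
lemma eq_heightIdeal_of_between (hn : 0 < n) {h : ℕ} (hh : h < n) {P : Ideal (LTRing p n)}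
    [P.IsPrime] (h1 : heightIdeal p n h ≤ P) (h2 : P ≤ heightIdeal p n (h + 1))
    (hu : ltU p n h ∉ P) : P = heightIdeal p n h := by
  refine le_antisymm ?_ h1
  refine Submodule.le_of_le_smul_of_le_jacobson_bot (I := Ideal.span {ltU p n h})
    (IsNoetherian.noetherian P) ?_ fun x hx => ?_
  · rw [IsLocalRing.jacobson_eq_maximalIdeal ⊥ bot_ne_top, ← mIdeal_eq_maximalIdeal p n hn,
      Ideal.span_singleton_le_iff_mem]
    exact ltU_mem_heightIdeal p n hh
  · have hx' := h2 hx
    rw [heightIdeal_succ, Submodule.mem_sup] at hx'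
    obtain ⟨a, ha, b, hb, rfl⟩ := hx'
    obtain ⟨r, rfl⟩ := Ideal.mem_span_singleton'.1 hb
    have hr : r ∈ P := by
      have hm : r * ltU p n h ∈ P := by simpa using sub_mem hx (h1 ha)
      exact (Ideal.IsPrime.mem_or_mem inferInstance hm).resolve_right hu
    refine Submodule.add_mem_sup ha ?_
    rw [mul_comm, ← smul_eq_mul]
    exact Submodule.smul_mem_smul (Ideal.mem_span_singleton_self _) hr

theorem primes_of_core (hn : 0 < n) {F : FormalGroup (LTRing p n)}
    (hF : HasHazewinkelLog p n F) (hcore : ∀ h < n, CoreStatement p n F h)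
    (P : Ideal (LTRing p n)) (hP : P.IsPrime) (c : ℕ) (hinv : IsNearInvariant p n F c P) :
    ∃ h : ℕ, h ≤ n ∧ P = heightIdeal p n h := by
  classical
  induction P using WellFoundedGT.induction generalizing c with
  | _ P IH =>
    have hex : ∃ h, ltU p n h ∉ P :=
      ⟨n, by rw [ltU, if_neg hn.ne', dif_neg (by omega), if_pos rfl,
        ← Ideal.eq_top_iff_one]; exact hP.ne_top⟩
    have hu : ltU p n (Nat.find hex) ∉ P := Nat.find_spec hex
    have hle : heightIdeal p n (Nat.find hex) ≤ P := by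
      rw [heightIdeal, Ideal.span_le]
      rintro _ ⟨i, hi, rfl⟩
      exact not_not.1 (Nat.find_min hex hi)
    have hhn : Nat.find hex ≤ n := Nat.find_min' hex (by
      rw [ltU, if_neg hn.ne', dif_neg (by omega), if_pos rfl, ← Ideal.eq_top_iff_one]
      exact hP.ne_top)
    generalize Nat.find hex = h at hu hle hhn
    rcases hhn.lt_or_eq with hlt | rfl
    · set Q := P ⊔ Ideal.span {ltU p n h} with hQdef
      have hmI : P ≤ mIdeal p n := by
        rw [mIdeal_eq_maximalIdeal p n hn]; exact IsLocalRing.le_maximalIdeal hP.ne_top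
      have hQle : Q ≤ mIdeal p n :=
        sup_le hmI ((Ideal.span_singleton_le_iff_mem _).2 (ltU_mem_heightIdeal p n hlt))
      have hQne : Q ≠ ⊤ := fun he =>
        (heightIdeal_isPrime p n le_rfl).ne_top (top_le_iff.1 (he ▸ hQle))
      have hQeq : Q = P ⊔ heightIdeal p n (h + 1) := by
        rw [heightIdeal_succ, ← sup_assoc, sup_eq_left.2 hle]
      have hQinv : IsNearInvariant p n F c Q := fun α h1 h2 h3 => by
        rw [hQeq, Ideal.map_sup, hinv α h1 h2 h3,
          invariant_heightIdeal p n hn hF (show h + 1 ≤ n from hlt) α h1]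
      obtain ⟨k, hk, hrad⟩ := radical_eq_heightIdeal p n hQne fun R hR => by
        obtain ⟨c', hc'⟩ := exists_nearInvariant_minimalPrime p n hn hQinv hR
        refine IH R (lt_of_le_of_ne (le_sup_left.trans hR.1.2) ?_) hR.1.1 c' hc'
        rintro rfl
        exact hu (hR.1.2 (Ideal.mem_sup_right (Ideal.mem_span_singleton_self _)))
      have hhk : h + 1 ≤ k := by
        by_contra hlt'
        exact hu (hle (heightIdeal_mono p n (show k ≤ h by omega)
          (hrad ▸ Ideal.le_radical (Ideal.mem_sup_right (Ideal.mem_span_singleton_self _)))))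
      rcases hhk.lt_or_eq with hlt' | rfl
      · exact (hcore h hlt P k c hP hlt' hk hle hu hrad hinv).elim
      · refine ⟨h, hhn, eq_heightIdeal_of_between p n hn hlt hle ?_ hu⟩
        exact hrad ▸ le_sup_left.trans Ideal.le_radical
    · refine ⟨h, le_rfl, le_antisymm ?_ hle⟩
      show P ≤ mIdeal p h
      rw [mIdeal_eq_maximalIdeal p h hn]
      exact IsLocalRing.le_maximalIdeal hP.ne_top

theorem radicals_of_core (hn : 0 < n) {F : FormalGroup (LTRing p n)}
    (hF : HasHazewinkelLog p n F) (hcore : ∀ h < n, CoreStatement p n F h)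
    (I : Ideal (LTRing p n)) (hI : I.IsRadical) (hinv : IsInvariant p n F I) :
    I = ⊤ ∨ ∃ h : ℕ, h ≤ n ∧ I = heightIdeal p n h := by
  refine or_iff_not_imp_left.2 fun hne => ?_
  obtain ⟨k, hk, hrad⟩ := radical_eq_heightIdeal p n hne fun R hR => by
    obtain ⟨c', hc'⟩ := exists_nearInvariant_minimalPrime p n hn
      (c := 0) (fun α h1 _ _ => hinv α h1) hR
    exact primes_of_core p n hn hF hcore R hR.1.1 c' hc'
  exact ⟨k, hk, hI.radical.symm.trans hrad⟩

end

end Vale.Agent.P217
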