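import Vale.Agent.P217.HighDescent
import Vale.Agent.P217.PairRigid
import Vale.Agent.P217.Action
import Vale.Agent.P217.Reduction

/-! # P217: the positive characteristic case -/

open scoped Classical
open Filter Asymptotics Topology

namespace Vale.Agent.P217

noncomputable section

set_option linter.unusedSectionVars false

variable {p n : ℕ} [hp : Fact p.Prime] {F : FormalGroup (LTRing p n)} {h k : ℕ}
  {P : Ideal (LTRing p n)} [P.IsPrime] {x : (Fin (n - h) → ℤ_[p]) → ℕ → ResAlg p n P}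

/-- The input of the endgame: any two nonzero combinations of `e₁, e₂` are related through
`p`-th powers at every level. -/
def Related (hL : Labels p n F h P x) [CharP (SepCl p n P) p] (e₁ e₂ : Fin (n - h) → ℤ_[p]) :
    Prop :=
  ∀ (e e' : Fin (n - h) → ℤ_[p]), (∃ a b : ℤ_[p], e = a • e₁ + b • e₂) →
    (∃ a b : ℤ_[p], e' = a • e₁ + b • e₂) → e ≠ 0 → e' ≠ 0 → ∀ kl, 1 ≤ kl →
    ∀ (t : SepCl p n P), t ∉ (frobenius (SepCl p n P) p).fieldRange → ∀ R,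
      t ^ p ^ R = hL.y e kl → ∀ r₀, r₀ + R < h * kl → Rep p (r₀ + 1) t (hL.y e' kl)

theorem exists_related (hL : Labels p n F h P x) [CharP (SepCl p n P) p] (hhk : h + 2 ≤ k)
    (hkn : k ≤ n) (hu : ltU p n h ∉ P) (hP : heightIdeal p n h ≤ P)
    (hrad : (P ⊔ Ideal.span {ltU p n h}).radical = heightIdeal p n k)
    {S₀ c : ℕ} (D : ActFamily p n F S₀ c) (hD : FamilyOK D P)
    (U : UField) (j : ResAlg p n P →+* U.K) (hpt : IsPoint p n (j.comp (resMap p n P)))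
    (hst : OnStratum p n h (j.comp (resMap p n P))) :
    ∃ e₁ e₂ : Fin (n - h) → ℤ_[p], IndepPair p e₁ e₂ ∧ Related hL e₁ e₂ := by
  rcases eq_or_lt_of_le hkn with hkn' | hlt
  · have h2 : 2 ≤ n - h := by omega
    refine ⟨Pi.single ⟨0, by omega⟩ 1, Pi.single ⟨1, by omega⟩ 1, fun a b hd => ⟨?_, ?_⟩, ?_⟩
    · simpa [Pi.single_apply, Fin.ext_iff] using hd ⟨0, by omega⟩
    · simpa [Pi.single_apply, Fin.ext_iff] using hd ⟨1, by omega⟩
    intro e e' _ _ _ _ kl _ t ht R _ r₀ _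
    obtain ⟨w, hw, -, ⟨w₀, hw₀, hmin⟩, -, -, -⟩ := exists_slopeFn hL U j hpt hst
    obtain ⟨G, hl, -, -⟩ := point_germ hL U j hpt hst D hD hw hw₀ hmin
    have hK : CharP U.K p := (CharP.charP_iff_prime_eq_zero hp.out).2
      (by rw [← map_natCast j, hL.natCast_p, map_zero])
    exact rep_no_slow hL hkn'.symm hhk hu hP hrad G hl ht _ _
  · obtain ⟨e₁, e₂, hind, hdeep⟩ := exists_deep_pair hL hhk hlt hu hP hrad
    refine ⟨e₁, e₂, hind, ?_⟩
    rintro e e' ⟨a, b, rfl⟩ ⟨a', b', rfl⟩ he he' kl hkl t ht R htR r₀ hr₀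
    obtain ⟨dp⟩ := hdeep kl
    exact rep_deep hL hhk hkn hu hP hrad D hD hkl dp he he'
      (dp.slope.comb_ge (ne_zero_of_prim hind.left) (ne_zero_of_prim hind.right) dp.deep₁ dp.deep₂
        a b he)
      (dp.slope.comb_ge (ne_zero_of_prim hind.left) (ne_zero_of_prim hind.right) dp.deep₁ dp.deep₂
        a' b' he') ht htR hr₀

/-- At one point: two related elements have slopes related by a power of `q`, and equal slopes
force proportional leading terms. -/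
theorem related_rigid (hL : Labels p n F h P x) [CharP (SepCl p n P) p]
    {e₁ e₂ : Fin (n - h) → ℤ_[p]} (hrel : Related hL e₁ e₂)
    {S₀ c : ℕ} (D : ActFamily p n F S₀ c) (hD : FamilyOK D P)
    (U : UField) (j : ResAlg p n P →+* U.K) (hpt : IsPoint p n (j.comp (resMap p n P)))
    (hst : OnStratum p n h (j.comp (resMap p n P)))
    {w : (Fin (n - h) → ℤ_[p]) → ℝ} (hw : Slope (p := p) (n := n) h (fun e l => j (x e l)) w)
    {w₀ : ℝ} (hw₀ : 0 < w₀) (hmin : ∀ e, e ≠ 0 → w₀ ≤ w e) {m₀ : ℕ}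
    {e e' : Fin (n - h) → ℤ_[p]} (he : ∃ a b : ℤ_[p], e = a • e₁ + b • e₂)
    (he' : ∃ a b : ℤ_[p], e' = a • e₁ + b • e₂) (hne : e ≠ 0) (hne' : e' ≠ 0)
    (hwe : w e ≤ ((p : ℝ) ^ n) ^ m₀ * w₀) (hwe' : w e' ≤ ((p : ℝ) ^ n) ^ m₀ * w₀) :
    (∃ m : ℤ, w e' = ((p : ℝ) ^ n) ^ m * w e) ∧
      (w e = w e' → ∀ L : ℕ, ∃ cc : ℕ, 0 < cc ∧ cc < p ∧ ∃ l ≥ L,
        ‖j (x e' l) - (cc : U.K) * j (x e l)‖ < Real.exp (-(w e / ((p : ℝ) ^ n) ^ l))) := by
  set ψ := j.comp (resMap p n P) with hψ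
  have hchar : (p : U.K) = 0 := by rw [← map_natCast j, hL.natCast_p, map_zero]
  have hK : CharP U.K p := (CharP.charP_iff_prime_eq_zero hp.out).2 hchar
  have : ExpChar U.K p := ExpChar.prime hp.out
  have hker : ∀ y, ψ y = 0 ↔ y ∈ P := fun y => by
    rw [hψ, RingHom.comp_apply, map_eq_zero, resMap_eq_zero_iff]
  have hstI := onStratum_moved D hker hD.inv hst
  have hx := hL.torsion U j hpt hst
  obtain ⟨G, hl, hGd, hδ⟩ := point_germ hL U j hpt hst D hD hw hw₀ hmin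
  set T := tropOf ψ hL.hh hpt hst with hT
  set ρ := h * m₀ with hρ
  set kl := 2 * m₀ + 2 with hkl
  have hρkl : 2 * ρ + 2 ≤ h * kl := by
    have := hL.hh1
    rw [hkl, hρ]
    nlinarith
  set E0 : ActIdx p n → ℝ := scaleE p n T S₀ w₀ with hE0
  have hd : (moveDist ψ D) =O[actFilter p n] E0 :=
    moveDist_isBigO hL.hn hL.hF hL.hh1 hL.hh hD.one_le hpt hst D hx hw.slope hchar hstI hw₀ hmin
  have hsmallpow : ∀ {a : ℕ} (f : Fin (n - h) → ℤ_[p]), f ≠ 0 →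
      w f ≤ ((p : ℝ) ^ n) ^ m₀ * w₀ → ρ < a → ∀ b : ℕ,
      (fun i => (moveDist ψ D i ^ p ^ a) ^ p ^ b) =o[actFilter p n]
        (fun i => leadSize p n T S₀ kl (w f) i ^ p ^ b) := by
    intro a f hf hwf ha b
    refine IsLittleO.pow ?_ (pow_pos hp.out.pos b)
    obtain ⟨κ, hκ, hlead⟩ := leadSize_eq (p := p) (n := n) (T := T) rfl rfl S₀ kl (hw.slope f hf).1
    have h1 := (hd.pow (p ^ a)).trans_isLittleO
      (scaleE_pow_isLittleO S₀ hw₀ (Nat.pow_lt_pow_right hp.out.one_lt ha))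
    refine (h1.trans_isBigO
      (scaleE_pow_le (p := p) (n := n) (T := T) rfl S₀ m₀ (hw.slope f hf).1 hw₀ hwf)).trans_isBigO ?_
    refine IsBigO.of_bound κ⁻¹ ?_
    filter_upwards [hlead] with i hi
    rw [hi, norm_mul, Real.norm_of_nonneg hκ.le, inv_mul_cancel_left₀ hκ.ne']
  have hlead : ∀ f, f ≠ 0 → w f ≤ ((p : ℝ) ^ n) ^ m₀ * w₀ →
      HasLead ψ T S₀ kl (fun l => j (x f l)) (w f)
        (fun i => (ev ψ (D i).φ (j (x f kl)) - j (x f kl)) ^ p ^ (h * kl)) := fun f hf hwf =>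
    hasLead_disp hL.hn hL.hF hL.hh1 hL.hh hD.one_le hpt hst D hx hw.slope hchar hstI hw₀ hmin hf
      hwf (by omega)
  have hnotpow : ∀ f, f ≠ 0 → w f ≤ ((p : ℝ) ^ n) ^ m₀ * w₀ →
      ∀ r, ρ < r → ∀ z : SepCl p n P, hL.y f kl ≠ z ^ p ^ r := by
    intro f hf hwf r hr z hz
    have hfreq := lead_frequently hL.hn hL.hh1 hL.hh hpt hst hchar (hw.slope f hf).1
      (hlead f hf hwf) (hw.slope f hf).2
    obtain ⟨C, hC, hlip⟩ := G.lip z
    rw [hl, hGd] at hlip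
    have hev : ∀ᶠ i in actFilter p n,
        ‖(ev ψ (D i).φ (j (x f kl)) - j (x f kl)) ^ p ^ (h * kl)‖
          < leadSize p n T S₀ kl (w f) i := by
      have hzp : ∀ᶠ i in actFilter p n, G.δ (z ^ p ^ r) i = G.δ z i ^ p ^ r := by
        rw [← hl]; exact G.δ_pow_char p z r
      have hsm := (hsmallpow f hf hwf hr 0).def
        (show (0 : ℝ) < (C ^ p ^ r + 1)⁻¹ by positivity)
      filter_upwards [hlip, hδ f kl, hzp, hsm] with i h1 h2 h3 h4
      rw [h2, hz, h3, norm_pow]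
      simp only [pow_zero, pow_one] at h4
      have hd0 : 0 ≤ moveDist ψ D i := (near_moveDist D i).1
      rw [Real.norm_of_nonneg (pow_nonneg hd0 _), leadSize,
        Real.norm_of_nonneg (Real.exp_pos _).le, ← leadSize] at h4
      have h5 : ‖G.δ z i‖ ^ p ^ r ≤ C ^ p ^ r * moveDist ψ D i ^ p ^ r := by
        rw [← mul_pow]
        exact pow_le_pow_left₀ (norm_nonneg _) h1 _
      refine lt_of_le_of_lt h5 ?_
      have hCp : (0 : ℝ) ≤ C ^ p ^ r := by positivity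
      have hB : 0 < leadSize p n T S₀ kl (w f) i := Real.exp_pos _
      calc C ^ p ^ r * moveDist ψ D i ^ p ^ r
          ≤ C ^ p ^ r * ((C ^ p ^ r + 1)⁻¹ * leadSize p n T S₀ kl (w f) i) :=
            mul_le_mul_of_nonneg_left h4 hCp
        _ < leadSize p n T S₀ kl (w f) i := by
            rw [← mul_assoc, ← div_eq_mul_inv]
            exact mul_lt_of_lt_one_left hB ((div_lt_one (by linarith)).2 (lt_add_one _))
    obtain ⟨i, hi1, hi2⟩ := (hfreq.and_eventually hev).exists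
    exact absurd hi1 (not_le.2 hi2)
  -- the exponent of `y e`
  have hex : ∃ r, ¬ ∃ z : SepCl p n P, hL.y e kl = z ^ p ^ (r + 1) :=
    ⟨ρ, fun ⟨z, hz⟩ => hnotpow e hne hwe (ρ + 1) (Nat.lt_succ_self ρ) z hz⟩
  set R := Nat.find hex with hR
  have hRρ : R ≤ ρ := Nat.find_le fun ⟨z, hz⟩ => hnotpow e hne hwe (ρ + 1) (Nat.lt_succ_self ρ) z hz
  obtain ⟨t, htR⟩ : ∃ t : SepCl p n P, hL.y e kl = t ^ p ^ R := by
    rcases Nat.eq_zero_or_pos R with hR0 | hRpos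
    · exact ⟨hL.y e kl, by simp [hR0]⟩
    · have h1 := Nat.find_min hex (Nat.sub_lt hRpos one_pos)
      rw [Nat.sub_add_cancel (show 1 ≤ Nat.find hex from hRpos)] at h1
      exact not_not.1 h1
  have ht : t ∉ (frobenius (SepCl p n P) p).fieldRange := by
    rintro ⟨z, hz⟩
    refine Nat.find_spec hex ⟨z, ?_⟩
    exact htR.trans (by rw [← hz, frobenius_def, ← pow_mul, ← pow_succ'])
  set r₁ := h * kl - R - 1 with hr₁
  have hrep := hrel e e' he he' hne hne' kl (by omega) t ht R htR.symm r₁ (by omega)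
  have hρr : ρ < r₁ + 1 := by omega
  obtain ⟨R', hR', Dc, hDc, hO⟩ := rep_leading G ht hrep (fun z => hnotpow e' hne' hwe' _ hρr z)
  have hmain := pair_rigid hL.hn hL.hh1 hL.hh hpt hst hchar (hw.slope e hne).1 (hw.slope e' hne').1
    (fun l => j (x e l)) (fun l => j (x e' l))
    (fun i => (ev ψ (D i).φ (j (x e kl)) - j (x e kl)) ^ p ^ (h * kl))
    (fun i => (ev ψ (D i).φ (j (x e' kl)) - j (x e' kl)) ^ p ^ (h * kl))
    (hlead e hne hwe) (hlead e' hne' hwe') (hw.slope e hne).2 (hw.slope e' hne').2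
    (a := R') (b := R) (ρ := G.ι Dc ^ p ^ R)
    (pow_ne_zero _ (by simpa using hDc))
  refine hmain ?_
  -- the relation at leading order
  rw [hl] at hO
  have hO' := hO.pow (p ^ R)
  have hδt : ∀ᶠ i in actFilter p n, G.δ (hL.y e kl) i = G.δ t i ^ p ^ R := by
    rw [← hl, htR]; exact G.δ_pow_char p t R
  have hlow1 : ∀ᶠ i in actFilter p n,
      ‖(ev ψ (D i).φ (j (x e kl)) - j (x e kl)) ^ p ^ (h * kl)‖ ≤ leadSize p n T S₀ kl (w e) i := by
    have hsm := (hsmallpow e hne hwe (show ρ < h * kl by omega) 0).def one_pos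
    filter_upwards [hsm] with i hi
    simp only [pow_zero, pow_one, one_mul] at hi
    have hd0 : 0 ≤ moveDist ψ D i := (near_moveDist D i).1
    rw [Real.norm_of_nonneg (pow_nonneg hd0 _), leadSize, Real.norm_of_nonneg (Real.exp_pos _).le,
      ← leadSize] at hi
    rw [norm_pow]
    refine (pow_le_pow_left₀ (norm_nonneg _)
      (norm_disp_le hL.hn hL.hF hL.hh hD.one_le hpt hst D hx hw.slope hne kl i) _).trans ?_
    rw [(pow_left_monotoneOn).map_max (Real.exp_pos _).le hd0, leadSize, ← Real.exp_nat_mul]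
    refine max_le (le_of_eq ?_) hi
    push_cast
    rw [mul_neg]
    rfl
  obtain ⟨C, hC, hCb⟩ := hO'.exists_pos
  rw [IsBigOWith] at hCb
  set c₁ := ‖G.ι Dc ^ p ^ R‖ with hc₁
  have hc₁pos : 0 < c₁ := norm_pos_iff.2 (pow_ne_zero _ (by simpa using hDc))
  set M2 : ℝ := (2 : ℝ) ^ p ^ R with hM2
  have hM2pos : 0 < M2 := by positivity
  have hlead1 : Tendsto (fun i => leadSize p n T S₀ kl (w e) i ^ p ^ R') (actFilter p n) (𝓝 0) := by
    obtain ⟨κ, hκ, hle⟩ := leadSize_eq (p := p) (n := n) (T := T) rfl rfl S₀ kl (hw.slope e hne).1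
    have h0 : Tendsto (leadSize p n T S₀ kl (w e)) (actFilter p n) (𝓝 0) := by
      refine Tendsto.congr' (EventuallyEq.symm hle) ?_
      simpa using (scaleE_tendsto (T := T) S₀ (hw.slope e hne).1).const_mul κ
    simpa [zero_pow (pow_ne_zero R' hp.out.pos.ne')] using h0.pow (p ^ R')
  have hsm2 := (hsmallpow e' hne' hwe' hρr R).def
    (show (0 : ℝ) < (C * M2 + 1)⁻¹ by positivity)
  filter_upwards [hCb, hδ e kl, hδ e' kl, hδt, hlow1, hsm2,
    hlead1.eventually (gt_mem_nhds (div_pos hc₁pos (show (0:ℝ) < C * M2 + 1 by positivity)))]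
    with i h1 h2 h3 h4 h5 h6 h7
  set L1 := leadSize p n T S₀ kl (w e) i with hL1
  set L2 := leadSize p n T S₀ kl (w e') i with hL2
  have hL1pos : 0 < L1 := Real.exp_pos _
  have hL2pos : 0 < L2 := Real.exp_pos _
  have hd0 : 0 ≤ moveDist ψ D i := (near_moveDist D i).1
  rw [h3, h2, h4]
  have e1 : G.δ (hL.y e' kl) i ^ p ^ R - G.ι Dc ^ p ^ R * (G.δ t i ^ p ^ R) ^ p ^ R'
      = (G.δ (hL.y e' kl) i - G.ι Dc * G.δ t i ^ p ^ R') ^ p ^ R := by
    rw [sub_pow_expChar_pow, mul_pow]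
    ring
  rw [e1]
  refine lt_of_le_of_lt h1 ?_
  rw [hGd, Real.norm_of_nonneg (by positivity)]
  have hA : (‖G.δ t i‖ ^ (2 * p ^ R')) ^ p ^ R ≤ (L1 ^ p ^ R') ^ 2 := by
    have h8 : ‖G.δ t i‖ ^ p ^ R ≤ L1 := by
      rw [← norm_pow, ← h4, ← h2]; exact h5
    calc (‖G.δ t i‖ ^ (2 * p ^ R')) ^ p ^ R = (‖G.δ t i‖ ^ p ^ R) ^ (2 * p ^ R') := by
          rw [← pow_mul, ← pow_mul, mul_comm]
      _ ≤ L1 ^ (2 * p ^ R') := pow_le_pow_left₀ (by positivity) h8 _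
      _ = (L1 ^ p ^ R') ^ 2 := by rw [← pow_mul, mul_comm]
  set T1 := max ((L1 ^ p ^ R') ^ 2) ((moveDist ψ D i ^ p ^ (r₁ + 1)) ^ p ^ R) with hT1
  have hsum : (‖G.δ t i‖ ^ (2 * p ^ R') + moveDist ψ D i ^ p ^ (r₁ + 1)) ^ p ^ R ≤ M2 * T1 := by
    set u := ‖G.δ t i‖ ^ (2 * p ^ R') with hu
    set v := moveDist ψ D i ^ p ^ (r₁ + 1) with hv
    have hu0 : 0 ≤ u := by positivity
    have hv0 : 0 ≤ v := pow_nonneg hd0 _
    calc (u + v) ^ p ^ R ≤ (2 * max u v) ^ p ^ R :=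
          pow_le_pow_left₀ (add_nonneg hu0 hv0)
            (by linarith [le_max_left u v, le_max_right u v]) _
      _ = M2 * max (u ^ p ^ R) (v ^ p ^ R) := by
          rw [mul_pow, hM2, (pow_left_monotoneOn).map_max hu0 hv0]
      _ ≤ M2 * T1 := mul_le_mul_of_nonneg_left (max_le_max hA le_rfl) hM2pos.le
  refine lt_of_le_of_lt (mul_le_mul_of_nonneg_left hsum hC.le) ?_
  rw [Real.norm_of_nonneg (pow_nonneg (pow_nonneg hd0 _) _),
    Real.norm_of_nonneg (pow_nonneg hL2pos.le _)] at h6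
  have hCM : (0 : ℝ) < C * M2 + 1 := by positivity
  rw [← mul_assoc, hT1, mul_max_of_nonneg _ _ (by positivity)]
  refine max_lt (lt_of_lt_of_le ?_ (le_max_right _ _)) (lt_of_lt_of_le ?_ (le_max_left _ _))
  · have h9 : (C * M2 + 1) * L1 ^ p ^ R' < c₁ := by
      rw [lt_div_iff₀ hCM] at h7
      linarith
    have h10 : 0 < L1 ^ p ^ R' := pow_pos hL1pos _
    calc C * M2 * (L1 ^ p ^ R') ^ 2 ≤ ((C * M2 + 1) * L1 ^ p ^ R') * L1 ^ p ^ R' := by
          rw [sq]; nlinarith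
      _ < c₁ * L1 ^ p ^ R' := mul_lt_mul_of_pos_right h9 h10
  · calc C * M2 * (moveDist ψ D i ^ p ^ (r₁ + 1)) ^ p ^ R
        ≤ C * M2 * ((C * M2 + 1)⁻¹ * L2 ^ p ^ R) :=
          mul_le_mul_of_nonneg_left h6 (by positivity)
      _ < L2 ^ p ^ R := by
          rw [← mul_assoc, ← div_eq_mul_inv]
          exact mul_lt_of_lt_one_left (pow_pos hL2pos _) ((div_lt_one hCM).2 (lt_add_one _))

/-- No pair of independent torsion sequences is related at one point. -/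
theorem related_false (hL : Labels p n F h P x) [CharP (SepCl p n P) p]
    {e₁ e₂ : Fin (n - h) → ℤ_[p]} (hind : IndepPair p e₁ e₂) (hrel : Related hL e₁ e₂)
    {S₀ c : ℕ} (D : ActFamily p n F S₀ c) (hD : FamilyOK D P)
    (U : UField) (j : ResAlg p n P →+* U.K) (hpt : IsPoint p n (j.comp (resMap p n P)))
    (hst : OnStratum p n h (j.comp (resMap p n P))) : False := by
  obtain ⟨w, hw, ⟨W, hW⟩, ⟨w₀, hw₀, hmin⟩, ⟨b, hb⟩, -, -⟩ := exists_slopeFn hL U j hpt hst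
  have hx := hL.torsion U j hpt hst
  have hpR : (0 : ℝ) < p := by exact_mod_cast hp.out.pos
  have hq1 : 1 < (p : ℝ) ^ n :=
    one_lt_pow₀ (by exact_mod_cast hp.out.one_lt) (by have := hL.hn; omega)
  set comb : ℤ_[p] → ℤ_[p] → Fin (n - h) → ℤ_[p] := fun a a' => a • e₁ + a' • e₂ with hcomb
  -- a maximiser
  set B := b + 1 with hB
  set Q := (Finset.range (p ^ B) ×ˢ Finset.range (p ^ B)).filter
    (fun u : ℕ × ℕ => ¬ ((p : ℤ_[p]) ∣ (u.1 : ℤ_[p]) ∧ (p : ℤ_[p]) ∣ (u.2 : ℤ_[p]))) with hQ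
  have hQne : Q.Nonempty := ⟨(1, 0), by
    simp only [hQ, Finset.mem_filter, Finset.mem_product, Finset.mem_range, Nat.cast_one]
    exact ⟨⟨Nat.one_lt_pow (by omega) hp.out.one_lt, pow_pos hp.out.pos _⟩,
      fun hd => not_p_dvd_one hd.1⟩⟩
  obtain ⟨⟨α, β⟩, hαβ, hmax⟩ := Q.exists_max_image (fun u => w (comb u.1 u.2)) hQne
  simp only [hQ, Finset.mem_filter] at hαβ
  set f₁ := comb (α : ℤ_[p]) (β : ℤ_[p]) with hf₁
  have hf₁prim : ¬ ∀ i, (p : ℤ_[p]) ∣ f₁ i := hind.comb_prim hαβ.2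
  have hle : ∀ a a' : ℤ_[p], ¬ ((p : ℤ_[p]) ∣ a ∧ (p : ℤ_[p]) ∣ a') → w (comb a a') ≤ w f₁ := by
    intro a a' haa
    have happ : ∀ z : ℤ_[p], (p : ℤ_[p]) ^ B ∣ z - (z.appr B : ℤ_[p]) := fun z =>
      Ideal.mem_span_singleton.1 (PadicInt.appr_spec B z)
    have hmod : ∀ z : ℤ_[p], (p : ℤ_[p]) ∣ (z.appr B : ℤ_[p]) → (p : ℤ_[p]) ∣ z := fun z hz => by
      have h1 := (dvd_pow_self (p : ℤ_[p]) (show B ≠ 0 by omega)).trans (happ z)
      simpa using h1.add hz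
    have hmem : (a.appr B, a'.appr B) ∈ Q := by
      simp only [hQ, Finset.mem_filter, Finset.mem_product, Finset.mem_range]
      exact ⟨⟨a.appr_lt B, a'.appr_lt B⟩, fun hd => haa ⟨hmod a hd.1, hmod a' hd.2⟩⟩
    refine le_trans (le_of_eq ?_) (hmax _ hmem)
    refine (hb (comb a a') _ (hind.comb_prim haa) fun i => ?_).symm
    have h1 : (p : ℤ_[p]) ^ b ∣ (p : ℤ_[p]) ^ B := pow_dvd_pow _ (Nat.le_succ b)
    simp only [hcomb, Pi.add_apply, Pi.smul_apply, smul_eq_mul]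
    have h2 := ((h1.trans (happ a)).mul_right (e₁ i)).add ((h1.trans (happ a')).mul_right (e₂ i))
    convert h2.neg_right using 1
    ring
  -- the partner
  obtain ⟨γ, δ', hγδ, hindep⟩ : ∃ γ δ' : ℤ_[p], ¬ ((p : ℤ_[p]) ∣ γ ∧ (p : ℤ_[p]) ∣ δ') ∧
      ∀ u v : ℤ_[p], (p : ℤ_[p]) ∣ u * α + v * γ → (p : ℤ_[p]) ∣ u * β + v * δ' →
        (p : ℤ_[p]) ∣ u ∧ (p : ℤ_[p]) ∣ v := by
    by_cases hα : (p : ℤ_[p]) ∣ (α : ℤ_[p])
    · refine ⟨1, 0, fun hd => not_p_dvd_one hd.1, fun u v h1 h2 => ?_⟩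
      have hβ : ¬ (p : ℤ_[p]) ∣ (β : ℤ_[p]) := fun hd => hαβ.2 ⟨hα, hd⟩
      rw [mul_zero, add_zero] at h2
      have hu := (PadicInt.prime_p.dvd_or_dvd h2).resolve_right hβ
      refine ⟨hu, ?_⟩
      simpa using h1.sub (hu.mul_right (α : ℤ_[p]))
    · refine ⟨0, 1, fun hd => not_p_dvd_one hd.2, fun u v h1 h2 => ?_⟩
      rw [mul_zero, add_zero] at h1
      have hu := (PadicInt.prime_p.dvd_or_dvd h1).resolve_right hα
      refine ⟨hu, ?_⟩
      simpa using h2.sub (hu.mul_right (β : ℤ_[p]))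
  set f₂ := comb γ δ' with hf₂
  have hf₂prim : ¬ ∀ i, (p : ℤ_[p]) ∣ f₂ i := hind.comb_prim hγδ
  have hf₁ne := ne_zero_of_prim hf₁prim
  have hf₂ne := ne_zero_of_prim hf₂prim
  obtain ⟨m₀, hm₀⟩ := pow_unbounded_of_one_lt (W / w₀) hq1
  have hbound : ∀ f, (¬ ∀ i, (p : ℤ_[p]) ∣ f i) → w f ≤ ((p : ℝ) ^ n) ^ m₀ * w₀ := fun f hf => by
    have h1 : W / w₀ * w₀ = W := div_mul_cancel₀ W hw₀.ne'
    have h2 := mul_le_mul_of_nonneg_right hm₀.le hw₀.le
    linarith [hW f hf]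
  obtain ⟨⟨m, hm⟩, -⟩ := related_rigid hL hrel D hD U j hpt hst hw hw₀ hmin
    ⟨_, _, rfl⟩ ⟨_, _, rfl⟩ hf₁ne hf₂ne (hbound f₁ hf₁prim) (hbound f₂ hf₂prim)
  have hw₁pos : 0 < w f₁ := (hw.slope f₁ hf₁ne).1
  have hm0 : m ≤ 0 := by
    by_contra hpos
    push Not at hpos
    have h1 := hle γ δ' hγδ
    rw [← hf₂, hm] at h1
    have h2 : (1 : ℝ) < ((p : ℝ) ^ n) ^ m := one_lt_zpow₀ hq1 hpos
    nlinarith
  obtain ⟨i, rfl⟩ : ∃ i : ℕ, m = -(i : ℤ) := ⟨(-m).toNat, by omega⟩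
  set f₃ := ((p : ℤ_[p]) ^ i) • f₂ with hf₃
  have hf₃eq : f₃ = comb ((p : ℤ_[p]) ^ i * γ) ((p : ℤ_[p]) ^ i * δ') := by
    simp [hf₃, hf₂, hcomb, smul_add, smul_smul]
  have hf₃ne : f₃ ≠ 0 :=
    smul_ne_zero (pow_ne_zero _ (Nat.cast_ne_zero.2 hp.out.pos.ne')) hf₂ne
  have hw₃ : w f₁ = w f₃ := by
    rw [hf₃, hw.smul_pow hf₂ne, hm, ← mul_assoc, ← zpow_natCast, ← zpow_add₀ (by positivity)]
    simp [hf₁, hcomb]
  obtain ⟨-, hcong⟩ := related_rigid hL hrel D hD U j hpt hst hw hw₀ hmin (e := f₁) (e' := f₃)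
    ⟨_, _, rfl⟩ ⟨_, _, hf₃eq⟩ hf₁ne hf₃ne (hbound f₁ hf₁prim)
    (by rw [← hw₃]; exact hbound f₁ hf₁prim)
  -- the candidates
  set cand : ℕ → Fin (n - h) → ℤ_[p] := fun cc => f₃ + (-(cc : ℤ_[p])) • f₁ with hcand
  have hcprim : ∀ cc : ℕ, 0 < cc → cc < p →
      ∃ a a' : ℤ_[p], cand cc = comb a a' ∧ ¬ ((p : ℤ_[p]) ∣ a ∧ (p : ℤ_[p]) ∣ a') := by
    intro cc hc0 hcp
    refine ⟨-(cc : ℤ_[p]) * α + (p : ℤ_[p]) ^ i * γ, -(cc : ℤ_[p]) * β + (p : ℤ_[p]) ^ i * δ',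
      ?_, fun hd => ?_⟩
    · simp only [hcand, hf₃eq, hf₁, hcomb, smul_add, smul_smul, add_smul]
      abel
    · have h1 := (hindep _ _ hd.1 hd.2).1
      rw [dvd_neg] at h1
      obtain ⟨u, hu⟩ := h1
      have h2 := congrArg PadicInt.toZMod hu
      rw [map_mul, map_natCast, map_natCast, ZMod.natCast_self, zero_mul] at h2
      have h3 := Nat.eq_zero_of_dvd_of_lt ((ZMod.natCast_eq_zero_iff _ _).1 h2) hcp
      omega
  obtain ⟨l₁, hl₁⟩ := (hw.slope f₁ hf₁ne).2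
  obtain ⟨l₃, hl₃⟩ := (hw.slope f₃ hf₃ne).2
  have hlc : ∀ cc : ℕ, ∃ l₀, cand cc ≠ 0 → ∀ l ≥ l₀,
      ‖j (x (cand cc) l)‖ = Real.exp (-(w (cand cc) / ((p : ℝ) ^ n) ^ l)) := fun cc => by
    by_cases hc : cand cc = 0
    · exact ⟨0, fun h0 => absurd hc h0⟩
    · obtain ⟨l₀, hl₀⟩ := (hw.slope _ hc).2
      exact ⟨l₀, fun _ => hl₀⟩
  choose lc hlc using hlc
  obtain ⟨cc, hc0, hcp, l, hl, hsmall⟩ :=
    hcong hw₃ (max (max l₁ l₃) ((Finset.range p).sup lc))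
  obtain ⟨a, a', hcc, haa⟩ := hcprim cc hc0 hcp
  have hccprim : ¬ ∀ i, (p : ℤ_[p]) ∣ cand cc i := by rw [hcc]; exact hind.comb_prim haa
  have hcne := ne_zero_of_prim hccprim
  have hwc : w (cand cc) ≤ w f₁ := by rw [hcc]; exact hle a a' haa
  have hnc := hlc cc hcne l
    ((Finset.le_sup (Finset.mem_range.2 hcp)).trans ((le_max_right _ _).trans hl))
  set bb := Real.exp (-(w f₁ / ((p : ℝ) ^ n) ^ l)) with hbb
  have hbb1 : bb < 1 := Real.exp_lt_one_iff.2 (neg_lt_zero.2 (by positivity))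
  obtain ⟨hlin, -⟩ := torsion_linear hpt hx (Finset.univ : Finset Bool)
    (fun u => if u then 1 else cc) (fun u => if u then cand cc else f₁) l
    (b := max bb ‖j (x (cand cc) l)‖) (le_max_of_le_left (Real.exp_pos _).le)
    (max_lt hbb1 (hx.norm_lt (cand cc) l)) (fun u _ => by
      cases u
      · simp only [if_false, Bool.false_eq_true]
        exact le_max_of_le_left (le_of_eq (hl₁ l (by omega)))
      · simp)
  have hsum : ∑ u : Bool, (((if u then 1 else cc : ℕ)) : ℤ_[p]) • (if u then cand cc else f₁) = f₃ := by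
    simp [hcand]
  rw [hsum] at hlin
  simp only [Fintype.sum_bool, if_true, Nat.cast_one, one_mul, Bool.false_eq_true, if_false] at hlin
  have hge : bb ≤ ‖j (x (cand cc) l)‖ := by
    rw [hnc, hbb]
    exact Real.exp_le_exp.2 (neg_le_neg (by gcongr))
  rw [max_eq_right hge] at hlin
  set u := j (x (cand cc) l) with hu
  have hu1 : ‖u‖ < 1 := hx.norm_lt (cand cc) l
  have hu0 : 0 < ‖u‖ := lt_of_lt_of_le (Real.exp_pos _) hge
  have h1 : ‖u‖ ≤ max (‖u‖ ^ 2) ‖j (x f₃ l) - (cc : U.K) * j (x f₁ l)‖ := by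
    calc ‖u‖ = ‖-(j (x f₃ l) - (u + (cc : U.K) * j (x f₁ l)))
            + (j (x f₃ l) - (cc : U.K) * j (x f₁ l))‖ := by congr 1; ring
      _ ≤ _ := (IsUltrametricDist.norm_add_le_max _ _).trans
          (max_le_max (by rw [norm_neg]; exact hlin) le_rfl)
  rcases le_max_iff.1 h1 with h2 | h2
  · nlinarith
  · linarith

theorem core_pos (p n : ℕ) [Fact p.Prime] (hn : 0 < n) {F : FormalGroup (LTRing p n)}
    (hF : HasHazewinkelLog p n F) {h : ℕ} (hh : 1 ≤ h) (hhn : h < n) :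
    CoreStatement p n F h := by
  intro P k c hP hhk hkn hle hu hrad hinv
  haveI := hP
  obtain ⟨U, j, hpt, hst, -, -⟩ := exists_point p n hn P hhk hkn hle hu hrad 1 one_pos
  obtain ⟨x, hx, hsep, halg⟩ := exists_torsion hn hF hhn P U j hpt hst
  have hL : Labels p n F h P x := {
    hn := hn
    hF := hF
    hh1 := hh
    hh := hhn
    hker := fun i hi => hle (Ideal.subset_span ⟨i, hi, rfl⟩)
    sep := hsep
    alg := halg
    torsion := fun U' j' hpt' hst' =>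
      torsion_transfer hn hF hhn P U U' j j' hpt hpt' hst x hx halg }
  haveI := hL.charP_sepCl
  obtain ⟨S₀, hS₀⟩ := exists_actData p n hn hF (max c 1)
  have hdata : ∀ i : ActIdx p n, Nonempty (ActData p n F (S₀ + i.1) i.2 (max c 1)) := fun i =>
    hS₀ _ (Nat.le_add_right _ _) _
  let D : ActFamily p n F S₀ (max c 1) := fun i => (hdata i).some
  have hD : FamilyOK D P := ⟨le_max_right _ _, fun i =>
    hinv _ (ActData.isDeformationAut p n (D i)) (D i).fix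
      (fun y => Ideal.pow_le_pow_right (le_max_left _ _) ((D i).near y))⟩
  obtain ⟨e₁, e₂, hind, hrel⟩ := exists_related hL hhk hkn hu hle hrad D hD U j hpt hst
  exact related_false hL hind hrel D hD U j hpt hst

end

end Vale.Agent.P217
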