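import Vale.Agent.P217.Tropical

/-! # P217: families of elements of the stabilizer acting on a point -/

open scoped Classical

namespace Vale.Agent.P217

noncomputable section

variable {p n : ℕ} [hp : Fact p.Prime] {K : Type} [NormedField K]

/-- Indices: a depth and a digit. -/
abbrev ActIdx (p n : ℕ) [Fact p.Prime] : Type := ℕ × GaloisField p n

/-- The depth tends to infinity. -/
def actFilter (p n : ℕ) [Fact p.Prime] : Filter (ActIdx p n) :=
  Filter.comap Prod.fst Filter.atTop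

/-- One element for each depth `≥ S₀` and each digit. -/
def ActFamily (p n : ℕ) [Fact p.Prime] (F : FormalGroup (LTRing p n)) (S₀ c : ℕ) : Type :=
  ∀ i : ActIdx p n, ActData p n F (S₀ + i.1) i.2 c

/-- The moved point. -/
def movedPoint (ψ : LTRing p n →+* K) {F : FormalGroup (LTRing p n)} {S₀ c : ℕ}
    (D : ActFamily p n F S₀ c) (i : ActIdx p n) : LTRing p n →+* K :=
  ψ.comp (D i).α.toRingHom

/-- The size of the displacement of the point. -/
def moveDist (ψ : LTRing p n →+* K) {F : FormalGroup (LTRing p n)} {S₀ c : ℕ}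
    (D : ActFamily p n F S₀ c) (i : ActIdx p n) : ℝ :=
  ((Finset.univ : Finset (Fin (n - 1))).sup fun m =>
    ‖movedPoint ψ D i (MvPowerSeries.X m) - ψ (MvPowerSeries.X m)‖₊ : NNReal)

/-- The normalised argument of the tropical function for slope `w`, level `kl`, depth `S`. -/
def lvlArg (p n : ℕ) (w : ℝ) (kl S : ℕ) : ℝ := (p : ℝ) ^ S * w / ((p : ℝ) ^ n) ^ kl

/-- `f` has the leading term predicted for a torsion sequence `x` of slope `w` at the level `kl`,
raised to the power `P = p ^ (h kl)`. -/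
def HasLead (ψ : LTRing p n →+* K) (T : Trop) (S₀ kl : ℕ) (x : ℕ → K) (w : ℝ)
    (f : ActIdx p n → K) : Prop :=
  ∀ᶠ i in actFilter p n, ∃ l₀, ∀ l ≥ l₀,
    ‖f i - (∑ J ∈ Act ψ T l (lvlArg p n w kl (S₀ + i.1)),
        lamCoeff ψ l J * (ψ (teich p n i.2) * x (l + kl) ^ p ^ (S₀ + i.1)) ^ p ^ J) ^ p ^ (T.h * kl)‖
      < Real.exp (-((p : ℝ) ^ (T.h * kl) * T.N (lvlArg p n w kl (S₀ + i.1))))

/-- The expected size of `f`. -/
def leadSize (p n : ℕ) [Fact p.Prime] (T : Trop) (S₀ kl : ℕ) (w : ℝ) (i : ActIdx p n) : ℝ :=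
  Real.exp (-((p : ℝ) ^ (T.h * kl) * T.N (lvlArg p n w kl (S₀ + i.1))))

end

end Vale.Agent.P217
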