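import Vale.Agent.P217.HighDefs
import Vale.Agent.P217.TropicalRigid

/-!
# P217: independence of the slow displacements

The leading terms of the displacements of slow torsion sequences cannot cancel in a fixed linear
combination: separating the characters reduces this to a Moore argument over a window of
consecutive Frobenius levels, all of which are attained because the largest active exponent grows
in steps of size at most one.
-/

open scoped Classical
open Filter Asymptotics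

namespace Vale.Agent.P217

noncomputable section

/-- A sequence increasing in steps of at most one attains every intermediate value. -/
theorem exists_level (f : ℕ → ℕ) {a b K : ℕ} (hab : a ≤ b)
    (hstep : ∀ S, a ≤ S → S < b → f (S + 1) ≤ f S + 1) (hK : f a ≤ K) (hK' : K ≤ f b) :
    ∃ S, a ≤ S ∧ S ≤ b ∧ f S = K := by
  induction b, hab using Nat.le_induction with
  | base => exact ⟨a, le_rfl, le_rfl, le_antisymm hK hK'⟩
  | succ b hab ih =>
    by_cases hb : K ≤ f b
    · obtain ⟨S, h1, h2, h3⟩ := ih (fun S h h' => hstep S h (h'.trans b.lt_succ_self)) hb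
      exact ⟨S, h1, h2.trans b.le_succ, h3⟩
    · exact ⟨b + 1, hab.trans b.le_succ, le_rfl, by
        have := hstep b hab b.lt_succ_self
        omega⟩

section Window

variable {p : ℕ} [hp : Fact p.Prime] {K : Type} [NormedField K] [IsUltrametricDist K]
  [CharP K p]

/-- Approximate Moore lemma on a window of consecutive levels. -/
theorem moore_window {ι : Type*} [Fintype ι] (μ : ι → K) (hμ : ∀ i, ‖μ i‖ ≤ 1)
    (hind : ∀ c : ι → ℕ, (∀ i, c i < p) → (∃ i, c i ≠ 0) → ‖∑ i, (c i : K) * μ i‖ = 1) :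
    ∀ (N : ℕ) (γ : ι → K) (J₀ : ℕ), (∀ i, ‖γ i‖ ≤ 1) →
      (Finset.univ.filter fun i => ‖γ i‖ = 1).card ≤ N →
      (∀ J, J₀ ≤ J → J ≤ J₀ + N → ‖∑ i, γ i * μ i ^ p ^ J‖ < 1) → ∀ i, ‖γ i‖ < 1 := by
  have hp1 : 1 < p := hp.out.one_lt
  have hpK : ‖(p : K)‖ < 1 := by rw [CharP.cast_eq_zero, norm_zero]; exact one_pos
  intro N
  induction N with
  | zero =>
    intro γ _ hle hc _ i
    refine lt_of_le_of_ne (hle i) fun he => ?_
    have : 0 < (Finset.univ.filter fun i => ‖γ i‖ = 1).card := Finset.card_pos.2 ⟨i, by simp [he]⟩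
    omega
  | succ N ih =>
    intro γ J₀ hle hc hγ
    by_contra hall
    push Not at hall
    obtain ⟨i₀, hi₀'⟩ := hall
    have hi₀ : ‖γ i₀‖ = 1 := le_antisymm (hle i₀) hi₀'
    have hne : γ i₀ ≠ 0 := fun h0 => by rw [h0, norm_zero] at hi₀; exact zero_ne_one hi₀
    set δ : ι → K := fun i => γ i / γ i₀ with hδdef
    have hδle : ∀ i, ‖δ i‖ = ‖γ i‖ := fun i => by rw [hδdef, norm_div, hi₀, div_one]
    have hδ : ∀ J, J₀ ≤ J → J ≤ J₀ + (N + 1) → ‖∑ i, δ i * μ i ^ p ^ J‖ < 1 := fun J h h' => by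
      simp only [hδdef, div_mul_eq_mul_div, ← Finset.sum_div, norm_div, hi₀, div_one]
      exact hγ J h h'
    have hε : ∀ i, ‖δ i ^ p - δ i‖ < 1 := by
      refine ih (fun i => δ i ^ p - δ i) (J₀ + 1) (fun i => ?_) ?_ fun J h h' => ?_
      · rw [sub_eq_add_neg]
        refine (IsUltrametricDist.norm_add_le_max _ _).trans (max_le ?_ ?_)
        · rw [norm_pow, hδle]; exact pow_le_one₀ (norm_nonneg _) (hle i)
        · rw [norm_neg, hδle]; exact hle i
      · have hsub : (Finset.univ.filter fun i => ‖δ i ^ p - δ i‖ = 1) ⊆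
            (Finset.univ.filter fun i => ‖γ i‖ = 1).erase i₀ := by
          intro i hi
          simp only [Finset.mem_filter, Finset.mem_univ, true_and] at hi
          refine Finset.mem_erase.2 ⟨?_, ?_⟩
          · rintro rfl
            simp [hδdef, div_self hne] at hi
          · simp only [Finset.mem_filter, Finset.mem_univ, true_and]
            refine le_antisymm (hle i) (not_lt.1 fun hlt => ?_)
            have h1 : ‖δ i ^ p‖ < 1 := by
              rw [norm_pow, hδle]; exact pow_lt_one₀ (norm_nonneg _) hlt hp.out.ne_zero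
            have h2 : ‖-δ i‖ < 1 := by rw [norm_neg, hδle]; exact hlt
            have := norm_add_lt_of_lt h1 h2
            rw [← sub_eq_add_neg, hi] at this
            exact lt_irrefl 1 this
        have h1 := Finset.card_le_card hsub
        rw [Finset.card_erase_of_mem (by simp [hi₀])] at h1
        omega
      · obtain ⟨J', rfl⟩ : ∃ J', J = J' + 1 := ⟨J - 1, by omega⟩
        have h1 : ‖(∑ i, δ i * μ i ^ p ^ J') ^ p‖ < 1 := by
          rw [norm_pow]
          exact pow_lt_one₀ (norm_nonneg _) (hδ J' (by omega) (by omega)) hp.out.ne_zero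
        have h3 := norm_add_lt_of_lt h1 (by simpa using hδ (J' + 1) (by omega) (by omega) :
            ‖-∑ i, δ i * μ i ^ p ^ (J' + 1)‖ < 1)
        rw [← sub_eq_add_neg, sum_pow_char] at h3
        simpa only [mul_pow, ← pow_mul, ← pow_succ, sub_mul, Finset.sum_sub_distrib] using h3
    choose c hc' hcδ using fun i =>
      TropicalRigid.near_natCast hpK (by rw [hδle]; exact hle i) (hε i)
    have h0 : c i₀ ≠ 0 := fun h0 => by
      have := hcδ i₀
      simp [hδdef, div_self hne, h0] at this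
    have hu := hind c hc' ⟨i₀, h0⟩
    have hlev : ‖(∑ i, (c i : K) * μ i) ^ p ^ J₀‖ < 1 := by
      rw [sum_pow_char_pow]
      have h2 : ‖∑ i, ((c i : K) - δ i) * μ i ^ p ^ J₀‖ < 1 := by
        refine norm_sum_lt one_pos fun i _ => ?_
        rw [norm_mul, norm_pow, norm_sub_rev]
        exact lt_of_le_of_lt (mul_le_of_le_one_right (norm_nonneg _)
          (pow_le_one₀ (norm_nonneg _) (hμ i))) (hcδ i)
      have h3 := norm_add_lt_of_lt h2 (hδ J₀ le_rfl (by omega))
      have e : ∀ i, ((c i : K)) ^ p ^ J₀ = (c i : K) := fun i => by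
        rw [← iterateFrobenius_def]; exact map_natCast _ _
      simpa [mul_pow, e, sub_mul, Finset.sum_sub_distrib] using h3
    rw [norm_pow, hu, one_pow] at hlev
    exact lt_irrefl 1 hlev

end Window

variable {p n : ℕ} [hp : Fact p.Prime]
  {K : Type} [NormedField K] [IsUltrametricDist K] [CompleteSpace K] {ψ : LTRing p n →+* K}

theorem low_indep (hn : 0 < n) {h : ℕ} (hh1 : 1 ≤ h) (hh : h < n) (hψ : IsPoint p n ψ)
    (hst : OnStratum p n h ψ) (hchar : (p : K) = 0) {S₀ kl g : ℕ} {w : ℝ} (hw : 0 < w)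
    (x : Fin g → ℕ → K) (f : Fin g → ActIdx p n → K)
    (hlead : ∀ m, HasLead ψ (tropOf ψ hh hψ hst) S₀ kl (x m) w (f m))
    (hslope : ∃ l₀, ∀ l ≥ l₀, ∀ a : Fin g → ℕ, (∃ m, ¬ p ∣ a m) →
      ‖∑ m, (a m : K) * x m l‖ = Real.exp (-(w / ((p : ℝ) ^ n) ^ l)))
    (r : ℕ) (β : Fin g → K)
    (hsmall : (fun i => ∑ m, β m * f m i ^ p ^ r) =o[actFilter p n]
      (fun i => leadSize p n (tropOf ψ hh hψ hst) S₀ kl w i ^ p ^ r)) :
    β = 0 := by
  have := (CharP.charP_iff_prime_eq_zero hp.out).2 hchar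
  set T := tropOf ψ hh hψ hst with hT
  by_contra hβ
  obtain ⟨m₁, hm₁⟩ : ∃ m, β m ≠ 0 := Function.ne_iff.1 hβ
  obtain ⟨m₀, -, hm₀⟩ :=
    Finset.exists_max_image Finset.univ (fun m => ‖β m‖) ⟨m₁, Finset.mem_univ _⟩
  set B := ‖β m₀‖ with hBdef
  have hB : 0 < B := (norm_pos_iff.2 hm₁).trans_le (hm₀ m₁ (Finset.mem_univ _))
  have hβle : ∀ m, ‖β m‖ ≤ B := fun m => hm₀ m (Finset.mem_univ _)
  set z : ℕ → ℝ := fun S => lvlArg p n w kl S with hzdef
  have hp1 : (1 : ℝ) < p := by exact_mod_cast hp.out.one_lt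
  have hp0 : (0 : ℝ) < p := one_pos.trans hp1
  have hz0 : ∀ S, 0 < z S := fun S => by
    simp only [hzdef, lvlArg]; positivity
  have hzlt : ∀ S, z S < z (S + 1) := fun S => by
    simp only [hzdef, lvlArg, pow_succ]
    have : (0 : ℝ) < (p : ℝ) ^ S * w / ((p : ℝ) ^ n) ^ kl := by positivity
    calc (p : ℝ) ^ S * w / ((p : ℝ) ^ n) ^ kl
        < (p : ℝ) * ((p : ℝ) ^ S * w / ((p : ℝ) ^ n) ^ kl) := lt_mul_of_one_lt_left this hp1
      _ = _ := by ring
  have hzq : ∀ S, T.q * z S = z (S + n) := fun S => by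
    show (p : ℝ) ^ n * z S = z (S + n)
    simp only [hzdef, lvlArg, pow_add]
    ring
  obtain ⟨z₁, hlin⟩ := T.N_eventually_linear
  obtain ⟨S₂, hS₂⟩ : ∃ S₂, ∀ S, S₂ ≤ S → z₁ ≤ z S := by
    have ht : Tendsto z atTop atTop := by
      have h1 := tendsto_pow_atTop_atTop_of_one_lt hp1
      exact (h1.atTop_mul_const hw).atTop_div_const (by positivity)
    exact eventually_atTop.1 (ht.eventually_ge_atTop z₁)
  -- all digits at a large depth
  have hev : ∀ᶠ i in actFilter p n,
      (∀ m, ∃ l₀, ∀ l ≥ l₀, ‖f m i - (∑ J ∈ Act ψ T l (z (S₀ + i.1)),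
        lamCoeff ψ l J * (ψ (teich p n i.2) * x m (l + kl) ^ p ^ (S₀ + i.1)) ^ p ^ J)
          ^ p ^ (h * kl)‖ < Real.exp (-((p : ℝ) ^ (h * kl) * T.N (z (S₀ + i.1))))) ∧
      ‖∑ m, β m * f m i ^ p ^ r‖ ≤ B / 2 * ‖leadSize p n T S₀ kl w i ^ p ^ r‖ :=
    (eventually_all.2 fun m => hlead m).and (hsmall.def (by positivity))
  rw [actFilter, eventually_comap] at hev
  obtain ⟨S₃, hS₃⟩ := eventually_atTop.1 hev
  obtain ⟨ls, hls⟩ := hslope
  set e := h * kl + r with hedef
  set S₁ := S₀ + S₃ + S₂ with hS₁def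
  set M := (g + n) * n with hMdef
  -- one level `l` for all depths in the window
  have hone : ∀ S, S₁ ≤ S → ∀ᶠ l in atTop,
      (Act ψ T l (z S)).Nonempty ∧ (∀ J ∈ Act ψ T l (z S), T.Maj ((J : ℤ) - n * l) (z S)) ∧
      T.iterN l (z S) = T.N (z S) ∧
      ∀ a : GaloisField p n, ∀ m, ‖f m (S - S₀, a) - (∑ J ∈ Act ψ T l (z S),
        lamCoeff ψ l J * (ψ (teich p n a) * x m (l + kl) ^ p ^ S) ^ p ^ J) ^ p ^ (h * kl)‖
          < Real.exp (-((p : ℝ) ^ (h * kl) * T.N (z S))) := by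
    intro S hS
    obtain ⟨la, hla⟩ := act_spec hh hψ hst (hz0 S)
    obtain ⟨li, hli⟩ := T.iterN_eventually (z S) (hz0 S)
    have hf : ∀ᶠ l in atTop, ∀ a : GaloisField p n, ∀ m,
        ‖f m (S - S₀, a) - (∑ J ∈ Act ψ T l (z S),
          lamCoeff ψ l J * (ψ (teich p n a) * x m (l + kl) ^ p ^ S) ^ p ^ J) ^ p ^ (h * kl)‖
            < Real.exp (-((p : ℝ) ^ (h * kl) * T.N (z S))) := by
      have : Finite (GaloisField p n) := inferInstance
      refine eventually_all.2 fun a => eventually_all.2 fun m => ?_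
      obtain ⟨l₀, hl₀⟩ := (hS₃ (S - S₀) (by omega) (S - S₀, a) rfl).1 m
      refine eventually_atTop.2 ⟨l₀, fun l hl => ?_⟩
      have := hl₀ l hl
      simp only [show S₀ + (S - S₀) = S by omega] at this
      exact this
    filter_upwards [eventually_ge_atTop la, eventually_ge_atTop li, hf] with l h1 h2 h3
    exact ⟨(hla l h1).1, (hla l h1).2, hli l h2, h3⟩
  obtain ⟨l, hl, hlls⟩ : ∃ l, (∀ S ∈ Finset.Icc S₁ (S₁ + M), (Act ψ T l (z S)).Nonempty ∧
      (∀ J ∈ Act ψ T l (z S), T.Maj ((J : ℤ) - n * l) (z S)) ∧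
      T.iterN l (z S) = T.N (z S) ∧
      ∀ a : GaloisField p n, ∀ m, ‖f m (S - S₀, a) - (∑ J ∈ Act ψ T l (z S),
        lamCoeff ψ l J * (ψ (teich p n a) * x m (l + kl) ^ p ^ S) ^ p ^ J) ^ p ^ (h * kl)‖
          < Real.exp (-((p : ℝ) ^ (h * kl) * T.N (z S)))) ∧ ls ≤ l :=
    (((eventually_all_finset _).2 fun S hS => hone S (Finset.mem_Icc.1 hS).1).and
      (eventually_ge_atTop ls)).exists
  set L := l + kl with hLdef
  have hnorm : ∀ m, ‖x m L‖ = Real.exp (-(w / ((p : ℝ) ^ n) ^ L)) := fun m => by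
    have hm := hls L (by omega) (fun j => if j = m then 1 else 0)
      ⟨m, by simp [hp.out.one_lt.ne']⟩
    simpa [Finset.sum_ite_eq'] using hm
  set y := x m₀ L with hy
  have hy0 : 0 < ‖y‖ := by rw [hy, hnorm]; exact Real.exp_pos _
  set μ : Fin g → K := fun m => x m L / y with hμdef
  -- every active exponent gives a small Moore sum
  have hkey : ∀ S ∈ Finset.Icc S₁ (S₁ + M), ∀ J ∈ Act ψ T l (z S),
      ‖∑ m, β m * μ m ^ p ^ (S + (J + e))‖ < B := by
    intro S hS J hJ
    obtain ⟨-, hmaj, hit, hf⟩ := hl S hS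
    have hzS : z₁ ≤ z S := hS₂ S (by have := (Finset.mem_Icc.1 hS).1; omega)
    set A := Act ψ T l (z S) with hA
    set c : ℕ → K :=
      fun J => lamCoeff ψ l J ^ p ^ e * ∑ m, β m * x m L ^ p ^ (S + (J + e)) with hcdef
    set c' : ℕ → K := fun K' => c (K' - e) with hc'def
    set LS := Real.exp (-((p : ℝ) ^ e * T.N (z S))) with hLS
    have hLS0 : 0 < LS := Real.exp_pos _
    have hexp : ∀ (k : ℕ) (X : ℝ), Real.exp (-X) ^ p ^ k = Real.exp (-((p : ℝ) ^ k * X)) :=
      fun k X => by rw [← Real.exp_nat_mul]; push_cast; ring_nf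
    have hLS' : Real.exp (-((p : ℝ) ^ (h * kl) * T.N (z S))) ^ p ^ r = LS := by
      rw [hexp, hLS, hedef, pow_add]; ring_nf
    have hbd : ∀ a : GaloisField p n,
        ‖∑ K' ∈ A.image (· + e), c' K' * ψ (teich p n a) ^ p ^ K'‖ < B * LS := by
      intro a
      set Lm : Fin g → K := fun m => (∑ J ∈ A,
        lamCoeff ψ l J * (ψ (teich p n a) * x m L ^ p ^ S) ^ p ^ J) ^ p ^ (h * kl) with hLm
      have hLm' : ∀ m, Lm m ^ p ^ r = ∑ J ∈ A,
          lamCoeff ψ l J ^ p ^ e * ψ (teich p n a) ^ p ^ (J + e) * x m L ^ p ^ (S + (J + e)) := by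
        intro m
        rw [hLm, ← pow_mul, ← pow_add, ← hedef, sum_pow_char_pow]
        refine Finset.sum_congr rfl fun J _ => ?_
        simp only [mul_pow, ← pow_mul, ← pow_add, mul_assoc, add_assoc]
      have h1 : ∑ K' ∈ A.image (· + e), c' K' * ψ (teich p n a) ^ p ^ K'
          = ∑ m, β m * Lm m ^ p ^ r := by
        rw [Finset.sum_image fun u _ v _ (huv : u + e = v + e) => by omega]
        simp only [hc'def, hcdef, Nat.add_sub_cancel, hLm', Finset.mul_sum, Finset.sum_mul]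
        rw [Finset.sum_comm]
        exact Finset.sum_congr rfl fun m _ => Finset.sum_congr rfl fun J _ => by ring
      have h2 : ‖∑ m, β m * f m (S - S₀, a) ^ p ^ r‖ < B * LS := by
        have hS' := (Finset.mem_Icc.1 hS).1
        have := (hS₃ (S - S₀) (by omega) (S - S₀, a) rfl).2
        simp only [leadSize, show S₀ + (S - S₀) = S by omega, norm_pow,
          Real.norm_of_nonneg (Real.exp_pos _).le] at this
        refine lt_of_le_of_lt this ?_
        rw [show T.h = h from rfl, hLS']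
        exact mul_lt_mul_of_pos_right (half_lt_self hB) hLS0
      have h3 : ‖∑ m, -(β m * (f m (S - S₀, a) - Lm m) ^ p ^ r)‖ < B * LS := by
        refine norm_sum_lt (by positivity) fun m _ => ?_
        rw [norm_neg, norm_mul, norm_pow]
        refine lt_of_le_of_lt (mul_le_mul_of_nonneg_right (hβle m) (by positivity))
          (mul_lt_mul_of_pos_left ?_ hB)
        rw [← hLS']
        exact pow_lt_pow_left₀ (hf a m) (norm_nonneg _) (pow_ne_zero _ hp.out.ne_zero)
      rw [h1]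
      have h4 := norm_add_lt_of_lt h2 h3
      rw [← Finset.sum_add_distrib] at h4
      refine lt_of_eq_of_lt (congrArg _ (Finset.sum_congr rfl fun m _ => ?_)) h4
      rw [sub_pow_char_pow]
      ring
    have : Finite (GaloisField p n) := inferInstance
    obtain ⟨a₁, ha₁⟩ := Finite.exists_max fun a : GaloisField p n =>
      ‖∑ K' ∈ A.image (· + e), c' K' * ψ (teich p n a) ^ p ^ K'‖
    have hchar := norm_char_le hn hψ (A.image (· + e)) (by
      simp only [Finset.mem_image]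
      rintro _ ⟨u, hu, rfl⟩ _ ⟨v, hv, rfl⟩ huv
      have hj : ∃ j, T.Maj j (T.q * z S) :=
        ⟨_, T.maj_shift (hmaj u hu) (hz0 S) (hlin _ hzS)⟩
      have d1 := T.maj_diff (hmaj u hu) (hmaj v hv) (hz0 S) (hlin _ hzS) hj
      have d2 := T.maj_diff (hmaj v hv) (hmaj u hu) (hz0 S) (hlin _ hzS) hj
      rw [show T.n = n from rfl, show T.h = h from rfl] at d1 d2
      have hdvd : (n : ℤ) ∣ ((u + e : ℕ) : ℤ) - (v + e : ℕ) :=
        Nat.modEq_iff_dvd.1 (show v + e ≡ u + e [MOD n] from huv.symm)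
      push_cast at hdvd
      have := Int.eq_zero_of_dvd_of_natAbs_lt_natAbs hdvd (by omega)
      omega) c' (norm_nonneg _) ha₁ (J + e) (Finset.mem_image.2 ⟨J, hJ, rfl⟩)
    have h5 := lt_of_le_of_lt hchar (hbd a₁)
    simp only [hc'def, hcdef, Nat.add_sub_cancel, norm_mul, norm_pow] at h5
    have hAct : ‖lamCoeff ψ l J‖ * Real.exp (-((p : ℝ) ^ J * (z S / T.q ^ l)))
        = Real.exp (-T.iterN l (z S)) := (Finset.mem_filter.1 hJ).2
    have hLS2 : ‖lamCoeff ψ l J‖ ^ p ^ e * ‖y‖ ^ p ^ (S + (J + e)) = LS := by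
      have h6 : ‖y‖ ^ p ^ (S + (J + e))
          = Real.exp (-((p : ℝ) ^ J * (z S / T.q ^ l))) ^ p ^ e := by
        rw [hy, hnorm, hexp, hexp]
        congr 2
        simp only [hzdef, lvlArg, hLdef, show T.q = (p : ℝ) ^ n from rfl, pow_add]
        field_simp
      rw [h6, ← mul_pow, hAct, hit, hexp, hLS]
    have h7 : ‖lamCoeff ψ l J‖ ^ p ^ e * ‖∑ m, β m * x m L ^ p ^ (S + (J + e))‖
        < ‖lamCoeff ψ l J‖ ^ p ^ e * (‖y‖ ^ p ^ (S + (J + e)) * B) :=
      h5.trans_le (le_of_eq (by rw [← hLS2]; ring))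
    have h8 := lt_of_mul_lt_mul_left h7 (by positivity)
    simp only [hμdef, div_pow, mul_div_assoc', ← Finset.sum_div, norm_div, norm_pow]
    rw [div_lt_iff₀ (by positivity)]
    linarith
  -- the largest active exponent
  set Jm : ℕ → ℕ := fun S =>
    if hne : (Act ψ T l (z S)).Nonempty then (Act ψ T l (z S)).max' hne else 0 with hJm
  have hJmem : ∀ S ∈ Finset.Icc S₁ (S₁ + M), Jm S ∈ Act ψ T l (z S) := fun S hS => by
    simp only [hJm, dif_pos (hl S hS).1]; exact Finset.max'_mem _ _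
  set E : ℕ → ℕ := fun S => S + (Jm S + e) with hE
  have hstep : ∀ S, S₁ ≤ S → S < S₁ + M → E (S + 1) ≤ E S + 1 := by
    intro S h h'
    have m1 : S ∈ Finset.Icc S₁ (S₁ + M) := Finset.mem_Icc.2 ⟨h, h'.le⟩
    have m2 : S + 1 ∈ Finset.Icc S₁ (S₁ + M) := Finset.mem_Icc.2 ⟨by omega, h'⟩
    have := T.maj_antitone (hz0 S) (hzlt S) ((hl S m1).2.1 _ (hJmem S m1))
      ((hl _ m2).2.1 _ (hJmem _ m2))
    simp only [hE]
    omega
  have hgrow : E S₁ + g ≤ E (S₁ + M) := by
    have m1 : S₁ ∈ Finset.Icc S₁ (S₁ + M) := Finset.mem_Icc.2 ⟨le_rfl, by omega⟩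
    have m2 : S₁ + M ∈ Finset.Icc S₁ (S₁ + M) := Finset.mem_Icc.2 ⟨by omega, le_rfl⟩
    set i₀ : ℤ := (Jm S₁ : ℤ) - n * l with hi₀
    have hshift : ∀ k : ℕ, T.Maj (i₀ - k * ((n : ℤ) - h)) (z (S₁ + k * n)) := by
      intro k
      induction k with
      | zero => simpa using (hl S₁ m1).2.1 _ (hJmem S₁ m1)
      | succ k ih =>
        have := T.maj_shift ih (hz0 _) (hlin _ (hS₂ _ (by omega)))
        rw [hzq, show S₁ + k * n + n = S₁ + (k + 1) * n by ring] at this
        have e1 : i₀ - ((k + 1 : ℕ) : ℤ) * ((n : ℤ) - h) =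
            i₀ - k * ((n : ℤ) - h) - ((T.n : ℤ) - T.h) := by
          show _ = i₀ - k * ((n : ℤ) - h) - ((n : ℤ) - h)
          push_cast; ring
        rw [e1]
        exact this
    have hk := hshift (g + n)
    have hz2 : z₁ ≤ z (S₁ + M) := hS₂ _ (by omega)
    have := T.maj_diff hk ((hl _ m2).2.1 _ (hJmem _ m2)) (hz0 _) (hlin _ hz2)
      ⟨_, T.maj_shift hk (hz0 _) (hlin _ hz2)⟩
    rw [show T.n = n from rfl, show T.h = h from rfl] at this
    simp only [hE, hMdef, hi₀] at this ⊢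
    push_cast at this
    zify
    nlinarith
  have hμ1 : ∀ m, ‖μ m‖ ≤ 1 := fun m => by
    simp only [hμdef, norm_div, hy, hnorm, div_self (Real.exp_pos _).ne', le_refl]
  have hind : ∀ c : Fin g → ℕ, (∀ i, c i < p) → (∃ i, c i ≠ 0) →
      ‖∑ i, (c i : K) * μ i‖ = 1 := by
    rintro c hc ⟨i, hi⟩
    have := hls L (by omega) c ⟨i, fun hd => hi (Nat.eq_zero_of_dvd_of_lt hd (hc i))⟩
    simp only [hμdef, mul_div_assoc', ← Finset.sum_div, norm_div, hy, this, hnorm,
      div_self (Real.exp_pos _).ne']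
  have hB0 : β m₀ ≠ 0 := norm_pos_iff.1 hB
  have hlast := moore_window μ hμ1 hind g (fun m => β m / β m₀) (E S₁)
    (fun m => by rw [norm_div]; exact div_le_one_of_le₀ (hβle m) (norm_nonneg _))
    ((Finset.card_filter_le _ _).trans (by simp)) (fun J h h' => by
      obtain ⟨S, hS1, hS2, rfl⟩ := exists_level E (Nat.le_add_right _ _) hstep h
        (h'.trans hgrow)
      have hS : S ∈ Finset.Icc S₁ (S₁ + M) := Finset.mem_Icc.2 ⟨hS1, hS2⟩
      simp only [div_mul_eq_mul_div, ← Finset.sum_div, norm_div]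
      rw [div_lt_one hB]
      exact hkey S hS (Jm S) (hJmem S hS)) m₀
  rw [div_self hB0, norm_one] at hlast
  exact lt_irrefl 1 hlast

end

end Vale.Agent.P217
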