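import Mathlib

/-!
# `p`-degree of fields and of power series images in characteristic `p`
-/

open scoped Classical

noncomputable section

namespace Vale.Agent.P217

variable {p : ℕ} [hp : Fact p.Prime]

/-- A finite extension has at most the `p`-degree of the base field. -/
theorem pDegree_finite_extension {K : Type*} [Field K] [CharP K p] (F0 : Subfield K)
    [FiniteDimensional F0 K] (t : Finset K) (ht : ∀ b ∈ t, b ∈ F0)
    (hspan : ∀ x ∈ F0, ∃ a : K → K, (∀ b ∈ t, a b ∈ F0) ∧ x = ∑ b ∈ t, a b ^ p * b) :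
    ∃ s : Finset K, s.card ≤ t.card ∧ ∀ z, ∃ a : K → K, z = ∑ b ∈ s, a b ^ p * b := by
  set Fp : Subfield K := F0.map (frobenius K p) with hFp
  set Kp : Subfield K := (⊤ : Subfield K).map (frobenius K p) with hKp
  have hle : Fp ≤ F0 := by
    rintro x ⟨y, hy, rfl⟩
    exact pow_mem hy p
  have hle' : Fp ≤ Kp := by
    rintro x ⟨y, _, rfl⟩
    exact ⟨y, Subfield.mem_top y, rfl⟩
  have hd : Subfield.relfinrank Fp Kp = Subfield.relfinrank F0 ⊤ :=
    Subfield.relfinrank_map_map F0 ⊤ (frobenius K p)
  have hd0 : 0 < Subfield.relfinrank F0 (⊤ : Subfield K) := by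
    rw [Subfield.relfinrank_top_right]; exact Module.finrank_pos
  have hbound : 0 < Subfield.relfinrank Fp F0 ∧ Subfield.relfinrank Fp F0 ≤ t.card := by
    rw [Subfield.relfinrank_eq_finrank_of_le hle]
    set E := Subfield.extendScalars hle
    let g : ↥t → E := fun b => ⟨b.1, ht _ b.2⟩
    have htop : Submodule.span Fp (Set.range g) = ⊤ := by
      rw [eq_top_iff]
      rintro ⟨x, hx⟩ -
      obtain ⟨a, ha, hxa⟩ := hspan x hx
      refine (Submodule.mem_span_range_iff_exists_fun _).2
        ⟨fun b => ⟨a b.1 ^ p, ⟨a b.1, ha _ b.2, rfl⟩⟩, ?_⟩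
      apply Subtype.ext
      rw [IntermediateField.coe_sum]
      simp only [IntermediateField.coe_smul]
      rw [hxa, ← Finset.sum_coe_sort t]
      rfl
    haveI : Module.Finite Fp E := ⟨⟨Finset.univ.image g, by simpa using htop⟩⟩
    refine ⟨Module.finrank_pos, ?_⟩
    have := finrank_range_le_card (R := Fp) g
    rw [Set.finrank, htop, finrank_top, Fintype.card_coe] at this
    exact this
  have hmul : Subfield.relfinrank Fp F0 * Subfield.relfinrank F0 ⊤ =
      Subfield.relfinrank Fp Kp * Subfield.relfinrank Kp ⊤ := by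
    rw [Subfield.relfinrank_mul_relfinrank hle le_top,
      Subfield.relfinrank_mul_relfinrank hle' le_top]
  have hK : Module.finrank Kp K = Subfield.relfinrank Fp F0 := by
    rw [← Subfield.relfinrank_top_right (A := Kp)]
    rw [hd, mul_comm (Subfield.relfinrank F0 ⊤)] at hmul
    exact (Nat.eq_of_mul_eq_mul_right hd0 hmul).symm
  haveI : FiniteDimensional Kp K := Module.finite_of_finrank_pos (hK ▸ hbound.1)
  let B := Module.finBasis Kp K
  refine ⟨Finset.univ.image B, Finset.card_image_le.trans ?_, fun z => ?_⟩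
  · simpa [hK] using hbound.2
  · have hmem : ∀ c : Kp, ∃ r : K, r ^ p = (c : K) := fun c => by
      obtain ⟨y, -, hy⟩ := c.2
      exact ⟨y, hy⟩
    choose r hr using hmem
    refine ⟨fun b => if h : ∃ i, B i = b then r (B.repr z h.choose) else 0, ?_⟩
    rw [Finset.sum_image (fun i _ j _ h => B.injective h)]
    conv_lhs => rw [← B.sum_repr z]
    refine Finset.sum_congr rfl fun i _ => ?_
    have h : ∃ j, B j = B i := ⟨i, rfl⟩
    simp only
    rw [dif_pos h, hr, B.injective h.choose_spec]
    rfl

/-- The separable closure is spanned over its `p`-th powers by what spans the base field. -/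
theorem pDegree_separableClosure {K Ω : Type*} [Field K] [Field Ω] [Algebra K Ω] [CharP K p]
    (s : Finset K) (hs : ∀ z : K, ∃ a : K → K, z = ∑ b ∈ s, a b ^ p * b) :
    ∀ z ∈ separableClosure K Ω, ∃ a : Ω → Ω,
      (∀ b ∈ s.image (algebraMap K Ω), a b ∈ separableClosure K Ω) ∧
      z = ∑ b ∈ s.image (algebraMap K Ω), a b ^ p * b := by
  intro z hz
  haveI : CharP Ω p := charP_of_injective_algebraMap (algebraMap K Ω).injective p
  haveI : ExpChar K p := ExpChar.prime hp.out
  have hsep : IsSeparable K z := mem_separableClosure_iff.1 hz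
  have heq : IntermediateField.adjoin K {z} = IntermediateField.adjoin K {z ^ p} := by
    have := IntermediateField.adjoin_simple_eq_adjoin_pow_expChar_of_isSeparable K Ω hsep p
    simpa using this
  have hint : IsIntegral K (z ^ p) := hsep.isIntegral.pow p
  have hmem : z ∈ Algebra.adjoin K {z ^ p} := by
    rw [← IntermediateField.adjoin_simple_toSubalgebra_of_isAlgebraic hint.isAlgebraic,
      IntermediateField.mem_toSubalgebra, ← heq]
    exact IntermediateField.mem_adjoin_simple_self K z
  rw [Algebra.adjoin_singleton_eq_range_aeval] at hmem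
  obtain ⟨P, hP⟩ := hmem
  choose c hc using hs
  have hinj := (algebraMap K Ω).injective
  refine ⟨fun b' => if h : ∃ b ∈ s, algebraMap K Ω b = b'
    then ∑ i ∈ Finset.range (P.natDegree + 1), algebraMap K Ω (c (P.coeff i) h.choose) * z ^ i
    else 0, fun b' _ => ?_, ?_⟩
  · simp only
    split_ifs
    · exact sum_mem fun i _ => mul_mem (IntermediateField.algebraMap_mem _ _) (pow_mem hz i)
    · exact zero_mem _
  · rw [Finset.sum_image (fun i _ j _ h => hinj h)]
    have key : ∀ b ∈ s, (if h : ∃ b₁ ∈ s, algebraMap K Ω b₁ = algebraMap K Ω b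
        then ∑ i ∈ Finset.range (P.natDegree + 1), algebraMap K Ω (c (P.coeff i) h.choose) * z ^ i
        else 0) ^ p * algebraMap K Ω b =
        ∑ i ∈ Finset.range (P.natDegree + 1),
          algebraMap K Ω (c (P.coeff i) b ^ p * b) * (z ^ p) ^ i := by
      intro b hb
      have h : ∃ b₁ ∈ s, algebraMap K Ω b₁ = algebraMap K Ω b := ⟨b, hb, rfl⟩
      rw [dif_pos h, hinj h.choose_spec.2, sum_pow_char, Finset.sum_mul]
      refine Finset.sum_congr rfl fun i _ => ?_
      rw [map_mul, map_pow, mul_pow, ← pow_mul, ← pow_mul, mul_comm i p]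
      ring
    rw [Finset.sum_congr rfl key, Finset.sum_comm]
    conv_lhs => rw [← hP]
    rw [AlgHom.toRingHom_eq_coe, RingHom.coe_coe, Polynomial.aeval_eq_sum_range]
    refine Finset.sum_congr rfl fun i _ => ?_
    rw [Algebra.smul_def, ← Finset.sum_mul, ← map_sum, ← hc]

/-- A power series over a perfect field is spanned over `p`-th powers by small monomials. -/
theorem powerSeries_pBasis {τ C : Type*} [Fintype τ] [Field C] [CharP C p] [PerfectRing C p]
    (f : MvPowerSeries τ C) :
    ∃ g : (τ → Fin p) → MvPowerSeries τ C,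
      f = ∑ β : τ → Fin p,
        g β ^ p * MvPowerSeries.monomial (Finsupp.equivFunOnFinite.symm fun i => (β i : ℕ)) 1 := by
  haveI : ExpChar C p := ExpChar.prime hp.out
  have hp0 := hp.out.ne_zero
  let g : (τ → Fin p) → MvPowerSeries τ C := fun β m =>
    (frobeniusEquiv C p).symm (MvPowerSeries.coeff
      (p • m + Finsupp.equivFunOnFinite.symm fun i => (β i : ℕ)) f)
  refine ⟨g, ?_⟩
  ext M
  let β0 : τ → Fin p := fun i => ⟨M i % p, Nat.mod_lt _ hp.out.pos⟩
  rw [map_sum, Finset.sum_eq_single β0]
  · rw [MvPowerSeries.coeff_mul_monomial, mul_one, if_pos (by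
      intro i; simp [β0, Nat.mod_le])]
    have hM : M - (Finsupp.equivFunOnFinite.symm fun i => (β0 i : ℕ)) =
        p • (Finsupp.equivFunOnFinite.symm fun i => M i / p) := by
      ext i
      have := Nat.div_add_mod (M i) p
      simp [β0]
      omega
    rw [← MvPowerSeries.map_frobenius_expand p hp0, MvPowerSeries.coeff_map, hM,
      MvPowerSeries.coeff_expand_smul]
    change _ = frobenius C p ((frobeniusEquiv C p).symm _)
    rw [frobenius_apply_frobeniusEquiv_symm, MvPowerSeries.coeff_apply, MvPowerSeries.coeff_apply]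
    refine congrArg f ?_
    ext i
    simp [β0, Nat.div_add_mod]
  · intro β _ hne
    rw [MvPowerSeries.coeff_mul_monomial]
    split_ifs with h
    · obtain ⟨i, hi⟩ := Function.ne_iff.1 hne
      rw [← MvPowerSeries.map_frobenius_expand p hp0, MvPowerSeries.coeff_map,
        MvPowerSeries.coeff_expand_of_not_dvd p hp0 (i := i), map_zero, zero_mul]
      have h' := h i
      simp only [Finsupp.tsub_apply, Finsupp.coe_equivFunOnFinite_symm] at h' ⊢
      rintro ⟨d, hd⟩
      apply hi
      ext
      have : M i = p * d + (β i : ℕ) := by omega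
      simp [β0, this, Nat.mul_add_mod, Nat.mod_eq_of_lt (β i).2]
    · rfl
  · intro h; exact absurd (Finset.mem_univ _) h

/-- The subfield generated by the image of a power series ring has small `p`-degree. -/
theorem pDegree_closure_range {τ C K : Type*} [Fintype τ] [Field C] [CharP C p] [PerfectRing C p]
    [Field K] [CharP K p] (φ : MvPowerSeries τ C →+* K) :
    ∃ t : Finset K, t.card ≤ p ^ Fintype.card τ ∧
      (∀ b ∈ t, b ∈ Subfield.closure (Set.range φ)) ∧
      ∀ x ∈ Subfield.closure (Set.range φ), ∃ a : K → K,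
        (∀ b ∈ t, a b ∈ Subfield.closure (Set.range φ)) ∧ x = ∑ b ∈ t, a b ^ p * b := by
  set F0 := Subfield.closure (Set.range φ)
  let mon : (τ → Fin p) → K := fun β =>
    φ (MvPowerSeries.monomial (Finsupp.equivFunOnFinite.symm fun i => (β i : ℕ)) 1)
  refine ⟨Finset.univ.image mon, Finset.card_image_le.trans (by simp), ?_, ?_⟩
  · intro b hb
    obtain ⟨β, -, rfl⟩ := Finset.mem_image.1 hb
    exact Subfield.subset_closure ⟨_, rfl⟩
  · intro x hx
    obtain ⟨y, hy, z, hz, rfl⟩ := Subfield.mem_closure_iff.1 hx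
    rw [← RingHom.coe_range, Subring.closure_eq] at hy hz
    obtain ⟨y', rfl⟩ := hy
    obtain ⟨z', rfl⟩ := hz
    obtain ⟨g, hg⟩ := powerSeries_pBasis (p := p) (y' * z' ^ (p - 1))
    refine ⟨fun b => (∑ β ∈ Finset.univ.filter (fun β => mon β = b), φ (g β)) / φ z', ?_, ?_⟩
    · exact fun b _ => div_mem (sum_mem fun β _ => Subfield.subset_closure ⟨_, rfl⟩)
        (Subfield.subset_closure ⟨_, rfl⟩)
    · have hdiv : φ y' / φ z' = φ (y' * z' ^ (p - 1)) / φ z' ^ p := by
        by_cases h0 : φ z' = 0
        · simp [h0, zero_pow hp.out.ne_zero]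
        · rw [map_mul, map_pow, div_eq_div_iff h0 (pow_ne_zero _ h0), mul_assoc,
            ← pow_succ, Nat.sub_add_cancel hp.out.one_le]
      rw [hdiv, hg, map_sum, Finset.sum_div,
        ← Finset.sum_fiberwise_of_maps_to (g := mon) (t := Finset.univ.image mon)
          (fun β hβ => Finset.mem_image_of_mem _ hβ)]
      refine Finset.sum_congr rfl fun b _ => ?_
      rw [div_pow, sum_pow_char, Finset.sum_div, Finset.sum_mul]
      refine Finset.sum_congr rfl fun β hβ => ?_
      rw [map_mul, map_pow, ← (Finset.mem_filter.1 hβ).2]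
      simp only [mon]
      ring

end Vale.Agent.P217
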