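import Vale.Agent.P217.Coord
import Vale.Agent.P217.PDegAux

/-! # P217: the `p`-degree of an invariant stratum -/

open scoped Classical

namespace Vale.Agent.P217

noncomputable section

variable (p n : ℕ) [hp : Fact p.Prime]

/-- In characteristic `p` the separable closure has `p`-degree at most `p^{n-k+1}`. -/
theorem pDegree_le (hn : 0 < n) {h k : ℕ} (P : Ideal (LTRing p n)) [P.IsPrime]
    (hh : 1 ≤ h) (hhk : h + 2 ≤ k) (hkn : k ≤ n) (hP : heightIdeal p n h ≤ P)
    (hu : ltU p n h ∉ P)
    (hrad : (P ⊔ Ideal.span {ltU p n h}).radical = heightIdeal p n k) :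
    ∃ s : Finset (ResAlg p n P), s.card ≤ p ^ (n - k + 1) ∧
      (∀ b ∈ s, b ∈ separableClosure (FractionRing (LTRing p n ⧸ P)) (ResAlg p n P)) ∧
      ∀ z ∈ separableClosure (FractionRing (LTRing p n ⧸ P)) (ResAlg p n P),
        ∃ a : ResAlg p n P → ResAlg p n P,
          (∀ b ∈ s, a b ∈ separableClosure (FractionRing (LTRing p n ⧸ P)) (ResAlg p n P)) ∧
          z = ∑ b ∈ s, a b ^ p * b := by
  obtain ⟨φ, hfin, -, -⟩ := exists_coord p n P hh (by omega) hkn hP hrad
  let A := LTRing p n ⧸ P
  let R0 := MvPowerSeries (Fin (n - k + 1)) (GaloisField p n)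
  let K := FractionRing A
  let ψ : R0 →+* K := (algebraMap A K).comp φ
  have hpP : (p : LTRing p n) ∈ P := hP (Ideal.subset_span ⟨0, hh, by simp [ltU]⟩)
  have hpK : (p : K) = 0 := by
    have : ((p : LTRing p n) : LTRing p n ⧸ P) = 0 := Ideal.Quotient.eq_zero_iff_mem.2 hpP
    rw [map_natCast] at this
    rw [← map_natCast (algebraMap A K), this, map_zero]
  haveI : CharP K p := (CharP.charP_iff_prime_eq_zero hp.out).2 hpK
  obtain ⟨t, htc, htm, hts⟩ := pDegree_closure_range (p := p) ψ
  set F0 := Subfield.closure (Set.range ψ) with hF0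
  letI : Algebra R0 A := φ.toAlgebra
  haveI : @Module.Finite R0 A _ _ φ.toAlgebra.toModule := hfin
  haveI : FiniteDimensional F0 K := by
    obtain ⟨G, hG⟩ := (Module.Finite.fg_top : (⊤ : Submodule R0 A).FG)
    have hint : ∀ a : A, IsIntegral F0 (algebraMap A K a) := by
      intro a
      obtain ⟨Q, hQm, hQ⟩ := IsIntegral.of_finite R0 a
      refine ⟨Q.map (ψ.codRestrict F0.toSubring fun r => Subfield.subset_closure ⟨r, rfl⟩),
        hQm.map _, ?_⟩
      have hc : (algebraMap F0 K).comp
          (ψ.codRestrict F0.toSubring fun r => Subfield.subset_closure ⟨r, rfl⟩) = ψ := rfl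
      rw [Polynomial.eval₂_map]
      erw [hc]
      have h2 := congrArg (algebraMap A K) hQ
      rw [map_zero, Polynomial.hom_eval₂] at h2
      exact h2
    set E := IntermediateField.adjoin F0 (algebraMap A K '' (G : Set A)) with hE
    haveI : Finite (algebraMap A K '' (G : Set A)) := (G.finite_toSet.image _).to_subtype
    haveI : FiniteDimensional F0 E :=
      IntermediateField.finiteDimensional_adjoin (by rintro x ⟨a, -, rfl⟩; exact hint a)
    have hA : ∀ a : A, algebraMap A K a ∈ E := by
      intro a
      have ha : a ∈ Submodule.span R0 (G : Set A) := hG ▸ Submodule.mem_top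
      induction ha using Submodule.span_induction with
      | mem x hx => exact IntermediateField.subset_adjoin F0 _ ⟨x, hx, rfl⟩
      | zero => rw [map_zero]; exact zero_mem E
      | add x y _ _ hx hy => rw [map_add]; exact add_mem hx hy
      | smul r x _ hx =>
        rw [Algebra.smul_def, map_mul]
        exact mul_mem (E.algebraMap_mem ⟨ψ r, Subfield.subset_closure ⟨r, rfl⟩⟩) hx
    have htop : E = ⊤ := eq_top_iff.2 fun z _ => by
      obtain ⟨a, b, -, rfl⟩ := IsFractionRing.div_surjective (A := A) z
      exact div_mem (hA a) (hA b)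
    exact Module.Finite.equiv
      ((IntermediateField.equivOfEq htop).trans IntermediateField.topEquiv).toLinearEquiv
  obtain ⟨s, hsc, hss⟩ := pDegree_finite_extension (p := p) F0 t htm hts
  refine ⟨s.image (algebraMap K (ResAlg p n P)), ?_, ?_,
    pDegree_separableClosure (p := p) s hss⟩
  · calc (s.image (algebraMap K (ResAlg p n P))).card ≤ s.card := Finset.card_image_le
      _ ≤ t.card := hsc
      _ ≤ p ^ Fintype.card (Fin (n - k + 1)) := htc
      _ = p ^ (n - k + 1) := by rw [Fintype.card_fin]
  · intro b hb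
    obtain ⟨c, -, rfl⟩ := Finset.mem_image.1 hb
    exact IntermediateField.algebraMap_mem _ c

end

end Vale.Agent.P217
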