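import Vale.Agent.P217.Descent

/-! # P217: the leading term of an element of `L ^ p ^ r (t)` -/

open scoped Classical
open Filter Asymptotics

namespace Vale.Agent.P217

noncomputable section

variable {L : Type} [Field L] {K : Type} [NormedField K] {I : Type}
  {p : ℕ} [hp : Fact p.Prime] [CharP L p] [CharP K p]

omit hp [CharP L p] [CharP K p] in
/-- First order expansion of a power. -/
theorem isBigO_pow_taylor {l : Filter I} {u : K} {ε : I → K} (hε : Tendsto ε l (nhds 0))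
    (m : ℕ) :
    (fun i => (u + ε i) ^ m - u ^ m - (m : K) * u ^ (m - 1) * ε i) =O[l]
      (fun i => ε i ^ 2) := by
  induction m with
  | zero => simpa using isBigO_zero (fun i => ε i ^ 2) l
  | succ m ih =>
    have h1 := ih.mul ((hε.const_add u).isBigO_one K)
    simp only [mul_one] at h1
    have h2 := (isBigO_refl (fun i => ε i ^ 2) l).const_mul_left ((m : K) * u ^ (m - 1))
    refine (h1.add h2).congr_left fun i => ?_
    rcases Nat.eq_zero_or_pos m with rfl | hm
    · simp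
    · obtain ⟨m', rfl⟩ := Nat.exists_eq_add_of_le' hm
      simp only [Nat.add_sub_cancel]
      push_cast
      ring

theorem rep_leading (G : Germ L K I) {r : ℕ} {t y : L} (ht : t ∉ (frobenius L p).fieldRange)
    (hrep : Rep p r t y) (hy : ∀ e : L, y ≠ e ^ p ^ r) :
    ∃ R < r, ∃ D : L, D ≠ 0 ∧
      (fun i => G.δ y i - G.ι D * G.δ t i ^ p ^ R)
        =O[G.l] (fun i => ‖G.δ t i‖ ^ (2 * p ^ R) + G.d i ^ p ^ r) := by
  obtain ⟨a, ha⟩ := hrep
  have hK : ExpChar K p := ExpChar.prime hp.out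
  have hcast : ∀ m : ℕ, (m : L) ^ p ^ r = (m : L) := fun m => by
    rw [← iterateFrobenius_def, map_natCast]
  set S := (Finset.range (p ^ r)).filter fun j => j ≠ 0 ∧ a j ≠ 0 with hSdef
  have hS : S.Nonempty := by
    by_contra hS
    rw [Finset.not_nonempty_iff_eq_empty, hSdef, Finset.filter_eq_empty_iff] at hS
    refine hy (a 0) (ha.trans ?_)
    rw [Finset.sum_eq_single 0]
    · simp
    · intro j hj hj0
      have h1 : a j = 0 := by simpa [hj0] using hS hj
      simp [h1, zero_pow (pow_ne_zero r hp.out.ne_zero)]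
    · intro h
      exact absurd (Finset.mem_range.2 (pow_pos hp.out.pos r)) h
  obtain ⟨j₀, hj₀, hmin⟩ := S.exists_min_image (padicValNat p) hS
  simp only [hSdef, Finset.mem_filter, Finset.mem_range] at hj₀ hmin
  set R := padicValNat p j₀ with hR
  have hdvd₀ : p ^ R ∣ j₀ := pow_padicValNat_dvd
  have hle₀ : p ^ R ≤ j₀ := Nat.le_of_dvd (Nat.pos_of_ne_zero hj₀.2.1) hdvd₀
  have hRr : R < r := (Nat.pow_lt_pow_iff_right hp.out.one_lt).1 (hle₀.trans_lt hj₀.1)
  have hdvd : ∀ j < p ^ r, a j ≠ 0 → p ^ R ∣ j := by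
    intro j hj haj
    by_cases h0 : j = 0
    · simp [h0]
    · exact (pow_dvd_pow p (hmin j ⟨hj, h0, haj⟩)).trans pow_padicValNat_dvd
  set b : ℕ → L := fun k =>
    if k + p ^ R < p ^ r then (((k + p ^ R) / p ^ R : ℕ) : L) * a (k + p ^ R) else 0 with hb
  set D : L := ∑ j ∈ Finset.range (p ^ r), b j ^ p ^ r * t ^ j with hDdef
  have hD0 : D ≠ 0 := by
    intro h0
    have h1 := rep_indep ht r b h0 (j₀ - p ^ R) (by omega)
    simp only [hb, Nat.sub_add_cancel hle₀, hj₀.1, if_true, mul_eq_zero, hj₀.2.2, or_false] at h1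
    obtain ⟨q, hq⟩ := (CharP.cast_eq_zero_iff L p _).1 h1
    have h2 : p ^ (R + 1) ∣ j₀ :=
      ⟨q, by rw [pow_succ, mul_assoc, ← hq, Nat.mul_div_cancel' hdvd₀]⟩
    have := (padicValNat_dvd_iff_le hj₀.2.1).1 h2
    omega
  have hD : D = ∑ j ∈ Finset.range (p ^ r), (((j / p ^ R : ℕ) : L) * a j) ^ p ^ r
      * t ^ (j - p ^ R) := by
    have hle : p ^ R ≤ p ^ r := Nat.pow_le_pow_right hp.out.pos hRr.le
    obtain ⟨q, hq⟩ := Nat.exists_eq_add_of_le hle
    rw [hDdef, hq]
    rw [Finset.sum_range_add (fun j => (((j / p ^ R : ℕ) : L) * a j) ^ (p ^ R + q)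
      * t ^ (j - p ^ R))]
    conv_lhs => rw [add_comm (p ^ R) q, Finset.sum_range_add]
    have hne : p ^ R + q ≠ 0 := by have := pow_pos hp.out.pos R; omega
    rw [Finset.sum_eq_zero (s := Finset.range (p ^ R)) (f := fun x => b (q + x) ^ (q + p ^ R)
        * t ^ (q + x)) (fun x _ => by
        simp only [hb, hq]
        rw [if_neg (by omega), zero_pow (by omega), zero_mul]),
      add_zero, Finset.sum_eq_zero (s := Finset.range (p ^ R)) (f := fun x =>
        (((x / p ^ R : ℕ) : L) * a x) ^ (p ^ R + q) * t ^ (x - p ^ R)) (fun x hx => by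
        rw [Nat.div_eq_of_lt (Finset.mem_range.1 hx)]
        simp [zero_pow hne]), zero_add]
    refine Finset.sum_congr rfl fun k hk => ?_
    rw [Finset.mem_range] at hk
    simp only [hb, hq]
    rw [if_pos (by omega), Nat.add_sub_cancel_left, add_comm q, add_comm k]
  refine ⟨R, hRr, D, hD0, ?_⟩
  set η : I → ℝ := fun i => ‖G.δ t i‖ ^ (2 * p ^ R) + G.d i ^ p ^ r with hη
  have hε0 : Tendsto (fun i => G.δ t i ^ p ^ R) G.l (nhds 0) := by
    have h1 : Tendsto (G.δ t) G.l (nhds 0) := (G.δ_isBigO t).trans_tendsto G.d_tendsto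
    simpa [zero_pow (pow_ne_zero R hp.out.ne_zero)] using h1.pow (p ^ R)
  have hsq : (fun i => (G.δ t i ^ p ^ R) ^ 2) =O[G.l] η := IsBigO.of_bound 1
    (Eventually.of_forall fun i => by
      have h1 : 0 ≤ G.d i ^ p ^ r := pow_nonneg (G.d_nonneg i) _
      have h2 : 0 ≤ ‖G.δ t i‖ ^ (2 * p ^ R) := by positivity
      rw [norm_pow, norm_pow, ← pow_mul, mul_comm (p ^ R), one_mul, hη,
        Real.norm_of_nonneg (add_nonneg h2 h1)]
      linarith)
  have hdP : (fun i => G.d i ^ p ^ r) =O[G.l] η := IsBigO.of_bound 1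
    (Eventually.of_forall fun i => by
      have h1 : 0 ≤ G.d i ^ p ^ r := pow_nonneg (G.d_nonneg i) _
      have h2 : 0 ≤ ‖G.δ t i‖ ^ (2 * p ^ R) := by positivity
      rw [one_mul, hη, Real.norm_of_nonneg h1, Real.norm_of_nonneg (add_nonneg h2 h1)]
      linarith)
  have hterm : ∀ j ∈ Finset.range (p ^ r), (fun i => G.δ (a j ^ p ^ r * t ^ j) i
      - G.ι ((((j / p ^ R : ℕ) : L) * a j) ^ p ^ r * t ^ (j - p ^ R)) * G.δ t i ^ p ^ R)
      =O[G.l] η := by
    intro j hj
    by_cases haj : a j = 0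
    · refine (isBigO_zero η G.l).congr' ?_ EventuallyEq.rfl
      filter_upwards [G.zero] with i h0
      simp [haj, zero_pow (pow_ne_zero r hp.out.ne_zero), Germ.δ, h0]
    obtain ⟨m, hm⟩ := hdvd j (Finset.mem_range.1 hj) haj
    have h1 : (fun i => G.δ (a j) i ^ p ^ r * G.sh t i ^ j) =O[G.l] η := by
      simpa using (((G.δ_isBigO (a j)).pow (p ^ r)).trans hdP).mul
        (((G.sh_tendsto t).pow j).isBigO_one ℝ)
    have h2 := ((isBigO_pow_taylor (u := G.ι t ^ p ^ R) hε0 m).trans hsq).const_mul_left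
      (G.ι (a j) ^ p ^ r)
    refine (h1.add h2).congr' ?_ EventuallyEq.rfl
    filter_upwards [G.mul (a j ^ p ^ r) (t ^ j), G.pow (a j) (p ^ r), G.pow t j] with i h3 h4 h5
    have hu : G.ι t ^ p ^ R + G.δ t i ^ p ^ R = G.sh t i ^ p ^ R := by
      rw [Germ.δ, sub_pow_expChar_pow]
      ring
    have e0 : G.δ (a j ^ p ^ r * t ^ j) i
        = G.sh (a j) i ^ p ^ r * G.sh t i ^ j - G.ι (a j) ^ p ^ r * G.ι t ^ j := by
      simp only [Germ.δ, h3, h4, h5, map_mul, map_pow]
    have e1 : p ^ R * (m - 1) = j - p ^ R := by rw [hm, Nat.mul_sub, mul_one]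
    rw [e0, hu, ← pow_mul, ← pow_mul, ← pow_mul, e1, ← hm,
      show j / p ^ R = m by rw [hm, Nat.mul_div_cancel_left _ (pow_pos hp.out.pos R)],
      mul_pow, hcast, map_mul, map_mul, map_natCast, map_pow, map_pow,
      Germ.δ, sub_pow_expChar_pow]
    ring
  refine (IsBigO.fun_sum hterm).congr' ?_ EventuallyEq.rfl
  filter_upwards [G.δ_sum (Finset.range (p ^ r)) fun j => a j ^ p ^ r * t ^ j] with i hi
  rw [Finset.sum_sub_distrib, ← hi, ← ha, ← Finset.sum_mul, ← map_sum, ← hD]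

end

end Vale.Agent.P217
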