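import Vale.Agent.P217.HighPairs
import Vale.Agent.P217.LowIndep
import Vale.Agent.P217.RepLeading
import Vale.Agent.P217.PDegree

/-! # P217: two deep torsion elements are related through a high `p`-power -/

open scoped Classical
open Filter Asymptotics Topology

namespace Vale.Agent.P217

noncomputable section

set_option linter.unusedSectionVars false

variable {p n : ℕ} [hp : Fact p.Prime] {F : FormalGroup (LTRing p n)} {h k : ℕ}
  {P : Ideal (LTRing p n)} [P.IsPrime] {x : (Fin (n - h) → ℤ_[p]) → ℕ → ResAlg p n P}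

theorem sepCl_span (hL : Labels p n F h P x) (hhk : h + 2 ≤ k) (hkn : k ≤ n)
    (hu : ltU p n h ∉ P) (hP : heightIdeal p n h ≤ P)
    (hrad : (P ⊔ Ideal.span {ltU p n h}).radical = heightIdeal p n k) :
    ∃ s : Finset (SepCl p n P), s.card ≤ p ^ (n - k + 1) ∧
      ∀ z : SepCl p n P, ∃ a : SepCl p n P → SepCl p n P, z = ∑ b ∈ s, a b ^ p * b := by
  obtain ⟨s, hs, hsep, hspan⟩ := pDegree_le p n hL.hn P hL.hh1 hhk hkn hP hu hrad
  set emb : {b // b ∈ s} → SepCl p n P := fun b => ⟨b.1, hsep b.1 b.2⟩ with hemb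
  refine ⟨s.attach.image emb, (Finset.card_image_le.trans (le_of_eq s.card_attach)).trans hs,
    fun z => ?_⟩
  obtain ⟨a, ha, hz⟩ := hspan (z : ResAlg p n P) z.2
  refine ⟨fun b => if hb : (b : ResAlg p n P) ∈ s then ⟨a (b : ResAlg p n P), ha _ hb⟩ else 0, ?_⟩
  apply Subtype.val_injective
  rw [hz, ← Finset.sum_attach, Finset.sum_image (g := emb) (fun u _ v _ huv =>
    Subtype.ext (congrArg (fun w : SepCl p n P => (w : ResAlg p n P)) huv))]
  rw [← IntermediateField.coe_val, map_sum]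
  refine Finset.sum_congr rfl fun b _ => ?_
  rw [map_mul, map_pow]
  simp only [hemb, IntermediateField.coe_val, dif_pos b.2]

/-- With no slow direction everything is a combination of powers of `t`. -/
theorem rep_no_slow (hL : Labels p n F h P x) (hkn : n = k) (hhk : h + 2 ≤ k)
    (hu : ltU p n h ∉ P) (hP : heightIdeal p n h ≤ P)
    (hrad : (P ⊔ Ideal.span {ltU p n h}).radical = heightIdeal p n k) {K : Type} [NormedField K]
    [CharP (SepCl p n P) p] [CharP K p] (G : Germ (SepCl p n P) K (ActIdx p n))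
    (hd : G.l = actFilter p n) {t : SepCl p n P}
    (ht : t ∉ (frobenius (SepCl p n P) p).fieldRange) (y : SepCl p n P) (r : ℕ) :
    Rep p r t y := by
  have hsmall : ∀ (z : SepCl p n P) (r' : ℕ),
      (G.δ z) =o[G.l] (fun i => (fun _ : ActIdx p n => (1 : ℝ)) i ^ p ^ r') := fun z r' => by
    simp only [one_pow]
    exact (G.δ_isBigO z).trans_isLittleO ((isLittleO_one_iff ℝ).2 G.d_tendsto)
  have hdata : SlowData G (fun _ => (1 : ℝ)) p (fun _ => 0) t 0 r := {
    d_le := ((isLittleO_one_iff ℝ).2 G.d_tendsto).isBigO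
    indep := fun _ _ β _ m hm => absurd hm (Nat.not_lt_zero m)
    t_small := fun r' _ => hsmall t r'
    t_not_pow := ht
    span := by simpa [hkn] using sepCl_span hL hhk hkn.ge hu hP hrad }
  exact hdata.rep (fun r' _ => hsmall y r') r (Nat.le_succ r)

/-- Two deep elements: the second lies in `L ^ p ^ (r + 1) (t)` for every `r` with
`r + R < h kl`, where `t` is the `p ^ R`-th root of the first. -/
theorem rep_deep (hL : Labels p n F h P x) (hhk : h + 2 ≤ k) (hkn : k ≤ n)
    (hu : ltU p n h ∉ P) (hP : heightIdeal p n h ≤ P)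
    (hrad : (P ⊔ Ideal.span {ltU p n h}).radical = heightIdeal p n k)
    [CharP (SepCl p n P) p] {S₀ c : ℕ} (D : ActFamily p n F S₀ c) (hD : FamilyOK D P)
    {f₁ f₂ : Fin (n - h) → ℤ_[p]} {kl : ℕ} (hkl : 1 ≤ kl)
    (dp : DeepPoint p n h (n - k) kl P x f₁ f₂) {e e' : Fin (n - h) → ℤ_[p]}
    (he : e ≠ 0) (he' : e' ≠ 0)
    (hew : ((p : ℝ) ^ n) ^ kl * dp.wl ≤ dp.w e) (hew' : ((p : ℝ) ^ n) ^ kl * dp.wl ≤ dp.w e')
    {t : SepCl p n P} (ht : t ∉ (frobenius (SepCl p n P) p).fieldRange) {R : ℕ}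
    (htR : t ^ p ^ R = hL.y e kl) {r₀ : ℕ} (hr₀ : r₀ + R < h * kl) :
    Rep p (r₀ + 1) t (hL.y e' kl) := by
  cases dp with
  | mk U j hpt hst w hw wl hwl hwle el helne helw helc _ _ =>
  simp only at hew hew'
  set ψ := j.comp (resMap p n P) with hψ
  have hchar : (p : U.K) = 0 := by rw [← map_natCast j, hL.natCast_p, map_zero]
  have hK : CharP U.K p := (CharP.charP_iff_prime_eq_zero hp.out).2 hchar
  have : ExpChar U.K p := ExpChar.prime hp.out
  have hker : ∀ y, ψ y = 0 ↔ y ∈ P := fun y => by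
    rw [hψ, RingHom.comp_apply, map_eq_zero, resMap_eq_zero_iff]
  have hstI := onStratum_moved D hker hD.inv hst
  have hx := hL.torsion U j hpt hst
  obtain ⟨G, hl, hGd, hδ⟩ := point_germ hL U j hpt hst D hD hw hwl hwle
  set T := tropOf ψ hL.hh hpt hst with hT
  set S : ActIdx p n → ℝ := scaleE p n T S₀ wl with hS
  have hd : (moveDist ψ D) =O[actFilter p n] S :=
    moveDist_isBigO hL.hn hL.hF hL.hh1 hL.hh hD.one_le hpt hst D hx hw.slope hchar hstI hwl hwle
  have hpow : ∀ f, f ≠ 0 → ((p : ℝ) ^ n) ^ kl * wl ≤ w f →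
      (G.δ (hL.y f kl)) =O[G.l] (fun i => S i ^ p ^ (h * kl)) := by
    intro f hf hwf
    rw [hl]
    refine (disp_pow_isBigO hL.hn hL.hF hL.hh1 hL.hh hD.one_le hpt hst D hx hw.slope hchar hf kl
      ?_ (hd.pow _)).congr' (hδ f kl) EventuallyEq.rfl
    exact scaleE_le_pow (p := p) (n := n) (T := T) rfl S₀ kl hwl hwf
  have hlittle : ∀ {a b : ℕ}, a < b →
      (fun i => S i ^ p ^ b) =o[G.l] (fun i => S i ^ p ^ a) := fun {a b} hab => by
    rw [hl]
    exact scaleE_pow_isLittleO S₀ hwl (Nat.pow_lt_pow_right hp.out.one_lt hab)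
  have ht_small : ∀ r ≤ r₀, (G.δ t) =o[G.l] (fun i => S i ^ p ^ r) := by
    intro r hr
    have h1 : (fun i => G.δ t i ^ p ^ R) =O[G.l] (fun i => (S i ^ p ^ (h * kl - R)) ^ p ^ R) := by
      refine (hpow e he hew).congr' ?_ ?_
      · filter_upwards [G.δ_pow_char p t R] with i hi
        rw [← htR, hi]
      · filter_upwards with i
        rw [← pow_mul, ← pow_add, Nat.sub_add_cancel (by omega)]
    have h2 : (G.δ t) =O[G.l] (fun i => S i ^ p ^ (h * kl - R)) :=
      IsBigO.of_pow (pow_ne_zero _ hp.out.pos.ne') h1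
    exact h2.trans_isLittleO (hlittle (by omega))
  set cfun : ℕ → SepCl p n P := fun m =>
    if hm : m < n - k then hL.y (el ⟨m, hm⟩) kl else 0 with hcfun
  have hlead : ∀ m : Fin (n - k), HasLead ψ T S₀ kl (fun l => j (x (el m) l)) wl
      (fun i => (ev ψ (D i).φ (j (x (el m) kl)) - j (x (el m) kl)) ^ p ^ (h * kl)) := by
    intro m
    have h1 := hasLead_disp hL.hn hL.hF hL.hh1 hL.hh hD.one_le hpt hst D hx hw.slope hchar hstI
      hwl hwle (helne m) (m := 0) (kl := kl) (by rw [helw m, pow_zero, one_mul]) (by omega)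
    rwa [helw m] at h1
  have hindep : ∀ r ≤ r₀, ∀ β : ℕ → U.K,
      (fun i => ∑ m ∈ Finset.range (n - k), β m * G.δ (cfun m) i ^ p ^ r) =o[G.l]
        (fun i => S i ^ p ^ r) → ∀ m < n - k, β m = 0 := by
    intro r _ β hβ m hm
    obtain ⟨κ, hκ, hlead_eq⟩ := leadSize_eq (p := p) (n := n) (T := T) rfl rfl S₀ kl hwl
    have h1 := low_indep hL.hn hL.hh1 hL.hh hpt hst hchar hwl
      (fun m l => j (x (el m) l))
      (fun m i => (ev ψ (D i).φ (j (x (el m) kl)) - j (x (el m) kl)) ^ p ^ (h * kl))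
      hlead helc r (fun m => β m) ?_
    · exact congrFun h1 ⟨m, hm⟩
    · rw [hl] at hβ
      have h2 : (fun i => S i ^ p ^ r) =O[actFilter p n]
          (fun i => leadSize p n T S₀ kl wl i ^ p ^ r) := by
        refine IsBigO.pow ?_ _
        refine IsBigO.of_bound κ⁻¹ ?_
        filter_upwards [hlead_eq] with i hi
        rw [hi, norm_mul, Real.norm_of_nonneg hκ.le, inv_mul_cancel_left₀ hκ.ne']
      refine (hβ.congr' ?_ EventuallyEq.rfl).trans_isBigO h2
      have h3 : ∀ᶠ i in actFilter p n, ∀ m : Fin (n - k),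
          (ev ψ (D i).φ (j (x (el m) kl)) - j (x (el m) kl)) ^ p ^ (h * kl)
            = G.δ (hL.y (el m) kl) i := eventually_all.2 fun m => hδ (el m) kl
      filter_upwards [h3] with i hi
      rw [← Fin.sum_univ_eq_sum_range]
      refine Finset.sum_congr rfl fun m _ => ?_
      rw [hi m]
      simp [hcfun]
  have hdata : SlowData G S p cfun t (n - k) r₀ := {
    d_le := by rw [hl, hGd]; exact hd
    indep := hindep
    t_small := ht_small
    t_not_pow := ht
    span := sepCl_span hL hhk hkn hu hP hrad }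
  exact hdata.rep (fun r hr => (hpow e' he' hew').trans_isLittleO (hlittle (by omega)))
    (r₀ + 1) le_rfl

end

end Vale.Agent.P217
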