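import Mathlib

/-! # P217: dimension bound, injectivity and finiteness for coordinate rings -/

namespace Vale.Agent.P217.NormF

/-- A series with no coefficient free of the variables in `s` lies in their ideal. -/
theorem mem_span_X {σ R : Type*} [CommRing R] [DecidableEq σ] (s : Finset σ) :
    ∀ f : MvPowerSeries σ R, (∀ d : σ →₀ ℕ, (∀ i ∈ s, d i = 0) → MvPowerSeries.coeff d f = 0) →
      f ∈ Ideal.span (MvPowerSeries.X '' (s : Set σ)) := by
  induction s using Finset.induction_on with
  | empty =>
    intro f hf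
    have : f = 0 := MvPowerSeries.ext fun d => by simpa using hf d (by simp)
    simp [this]
  | insert a s has ih =>
    intro f hf
    let r : MvPowerSeries σ R := fun d => if d a = 0 then f d else 0
    have hr : ∀ d, MvPowerSeries.coeff d r = if d a = 0 then MvPowerSeries.coeff d f else 0 :=
      fun _ => rfl
    have h1 : r ∈ Ideal.span (MvPowerSeries.X '' (s : Set σ)) := by
      refine ih r fun d hd => ?_
      rw [hr]
      split_ifs with h0
      · exact hf d (Finset.forall_mem_insert .. |>.2 ⟨h0, hd⟩)
      · rfl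
    obtain ⟨g, hg⟩ : MvPowerSeries.X a ∣ f - r := by
      rw [MvPowerSeries.X_dvd_iff]
      intro d hd
      rw [map_sub, hr, if_pos hd, sub_self]
    rw [show f = r + MvPowerSeries.X a * g by rw [← hg]; ring]
    refine add_mem (Ideal.span_mono (Set.image_mono (by simp)) h1) (Ideal.mul_mem_right _ _ ?_)
    exact Ideal.subset_span ⟨a, by simp, rfl⟩

theorem sub_C_mem_span_X {σ R : Type*} [CommRing R] [Fintype σ] (f : MvPowerSeries σ R) :
    f - MvPowerSeries.C (MvPowerSeries.coeff 0 f) ∈ Ideal.span (Set.range MvPowerSeries.X) := by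
  classical
  rw [← Set.image_univ, ← Finset.coe_univ]
  refine mem_span_X _ _ fun d hd => ?_
  have hd0 : d = 0 := Finsupp.ext fun i => hd i (Finset.mem_univ i)
  simp [hd0]

theorem spanFinrank_max_le {R : Type*} [CommRing R] [IsLocalRing R] (g : Set R) (hg : g.Finite)
    (h : IsLocalRing.maximalIdeal R ≤ Ideal.span g) (hne : ∀ x ∈ g, ¬ IsUnit x) :
    (IsLocalRing.maximalIdeal R).spanFinrank ≤ g.ncard := by
  rw [le_antisymm h (Ideal.span_le.2 fun x hx => hne x hx)]
  exact Submodule.spanFinrank_span_le_ncard_of_finite hg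

/-- A finite map to a domain with a long chain of primes is injective. -/
theorem injective_of_chain {R A : Type*} [CommRing R] [IsDomain R] [IsNoetherianRing R]
    [IsLocalRing R] [CommRing A] [IsDomain A] (φ : R →+* A) (hφ : φ.Finite) {d : ℕ}
    (hd : (IsLocalRing.maximalIdeal R).spanFinrank ≤ d) (l : LTSeries (PrimeSpectrum A))
    (hl : d ≤ l.length) : Function.Injective φ := by
  let : Algebra R A := φ.toAlgebra
  have : Module.Finite R A := hφ
  rw [RingHom.injective_iff_ker_eq_bot]
  by_contra hne
  have hmono : StrictMono fun q : PrimeSpectrum A =>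
      (⟨q.asIdeal.comap φ, Ideal.IsPrime.comap φ⟩ : PrimeSpectrum R) := fun q q' hq => by
    have h : q.asIdeal.comap (algebraMap R A) < q'.asIdeal.comap (algebraMap R A) :=
      Ideal.IsIntegral.comap_lt_comap (PrimeSpectrum.asIdeal_lt_asIdeal q q' |>.2 hq)
    exact (PrimeSpectrum.asIdeal_lt_asIdeal _ _).1 h
  let l' := l.map _ hmono
  have hbot : (⊥ : PrimeSpectrum R) < l'.head := by
    rw [← PrimeSpectrum.asIdeal_lt_asIdeal]
    refine lt_of_lt_of_le (bot_lt_iff_ne_bot.2 hne) ?_
    intro x hx
    show φ x ∈ l.head.asIdeal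
    rw [RingHom.mem_ker.1 hx]
    exact zero_mem _
  have h1 := (Order.LTSeries.length_le_krullDim (l'.cons ⊥ hbot)).trans
    (ringKrullDim_le_spanFinrank_maximalIdeal (R := R))
  simp only [RelSeries.cons_length] at h1
  have h2 : l'.length + 1 ≤ d := le_trans (by exact_mod_cast h1) hd
  have h3 : l'.length = l.length := rfl
  omega

end Vale.Agent.P217.NormF
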