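import Mathlib

/-!
Completed algebraic closures of complete nonarchimedean fields in positive characteristic.
-/

namespace Vale.Agent.P217.Point

open Polynomial UniformSpace

/-- A complete field with a perfect dense subfield of characteristic `p` is perfect. -/
theorem perfectRing_of_denseRange {K L : Type*} [Field K] [NontriviallyNormedField L]
    [CompleteSpace L] [IsUltrametricDist L] [Algebra K L] (p : ℕ) [Fact p.Prime] [CharP L p]
    [CharP K p] [PerfectRing K p] (hi : DenseRange (algebraMap K L)) : PerfectRing L p := by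
  have hp := (Fact.out : p.Prime)
  refine PerfectRing.ofSurjective L p fun x => ?_
  choose s hs using fun n : ℕ => Metric.denseRange_iff.1 hi x (1 / (n + 1)) (by positivity)
  choose r hr using fun n => surjective_frobenius K p (s n)
  have hr' : ∀ n, (algebraMap K L (r n)) ^ p = algebraMap K L (s n) := fun n => by
    rw [← map_pow, ← hr n, frobenius_def]
  have hc : CauchySeq fun n => algebraMap K L (r n) := by
    refine Metric.cauchySeq_iff'.2 fun ε hε => ?_
    obtain ⟨N, hN⟩ := exists_nat_one_div_lt (pow_pos hε p)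
    refine ⟨N, fun n hn => ?_⟩
    refine lt_of_pow_lt_pow_left₀ p hε.le ?_
    rw [dist_eq_norm, ← norm_pow, sub_pow_char, hr', hr', ← dist_eq_norm]
    refine lt_of_le_of_lt (IsUltrametricDist.dist_triangle_max _ x _) (max_lt ?_ ?_)
    · rw [dist_comm]
      refine lt_of_le_of_lt ((hs n).le.trans ?_) hN
      gcongr
    · exact (hs N).trans hN
  obtain ⟨y, hy⟩ := cauchySeq_tendsto_of_complete hc
  refine ⟨y, ?_⟩
  have h1 := hy.pow p
  simp only [hr'] at h1
  refine tendsto_nhds_unique h1 (tendsto_iff_dist_tendsto_zero.2 ?_)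
  refine squeeze_zero (fun _ => dist_nonneg) (fun n => ?_) tendsto_one_div_add_atTop_nhds_zero_nat
  rw [dist_comm]; exact (hs n).le

/-- A perfect complete nonarchimedean field with an algebraically closed dense subfield is
algebraically closed. -/
theorem isAlgClosed_of_denseRange {K L : Type*} [Field K] [NontriviallyNormedField L]
    [CompleteSpace L] [PerfectField L] [IsUltrametricDist L] [Algebra K L]
    (hi : DenseRange (algebraMap K L)) [IsAlgClosed K] : IsAlgClosed L := by
  apply IsAlgClosed.of_exists_root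
  intro f fmon firr
  have fnatdeg0 : f.natDegree ≠ 0 := (Irreducible.natDegree_pos firr).ne'
  let F := f.SplittingField
  let : NormedField F := spectralNorm.normedField L F
  let : NormedAlgebra L F := spectralNorm.normedAlgebra L F
  let a := rootOfSplits (SplittingField.splits f)
      (by simpa using degree_ne_of_natDegree_ne fnatdeg0)
  have fa0 : f.aeval a = 0 := by
    rw [← eval_map_algebraMap]
    exact eval_rootOfSplits (Polynomial.SplittingField.splits f)
      (by simpa using degree_ne_of_natDegree_ne fnatdeg0)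
  classical
  let S : Finset F := {x ∈ (f.rootSet F).toFinset | x ≠ a}
  obtain ⟨δ, δpos, hδ⟩ : ∃ δ : ℝ, 0 < δ ∧ ∀ x ∈ S, δ ≤ ‖a - x‖ := by
    rcases S.eq_empty_or_nonempty with hS | hS
    · exact ⟨1, one_pos, by simp [hS]⟩
    · refine ⟨(S.image fun x => ‖a - x‖).min' (hS.image _), ?_,
        fun x hx => Finset.min'_le _ _ (Finset.mem_image_of_mem (fun x => ‖a - x‖) hx)⟩
      simp only [Finset.lt_min'_iff, Finset.mem_image, forall_exists_index, and_imp,
        forall_apply_eq_imp_iff₂]
      intro x hx
      rw [norm_pos_iff, sub_ne_zero]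
      exact (Finset.mem_filter.1 hx).2.symm
  have hε : (δ / (max ‖a‖ 1)) ^ f.natDegree / (f.natDegree + 1) > 0 := by positivity
  obtain ⟨g, gmon, gdeg, gcoeff⟩ :=
    exists_monic_and_natDegree_eq_and_norm_map_algebraMap_coeff_sub_lt hi fmon hε
  let ⟨b, hb, hab⟩ := exists_aroots_norm_sub_lt_of_norm_coeff_sub_lt
      hε fa0 fmon (gmon.map _) (gdeg ▸ (g.natDegree_map _)) gcoeff
      (by simpa [Polynomial.map_map] using (IsAlgClosed.splits g).map ((algebraMap L F).comp _))
  have hab : ‖a - b‖ < δ := by
    rw [← Real.rpow_natCast, ← mul_comm_div, div_self, one_mul,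
        ← Real.rpow_mul (div_pos δpos (by positivity)).le, mul_inv_cancel₀] at hab
    · simpa [mul_assoc, div_mul_cancel₀ _ (by positivity : (max ‖a‖ 1) > 0).ne'] using hab
    · simp [fnatdeg0]
    · positivity
  have bbot : b ∈ (⊥ : IntermediateField L F) := by
    rw [Polynomial.aroots_def, Splits.roots_map ((IsAlgClosed.splits g).map _),
        Multiset.mem_map] at hb
    obtain ⟨bCp, _, hbCp⟩ := hb
    rw [IntermediateField.mem_bot]
    exact ⟨bCp, hbCp⟩
  simp only [Polynomial.mem_roots', ne_eq, Polynomial.map_eq_zero, Polynomial.IsRoot.def,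
    Polynomial.eval_map_algebraMap] at hb
  have abot : a ∈ (⊥ : IntermediateField L F) := by
    have masp : ((minpoly L a).map (algebraMap L F)).Splits := by
      simpa [minpoly.eq_of_irreducible_of_monic firr fa0 fmon] using
        (Polynomial.SplittingField.splits f)
    simpa [IntermediateField.adjoin_simple_eq_bot_iff.mpr bbot] using
      IsKrasner.krasner (PerfectField.separable_of_irreducible (minpoly.irreducible ⟨f, fmon, fa0⟩))
        masp ⟨(g.map _), gmon.map _, hb.2⟩ fun a' h1 h2 ↦ lt_of_lt_of_le hab (hδ a' (by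
          rw [Finset.mem_filter, Set.mem_toFinset]
          refine ⟨?_, Ne.symm h2⟩
          have hm := (isConjRoot_iff_mem_minpoly_rootSet ⟨f, fmon, fa0⟩).1 h1
          rwa [← minpoly.eq_of_irreducible_of_monic firr fa0 fmon] at hm))
  obtain ⟨y, hy⟩ := IntermediateField.mem_bot.1 abot
  refine ⟨y, ?_⟩
  have := fa0
  rw [← hy, aeval_algebraMap_apply, map_eq_zero] at this
  simpa using this

variable (F : Type*) [NontriviallyNormedField F] [CompleteSpace F] [IsUltrametricDist F]

/-- An algebraic closure of a complete nonarchimedean field, normed by the spectral norm. -/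
abbrev AlgCl := AlgebraicClosure F

noncomputable instance algClNormedField : NormedField (AlgCl F) :=
  spectralNorm.normedField F (AlgCl F)

noncomputable instance algClNormedAlgebra : NormedAlgebra F (AlgCl F) :=
  spectralNorm.normedAlgebra _ _

instance algClUltra : IsUltrametricDist (AlgCl F) :=
  IsUltrametricDist.isUltrametricDist_of_forall_norm_add_le_max_norm
    (isNonarchimedean_spectralNorm (K := F) (L := AlgebraicClosure F))

noncomputable instance algClNontrivially : NontriviallyNormedField (AlgCl F) where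
  non_trivial := by
    obtain ⟨x, hx⟩ := NontriviallyNormedField.non_trivial (α := F)
    exact ⟨algebraMap F (AlgCl F) x, by rwa [norm_algebraMap']⟩

/-- The completed algebraic closure. -/
abbrev AlgClHat := Completion (AlgCl F)

theorem norm_coe (x : AlgCl F) : ‖(x : AlgClHat F)‖ = ‖x‖ := Completion.norm_coe x

noncomputable instance hatNontrivially : NontriviallyNormedField (AlgClHat F) where
  non_trivial := by
    obtain ⟨x, hx⟩ := NontriviallyNormedField.non_trivial (α := AlgCl F)
    exact ⟨x, by rwa [norm_coe]⟩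

instance hatUltra : IsUltrametricDist (AlgClHat F) := IsUltrametricDist.of_normedAlgebra F

/-- The completed algebraic closure of a field of characteristic `p` is algebraically closed. -/
theorem isAlgClosed_hat (p : ℕ) [Fact p.Prime] [CharP F p] : IsAlgClosed (AlgClHat F) := by
  have : CharP (AlgCl F) p := charP_of_injective_algebraMap (algebraMap F (AlgCl F)).injective p
  have : CharP (AlgClHat F) p :=
    charP_of_injective_algebraMap (algebraMap (AlgCl F) (AlgClHat F)).injective p
  have : ExpChar (AlgCl F) p := ExpChar.prime Fact.out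
  have : ExpChar (AlgClHat F) p := ExpChar.prime Fact.out
  have : PerfectRing (AlgCl F) p := PerfectField.toPerfectRing p
  have : PerfectRing (AlgClHat F) p :=
    perfectRing_of_denseRange (K := AlgCl F) p Completion.denseRange_coe
  have : PerfectField (AlgClHat F) := PerfectRing.toPerfectField _ p
  exact isAlgClosed_of_denseRange (K := AlgCl F) Completion.denseRange_coe

section Laurent

open scoped Valued NNReal LaurentSeries

variable (k : Type) [Field k]

noncomputable instance laurentRankOne : Valuation.RankOne (Valued.v : Valuation k⸨X⸩ _) where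
  hom' := (WithZeroMulInt.toNNReal (show (2 : ℝ≥0) ≠ 0 by norm_num)).comp
    MonoidWithZeroHom.ValueGroup₀.embedding
  strictMono' := (WithZeroMulInt.toNNReal_strictMono (show (1 : ℝ≥0) < 2 by norm_num)).comp
    MonoidWithZeroHom.ValueGroup₀.embedding_strictMono
  exists_val_nontrivial := by
    refine ⟨((PowerSeries.X : PowerSeries k) : k⸨X⸩), ?_⟩
    have h := LaurentSeries.valuation_X_pow k 1
    rw [pow_one] at h
    rw [h]
    exact ⟨WithZero.exp_ne_zero, by decide⟩

/-- A complete algebraically closed nonarchimedean field of characteristic `p` receiving `k[[t]]`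
with `0 < |t| < 1`. -/
theorem exists_point_field (p : ℕ) [Fact p.Prime] [CharP k p] :
    ∃ (K : Type) (_ : NontriviallyNormedField K) (_ : CompleteSpace K) (_ : IsUltrametricDist K)
      (_ : IsAlgClosed K) (_ : CharP K p) (φ : PowerSeries k →+* K),
      (∀ f, ‖φ f‖ ≤ 1) ∧ (∀ f, PowerSeries.constantCoeff f ≠ 0 → ‖φ f‖ = 1) ∧
      φ PowerSeries.X ≠ 0 ∧ ‖φ PowerSeries.X‖ < 1 := by
  have hL : CharP k⸨X⸩ p := charP_of_injective_ringHom (HahnSeries.C_injective (Γ := ℤ) (R := k)) p
  let j : k⸨X⸩ →+* AlgClHat k⸨X⸩ :=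
    (algebraMap (AlgCl k⸨X⸩) (AlgClHat k⸨X⸩)).comp (algebraMap k⸨X⸩ (AlgCl k⸨X⸩))
  have hj : ∀ x, ‖j x‖ = ‖x‖ := fun x => by
    show ‖((algebraMap k⸨X⸩ (AlgCl k⸨X⸩) x : AlgCl k⸨X⸩) : AlgClHat k⸨X⸩)‖ = ‖x‖
    rw [norm_coe, norm_algebraMap']
  have : CharP (AlgClHat k⸨X⸩) p := charP_of_injective_ringHom j.injective p
  have hle : ∀ f : PowerSeries k, ‖(f : k⸨X⸩)‖ ≤ 1 := fun f =>
    Valued.toNormedField.norm_le_one_iff.2 ((LaurentSeries.val_le_one_iff_eq_coe k _).2 ⟨f, rfl⟩)
  refine ⟨AlgClHat k⸨X⸩, inferInstance, inferInstance, inferInstance,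
    isAlgClosed_hat k⸨X⸩ p, inferInstance, j.comp (HahnSeries.ofPowerSeries ℤ k), fun f => ?_,
    fun f hf => ?_, ?_, ?_⟩
  · exact (hj _).trans_le (hle f)
  · refine (hj _).trans ?_
    have hu : IsUnit f := PowerSeries.isUnit_iff_constantCoeff.2 (isUnit_iff_ne_zero.2 hf)
    obtain ⟨g, hg⟩ := hu.exists_right_inv
    have h1 : ‖(f : k⸨X⸩)‖ * ‖(g : k⸨X⸩)‖ = 1 := by
      rw [← norm_mul, ← PowerSeries.coe_mul, hg, PowerSeries.coe_one, norm_one]
    exact le_antisymm (hle f) (by nlinarith [hle g, norm_nonneg (f : k⸨X⸩)])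
  · intro h
    rw [RingHom.comp_apply] at h
    exact PowerSeries.X_ne_zero (HahnSeries.ofPowerSeries_injective
      ((map_eq_zero j).1 h |>.trans (map_zero _).symm))
  · refine (hj _).trans_lt (Valued.toNormedField.norm_lt_one_iff.2 ?_)
    have h := LaurentSeries.valuation_X_pow k 1
    rw [pow_one] at h
    rw [h]
    decide

end Laurent

end Vale.Agent.P217.Point
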