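import Vale.Agent.P217.Setup
import Vale.Agent.P217.Point

/-! # P217: extending an absolute value to a complete field receiving an algebraic extension -/

open scoped NNReal
open UniformSpace

namespace Vale.Agent.P217.NormF

variable {R : Type} [CommRing R]

/-- A nonarchimedean absolute value as a valuation. -/
noncomputable def toVal [Nontrivial R] (w : AbsoluteValue R ℝ) (hw : IsNonarchimedean w) :
    Valuation R ℝ≥0 where
  toFun x := ⟨w x, w.nonneg x⟩
  map_zero' := NNReal.eq w.map_zero
  map_one' := NNReal.eq w.map_one
  map_mul' x y := NNReal.eq (w.map_mul x y)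
  map_add_le_max' x y := hw x y

theorem norm_le_one_of_eval₂ {K : Type*} [NormedField K] [IsUltrametricDist K] (f : R →+* K)
    (hf : ∀ r, ‖f r‖ ≤ 1) (q : Polynomial R) (hq : q.Monic) (z : K) (hz : q.eval₂ f z = 0) :
    ‖z‖ ≤ 1 := by
  by_contra h
  rw [not_le] at h
  rw [Polynomial.eval₂_eq_sum_range, Finset.sum_range_succ, hq.coeff_natDegree, map_one,
    one_mul, add_eq_zero_iff_neg_eq] at hz
  have hd : ‖z ^ q.natDegree‖
      = ‖∑ i ∈ Finset.range q.natDegree, f (q.coeff i) * z ^ i‖ := by rw [← hz, norm_neg]
  rcases Nat.eq_zero_or_pos q.natDegree with h0 | h0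
  · rw [h0] at hd
    simp at hd
  · obtain ⟨i, hi, hle⟩ := IsUltrametricDist.exists_norm_finsetSum_le
      (Finset.range q.natDegree) fun i => f (q.coeff i) * z ^ i
    have hi' : i < q.natDegree :=
      Finset.mem_range.1 (hi ⟨0, Finset.mem_range.2 h0⟩)
    rw [← hd, norm_pow, norm_mul, norm_pow] at hle
    have := hle.trans (mul_le_of_le_one_left (pow_nonneg (norm_nonneg z) i) (hf _))
    exact absurd this (not_le.2 (pow_lt_pow_right₀ h hi'))

/-- An absolute value bounded by one extends to a complete field receiving any algebraic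
extension, integral elements keeping norm at most one. -/
theorem exists_extension [IsDomain R] {L : Type} [Field L] (ι : R →+* L)
    (hι : Function.Injective ι) (halg : @Algebra.IsAlgebraic R L _ _ ι.toAlgebra)
    (w : AbsoluteValue R ℝ) (hw : IsNonarchimedean w) (hw1 : ∀ x, w x ≤ 1)
    (hnt : ∃ x, 0 < w x ∧ w x < 1) :
    ∃ (U : UField) (j : L →+* U.K), (∀ r, ‖j (ι r)‖ = w r) ∧
      ∀ z, ι.IsIntegralElem z → ‖j z‖ ≤ 1 := by
  have hS : nonZeroDivisors R ≤ (toVal w hw).supp.primeCompl := by
    intro x hx hmem
    have h0 : w x = 0 := congrArg NNReal.toReal ((Valuation.mem_supp_iff _ _).1 hmem)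
    exact nonZeroDivisors.ne_zero hx (w.eq_zero.1 h0)
  let vF : Valuation (FractionRing R) ℝ≥0 :=
    (toVal w hw).extendToLocalization hS (FractionRing R)
  let aF : AbsoluteValue (FractionRing R) ℝ :=
    { toFun := fun x => (vF x : ℝ)
      map_mul' := fun x y => by rw [map_mul, NNReal.coe_mul]
      nonneg' := fun x => NNReal.coe_nonneg _
      eq_zero' := fun x => by rw [NNReal.coe_eq_zero, Valuation.zero_iff]
      add_le' := fun x y => (NNReal.coe_le_coe.2 (vF.map_add x y)).trans
        (by push_cast; exact max_le_add_of_nonneg (NNReal.coe_nonneg _) (NNReal.coe_nonneg _)) }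
  let : NormedField (FractionRing R) := aF.toNormedField
  have hn : ∀ r, ‖algebraMap R (FractionRing R) r‖ = w r := fun r => by
    show ((vF (algebraMap R (FractionRing R) r) : ℝ≥0) : ℝ) = w r
    rw [Valuation.extendToLocalization_apply_map_apply]
    rfl
  have : IsUltrametricDist (FractionRing R) :=
    IsUltrametricDist.isUltrametricDist_of_forall_norm_add_le_max_norm fun x y => by
      show ((vF (x + y) : ℝ≥0) : ℝ) ≤ max ((vF x : ℝ≥0) : ℝ) ((vF y : ℝ≥0) : ℝ)
      exact_mod_cast vF.map_add x y
  let : NontriviallyNormedField (Completion (FractionRing R)) :=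
    { (inferInstance : NormedField (Completion (FractionRing R))) with
      non_trivial := by
        obtain ⟨x, hx0, hx1⟩ := hnt
        refine ⟨(((algebraMap R (FractionRing R) x)⁻¹ : FractionRing R) :
          Completion (FractionRing R)), ?_⟩
        rw [Completion.norm_coe, norm_inv, hn]
        exact one_lt_inv_iff₀.2 ⟨hx0, hx1⟩ }
  have : IsUltrametricDist (Completion (FractionRing R)) :=
    IsUltrametricDist.isUltrametricDist_of_forall_norm_add_le_max_norm fun x y => by
      induction x, y using Completion.induction_on₂ with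
      | hp => exact isClosed_le (by fun_prop) (by fun_prop)
      | ih a b =>
        rw [← Completion.coe_add, Completion.norm_coe, Completion.norm_coe, Completion.norm_coe]
        exact IsUltrametricDist.norm_add_le_max a b
  let g : R →+* Point.AlgCl (Completion (FractionRing R)) :=
    (algebraMap (Completion (FractionRing R)) (Point.AlgCl (Completion (FractionRing R)))).comp
      (Completion.coeRingHom.comp (algebraMap R (FractionRing R)))
  have hg : ∀ r, ‖g r‖ = w r := fun r => by
    show ‖algebraMap (Completion (FractionRing R)) (Point.AlgCl (Completion (FractionRing R)))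
      ((algebraMap R (FractionRing R) r : FractionRing R) : Completion (FractionRing R))‖ = w r
    rw [norm_algebraMap', Completion.norm_coe, hn]
  have hginj : Function.Injective g := (injective_iff_map_eq_zero g).2 fun r hr =>
    w.eq_zero.1 (by rw [← hg, hr, norm_zero])
  let : Algebra R L := ι.toAlgebra
  let : Algebra R (Point.AlgCl (Completion (FractionRing R))) := g.toAlgebra
  have : Module.IsTorsionFree R L := Module.isTorsionFree_iff_algebraMap_injective.2 hι
  have : Module.IsTorsionFree R (Point.AlgCl (Completion (FractionRing R))) :=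
    Module.isTorsionFree_iff_algebraMap_injective.2 hginj
  have : Algebra.IsAlgebraic R L := halg
  let l : L →ₐ[R] Point.AlgCl (Completion (FractionRing R)) := IsAlgClosed.lift
  let j : L →+* Point.AlgClHat (Completion (FractionRing R)) :=
    Completion.coeRingHom.comp l.toRingHom
  have hjn : ∀ z, ‖j z‖ = ‖l z‖ := fun z => Completion.norm_coe _
  refine ⟨⟨Point.AlgClHat (Completion (FractionRing R))⟩, j, fun r => ?_, fun z hz => ?_⟩
  · rw [hjn, ← hg]
    exact congrArg _ (l.commutes r)
  · rw [hjn]
    obtain ⟨q, hq, hq0⟩ := hz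
    refine norm_le_one_of_eval₂ g (fun r => (hg r).trans_le (hw1 r)) q hq _ ?_
    have := congrArg l hq0
    rwa [map_zero, ← AlgHom.coe_toRingHom, Polynomial.hom_eval₂,
      show (l : L →+* Point.AlgCl (Completion (FractionRing R))).comp ι = g from
        RingHom.ext fun r => l.commutes r] at this

end Vale.Agent.P217.NormF
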