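import Mathlib

/-! # P217: monomial absolute values on power series rings -/

namespace Vale.Agent.P217.NormF

variable {σ C : Type*} [Finite σ] [CommRing C]

/-- The size of a term. -/
noncomputable def term (v : AbsoluteValue C ℝ) (c : σ → ℝ) (f : MvPowerSeries σ C)
    (t : σ →₀ ℕ) : ℝ :=
  v (MvPowerSeries.coeff t f) * t.prod (c · ^ ·)

omit [Finite σ] in
theorem prod_le_pow (c : σ → ℝ) (hc0 : ∀ i, 0 < c i) (hc1 : ∀ i, c i < 1) (t : σ →₀ ℕ) (i : σ) :
    t.prod (c · ^ ·) ≤ c i ^ t i := by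
  classical
  by_cases hi : i ∈ t.support
  · rw [Finsupp.prod, ← Finset.mul_prod_erase _ _ hi]
    exact mul_le_of_le_one_right (pow_nonneg (hc0 i).le _)
      (Finset.prod_le_one (fun j _ => pow_nonneg (hc0 j).le _)
        fun j _ => pow_le_one₀ (hc0 j).le (hc1 j).le)
  · rw [Finsupp.notMem_support_iff.1 hi, pow_zero, Finsupp.prod]
    exact Finset.prod_le_one (fun j _ => pow_nonneg (hc0 j).le _)
        fun j _ => pow_le_one₀ (hc0 j).le (hc1 j).le

theorem finite_big (c : σ → ℝ) (hc0 : ∀ i, 0 < c i) (hc1 : ∀ i, c i < 1) {ε : ℝ} (hε : 0 < ε) :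
    {t : σ →₀ ℕ | ε ≤ t.prod (c · ^ ·)}.Finite := by
  classical
  have := Fintype.ofFinite σ
  choose N hN using fun i => exists_pow_lt_of_lt_one hε (hc1 i)
  refine (Set.finite_range
    (fun u : (i : σ) → Fin (N i) => Finsupp.equivFunOnFinite.symm fun i => (u i : ℕ))).subset ?_
  intro t ht
  have hb : ∀ i, t i < N i := fun i => by
    by_contra h
    have := pow_le_pow_of_le_one (hc0 i).le (hc1 i).le (not_lt.1 h)
    linarith [hN i, prod_le_pow c hc0 hc1 t i, ht.out]
  exact ⟨fun i => ⟨t i, hb i⟩, by ext i; simp⟩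

omit [Finite σ] in
theorem prod_add (c : σ → ℝ) (a b : σ →₀ ℕ) :
    (a + b).prod (c · ^ ·) = a.prod (c · ^ ·) * b.prod (c · ^ ·) := by
  classical
  exact Finsupp.prod_add_index' (fun i => pow_zero _) fun i m k => pow_add _ _ _

theorem exists_achieves (v : AbsoluteValue C ℝ) (c : σ → ℝ) (hv1 : ∀ x, v x ≤ 1)
    (hc0 : ∀ i, 0 < c i) (hc1 : ∀ i, c i < 1) (f : MvPowerSeries σ C) (hf : f ≠ 0) :
    ∃ S : Finset (σ →₀ ℕ), S.Nonempty ∧
      (∀ t ∈ S, term v c f t = MvPowerSeries.gaussNorm v c f) ∧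
      ∀ t ∉ S, term v c f t < MvPowerSeries.gaussNorm v c f := by
  classical
  obtain ⟨t0, ht0⟩ := (MvPowerSeries.ne_zero_iff_exists_coeff_ne_zero f).1 hf
  have h0 : 0 < term v c f t0 :=
    mul_pos (v.pos ht0) (Finset.prod_pos fun i _ => pow_pos (hc0 i) _)
  have hfin : {t | term v c f t0 ≤ term v c f t}.Finite :=
    (finite_big c hc0 hc1 h0).subset fun t ht => ht.out.trans
      (mul_le_of_le_one_left (Finset.prod_nonneg fun i _ => pow_nonneg (hc0 i).le _) (hv1 _))
  obtain ⟨m, hm, hmax⟩ := hfin.toFinset.exists_max_image (term v c f)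
    ⟨t0, hfin.mem_toFinset.2 (le_refl (term v c f t0))⟩
  have hall : ∀ t, term v c f t ≤ term v c f m := fun t => by
    by_cases ht : term v c f t0 ≤ term v c f t
    · exact hmax t (hfin.mem_toFinset.2 ht)
    · exact (not_le.1 ht).le.trans (hfin.mem_toFinset.1 hm)
  have hval : MvPowerSeries.gaussNorm v c f = term v c f m :=
    le_antisymm (ciSup_le hall)
      (MvPowerSeries.le_gaussNorm v c f ⟨_, Set.forall_mem_range.2 hall⟩ m)
  refine ⟨hfin.toFinset.filter fun t => term v c f t = term v c f m, ⟨m, ?_⟩, ?_, ?_⟩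
  · simp [hm]
  · intro t ht
    rw [hval]
    exact (Finset.mem_filter.1 ht).2
  · intro t ht
    rw [hval]
    refine (hall t).lt_of_ne fun h => ht (Finset.mem_filter.2 ⟨hfin.mem_toFinset.2 ?_, h⟩)
    exact (hfin.mem_toFinset.1 hm).trans h.ge

omit [Finite σ] in
theorem hasGaussNorm (v : AbsoluteValue C ℝ) (c : σ → ℝ) (hv1 : ∀ x, v x ≤ 1)
    (hc0 : ∀ i, 0 < c i) (hc1 : ∀ i, c i < 1) (f : MvPowerSeries σ C) :
    MvPowerSeries.HasGaussNorm v c f :=
  ⟨1, Set.forall_mem_range.2 fun t => mul_le_one₀ (hv1 _)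
    (Finset.prod_nonneg fun i _ => pow_nonneg (hc0 i).le _)
    (Finset.prod_le_one (fun i _ => pow_nonneg (hc0 i).le _)
      fun i _ => pow_le_one₀ (hc0 i).le (hc1 i).le)⟩

theorem gaussNorm_mul [Nontrivial C] (v : AbsoluteValue C ℝ) (hv : IsNonarchimedean v) (c : σ → ℝ)
    (hv1 : ∀ x, v x ≤ 1) (hc0 : ∀ i, 0 < c i) (hc1 : ∀ i, c i < 1) (f g : MvPowerSeries σ C) :
    MvPowerSeries.gaussNorm v c (f * g)
      = MvPowerSeries.gaussNorm v c f * MvPowerSeries.gaussNorm v c g := by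
  classical
  by_cases hf : f = 0
  · simp [hf, MvPowerSeries.gaussNorm_zero v c v.map_zero]
  by_cases hg : g = 0
  · simp [hg, MvPowerSeries.gaussNorm_zero v c v.map_zero]
  have hb := hasGaussNorm v c hv1 hc0 hc1
  obtain ⟨S, hS, hSe, hSl⟩ := exists_achieves v c hv1 hc0 hc1 f hf
  obtain ⟨T, hT, hTe, hTl⟩ := exists_achieves v c hv1 hc0 hc1 g hg
  obtain ⟨a, ha, b, hb', hu⟩ := UniqueSums.uniqueAdd_of_nonempty hS hT
  refine MvPowerSeries.gaussNorm_mul_eq_mul v c f g (hb f) (hb g) (hb _) v.nonneg v.map_zero hv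
    v.map_mul v.map_neg (fun x h => v.eq_zero.1 h) hc0
    ⟨a, b, hSe a ha, hTe b hb', ?_⟩
  rintro ⟨x, y⟩ hxy hne
  have hxy' : x + y = a + b := by simpa using hxy
  have hpos : ∀ t : σ →₀ ℕ, 0 < t.prod (c · ^ ·) := fun t =>
    Finset.prod_pos fun i _ => pow_pos (hc0 i) _
  have hx : term v c f x ≤ MvPowerSeries.gaussNorm v c f :=
    MvPowerSeries.le_gaussNorm v c f (hb f) x
  have hy : term v c g y ≤ MvPowerSeries.gaussNorm v c g :=
    MvPowerSeries.le_gaussNorm v c g (hb g) y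
  have hA := hSe a ha
  have hB := hTe b hb'
  have hA0 : 0 < MvPowerSeries.gaussNorm v c f :=
    lt_of_le_of_ne (MvPowerSeries.gaussNorm_nonneg v c f v.nonneg) fun h => hf
      ((MvPowerSeries.gaussNorm_eq_zero_iff v c f v.map_zero v.nonneg
        (fun x h => v.eq_zero.1 h) hc0 (hb f)).1 h.symm)
  have hB0 : 0 < MvPowerSeries.gaussNorm v c g :=
    lt_of_le_of_ne (MvPowerSeries.gaussNorm_nonneg v c g v.nonneg) fun h => hg
      ((MvPowerSeries.gaussNorm_eq_zero_iff v c g v.map_zero v.nonneg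
        (fun x h => v.eq_zero.1 h) hc0 (hb g)).1 h.symm)
  have key : term v c f x * term v c g y < term v c f a * term v c g b := by
    rw [hA, hB]
    by_cases hxS : x ∈ S
    · have hyT : y ∉ T := fun hyT => hne (Prod.ext (hu hxS hyT hxy').1 (hu hxS hyT hxy').2)
      calc _ ≤ MvPowerSeries.gaussNorm v c f * term v c g y :=
            mul_le_mul_of_nonneg_right hx (mul_nonneg (v.nonneg _) (hpos _).le)
        _ < _ := mul_lt_mul_of_pos_left (hTl y hyT) hA0
    · calc _ ≤ term v c f x * MvPowerSeries.gaussNorm v c g :=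
            mul_le_mul_of_nonneg_left hy (mul_nonneg (v.nonneg _) (hpos _).le)
        _ < _ := mul_lt_mul_of_pos_right (hSl x hxS) hB0
  have hp := prod_add c x y
  rw [hxy', prod_add c a b] at hp
  simp only [term] at key
  rw [v.map_mul]
  refine lt_of_mul_lt_mul_right ?_ (mul_pos (hpos a) (hpos b)).le
  calc _ = v (MvPowerSeries.coeff x f) * x.prod (c · ^ ·) *
        (v (MvPowerSeries.coeff y g) * y.prod (c · ^ ·)) := by rw [hp]; ring
    _ < _ := key
    _ = _ := by ring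

/-- The monomial absolute value with prescribed sizes of the variables. -/
theorem exists_gauss [Nontrivial C] (v : AbsoluteValue C ℝ) (hv : IsNonarchimedean v)
    (hv1 : ∀ x, v x ≤ 1) (c : σ → ℝ) (hc0 : ∀ i, 0 < c i) (hc1 : ∀ i, c i < 1) :
    ∃ w : AbsoluteValue (MvPowerSeries σ C) ℝ, IsNonarchimedean w ∧ (∀ f, w f ≤ 1) ∧
      (∀ x, w (MvPowerSeries.C x) = v x) ∧ ∀ i, w (MvPowerSeries.X i) = c i := by
  classical
  have hb := hasGaussNorm v c hv1 hc0 hc1
  have hna := fun f g => MvPowerSeries.gaussNorm_add_le_max v c f g (fun i => (hc0 i).le)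
    v.nonneg hv (hb f) (hb g)
  have hnn := fun f => MvPowerSeries.gaussNorm_nonneg v c f v.nonneg
  have hsingle : ∀ (d : σ →₀ ℕ) (x : C),
      MvPowerSeries.gaussNorm v c (MvPowerSeries.monomial d x) = v x * d.prod (c · ^ ·) := by
    intro d x
    refine le_antisymm (ciSup_le fun t => ?_) ?_
    · rw [MvPowerSeries.coeff_monomial]
      split_ifs with h
      · rw [h]
      · rw [v.map_zero, zero_mul]
        exact mul_nonneg (v.nonneg _) (Finset.prod_nonneg fun i _ => pow_nonneg (hc0 i).le _)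
    · have := MvPowerSeries.le_gaussNorm v c (MvPowerSeries.monomial d x) (hb _) d
      rwa [MvPowerSeries.coeff_monomial_same] at this
  refine ⟨{
    toFun := fun f => MvPowerSeries.gaussNorm v c f
    map_mul' := gaussNorm_mul v hv c hv1 hc0 hc1
    nonneg' := hnn
    eq_zero' := fun f => MvPowerSeries.gaussNorm_eq_zero_iff v c f v.map_zero v.nonneg
      (fun x h => v.eq_zero.1 h) hc0 (hb f)
    add_le' := fun f g => (hna f g).trans (max_le_add_of_nonneg (hnn f) (hnn g)) },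
    hna, fun f => ciSup_le fun t => ?_, fun x => ?_, fun i => ?_⟩
  · exact mul_le_one₀ (hv1 _) (Finset.prod_nonneg fun i _ => pow_nonneg (hc0 i).le _)
      (Finset.prod_le_one (fun i _ => pow_nonneg (hc0 i).le _)
        fun i _ => pow_le_one₀ (hc0 i).le (hc1 i).le)
  · show MvPowerSeries.gaussNorm v c (MvPowerSeries.C x) = v x
    rw [← MvPowerSeries.monomial_zero_eq_C_apply, hsingle]
    simp
  · show MvPowerSeries.gaussNorm v c (MvPowerSeries.X i) = c i
    rw [MvPowerSeries.X_def, hsingle]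
    simp

end Vale.Agent.P217.NormF
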