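import Vale.Agent.P217.Setup
import Vale.Agent.P217.Coord
import Vale.Agent.P217.NormGauss
import Vale.Agent.P217.NormExtend
import Vale.Agent.P217.NormCoord

/-! # P217: coordinates on an invariant stratum and monomial norms -/

open scoped Classical

namespace Vale.Agent.P217

noncomputable section

namespace NormF

theorem finite_of_residue {R A : Type*} [CommRing R] [CommRing A] [IsNoetherianRing A]
    [IsLocalRing A] (φ : R →+* A) (I : Ideal R) [IsPrecomplete I R]
    (hI : I.map φ ≤ IsLocalRing.maximalIdeal A)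
    (hres : ∀ a, ∃ c, a - φ c ∈ IsLocalRing.maximalIdeal A) (N : ℕ)
    (hN : IsLocalRing.maximalIdeal A ^ N ≤ I.map φ) : φ.Finite := by
  let : Algebra R A := φ.toAlgebra
  change Module.Finite R A
  set mA := IsLocalRing.maximalIdeal A
  have hle : ((mA ^ N).restrictScalars R) ≤ I • (⊤ : Submodule R A) := by
    rw [Ideal.smul_top_eq_map, Submodule.restrictScalars_le]
    exact hN
  have hspan : ∀ r : ℕ, ∃ T : Finset A,
      Submodule.span R (T : Set A) ⊔ (mA ^ r).restrictScalars R = ⊤ := by
    intro r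
    induction r with
    | zero => exact ⟨∅, by simp⟩
    | succ r ih =>
      obtain ⟨T, hT⟩ := ih
      obtain ⟨G, hG⟩ := IsNoetherian.noetherian (mA ^ r)
      refine ⟨T ∪ G, eq_top_iff.2 ?_⟩
      rw [← hT, Finset.coe_union, Submodule.span_union]
      refine sup_le (le_sup_left.trans le_sup_left) ?_
      intro x hx
      rw [Submodule.restrictScalars_mem, ← hG] at hx
      have hsmul : ∀ (a : A), ∀ g ∈ (G : Set A), a * g ∈
          Submodule.span R (T : Set A) ⊔ Submodule.span R (G : Set A) ⊔
            (mA ^ (r + 1)).restrictScalars R := by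
        intro a g hg
        obtain ⟨c, hc⟩ := hres a
        have e : a * g = c • g + (a - φ c) * g := by
          rw [Algebra.smul_def, RingHom.algebraMap_toAlgebra]; ring
        rw [e]
        refine add_mem (Submodule.mem_sup_left (Submodule.mem_sup_right
          (Submodule.smul_mem _ _ (Submodule.subset_span hg)))) (Submodule.mem_sup_right ?_)
        rw [Submodule.restrictScalars_mem, show mA ^ (r + 1) = mA * mA ^ r by
          rw [add_comm, Ideal.IsTwoSided.pow_add, Submodule.pow_one]]
        exact Ideal.mul_mem_mul hc (hG ▸ Submodule.subset_span hg)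
      obtain ⟨l, -, rfl⟩ := Submodule.mem_span_finset.1 hx
      exact Submodule.sum_mem _ fun g hg => by rw [smul_eq_mul]; exact hsmul _ g hg
  have hIne : I.map (algebraMap R A) ≠ ⊤ := fun h =>
    (IsLocalRing.maximalIdeal.isMaximal A).ne_top (eq_top_iff.2 (h ▸ hI))
  have : IsHausdorff I A :=
    IsHausdorff.map_algebraMap_iff.1 (IsHausdorff.of_isLocalRing _ A hIne)
  obtain ⟨T, hT⟩ := hspan N
  refine finite_of_precomplete I T (eq_top_iff.2 (le_trans ?_ (sup_le_sup_left hle _)))
  rw [hT]

/-- Finiteness over a power series ring over a complete base, in two stages. -/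
theorem finite_two_stage {σ D A : Type*} [Finite σ] [CommRing D] [CommRing A] [IsNoetherianRing A]
    [IsLocalRing A] (φ : MvPowerSeries σ D →+* A) (d : D) [IsPrecomplete (Ideal.span {d}) D]
    (hd : φ (MvPowerSeries.C d) ∈ IsLocalRing.maximalIdeal A)
    (hX : ∀ i, φ (MvPowerSeries.X i) ∈ IsLocalRing.maximalIdeal A)
    (hres : ∀ a, ∃ c, a - φ (MvPowerSeries.C c) ∈ IsLocalRing.maximalIdeal A) (N : ℕ)
    (hN : IsLocalRing.maximalIdeal A ^ N ≤ Ideal.span (insert (φ (MvPowerSeries.C d))
      (Set.range fun i => φ (MvPowerSeries.X i)))) : φ.Finite := by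
  let I : Ideal (MvPowerSeries σ D) := Ideal.span (Set.range MvPowerSeries.X)
  have : IsPrecomplete I (MvPowerSeries σ D) :=
    (inferInstance : IsAdicComplete I (MvPowerSeries σ D)).toIsPrecomplete
  let J : Ideal A := I.map φ
  have hJle : J ≤ IsLocalRing.maximalIdeal A := by
    simp only [J, I, Ideal.map_span, Ideal.span_le]
    rintro _ ⟨_, ⟨j, rfl⟩, rfl⟩
    exact hX j
  have hJne : J ≠ ⊤ := fun h =>
    (IsLocalRing.maximalIdeal.isMaximal A).ne_top (eq_top_iff.2 (h ▸ hJle))
  have : Nontrivial (A ⧸ J) := Ideal.Quotient.nontrivial_iff.2 hJne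
  have : IsLocalRing (A ⧸ J) := IsLocalRing.of_surjective' _ Ideal.Quotient.mk_surjective
  have hmM : IsLocalRing.maximalIdeal (A ⧸ J)
      = (IsLocalRing.maximalIdeal A).map (Ideal.Quotient.mk J) :=
    (IsLocalRing.map_maximalIdeal_of_surjective (Ideal.Quotient.mk J)
      Ideal.Quotient.mk_surjective).symm
  let ψ : D →+* A ⧸ J := (Ideal.Quotient.mk J).comp (φ.comp MvPowerSeries.C)
  have hfin : ψ.Finite := by
    refine finite_of_residue ψ (Ideal.span {d}) ?_ ?_ N ?_
    · rw [Ideal.map_span, Set.image_singleton, Ideal.span_singleton_le_iff_mem, hmM]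
      exact Ideal.mem_map_of_mem _ hd
    · intro a
      obtain ⟨a, rfl⟩ := Ideal.Quotient.mk_surjective a
      obtain ⟨c, hc⟩ := hres a
      refine ⟨c, ?_⟩
      rw [hmM]
      simpa [ψ] using Ideal.mem_map_of_mem (Ideal.Quotient.mk J) hc
    · rw [hmM, ← Ideal.map_pow]
      refine (Ideal.map_mono hN).trans ?_
      rw [Ideal.map_span, Ideal.map_span, Ideal.span_le]
      rintro _ ⟨x, hx, rfl⟩
      rcases hx with rfl | ⟨j, rfl⟩
      · exact Ideal.subset_span ⟨d, rfl, rfl⟩
      · rw [SetLike.mem_coe, Ideal.Quotient.eq_zero_iff_mem (I := J) |>.2 (Ideal.mem_map_of_mem φ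
            (Ideal.subset_span (s := Set.range MvPowerSeries.X) ⟨j, rfl⟩))]
        exact zero_mem _
  let : Algebra D (A ⧸ J) := ψ.toAlgebra
  obtain ⟨T, hT⟩ := (hfin : Module.Finite D (A ⧸ J)).fg_top
  let : Algebra (MvPowerSeries σ D) A := φ.toAlgebra
  change Module.Finite (MvPowerSeries σ D) A
  have : IsHausdorff I A :=
    IsHausdorff.map_algebraMap_iff.1 (IsHausdorff.of_isLocalRing _ A hJne)
  choose lift hlift using Ideal.Quotient.mk_surjective (I := J)
  refine finite_of_precomplete I (T.image lift) (eq_top_iff.2 fun a _ => ?_)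
  have ha : Ideal.Quotient.mk J a ∈ Submodule.span D (T : Set (A ⧸ J)) := by
    rw [hT]; exact Submodule.mem_top
  obtain ⟨l, -, hl⟩ := Submodule.mem_span_finset.1 ha
  rw [show a = (∑ t ∈ T, φ (MvPowerSeries.C (l t)) * lift t)
      + (a - ∑ t ∈ T, φ (MvPowerSeries.C (l t)) * lift t) by ring]
  refine add_mem (Submodule.mem_sup_left (Submodule.sum_mem _ fun t ht => ?_))
    (Submodule.mem_sup_right ?_)
  · rw [Finset.coe_image]
    exact Submodule.smul_mem _ (MvPowerSeries.C (l t))
      (Submodule.subset_span ⟨t, ht, rfl⟩)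
  · rw [Ideal.smul_top_eq_map, Submodule.restrictScalars_mem]
    refine Ideal.Quotient.eq_zero_iff_mem.1 ?_
    change Ideal.Quotient.mk J (a - ∑ t ∈ T, φ (MvPowerSeries.C (l t)) * lift t) = 0
    rw [map_sub, map_sum, sub_eq_zero, ← hl]
    refine Finset.sum_congr rfl fun t _ => ?_
    rw [map_mul, hlift, Algebra.smul_def]
    rfl

variable (p n : ℕ) [hp : Fact p.Prime]

theorem mIdeal_le_max : mIdeal p n ≤ IsLocalRing.maximalIdeal (LTRing p n) :=
  IsLocalRing.le_maximalIdeal (heightIdeal_isPrime p n le_rfl).ne_top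

theorem max_le_mIdeal (hn : 0 < n) : IsLocalRing.maximalIdeal (LTRing p n) ≤ mIdeal p n := by
  intro x hx
  obtain ⟨a, ha⟩ := exists_sub_teich_mem p n hn x
  rcases eq_or_ne a 0 with rfl | h0
  · simpa [teich] using ha
  · exfalso
    have hu : IsUnit (teich p n a) := (RingHom.isUnit_map (MvPowerSeries.C (R := _))
      ((isUnit_iff_ne_zero.2 h0).map (WittVector.teichmuller p)))
    have := sub_mem hx (mIdeal_le_max p n ha)
    rw [sub_sub_cancel] at this
    exact this hu

theorem max_quot (hn : 0 < n) (P : Ideal (LTRing p n)) [P.IsPrime]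
    [IsLocalRing (LTRing p n ⧸ P)] :
    IsLocalRing.maximalIdeal (LTRing p n ⧸ P) = (mIdeal p n).map (Ideal.Quotient.mk P) := by
  rw [le_antisymm (mIdeal_le_max p n) (max_le_mIdeal p n hn)]
  exact (IsLocalRing.map_maximalIdeal_of_surjective (Ideal.Quotient.mk P)
    Ideal.Quotient.mk_surjective).symm

/-- For `h = 0`: `E/P` is finite over `W[[u_k, …, u_{n-1}]]`. -/
theorem exists_coord_zero (hn : 0 < n) {k : ℕ} (P : Ideal (LTRing p n)) [P.IsPrime]
    (hk : 1 ≤ k) (hkn : k ≤ n)
    (hrad : (P ⊔ Ideal.span {ltU p n 0}).radical = heightIdeal p n k) :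
    ∃ φ : MvPowerSeries (Fin (n - k)) (WittVector p (GaloisField p n)) →+* LTRing p n ⧸ P,
      φ.Finite ∧ (∀ j, φ (MvPowerSeries.X j) = Ideal.Quotient.mk P (ltU p n (k + j.1))) ∧
      ∀ a, φ (MvPowerSeries.C a) = Ideal.Quotient.mk P (MvPowerSeries.C a) := by
  let v : Fin (n - k) → LTRing p n := fun j =>
    MvPowerSeries.X ⟨k + j.1 - 1, by have := j.2; omega⟩
  have hX : ∀ j : Fin (n - k), ltU p n (k + j.1) = v j := fun j => by
    rw [ltU, if_neg (by omega), dif_pos (show k + j.1 - 1 < n - 1 by have := j.2; omega)]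
  have hv : MvPowerSeries.HasSubst v :=
    MvPowerSeries.hasSubst_of_constantCoeff_zero fun j => MvPowerSeries.constantCoeff_X _
  let φ : MvPowerSeries (Fin (n - k)) (WittVector p (GaloisField p n)) →+* LTRing p n ⧸ P :=
    (Ideal.Quotient.mk P).comp
      (MvPowerSeries.substAlgHom (R := WittVector p (GaloisField p n)) hv).toRingHom
  have hφX : ∀ j, φ (MvPowerSeries.X j) = Ideal.Quotient.mk P (ltU p n (k + j.1)) := fun j => by
    change Ideal.Quotient.mk P (MvPowerSeries.substAlgHom hv (MvPowerSeries.X j)) = _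
    rw [MvPowerSeries.substAlgHom_X, hX]
  have hφC : ∀ a, φ (MvPowerSeries.C a) = Ideal.Quotient.mk P (MvPowerSeries.C a) := fun a =>
    congrArg (Ideal.Quotient.mk P)
      ((MvPowerSeries.substAlgHom (R := WittVector p (GaloisField p n)) hv).commutes a)
  refine ⟨φ, ?_, hφX, hφC⟩
  have : IsLocalRing (LTRing p n ⧸ P) :=
    IsLocalRing.of_surjective' _ Ideal.Quotient.mk_surjective
  have hmA := max_quot p n hn P
  have hu : ∀ i < n, Ideal.Quotient.mk P (ltU p n i)
      ∈ IsLocalRing.maximalIdeal (LTRing p n ⧸ P) := fun i hi =>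
    hmA ▸ Ideal.mem_map_of_mem _ (ltU_mem_heightIdeal p n hi)
  have hp0 : φ (MvPowerSeries.C (p : WittVector p (GaloisField p n)))
      = Ideal.Quotient.mk P (ltU p n 0) := by
    rw [hφC]; simp [ltU]
  have hm : mIdeal p n ≤ (P ⊔ Ideal.span (insert (ltU p n 0)
      (Set.range fun j : Fin (n - k) => ltU p n (k + j.1)))).radical := by
    rw [mIdeal, heightIdeal, Ideal.span_le]
    rintro _ ⟨i, hi, rfl⟩
    simp only [Set.mem_ofPred_eq] at hi
    by_cases hik : i < k
    · refine Ideal.radical_mono ?_ (hrad ▸ ltU_mem_heightIdeal p n hik)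
      exact sup_le_sup_left (Ideal.span_mono (by simp)) P
    · refine Ideal.le_radical (Ideal.mem_sup_right (Ideal.subset_span (Or.inr
        ⟨⟨i - k, by omega⟩, ?_⟩)))
      simp [Nat.add_sub_cancel' (not_lt.1 hik)]
  obtain ⟨N, hN⟩ := Ideal.exists_pow_le_of_le_radical_of_fg hm (IsNoetherian.noetherian _)
  have : IsPrecomplete (Ideal.span {(p : WittVector p (GaloisField p n))})
      (WittVector p (GaloisField p n)) := IsAdicComplete.toIsPrecomplete
  refine finite_two_stage φ (p : WittVector p (GaloisField p n)) ?_ ?_ ?_ N ?_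
  · rw [hp0]
    exact hu 0 hn
  · intro j
    rw [hφX]
    exact hu _ (by have := j.2; omega)
  · intro a
    obtain ⟨f, rfl⟩ := Ideal.Quotient.mk_surjective a
    obtain ⟨c, hc⟩ := exists_sub_teich_mem p n hn f
    refine ⟨WittVector.teichmuller p c, ?_⟩
    rw [hφC, hmA, ← map_sub]
    exact Ideal.mem_map_of_mem _ hc
  · rw [hmA, ← Ideal.map_pow]
    refine (Ideal.map_mono hN).trans ?_
    rw [Ideal.map_sup, Ideal.map_quotient_self, bot_sup_eq, Ideal.map_span, Ideal.span_le]
    rintro _ ⟨x, hx, rfl⟩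
    rcases hx with rfl | ⟨j, rfl⟩
    · rw [← hp0]
      exact Ideal.subset_span (Set.mem_insert _ _)
    · rw [← hφX]
      exact Ideal.subset_span (Set.mem_insert_of_mem _ ⟨j, rfl⟩)

/-- The absolute value `ρ ^ v` of a discrete valuation ring. -/
theorem exists_dvr_abs {D : Type*} [CommRing D] [IsDomain D] [IsDiscreteValuationRing D] (ρ : ℝ)
    (h0 : 0 < ρ) (h1 : ρ < 1) :
    ∃ v : AbsoluteValue D ℝ, IsNonarchimedean v ∧ (∀ x, v x ≤ 1) ∧
      ∀ ϖ, Irreducible ϖ → v ϖ = ρ := by
  let e : D → ℕ := fun x => (IsDiscreteValuationRing.addVal D x).toNat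
  have hv : ∀ x : D, x ≠ 0 → IsDiscreteValuationRing.addVal D x = (e x : ℕ∞) := fun x hx =>
    (ENat.natCast_toNat (IsDiscreteValuationRing.addVal_eq_top_iff.not.2 hx)).symm
  let f : D → ℝ := fun x => if x = 0 then 0 else ρ ^ e x
  have hf : ∀ x, x ≠ 0 → f x = ρ ^ e x := fun x hx => if_neg hx
  have hna : ∀ x y, f (x + y) ≤ max (f x) (f y) := by
    intro x y
    rcases eq_or_ne x 0 with rfl | hx
    · simp
    rcases eq_or_ne y 0 with rfl | hy
    · simp
    rcases eq_or_ne (x + y) 0 with hxy | hxy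
    · simp only [hxy, f, if_true]
      rw [if_neg hx, if_neg hy]
      exact le_max_of_le_left (pow_nonneg h0.le _)
    have h := IsDiscreteValuationRing.addVal_add (a := x) (b := y)
    rw [hv x hx, hv y hy, hv _ hxy, min_le_iff, Nat.cast_le, Nat.cast_le] at h
    rw [hf x hx, hf y hy, hf _ hxy]
    rcases le_total (e x) (e y) with hle | hle
    · exact le_max_of_le_left (pow_le_pow_of_le_one h0.le h1.le (by omega))
    · exact le_max_of_le_right (pow_le_pow_of_le_one h0.le h1.le (by omega))
  have hnn : ∀ x, 0 ≤ f x := fun x => by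
    simp only [f]; split_ifs
    exacts [le_rfl, pow_nonneg h0.le _]
  refine ⟨{
    toFun := f
    map_mul' := fun x y => ?_
    nonneg' := hnn
    eq_zero' := fun x => ?_
    add_le' := fun x y => (hna x y).trans (max_le_add_of_nonneg (hnn x) (hnn y)) },
    hna, fun x => ?_, fun ϖ hϖ => ?_⟩
  · rcases eq_or_ne x 0 with rfl | hx
    · simp [f]
    rcases eq_or_ne y 0 with rfl | hy
    · simp [f]
    have h := IsDiscreteValuationRing.addVal_mul (a := x) (b := y)
    rw [hv x hx, hv y hy, hv _ (mul_ne_zero hx hy), ← Nat.cast_add, Nat.cast_inj] at h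
    rw [hf x hx, hf y hy, hf _ (mul_ne_zero hx hy), h, pow_add]
  · by_cases hx : x = 0
    · simp [f, hx]
    · simp [f, hx, h0.ne']
  · show f x ≤ 1
    simp only [f]; split_ifs
    exacts [zero_le_one, pow_le_one₀ h0.le h1.le]
  · show f ϖ = ρ
    rw [hf ϖ hϖ.ne_zero]
    simp [e, IsDiscreteValuationRing.addVal_uniformizer hϖ]

theorem algebraic_comp {R A L : Type*} [CommRing R] [CommRing A] [IsDomain A] [Field L]
    [Algebra A L] [Algebra.IsAlgebraic A L] (φ : R →+* A) (hφ : φ.Finite) :
    @Algebra.IsAlgebraic R L _ _ ((algebraMap A L).comp φ).toAlgebra := by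
  let : Algebra R A := φ.toAlgebra
  let : Algebra R L := ((algebraMap A L).comp φ).toAlgebra
  have : IsScalarTower R A L := IsScalarTower.of_algebraMap_eq fun _ => rfl
  have : Module.Finite R A := hφ
  rcases subsingleton_or_nontrivial R with hR | hR
  · exact absurd (φ.map_one ▸ (Subsingleton.elim (1 : R) 0 ▸ φ.map_zero)) one_ne_zero
  exact Algebra.IsAlgebraic.trans R A L

/-- The point attached to injective coordinates with a prescribed absolute value. -/
theorem point_of_coord (hn : 0 < n) {h k : ℕ} (P : Ideal (LTRing p n)) [P.IsPrime]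
    (hhk : h + 2 ≤ k) (hkn : k ≤ n) (hP : heightIdeal p n h ≤ P) (hu : ltU p n h ∉ P)
    (hrad : (P ⊔ Ideal.span {ltU p n h}).radical = heightIdeal p n k)
    (hsep : ∀ i < n, ltU p n i ∉ heightIdeal p n i) {R : Type} [CommRing R] [IsDomain R]
    [IsNoetherianRing R] [IsLocalRing R] (φ : R →+* LTRing p n ⧸ P) (hφ : φ.Finite)
    (hd : (IsLocalRing.maximalIdeal R).spanFinrank ≤ n - k + 1)
    (w : AbsoluteValue R ℝ) (hw : IsNonarchimedean w) (hw1 : ∀ x, w x ≤ 1) (M : ℝ) (hM : 0 < M)
    (rh : R) (hrh : φ rh = Ideal.Quotient.mk P (ltU p n h)) (hwh : w rh = Real.exp (-M))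
    (hi : ∀ i, k ≤ i → i < n → ∃ r, φ r = Ideal.Quotient.mk P (ltU p n i) ∧ w r = Real.exp (-1)) :
    ∃ (U : UField) (j : ResAlg p n P →+* U.K),
      IsPoint p n (j.comp (resMap p n P)) ∧
      OnStratum p n h (j.comp (resMap p n P)) ∧
      ‖j (resMap p n P (ltU p n h))‖ = Real.exp (-M) ∧
      ∀ i, k ≤ i → i < n → ‖j (resMap p n P (ltU p n i))‖ = Real.exp (-1) := by
  let A := LTRing p n ⧸ P
  have hPk : P ≤ heightIdeal p n k := hrad ▸ le_sup_left.trans Ideal.le_radical
  have hlt : P < heightIdeal p n k :=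
    lt_of_le_not_ge hPk fun hle => hu (hle (ltU_mem_heightIdeal p n (by omega)))
  have hQ : ∀ j : Fin (n - k + 1), ((heightIdeal p n (k + j.1)).map
      (Ideal.Quotient.mk P)).IsPrime := fun j => by
    have := heightIdeal_isPrime p n (h := k + j.1) (by have := j.2; omega)
    refine Ideal.map_isPrime_of_surjective Ideal.Quotient.mk_surjective ?_
    rw [Ideal.mk_ker]
    exact hPk.trans (heightIdeal_mono p n (by omega))
  let Q : Fin (n - k + 2) → PrimeSpectrum A := Fin.cons ⊥ fun j => ⟨_, hQ j⟩
  have hQmono : StrictMono Q := by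
    rw [Fin.strictMono_iff_lt_succ]
    intro i
    induction i using Fin.cases with
    | zero =>
      rw [Fin.castSucc_zero, Fin.succ_zero_eq_one, ← PrimeSpectrum.asIdeal_lt_asIdeal]
      refine bot_lt_iff_ne_bot.2 fun h0 => hlt.ne ?_
      refine le_antisymm hPk fun x hx => ?_
      have hx' : Ideal.Quotient.mk P x ∈
          (heightIdeal p n (k + 0)).map (Ideal.Quotient.mk P) :=
        Ideal.mem_map_of_mem _ hx
      have h0' : (heightIdeal p n (k + 0)).map (Ideal.Quotient.mk P) = ⊥ := h0
      rw [h0', Ideal.mem_bot, Ideal.Quotient.eq_zero_iff_mem] at hx'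
      exact hx'
    | succ i =>
      rw [← PrimeSpectrum.asIdeal_lt_asIdeal]
      show (heightIdeal p n (k + (i.castSucc).1)).map (Ideal.Quotient.mk P)
        < (heightIdeal p n (k + i.succ.1)).map (Ideal.Quotient.mk P)
      simp only [Fin.val_castSucc, Fin.val_succ]
      refine lt_of_le_not_ge (Ideal.map_mono (heightIdeal_mono p n (by omega))) fun hle => ?_
      have hb := Ideal.comap_mono (f := Ideal.Quotient.mk P) hle
      simp only [Ideal.comap_map_of_surjective _ Ideal.Quotient.mk_surjective,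
        ← RingHom.ker_eq_comap_bot, Ideal.mk_ker] at hb
      rw [sup_eq_left.2 (hPk.trans (heightIdeal_mono p n (by omega))),
        sup_eq_left.2 (hPk.trans (heightIdeal_mono p n (by omega)))] at hb
      have hlt' : k + i.1 < n := by have := i.2; omega
      exact hsep _ hlt' (hb (ltU_mem_heightIdeal p n (by omega)))
  have hinj : Function.Injective φ :=
    injective_of_chain φ hφ hd (LTSeries.mk (n - k + 1) Q hQmono) le_rfl
  let e : A →+* ResAlg p n P :=
    (algebraMap (FractionRing A) (ResAlg p n P)).comp (algebraMap A (FractionRing A))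
  have he : Function.Injective e :=
    (algebraMap (FractionRing A) (ResAlg p n P)).injective.comp
      (IsFractionRing.injective A (FractionRing A))
  have : Algebra.IsAlgebraic A (FractionRing A) :=
    IsLocalization.isAlgebraic (FractionRing A) (nonZeroDivisors A)
  have : Algebra.IsAlgebraic A (ResAlg p n P) :=
    Algebra.IsAlgebraic.trans A (FractionRing A) (ResAlg p n P)
  have hem : algebraMap A (ResAlg p n P) = e := RingHom.ext fun x =>
    IsScalarTower.algebraMap_apply A (FractionRing A) (ResAlg p n P) x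
  have halg : @Algebra.IsAlgebraic R (ResAlg p n P) _ _ (e.comp φ).toAlgebra :=
    hem ▸ algebraic_comp φ hφ
  have hwlt : w rh < 1 := by rw [hwh]; exact Real.exp_lt_one_iff.2 (neg_lt_zero.2 hM)
  obtain ⟨U, j, hj, hjint⟩ := exists_extension (e.comp φ) (he.comp hinj) halg w hw hw1
    ⟨rh, by rw [hwh]; exact Real.exp_pos _, hwlt⟩
  have hres : ∀ x, resMap p n P x = e (Ideal.Quotient.mk P x) := fun _ => rfl
  have hle : ∀ x, ‖j (resMap p n P x)‖ ≤ 1 := fun x => by
    rw [hres]
    refine hjint _ ?_
    obtain ⟨q, hq, hq0⟩ := hφ.to_isIntegral (Ideal.Quotient.mk P x)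
    refine ⟨q, hq, ?_⟩
    rw [← Polynomial.hom_eval₂, hq0, map_zero]
  have hr : ∀ r x, φ r = Ideal.Quotient.mk P x → ‖j (resMap p n P x)‖ = w r := fun r x hx => by
    rw [hres, ← hx, ← hj r]; rfl
  have hh : ‖j (resMap p n P (ltU p n h))‖ = Real.exp (-M) := (hr rh _ hrh).trans hwh
  have hk' : ∀ i, k ≤ i → i < n → ‖j (resMap p n P (ltU p n i))‖ = Real.exp (-1) :=
    fun i h1 h2 => by
      obtain ⟨r, hr1, hr2⟩ := hi i h1 h2
      exact (hr r _ hr1).trans hr2
  have hzero : ∀ x ∈ P, j (resMap p n P x) = 0 := fun x hx => by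
    rw [hres, Ideal.Quotient.eq_zero_iff_mem.2 hx, map_zero, map_zero]
  have hsmall : ∀ i < n, ‖j (resMap p n P (ltU p n i))‖ < 1 := by
    intro i hin
    by_cases hik : k ≤ i
    · rw [hk' i hik hin]; exact Real.exp_lt_one_iff.2 (by norm_num)
    · have hmem : ltU p n i ∈ (P ⊔ Ideal.span {ltU p n h}).radical :=
        hrad ▸ ltU_mem_heightIdeal p n (not_le.1 hik)
      obtain ⟨N, hN⟩ := hmem
      obtain ⟨a, ha, b, hb, hab⟩ := Submodule.mem_sup.1 hN
      obtain ⟨c, rfl⟩ := Ideal.mem_span_singleton'.1 hb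
      have h1 : ‖j (resMap p n P (ltU p n i))‖ ^ N < 1 := by
        rw [← norm_pow, ← map_pow, ← map_pow, ← hab, map_add, map_add, hzero a ha, zero_add,
          map_mul, map_mul, norm_mul, hh]
        exact lt_of_le_of_lt (mul_le_of_le_one_left (Real.exp_pos _).le (hle c))
          (Real.exp_lt_one_iff.2 (neg_lt_zero.2 hM))
      by_contra hge
      exact absurd h1 (not_lt.2 (one_le_pow₀ (not_lt.1 hge)))
  obtain ⟨θ, hθ0, hθ1, hθ⟩ : ∃ θ : ℝ, 0 < θ ∧ θ < 1 ∧
      ∀ i < n, ‖j (resMap p n P (ltU p n i))‖ ≤ θ := by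
    refine ⟨(insert (1 / 2) ((Finset.range n).image fun i =>
      ‖j (resMap p n P (ltU p n i))‖)).max' (Finset.insert_nonempty _ _), ?_, ?_, fun i hin => ?_⟩
    · exact lt_of_lt_of_le (by norm_num) (Finset.le_max' _ _ (Finset.mem_insert_self _ _))
    · rw [Finset.max'_lt_iff]
      intro y hy
      rcases Finset.mem_insert.1 hy with rfl | hy
      · norm_num
      · obtain ⟨i, hin, rfl⟩ := Finset.mem_image.1 hy
        exact hsmall i (Finset.mem_range.1 hin)
    · exact Finset.le_max' _ _ (Finset.mem_insert_of_mem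
        (Finset.mem_image_of_mem (fun i => ‖j (resMap p n P (ltU p n i))‖)
          (Finset.mem_range.2 hin)))
  refine ⟨U, j, ⟨hle, θ, hθ0, hθ1, fun x hx => ?_⟩, ⟨fun i hih => ?_, ?_⟩, hh, hk'⟩
  · show ‖j (resMap p n P x)‖ ≤ θ
    rw [mIdeal, heightIdeal] at hx
    induction hx using Submodule.span_induction with
    | mem y hy =>
      obtain ⟨i, hin, rfl⟩ := hy
      exact hθ i hin
    | zero => simpa using hθ0.le
    | add y z _ _ hy hz =>
      rw [map_add, map_add]
      exact (IsUltrametricDist.norm_add_le_max _ _).trans (max_le hy hz)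
    | smul r y _ hy =>
      rw [smul_eq_mul, map_mul, map_mul, norm_mul]
      exact (mul_le_of_le_one_left (norm_nonneg _) (hle r)).trans hy
  · exact hzero _ (hP (ltU_mem_heightIdeal p n hih))
  · intro h0
    have : ‖j (resMap p n P (ltU p n h))‖ = 0 := by
      rw [show j (resMap p n P (ltU p n h)) = 0 from h0, norm_zero]
    exact (Real.exp_pos (-M)).ne' (hh.symm.trans this)

theorem ltU_sep {i : ℕ} (hi : i < n) : ltU p n i ∉ heightIdeal p n i := by
  rcases Nat.eq_zero_or_pos i with rfl | h0
  · rw [heightIdeal_zero, Ideal.mem_bot]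
    simp only [ltU, if_true]
    rw [← map_natCast (MvPowerSeries.C (R := WittVector p (GaloisField p n))) p]
    intro h
    have := congrArg (MvPowerSeries.coeff 0) h
    simp only [MvPowerSeries.coeff_C, if_true, map_zero] at this
    exact WittVector.irreducible p |>.ne_zero this
  intro hmem
  let ej : Fin (n - 1) →₀ ℕ := Finsupp.single ⟨i - 1, by omega⟩ 1
  have key : ∀ f ∈ heightIdeal p n i,
      (p : WittVector p (GaloisField p n)) ∣ MvPowerSeries.coeff ej f := by
    intro f hf
    rw [heightIdeal] at hf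
    have : ∀ g : LTRing p n, (p : WittVector p (GaloisField p n)) ∣
        MvPowerSeries.coeff ej (g * f) := by
      induction hf using Submodule.span_induction with
      | mem y hy =>
        obtain ⟨l, hl, rfl⟩ := hy
        simp only [Set.mem_ofPred_eq] at hl
        intro g
        rcases Nat.eq_zero_or_pos l with rfl | hl0
        · simp only [ltU, if_true]
          rw [← map_natCast (MvPowerSeries.C (R := WittVector p (GaloisField p n))) p, mul_comm,
            MvPowerSeries.coeff_C_mul]
          exact dvd_mul_right _ _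
        · rw [ltU, if_neg hl0.ne', dif_pos (show l - 1 < n - 1 by omega), mul_comm]
          have hz : MvPowerSeries.coeff ej
              (MvPowerSeries.X (⟨l - 1, by omega⟩ : Fin (n - 1)) * g) = 0 := by
            refine (MvPowerSeries.X_dvd_iff.1 (dvd_mul_right _ g)) ej ?_
            simp only [ej]
            rw [Finsupp.single_apply, if_neg]
            intro heq
            have := congrArg Fin.val heq
            simp only at this
            omega
          rw [hz]
          exact dvd_zero _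
      | zero => intro g; simp
      | add y z _ _ hy hz => intro g; rw [mul_add, map_add]; exact dvd_add (hy g) (hz g)
      | smul r y _ hy => intro g; rw [smul_eq_mul, ← mul_assoc]; exact hy _
    simpa using this 1
  have h1 := key _ hmem
  rw [ltU, if_neg h0.ne', dif_pos (show i - 1 < n - 1 by omega)] at h1
  simp only [ej, MvPowerSeries.coeff_X, if_true] at h1
  exact (WittVector.irreducible p).not_isUnit (isUnit_of_dvd_one h1)

end NormF

variable (p n : ℕ) [hp : Fact p.Prime]

/-- Monomial points: weight `M` on `u_h` and `1` on `u_k, ..., u_{n-1}`. -/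
theorem exists_point (hn : 0 < n) {h k : ℕ} (P : Ideal (LTRing p n)) [P.IsPrime]
    (hhk : h + 2 ≤ k) (hkn : k ≤ n) (hP : heightIdeal p n h ≤ P) (hu : ltU p n h ∉ P)
    (hrad : (P ⊔ Ideal.span {ltU p n h}).radical = heightIdeal p n k) (M : ℝ) (hM : 0 < M) :
    ∃ (U : UField) (j : ResAlg p n P →+* U.K),
      IsPoint p n (j.comp (resMap p n P)) ∧
      OnStratum p n h (j.comp (resMap p n P)) ∧
      ‖j (resMap p n P (ltU p n h))‖ = Real.exp (-M) ∧
      ∀ i, k ≤ i → i < n → ‖j (resMap p n P (ltU p n i))‖ = Real.exp (-1) := by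
  have hM0 : 0 < Real.exp (-M) := Real.exp_pos _
  have hM1 : Real.exp (-M) < 1 := Real.exp_lt_one_iff.2 (neg_lt_zero.2 hM)
  have h10 : 0 < Real.exp (-1) := Real.exp_pos _
  have h11 : Real.exp (-1) < 1 := Real.exp_lt_one_iff.2 (by norm_num)
  have hsep : ∀ i < n, ltU p n i ∉ heightIdeal p n i := fun i hi => NormF.ltU_sep p n hi
  rcases Nat.eq_zero_or_pos h with rfl | hh
  · let D := WittVector p (GaloisField p n)
    obtain ⟨φ, hφ, hφX, hφC⟩ := NormF.exists_coord_zero p n hn P (by omega) hkn hrad
    obtain ⟨v, hv, hv1, hvp⟩ := NormF.exists_dvr_abs (D := D) (Real.exp (-M)) hM0 hM1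
    obtain ⟨w, hw, hw1, hwC, hwX⟩ := NormF.exists_gauss v hv hv1
      (fun _ : Fin (n - k) => Real.exp (-1)) (fun _ => h10) fun _ => h11
    have : IsDomain (MvPowerSeries (Fin (n - k)) D) := NoZeroDivisors.to_isDomain _
    let g : Set (MvPowerSeries (Fin (n - k)) D) :=
      insert (MvPowerSeries.C (p : D)) (Set.range MvPowerSeries.X)
    have hgfin : g.Finite := (Set.finite_range _).insert _
    have hd : (IsLocalRing.maximalIdeal (MvPowerSeries (Fin (n - k)) D)).spanFinrank
        ≤ n - k + 1 := by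
      refine (NormF.spanFinrank_max_le g hgfin ?_ ?_).trans ?_
      · intro f hf
        have hc : (p : D) ∣ MvPowerSeries.coeff 0 f := by
          rw [IsLocalRing.mem_maximalIdeal, mem_nonunits_iff,
            MvPowerSeries.isUnit_iff_constantCoeff] at hf
          rw [← Ideal.mem_span_singleton, ← (WittVector.irreducible p).maximalIdeal_eq]
          exact hf
        obtain ⟨c, hc⟩ := hc
        rw [show f = MvPowerSeries.C (p : D) * MvPowerSeries.C c
          + (f - MvPowerSeries.C (MvPowerSeries.coeff 0 f)) by rw [hc, map_mul]; ring]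
        exact add_mem (Ideal.mul_mem_right _ _ (Ideal.subset_span (Set.mem_insert _ _)))
          (Ideal.span_mono (Set.subset_insert _ _) (NormF.sub_C_mem_span_X f))
      · rintro x (rfl | ⟨j, rfl⟩) <;> rw [MvPowerSeries.isUnit_iff_constantCoeff]
        · rw [MvPowerSeries.constantCoeff_C]
          exact (WittVector.irreducible p).not_isUnit
        · simp
      · refine (Set.ncard_insert_le _ _).trans ?_
        rw [← Nat.card_coe_set_eq]
        exact Nat.add_le_add_right ((Finite.card_range_le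
          (MvPowerSeries.X : Fin (n - k) → MvPowerSeries (Fin (n - k)) D)).trans_eq
            (Nat.card_fin _)) 1
    refine NormF.point_of_coord p n hn P hhk hkn hP hu hrad hsep φ hφ hd w hw hw1 M hM
      (MvPowerSeries.C (p : D)) ?_ ?_ fun i h1 h2 => ?_
    · rw [hφC]
      simp [ltU]
    · rw [hwC]
      exact hvp _ (WittVector.irreducible p)
    · exact ⟨MvPowerSeries.X ⟨i - k, by omega⟩,
        by rw [hφX]; simp [Nat.add_sub_cancel' h1], hwX _⟩
  · obtain ⟨φ, hφ, hφX, -⟩ := exists_coord p n P hh (by omega) hkn hP hrad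
    let F := GaloisField p n
    let v : AbsoluteValue F ℝ := AbsoluteValue.trivial
    have hv1 : ∀ x, v x ≤ 1 := fun x => by
      rcases eq_or_ne x 0 with rfl | hx
      · simp
      · exact (AbsoluteValue.trivial_apply hx).le
    have hv : IsNonarchimedean v := fun x y => by
      rcases eq_or_ne x 0 with rfl | hx
      · simp
      · exact (hv1 _).trans ((AbsoluteValue.trivial_apply hx).symm.le.trans (le_max_left _ _))
    let c : Fin (n - k + 1) → ℝ := fun j => if j.1 = 0 then Real.exp (-M) else Real.exp (-1)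
    obtain ⟨w, hw, hw1, -, hwX⟩ := NormF.exists_gauss v hv hv1 c
      (fun j => by unfold c; split_ifs <;> assumption)
      (fun j => by unfold c; split_ifs <;> assumption)
    have : IsDomain (MvPowerSeries (Fin (n - k + 1)) F) := NoZeroDivisors.to_isDomain _
    have hd : (IsLocalRing.maximalIdeal (MvPowerSeries (Fin (n - k + 1)) F)).spanFinrank
        ≤ n - k + 1 := by
      refine (NormF.spanFinrank_max_le (Set.range MvPowerSeries.X) (Set.finite_range _)
        ?_ ?_).trans ?_
      · intro f hf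
        have h0 : MvPowerSeries.coeff 0 f = 0 := by
          rw [IsLocalRing.mem_maximalIdeal, mem_nonunits_iff,
            MvPowerSeries.isUnit_iff_constantCoeff, isUnit_iff_ne_zero, not_not] at hf
          exact hf
        simpa [h0] using NormF.sub_C_mem_span_X f
      · rintro x ⟨j, rfl⟩
        simp [MvPowerSeries.isUnit_iff_constantCoeff]
      · rw [← Nat.card_coe_set_eq]
        exact (Finite.card_range_le
          (MvPowerSeries.X : Fin (n - k + 1) → MvPowerSeries (Fin (n - k + 1)) F)).trans_eq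
            (Nat.card_fin _)
    refine NormF.point_of_coord p n hn P hhk hkn hP hu hrad hsep φ hφ hd w hw hw1 M hM
      (MvPowerSeries.X 0) ?_ ?_ fun i h1 h2 => ?_
    · rw [hφX]
      simp [coordIdx]
    · rw [hwX]
      simp [c]
    · refine ⟨MvPowerSeries.X ⟨i - k + 1, by omega⟩, ?_, ?_⟩
      · rw [hφX]
        simp only [coordIdx, Nat.succ_ne_zero, if_false]
        congr 2
        omega
      · rw [hwX]
        simp [c]

end

end Vale.Agent.P217
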