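import Vale.Agent.P217.HighSetup
import Vale.Agent.P217.NormField

/-! # P217: a pair of torsion sequences which are deep for arbitrarily lopsided valuations -/

open scoped Classical
open Filter Topology

namespace Vale.Agent.P217

noncomputable section

set_option linter.unusedSectionVars false

variable {p n : ℕ} [hp : Fact p.Prime]

/-- Two vectors which are independent modulo `p`. -/
def IndepPair (p : ℕ) [Fact p.Prime] {d : ℕ} (e₁ e₂ : Fin d → ℤ_[p]) : Prop :=
  ∀ a b : ℤ_[p], (∀ i, (p : ℤ_[p]) ∣ (a • e₁ + b • e₂) i) →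
    (p : ℤ_[p]) ∣ a ∧ (p : ℤ_[p]) ∣ b

theorem IndepPair.comb_prim {d : ℕ} {e₁ e₂ : Fin d → ℤ_[p]} (h : IndepPair p e₁ e₂)
    {a b : ℤ_[p]} (hab : ¬ ((p : ℤ_[p]) ∣ a ∧ (p : ℤ_[p]) ∣ b)) :
    ¬ ∀ i, (p : ℤ_[p]) ∣ (a • e₁ + b • e₂) i :=
  fun hd => hab (h a b hd)

theorem ne_zero_of_prim {d : ℕ} {e : Fin d → ℤ_[p]} (h : ¬ ∀ i, (p : ℤ_[p]) ∣ e i) : e ≠ 0 :=
  fun he => h (by simp [he])

theorem not_p_dvd_one : ¬ (p : ℤ_[p]) ∣ 1 := fun hd =>
  PadicInt.prime_p.not_unit (isUnit_of_dvd_one hd)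

theorem IndepPair.left {d : ℕ} {e₁ e₂ : Fin d → ℤ_[p]} (h : IndepPair p e₁ e₂) :
    ¬ ∀ i, (p : ℤ_[p]) ∣ e₁ i := by
  intro hd
  have h1 := h 1 0 (by simpa using hd)
  exact not_p_dvd_one h1.1

theorem IndepPair.right {d : ℕ} {e₁ e₂ : Fin d → ℤ_[p]} (h : IndepPair p e₁ e₂) :
    ¬ ∀ i, (p : ℤ_[p]) ∣ e₂ i := by
  intro hd
  have h1 := h 0 1 (by simpa using hd)
  exact not_p_dvd_one h1.2

variable {F : FormalGroup (LTRing p n)} {h k : ℕ} {P : Ideal (LTRing p n)} [P.IsPrime]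
  {x : (Fin (n - h) → ℤ_[p]) → ℕ → ResAlg p n P}

/-- A slope function exists at every point. -/
theorem exists_slopeFn (hL : Labels p n F h P x) (U : UField) (j : ResAlg p n P →+* U.K)
    (hpt : IsPoint p n (j.comp (resMap p n P)))
    (hst : OnStratum p n h (j.comp (resMap p n P))) :
    ∃ (w : (Fin (n - h) → ℤ_[p]) → ℝ),
      Slope (p := p) (n := n) h (fun e l => j (x e l)) w ∧
      (∃ W : ℝ, ∀ e, ¬ (∀ i, (p : ℤ_[p]) ∣ e i) → w e ≤ W) ∧
      (∃ W₀ : ℝ, 0 < W₀ ∧ ∀ e, e ≠ 0 → W₀ ≤ w e) ∧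
      (∃ b : ℕ, ∀ e e', ¬ (∀ i, (p : ℤ_[p]) ∣ e i) → (∀ i, (p : ℤ_[p]) ^ b ∣ (e' i - e i)) →
        w e' = w e) ∧
      (∀ e, e ≠ 0 → ∀ X : ℝ, 0 < X → ‖j (x e 1)‖ = Real.exp (-X) →
        (∀ i, h ≤ i → i < n → (p : ℝ) ^ n * X ≤
          -Real.log ‖j.comp (resMap p n P) (ltU p n i)‖ + (p : ℝ) ^ i * X
          ∨ j.comp (resMap p n P) (ltU p n i) = 0) → w e = (p : ℝ) ^ n * X) ∧
      (∀ X : ℝ, 0 < X → (∀ e, ‖j (x e 1)‖ ≤ Real.exp (-X)) →
        (∀ i, h ≤ i → i < n → (p : ℝ) ^ n * X ≤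
          -Real.log ‖j.comp (resMap p n P) (ltU p n i)‖ + (p : ℝ) ^ i * X
          ∨ j.comp (resMap p n P) (ltU p n i) = 0) → ∀ e, e ≠ 0 → (p : ℝ) ^ n * X ≤ w e) := by
  obtain ⟨w, h1, h2, h3, h4, h5, h6, h7, h8, h9⟩ :=
    exists_slope hL.hn hL.hF hL.hh hpt hst (hL.torsion U j hpt hst)
  exact ⟨w, ⟨h1, h2, h3, h4⟩, h5, h6, h7, h8, h9⟩

/-- A point together with `g` slow torsion sequences of the common least slope, in which the
combinations of `e₁, e₂` have slope at least `q ^ m` times as large. -/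
structure DeepPoint (p n : ℕ) [Fact p.Prime] (h g m : ℕ) (P : Ideal (LTRing p n)) [P.IsPrime]
    (x : (Fin (n - h) → ℤ_[p]) → ℕ → ResAlg p n P) (e₁ e₂ : Fin (n - h) → ℤ_[p]) : Type 1 where
  /-- The field. -/
  U : UField
  /-- The embedding. -/
  j : ResAlg p n P →+* U.K
  point : IsPoint p n (j.comp (resMap p n P))
  stratum : OnStratum p n h (j.comp (resMap p n P))
  /-- The slopes. -/
  w : (Fin (n - h) → ℤ_[p]) → ℝ
  slope : Slope (p := p) (n := n) h (fun e l => j (x e l)) w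
  /-- The least slope. -/
  wl : ℝ
  wl_pos : 0 < wl
  wl_le : ∀ e, e ≠ 0 → wl ≤ w e
  /-- The slow sequences. -/
  el : Fin g → Fin (n - h) → ℤ_[p]
  el_ne : ∀ i, el i ≠ 0
  el_slope : ∀ i, w (el i) = wl
  el_comb : ∃ l₀, ∀ l ≥ l₀, ∀ a : Fin g → ℕ, (∃ i, ¬ p ∣ a i) →
    ‖∑ i, (a i : U.K) * j (x (el i) l)‖ = Real.exp (-(wl / ((p : ℝ) ^ n) ^ l))
  deep₁ : ((p : ℝ) ^ n) ^ m * wl ≤ w e₁
  deep₂ : ((p : ℝ) ^ n) ^ m * wl ≤ w e₂

/-- The deep pair: for `k < n`. -/
theorem exists_deep_pair (hL : Labels p n F h P x) (hhk : h + 2 ≤ k) (hkn : k < n)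
    (hu : ltU p n h ∉ P) (hP : heightIdeal p n h ≤ P)
    (hrad : (P ⊔ Ideal.span {ltU p n h}).radical = heightIdeal p n k) :
    ∃ e₁ e₂ : Fin (n - h) → ℤ_[p], IndepPair p e₁ e₂ ∧
      ∀ m : ℕ, Nonempty (DeepPoint p n h (n - k) m P x e₁ e₂) := by
  have hn := hL.hn
  have hpR : (0 : ℝ) < p := by exact_mod_cast hp.out.pos
  have h1p : (1 : ℝ) < p := by exact_mod_cast hp.out.one_lt
  set q : ℝ := (p : ℝ) ^ n with hq
  have hqpos : 0 < q := pow_pos hpR n
  have hkq : (p : ℝ) ^ k + 1 ≤ q := by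
    have h1 : (p ^ k : ℕ) < p ^ n := Nat.pow_lt_pow_right hp.out.one_lt hkn
    have h2 : ((p ^ k + 1 : ℕ) : ℝ) ≤ ((p ^ n : ℕ) : ℝ) := by exact_mod_cast h1
    push_cast at h2
    exact h2
  set lv : ℝ := 1 / (q - (p : ℝ) ^ k) with hlv
  have hlvpos : 0 < lv := div_pos one_pos (by linarith)
  have hlv1 : lv ≤ 1 := by rw [hlv, div_le_one (by linarith)]; linarith
  have hNex : ∀ i : ℕ, ∃ N : ℕ, i < k → ltU p n i ^ N ∈ P ⊔ Ideal.span {ltU p n h} := fun i => by
    by_cases hi : i < k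
    · have hmem : ltU p n i ∈ (P ⊔ Ideal.span {ltU p n h}).radical := by
        rw [hrad]
        exact Ideal.subset_span ⟨i, hi, rfl⟩
      obtain ⟨N, hN⟩ := hmem
      exact ⟨N, fun _ => hN⟩
    · exact ⟨0, fun h' => absurd h' hi⟩
  choose N hN using hNex
  set N₀ := 1 + ∑ i ∈ Finset.range k, N i with hN₀
  set B : ℕ → ℝ := fun l => 2 * q + 1 + l * (p : ℝ) ^ k with hB
  have hBpos : ∀ l, 0 < B l := fun l => by
    have : 0 ≤ (l : ℝ) * (p : ℝ) ^ k := by positivity
    simp only [hB]; linarith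
  have hpoints : ∀ l : ℕ, ∃ (U : UField) (j : ResAlg p n P →+* U.K)
      (w : (Fin (n - h) → ℤ_[p]) → ℝ) (el : Fin (n - k) → Fin (n - h) → ℤ_[p])
      (f₁ f₂ : Fin (n - h) → ℤ_[p]),
      IsPoint p n (j.comp (resMap p n P)) ∧ OnStratum p n h (j.comp (resMap p n P)) ∧
      Slope (p := p) (n := n) h (fun e l => j (x e l)) w ∧
      (∀ e, e ≠ 0 → q * lv ≤ w e) ∧ (∀ i, el i ≠ 0) ∧ (∀ i, w (el i) = q * lv) ∧
      (∃ l₀, ∀ l' ≥ l₀, ∀ a : Fin (n - k) → ℕ, (∃ i, ¬ p ∣ a i) →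
        ‖∑ i, (a i : U.K) * j (x (el i) l')‖ = Real.exp (-(q * lv / q ^ l'))) ∧
      IndepPair p f₁ f₂ ∧ q * l ≤ w f₁ ∧ q * l ≤ w f₂ := by
    intro l
    obtain ⟨U, j, hpt, hst, huh, hone⟩ := exists_point p n hn P hhk hkn.le hP hu hrad (B l * N₀)
      (mul_pos (hBpos l) (by rw [hN₀]; push_cast; positivity))
    obtain ⟨w, hw, -, -, -, hlow, hlowall⟩ := exists_slopeFn hL U j hpt hst
    have hx := hL.torsion U j hpt hst
    set ψ := j.comp (resMap p n P) with hψ
    have hsmall : ∀ i, h ≤ i → i < k → ‖ψ (ltU p n i)‖ ≤ Real.exp (-(B l)) := by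
      intro i hi hik
      rcases eq_or_lt_of_le hi with rfl | hlt
      · rw [hψ, RingHom.comp_apply, huh]
        refine Real.exp_le_exp.2 (neg_le_neg ?_)
        refine le_mul_of_one_le_right (hBpos l).le ?_
        rw [hN₀]; push_cast
        linarith [Finset.sum_nonneg (s := Finset.range k) fun i _ => Nat.cast_nonneg (α := ℝ) (N i)]
      · have hmem : ltU p n i ^ N₀ ∈ P ⊔ Ideal.span {ltU p n h} := by
          refine Ideal.mem_of_dvd _ (pow_dvd_pow _ ?_) (hN i hik)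
          rw [hN₀]
          exact le_add_left (Finset.single_le_sum (fun _ _ => Nat.zero_le _) (Finset.mem_range.2 hik))
        obtain ⟨y, hy, z, hz, hyz⟩ := Submodule.mem_sup.1 hmem
        obtain ⟨r, rfl⟩ := Ideal.mem_span_singleton'.1 hz
        have h1 : ψ (ltU p n i) ^ N₀ = ψ r * ψ (ltU p n h) := by
          rw [← map_pow, ← hyz, map_add, map_mul]
          have hy0 : ψ y = 0 := by
            rw [hψ, RingHom.comp_apply, (resMap_eq_zero_iff y).2 hy, map_zero]
          rw [hy0, zero_add]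
        refine le_of_pow_le_pow_left₀ (n := N₀) (by rw [hN₀]; omega) (Real.exp_pos _).le ?_
        rw [← norm_pow, h1, norm_mul, ← Real.exp_nat_mul]
        refine (mul_le_of_le_one_left (norm_nonneg _) (hpt.le_one r)).trans (le_of_eq ?_)
        rw [hψ, RingHom.comp_apply, huh]
        congr 1
        ring
    obtain ⟨hdich, el, eh, hel, heh⟩ := level_one_split hn hL.hF hL.hh1 hhk hkn hpt hst
      (fun i hi hin => hone i hi hin) (B := B l)
      (by
        have : 0 ≤ (l : ℝ) * (p : ℝ) ^ k := by positivity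
        simp only [hB, hq] at this ⊢; linarith) hsmall hx
    have hcond : ∀ i, h ≤ i → i < n → q * lv ≤ -Real.log ‖ψ (ltU p n i)‖ + (p : ℝ) ^ i * lv
        ∨ ψ (ltU p n i) = 0 := by
      intro i hi hin
      by_cases h0 : ψ (ltU p n i) = 0
      · exact Or.inr h0
      refine Or.inl ?_
      have hqlv : q * lv = 1 + (p : ℝ) ^ k * lv := by
        have hne : q - (p : ℝ) ^ k ≠ 0 := by linarith
        rw [hlv]
        field_simp
        ring
      by_cases hik : k ≤ i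
      · rw [hψ, RingHom.comp_apply, hone i hik hin, Real.log_exp, neg_neg, hqlv]
        have : (p : ℝ) ^ k ≤ (p : ℝ) ^ i := pow_le_pow_right₀ h1p.le hik
        nlinarith
      · have h1 : B l ≤ -Real.log ‖ψ (ltU p n i)‖ := by
          have h2 := Real.log_le_log (norm_pos_iff.2 h0) (hsmall i hi (not_le.1 hik))
          rw [Real.log_exp] at h2
          linarith
        have h3 : q * lv ≤ q := mul_le_of_le_one_right hqpos.le hlv1
        have h4 : 0 ≤ (p : ℝ) ^ i * lv := by positivity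
        have h5 : q ≤ B l := by
          have : 0 ≤ (l : ℝ) * (p : ℝ) ^ k := by positivity
          simp only [hB]; linarith
        linarith
    have hall : ∀ e, ‖j (x e 1)‖ ≤ Real.exp (-lv) := by
      intro e
      by_cases he : ∀ i, (p : ℤ_[p]) ∣ e i
      · have h0 : j (x e 1) = 0 := (hx.eq_zero_iff e 1).2 (by simpa using he)
        rw [h0, norm_zero]
        exact (Real.exp_pos _).le
      · rcases hdich e he with h1 | h1
        · exact le_of_eq h1
        · refine h1.trans (Real.exp_le_exp.2 (neg_le_neg ?_))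
          rw [le_div_iff₀ (pow_pos hpR k)]
          have h3 : lv * (p : ℝ) ^ k ≤ q := by
            have := mul_le_of_le_one_left (pow_pos hpR k).le hlv1
            linarith
          have : 0 ≤ (l : ℝ) * (p : ℝ) ^ k := by positivity
          simp only [hB]; linarith
    have hwl : ∀ e, e ≠ 0 → q * lv ≤ w e := hlowall lv hlvpos hall hcond
    have hel_prim : ∀ a : Fin (n - k) → ℤ_[p], ¬ (∀ i, (p : ℤ_[p]) ∣ a i) →
        (∑ i, a i • el i) ≠ 0 ∧ w (∑ i, a i • el i) = q * lv := by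
      intro a ha
      have h1 := hel a ha
      have hne : (∑ i, a i • el i) ≠ 0 := by
        intro h0
        rw [h0] at h1
        simp only [IsTorsion.zero hpt hx, norm_zero] at h1
        exact (Real.exp_pos _).ne h1
      exact ⟨hne, hlow _ hne lv hlvpos h1 hcond⟩
    have hsingle : ∀ i : Fin (n - k), el i = ∑ m, (if m = i then (1 : ℤ_[p]) else 0) • el m :=
      fun i => by simp [Finset.sum_ite_eq']
    have hsp : ∀ i : Fin (n - k),
        ¬ ∀ m, (p : ℤ_[p]) ∣ (if m = i then (1 : ℤ_[p]) else 0) :=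
      fun i hd => not_p_dvd_one (by simpa using hd i)
    have helne : ∀ i, el i ≠ 0 := fun i => by rw [hsingle i]; exact (hel_prim _ (hsp i)).1
    have helw : ∀ i, w (el i) = q * lv := fun i => by rw [hsingle i]; exact (hel_prim _ (hsp i)).2
    have hhigh : ∀ a : Fin 2 → ℤ_[p], ¬ (∀ i, (p : ℤ_[p]) ∣ a i) → ∃ f : Fin (n - h) → ℤ_[p],
        (∀ i, (p : ℤ_[p]) ∣ (f i - (∑ m, a m • eh m) i)) ∧ q * l ≤ w f := by
      intro a ha
      obtain ⟨hprim, hnorm⟩ := heh a ha
      obtain ⟨f, hf1, hf2⟩ := exists_high_lift hn hL.hF hL.hh hpt hst hx (∑ m, a m • eh m)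
      refine ⟨f, hf1, ?_⟩
      have hfne : f ≠ 0 := by
        intro h0
        refine hprim fun i => ?_
        have h1 := hf1 i
        rw [h0, Pi.zero_apply, zero_sub, dvd_neg] at h1
        exact h1
      obtain ⟨hwpos, l₀, hl₀⟩ := hw.slope f hfne
      have h2 := (hf2 l₀).trans hnorm
      rw [hl₀ (l₀ + 1) (by omega), ← Real.exp_nat_mul, Real.exp_le_exp] at h2
      push_cast at h2
      have e1 : (p : ℝ) ^ (n * l₀) * -(w f / ((p : ℝ) ^ n) ^ (l₀ + 1)) = -(w f / q) := by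
        rw [← pow_mul, hq]
        field_simp
        ring
      rw [e1, neg_le_neg_iff] at h2
      have h3 : (B l - 1) / (p : ℝ) ^ k ≥ l := by
        rw [ge_iff_le, le_div_iff₀ (pow_pos hpR k)]
        simp only [hB]; linarith
      have h4 := h3.le.trans h2
      rw [le_div_iff₀ hqpos] at h4
      linarith
    obtain ⟨f₁, hf₁, hw₁⟩ := hhigh ![1, 0] (fun hd => not_p_dvd_one (by simpa using hd 0))
    obtain ⟨f₂, hf₂, hw₂⟩ := hhigh ![0, 1] (fun hd => not_p_dvd_one (by simpa using hd 1))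
    refine ⟨U, j, w, el, f₁, f₂, hpt, hst, hw, hwl, helne, helw, ?_, ?_, hw₁, hw₂⟩
    · have hres : ∀ a : Fin (n - k) → Fin p, (∃ i, (a i : ℕ) ≠ 0) → ∃ l₀, ∀ l' ≥ l₀,
          ‖∑ i, ((a i : ℕ) : U.K) * j (x (el i) l')‖ = Real.exp (-(q * lv / q ^ l')) := by
        intro a ha
        set e := ∑ i, ((a i : ℕ) : ℤ_[p]) • el i with he
        obtain ⟨hene, hew⟩ := hel_prim (fun i => ((a i : ℕ) : ℤ_[p])) (fun hd => by
          obtain ⟨i, hi⟩ := ha
          have h1 : (p : ℤ_[p]) ∣ ((a i : ℕ) : ℤ_[p]) := hd i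
          obtain ⟨u, hu'⟩ := h1
          have h2 := congrArg PadicInt.toZMod hu'
          rw [map_mul, map_natCast, map_natCast, ZMod.natCast_self, zero_mul] at h2
          exact hi (Nat.eq_zero_of_dvd_of_lt ((ZMod.natCast_eq_zero_iff _ _).1 h2) (a i).2))
        choose l₁ hl₁ using fun i => (hw.slope (el i) (helne i)).2
        obtain ⟨l₂, hl₂⟩ := (hw.slope e hene).2
        refine ⟨max (max l₂ 1) (Finset.univ.sup l₁), fun l' hl' => ?_⟩
        set b := Real.exp (-(q * lv / q ^ l')) with hb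
        have hb1 : b < 1 := Real.exp_lt_one_iff.2
          (neg_lt_zero.2 (div_pos (mul_pos hqpos hlvpos) (pow_pos hqpos _)))
        have hbi : ∀ i ∈ (Finset.univ : Finset (Fin (n - k))), ‖j (x (el i) l')‖ ≤ b := fun i _ => by
          rw [hl₁ i l' ((Finset.le_sup (Finset.mem_univ i)).trans (le_of_max_le_right hl')), helw i]
        obtain ⟨h1, -⟩ := torsion_linear hpt hx Finset.univ (fun i => (a i : ℕ)) el l'
          (Real.exp_pos _).le hb1 hbi
        have h2 : ‖j (x e l')‖ = b := by rw [hl₂ l' (by omega), hew]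
        have h3 : ‖j (x e l') - ∑ i, ((a i : ℕ) : U.K) * j (x (el i) l')‖ < ‖j (x e l')‖ := by
          refine lt_of_le_of_lt h1 ?_
          rw [h2, sq]
          exact mul_lt_of_lt_one_left (Real.exp_pos _) hb1
        rw [← h2, norm_sub_rev] at *
        calc ‖∑ i, ((a i : ℕ) : U.K) * j (x (el i) l')‖
            = ‖(∑ i, ((a i : ℕ) : U.K) * j (x (el i) l') - j (x e l')) + j (x e l')‖ := by
              rw [sub_add_cancel]
          _ = max ‖∑ i, ((a i : ℕ) : U.K) * j (x (el i) l') - j (x e l')‖ ‖j (x e l')‖ :=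
              IsUltrametricDist.norm_add_eq_max_of_norm_ne_norm h3.ne
          _ = ‖j (x e l')‖ := max_eq_right h3.le
      choose! la hla using hres
      refine ⟨Finset.univ.sup la, fun l' hl' a ha => ?_⟩
      have hpK : (p : U.K) = 0 := by rw [← map_natCast j, hL.natCast_p, map_zero]
      have hK : CharP U.K p := (CharP.charP_iff_prime_eq_zero hp.out).2 hpK
      set a' : Fin (n - k) → Fin p := fun i => ⟨a i % p, Nat.mod_lt _ hp.out.pos⟩ with ha'
      obtain ⟨i, hi⟩ := ha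
      have h1 := hla a' ⟨i, fun h0 => hi (Nat.dvd_of_mod_eq_zero h0)⟩ l'
        ((Finset.le_sup (Finset.mem_univ a')).trans hl')
      rw [← h1]
      congr 1
      refine Finset.sum_congr rfl fun i _ => ?_
      congr 1
      exact (CharP.cast_eq_mod U.K p (a i)).trans rfl
    · intro a b hd
      have hd' : ∀ i, (p : ℤ_[p]) ∣ (∑ m, (![a, b] m) • eh m) i := by
        intro i
        have h1 := hd i
        simp only [Pi.add_apply, Pi.smul_apply, smul_eq_mul] at h1
        have h2 := (hf₁ i).mul_left a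
        have h3 := (hf₂ i).mul_left b
        simp only [Fin.sum_univ_two, Matrix.cons_val_zero, Matrix.cons_val_one, one_smul,
          zero_smul, Pi.add_apply, Pi.smul_apply, Pi.zero_apply, smul_eq_mul] at h2 h3 ⊢
        have h4 := (h1.sub h2).sub h3
        convert h4 using 1
        ring
      by_contra hcon
      refine (heh ![a, b] fun hall' => hcon ⟨?_, ?_⟩).1 hd'
      · simpa using hall' 0
      · simpa using hall' 1
  choose U j w el f₁ f₂ hpt hst hw hwl helne helw helc hind hw₁ hw₂ using hpoints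
  obtain ⟨⟨e₁, e₂⟩, -, φ, hφ, hlim⟩ := (isCompact_univ (X :=
    (Fin (n - h) → ℤ_[p]) × (Fin (n - h) → ℤ_[p]))).tendsto_subseq (x := fun l => (f₁ l, f₂ l))
    (fun _ => trivial)
  have hclose : ∀ b : ℕ, ∀ᶠ l in atTop, (∀ i, (p : ℤ_[p]) ^ b ∣ e₁ i - f₁ (φ l) i) ∧
      (∀ i, (p : ℤ_[p]) ^ b ∣ e₂ i - f₂ (φ l) i) := by
    intro b
    have hε : (0 : ℝ) < (p : ℝ) ^ (-b : ℤ) := zpow_pos hpR _
    filter_upwards [Metric.tendsto_nhds.1 hlim _ hε] with l hl
    rw [Prod.dist_eq, max_lt_iff] at hl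
    constructor
    · intro i
      have h1 := ((dist_le_pi_dist (f₁ (φ l)) e₁ i).trans hl.1.le)
      rw [dist_eq_norm, norm_sub_rev, PadicInt.norm_le_pow_iff_mem_span_pow,
        Ideal.mem_span_singleton] at h1
      exact h1
    · intro i
      have h1 := ((dist_le_pi_dist (f₂ (φ l)) e₂ i).trans hl.2.le)
      rw [dist_eq_norm, norm_sub_rev, PadicInt.norm_le_pow_iff_mem_span_pow,
        Ideal.mem_span_singleton] at h1
      exact h1
  refine ⟨e₁, e₂, ?_, fun m => ?_⟩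
  · obtain ⟨l, hl⟩ := (hclose 1).exists
    intro a b hd
    refine hind (φ l) a b fun i => ?_
    have h1 := hd i
    simp only [Pi.add_apply, Pi.smul_apply, smul_eq_mul] at h1 ⊢
    have h2 := (hl.1 i).mul_left a
    have h3 := (hl.2 i).mul_left b
    rw [pow_one] at h2 h3
    have h4 := (h1.sub h2).sub h3
    convert h4 using 1
    ring
  · obtain ⟨l, hlm, hl⟩ := ((eventually_ge_atTop ⌈q ^ m⌉₊).and (hclose (m + 1))).exists
    have hbig : q ^ m * (q * lv) ≤ q * (φ l : ℝ) := by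
      have h1 : q ^ m ≤ (φ l : ℝ) := (Nat.le_ceil _).trans (by exact_mod_cast hlm.trans (hφ.id_le l))
      calc q ^ m * (q * lv) ≤ q ^ m * q := mul_le_mul_of_nonneg_left
            (mul_le_of_le_one_right hqpos.le hlv1) (pow_nonneg hqpos.le m)
        _ = q * q ^ m := mul_comm _ _
        _ ≤ q * (φ l : ℝ) := mul_le_mul_of_nonneg_left h1 hqpos.le
    have hdeep : ∀ (e f : Fin (n - h) → ℤ_[p]), e ≠ 0 → f ≠ 0 → q * (φ l : ℝ) ≤ w (φ l) f →
        (∀ i, (p : ℤ_[p]) ^ (m + 1) ∣ e i - f i) → q ^ m * (q * lv) ≤ w (φ l) e := by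
      intro e f he hf hwf hdiff
      choose g hg using hdiff
      by_cases hg0 : g = 0
      · have : e = f := funext fun i => by
          have := hg i
          rw [hg0] at this
          simpa [sub_eq_zero] using this
        rw [this]
        exact hbig.trans hwf
      · have he' : e = f + ((p : ℤ_[p]) ^ (m + 1)) • g := funext fun i => by
          simp [← hg i]
        have hne : ((p : ℤ_[p]) ^ (m + 1)) • g ≠ 0 :=
          smul_ne_zero (pow_ne_zero _ (Nat.cast_ne_zero.2 hp.out.pos.ne')) hg0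
        rw [he'] at he ⊢
        refine le_trans (le_min (hbig.trans hwf) ?_) ((hw (φ l)).ultra _ _ hf hne he)
        rw [(hw (φ l)).smul_pow hg0]
        refine mul_le_mul ?_ (hwl (φ l) g hg0) (mul_pos hqpos hlvpos).le (by positivity)
        exact pow_le_pow_right₀ (one_le_pow₀ h1p.le) (Nat.le_succ m)
    have hI := hind (φ l)
    have hne : ∀ (e f : Fin (n - h) → ℤ_[p]), (¬ ∀ i, (p : ℤ_[p]) ∣ f i) →
        (∀ i, (p : ℤ_[p]) ^ (m + 1) ∣ e i - f i) → e ≠ 0 := fun e f hf hd h0 =>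
      hf fun i => by
        have := (dvd_pow_self (p : ℤ_[p]) (Nat.succ_ne_zero m)).trans (hd i)
        simpa [h0] using this
    exact ⟨{
      U := U (φ l)
      j := j (φ l)
      point := hpt (φ l)
      stratum := hst (φ l)
      w := w (φ l)
      slope := hw (φ l)
      wl := q * lv
      wl_pos := mul_pos hqpos hlvpos
      wl_le := hwl (φ l)
      el := el (φ l)
      el_ne := helne (φ l)
      el_slope := helw (φ l)
      el_comb := helc (φ l)
      deep₁ := hdeep e₁ (f₁ (φ l)) (hne _ _ hI.left hl.1) (ne_zero_of_prim hI.left) (hw₁ _) hl.1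
      deep₂ := hdeep e₂ (f₂ (φ l)) (hne _ _ hI.right hl.2) (ne_zero_of_prim hI.right) (hw₂ _) hl.2 }⟩

end

end Vale.Agent.P217
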