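import Vale.Agent.P217.Scale
import Vale.Agent.P217.Displacement

/-! # P217: displacements of torsion points at one point of positive height -/

open scoped Classical
open Filter Asymptotics Topology

namespace Vale.Agent.P217

noncomputable section

set_option linter.unusedSectionVars false

variable {p n : ℕ} [hp : Fact p.Prime] {F : FormalGroup (LTRing p n)}
  {K : Type} [NormedField K] [IsUltrametricDist K] [CompleteSpace K] {ψ : LTRing p n →+* K}
  {h : ℕ} {S₀ c : ℕ} (hn : 0 < n) (hF : HasHazewinkelLog p n F) (hh1 : 1 ≤ h) (hh : h < n)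
  (hc : 1 ≤ c) (hψ : IsPoint p n ψ) (hst : OnStratum p n h ψ) (D : ActFamily p n F S₀ c)

theorem onStratum_moved {P : Ideal (LTRing p n)} (hker : ∀ y, ψ y = 0 ↔ y ∈ P)
    (hinv : ∀ i, Ideal.map (D i).α.toRingHom P = P) (hst : OnStratum p n h ψ) (i : ActIdx p n) :
    OnStratum p n h (movedPoint ψ D i) := by
  have key : ∀ y, (D i).α y ∈ P ↔ y ∈ P := fun y => by
    constructor
    · intro hy
      rw [← hinv i] at hy
      obtain ⟨z, hz, hzy⟩ :=
        (Ideal.mem_map_iff_of_surjective (D i).α.toRingHom (D i).α.surjective).1 hy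
      exact (D i).α.injective hzy ▸ hz
    · intro hy
      rw [← hinv i]
      exact Ideal.mem_map_of_mem _ hy
  refine ⟨fun m hm => ?_, fun h0 => ?_⟩
  · exact (hker _).2 ((key _).2 ((hker _).1 (hst.1 m hm)))
  · exact hst.2 ((hker _).2 ((key _).1 ((hker _).1 h0)))

include hn hψ in
theorem ev_hom_zero (i : ActIdx p n) : ev ψ (D i).φ (0 : K) = 0 := by
  have h0 := norm_ev_le hψ (D i).φ (D i).φ_zero (x := (0 : K)) (by simp)
  simpa using h0

include hn hψ in
theorem norm_ev_hom (i : ActIdx p n) {x : K} (hx : ‖x‖ < 1) : ‖ev ψ (D i).φ x‖ = ‖x‖ := by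
  have h1 := norm_ev_hom_sub hn hψ (D i) hx (y := (0 : K)) (by simp)
  rwa [ev_hom_zero hn hψ D i, sub_zero, sub_zero] at h1

variable {x : (Fin (n - h) → ℤ_[p]) → ℕ → K} (hx : IsTorsion ψ F (n - h) x)
  {w : (Fin (n - h) → ℤ_[p]) → ℝ}
  (hw : ∀ e, e ≠ 0 → 0 < w e ∧ ∃ l₀, ∀ l ≥ l₀,
    ‖x e l‖ = Real.exp (-(w e / ((p : ℝ) ^ n) ^ l)))
  (hchar : (p : K) = 0)

include hn hF hh hc hψ hst hx hw

theorem norm_disp_le {e : Fin (n - h) → ℤ_[p]} (he : e ≠ 0) (kl : ℕ) (i : ActIdx p n) :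
    ‖ev ψ (D i).φ (x e kl) - x e kl‖ ≤
      max (Real.exp (-((tropOf ψ hh hψ hst).N (lvlArg p n (w e) kl (S₀ + i.1)))))
        (moveDist ψ D i) :=
  displacement_le hn hF hh hc hψ hst D (hw e he).1 (hx.norm_lt e) (hx.step e) (hw e he).2 kl i

include hh1 hchar

/-- The displacement of the point is at most the scale of the smallest slope. -/
theorem moveDist_isBigO (hstI : ∀ i, OnStratum p n h (movedPoint ψ D i)) {w₀ : ℝ} (hw₀ : 0 < w₀)
    (hmin : ∀ e, e ≠ 0 → w₀ ≤ w e) :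
    (moveDist ψ D) =O[actFilter p n] scaleE p n (tropOf ψ hh hψ hst) S₀ w₀ := by
  have hK : CharP K p := (CharP.charP_iff_prime_eq_zero hp.out).2 hchar
  have : ExpChar K p := ExpChar.prime hp.out
  set T := tropOf ψ hh hψ hst with hT
  obtain ⟨κ, hκ, hlead⟩ := leadSize_eq (p := p) (n := n) (T := T) rfl rfl S₀ 1 hw₀
  refine IsBigO.of_bound κ ?_
  filter_upwards [hlead] with i hi
  set d := moveDist ψ D i with hd
  have hd1 : d < 1 := moveDist_lt_one hn hc hψ D i
  have hd0 : 0 ≤ d := (near_moveDist D i).1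
  have hpoint : IsPoint p n (movedPoint ψ D i) := isPoint_comp hn hψ (D i).α
  set B := leadSize p n T S₀ 1 w₀ i with hB
  have hB0 : 0 < B := Real.exp_pos _
  have hnear : Near p n ψ (movedPoint ψ D i) (max B (d ^ p ^ h)) := by
    refine near_of_level_one hn hF hh hψ hpoint hst (hstI i)
      (fun v => by simp [movedPoint, (D i).fix v]) hx
      (fun e => ev ψ (D i).φ (x e 1))
      (fun e => by rw [norm_ev_hom hn hψ D i (hx.norm_lt e 1)]; exact hx.norm_lt e 1)
      (fun e => ?_) (fun e e' hee => ?_) (le_max_of_le_left hB0.le) (fun e => ?_)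
    · have h1 := ev_hom_pSeries hn hψ (D i) (hx.norm_lt e 1)
      rw [hx.step e 0, hx.level_zero, ev_hom_zero hn hψ D i] at h1
      exact h1.symm
    · have h1 := norm_ev_hom_sub hn hψ (D i) (hx.norm_lt e 1) (hx.norm_lt e' 1)
      rw [hee, sub_self, norm_zero, eq_comm, norm_eq_zero, sub_eq_zero] at h1
      exact h1
    · rw [← sub_pow_expChar_pow, norm_pow]
      by_cases hze : e = 0
      · subst hze
        rw [IsTorsion.zero hψ hx, ev_hom_zero hn hψ D i]
        simpa [zero_pow (pow_ne_zero h hp.out.pos.ne')] using le_max_of_le_left hB0.le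
      refine (pow_le_pow_left₀ (norm_nonneg _)
        (norm_disp_le hn hF hh hc hψ hst D hx hw hze 1 i) _).trans ?_
      rcases le_total (Real.exp (-(T.N (lvlArg p n (w e) 1 (S₀ + i.1))))) d with hle | hle
      · rw [max_eq_right hle]
        exact le_max_right _ _
      · rw [max_eq_left hle]
        refine le_max_of_le_left ?_
        rw [hB, leadSize, ← Real.exp_nat_mul, mul_one]
        refine Real.exp_le_exp.2 ?_
        push_cast
        rw [mul_neg, neg_le_neg_iff]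
        refine mul_le_mul_of_nonneg_left ?_ (by positivity)
        refine T.N_mono (div_pos (mul_pos (pow_pos (by exact_mod_cast hp.out.pos) _) hw₀)
          (by have := hp.out.pos; positivity)) ?_
        unfold lvlArg
        gcongr
        exact hmin e hze
  have hle : d ≤ max B (d ^ p ^ h) := by
    have hD0 := hnear.1
    rw [hd, moveDist]
    refine le_trans (NNReal.coe_le_coe.2 (Finset.sup_le (a := (⟨_, hD0⟩ : NNReal))
      fun m _ => ?_)) le_rfl
    exact hnear.2.2 m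
  have hdB : d ≤ B := by
    rcases le_max_iff.1 hle with h1 | h1
    · exact h1
    · by_contra hlt
      have hdpos : 0 < d := hB0.trans (not_le.1 hlt)
      have := pow_lt_self_of_lt_one₀ hdpos hd1
        (Nat.one_lt_pow (by omega : h ≠ 0) hp.out.one_lt)
      linarith
  rw [Real.norm_of_nonneg hd0, Real.norm_of_nonneg (scaleE_pos _ _ _ _).le, ← hi]
  exact hdB

theorem moveDist_tendsto (hstI : ∀ i, OnStratum p n h (movedPoint ψ D i)) {w₀ : ℝ}
    (hw₀ : 0 < w₀) (hmin : ∀ e, e ≠ 0 → w₀ ≤ w e) :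
    Tendsto (moveDist ψ D) (actFilter p n) (𝓝 0) :=
  (moveDist_isBigO hn hF hh1 hh hc hψ hst D hx hw hchar hstI hw₀ hmin).trans_tendsto
    (scaleE_tendsto S₀ hw₀)

theorem disp_tendsto (hstI : ∀ i, OnStratum p n h (movedPoint ψ D i)) {w₀ : ℝ} (hw₀ : 0 < w₀)
    (hmin : ∀ e, e ≠ 0 → w₀ ≤ w e) (e : Fin (n - h) → ℤ_[p]) (kl : ℕ) :
    Tendsto (fun i => ev ψ (D i).φ (x e kl) - x e kl) (actFilter p n) (𝓝 0) := by
  by_cases he : e = 0
  · subst he
    simp [IsTorsion.zero hψ hx, ev_hom_zero hn hψ D]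
  refine squeeze_zero_norm (fun i => norm_disp_le hn hF hh hc hψ hst D hx hw he kl i) ?_
  set T := tropOf ψ hh hψ hst with hT
  have h1 : Tendsto (fun i => Real.exp (-(T.N (lvlArg p n (w e) kl (S₀ + i.1)))))
      (actFilter p n) (𝓝 0) := by
    refine Real.tendsto_exp_atBot.comp (tendsto_neg_atTop_atBot.comp (T.N_tendsto.comp ?_))
    have h2 := tendsto_arg (p := p) (n := n)
      (div_pos (hw e he).1 (pow_pos (pow_pos (by exact_mod_cast hp.out.pos : (0 : ℝ) < p) n) kl)) S₀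
    refine h2.congr fun i => ?_
    simp [lvlArg, mul_div_assoc]
  simpa using h1.max (moveDist_tendsto hn hF hh1 hh hc hψ hst D hx hw hchar hstI hw₀ hmin)

/-- Upper bound for the displacement of `y = x ^ P`. -/
theorem disp_pow_isBigO {e : Fin (n - h) → ℤ_[p]} (he : e ≠ 0) (kl : ℕ) {S : ActIdx p n → ℝ}
    (h1 : (fun i => scaleE p n (tropOf ψ hh hψ hst) S₀ (w e) i) =O[actFilter p n] S)
    (h2 : (fun i => moveDist ψ D i ^ p ^ (h * kl)) =O[actFilter p n] S) :
    (fun i => (ev ψ (D i).φ (x e kl) - x e kl) ^ p ^ (h * kl)) =O[actFilter p n] S := by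
  set T := tropOf ψ hh hψ hst with hT
  obtain ⟨κ, hκ, hlead⟩ := leadSize_eq (p := p) (n := n) (T := T) rfl rfl S₀ kl (hw e he).1
  have h3 : (fun i => κ * scaleE p n T S₀ (w e) i + moveDist ψ D i ^ p ^ (h * kl))
      =O[actFilter p n] S := (h1.const_mul_left κ).add h2
  refine (IsBigO.of_bound 1 ?_).trans h3
  filter_upwards [hlead] with i hi
  have hd0 : 0 ≤ moveDist ψ D i := (near_moveDist D i).1
  have hb : ‖(ev ψ (D i).φ (x e kl) - x e kl) ^ p ^ (h * kl)‖
      ≤ max (leadSize p n T S₀ kl (w e) i) (moveDist ψ D i ^ p ^ (h * kl)) := by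
    rw [norm_pow]
    refine (pow_le_pow_left₀ (norm_nonneg _)
      (norm_disp_le hn hF hh hc hψ hst D hx hw he kl i) _).trans ?_
    rw [(pow_left_monotoneOn).map_max (Real.exp_pos _).le hd0, leadSize, ← Real.exp_nat_mul]
    refine le_of_eq ?_
    push_cast
    rw [mul_neg]
    rfl
  rw [one_mul]
  have hk := mul_nonneg hκ.le (scaleE_pos T S₀ (w e) i).le
  have hp0 : 0 ≤ moveDist ψ D i ^ p ^ (h * kl) := pow_nonneg hd0 _
  rw [Real.norm_of_nonneg (add_nonneg hk hp0)]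
  refine hb.trans (max_le ?_ ?_)
  · rw [hi]; linarith
  · linarith

/-- The leading term of the displacement of `y = x ^ P`, once `P` exceeds the ratio of slopes. -/
theorem hasLead_disp (hstI : ∀ i, OnStratum p n h (movedPoint ψ D i)) {w₀ : ℝ} (hw₀ : 0 < w₀)
    (hmin : ∀ e, e ≠ 0 → w₀ ≤ w e) {e : Fin (n - h) → ℤ_[p]} (he : e ≠ 0) {m kl : ℕ}
    (hm : w e ≤ ((p : ℝ) ^ n) ^ m * w₀) (hkl : m < kl) :
    HasLead ψ (tropOf ψ hh hψ hst) S₀ kl (x e) (w e)
      (fun i => (ev ψ (D i).φ (x e kl) - x e kl) ^ p ^ (h * kl)) := by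
  have hK : CharP K p := (CharP.charP_iff_prime_eq_zero hp.out).2 hchar
  have : ExpChar K p := ExpChar.prime hp.out
  set T := tropOf ψ hh hψ hst with hT
  obtain ⟨κ, hκ, hlead⟩ := leadSize_eq (p := p) (n := n) (T := T) rfl rfl S₀ kl (hw e he).1
  have hsmall : (fun i => moveDist ψ D i ^ p ^ (h * kl)) =o[actFilter p n]
      (fun i => scaleE p n T S₀ (w e) i) := by
    have h1 := (moveDist_isBigO hn hF hh1 hh hc hψ hst D hx hw hchar hstI hw₀ hmin).pow
      (p ^ (h * kl))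
    refine (h1.trans_isLittleO ?_).trans_isBigO
      (scaleE_pow_le (p := p) (n := n) (T := T) rfl S₀ m (hw e he).1 hw₀ hm)
    exact scaleE_pow_isLittleO S₀ hw₀ (Nat.pow_lt_pow_right hp.out.one_lt
      (Nat.mul_lt_mul_of_pos_left hkl (by omega : 0 < h)))
  filter_upwards [hlead, hsmall.def (half_pos hκ)] with i hi hs
  obtain ⟨l₀, hl₀⟩ := displacement_leading hn hF hh hc hψ hst D (hw e he).1 (hx.norm_lt e)
    (hx.step e) (hw e he).2 kl (by omega) i
  refine ⟨l₀, fun l hl => ?_⟩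
  have hd0 : 0 ≤ moveDist ψ D i := (near_moveDist D i).1
  show ‖(ev ψ (D i).φ (x e kl) - x e kl) ^ p ^ (h * kl) - (∑ J ∈ _, _) ^ p ^ (h * kl)‖ < _
  rw [← sub_pow_expChar_pow, norm_pow]
  have hexp : Real.exp (-((p : ℝ) ^ (T.h * kl) * T.N (lvlArg p n (w e) kl (S₀ + i.1))))
      = Real.exp (-(T.N (lvlArg p n (w e) kl (S₀ + i.1)))) ^ p ^ (h * kl) := by
    rw [← Real.exp_nat_mul]
    push_cast
    rw [mul_neg]
    rfl
  rcases hl₀ l hl with h1 | h1
  · rw [hexp]
    exact pow_lt_pow_left₀ h1 (norm_nonneg _) (pow_ne_zero _ hp.out.pos.ne')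
  · refine lt_of_le_of_lt (pow_le_pow_left₀ (norm_nonneg _) h1 _) ?_
    rw [Real.norm_of_nonneg (pow_nonneg hd0 _),
      Real.norm_of_nonneg (scaleE_pos T S₀ (w e) i).le] at hs
    have hpos := mul_pos hκ (scaleE_pos T S₀ (w e) i)
    refine lt_of_le_of_lt hs ?_
    change κ / 2 * scaleE p n T S₀ (w e) i < leadSize p n T S₀ kl (w e) i
    rw [hi]
    linarith

omit hx hw hF hc in
/-- The leading term is attained for some digit. -/
theorem lead_frequently {xe : ℕ → K} {we : ℝ} (hwe : 0 < we) {kl : ℕ} {f : ActIdx p n → K}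
    (hf : HasLead ψ (tropOf ψ hh hψ hst) S₀ kl xe we f)
    (hslope : ∃ l₀, ∀ l ≥ l₀, ‖xe l‖ = Real.exp (-(we / ((p : ℝ) ^ n) ^ l))) :
    ∃ᶠ i in actFilter p n, leadSize p n (tropOf ψ hh hψ hst) S₀ kl we i ≤ ‖f i‖ := by
  have hK : CharP K p := (CharP.charP_iff_prime_eq_zero hp.out).2 hchar
  have : ExpChar K p := ExpChar.prime hp.out
  set T := tropOf ψ hh hψ hst with hT
  rw [Filter.frequently_iff]
  intro U hU
  obtain ⟨z₀, hz₀⟩ := T.N_eventually_linear
  have harg : Tendsto (fun i : ActIdx p n => lvlArg p n we kl (S₀ + i.1)) (actFilter p n) atTop := by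
    have h2 := tendsto_arg (p := p) (n := n)
      (div_pos hwe (pow_pos (pow_pos (by exact_mod_cast hp.out.pos : (0 : ℝ) < p) n) kl)) S₀
    refine h2.congr fun i => ?_
    simp [lvlArg, mul_div_assoc]
  have hmem : (U ∩ {i | (z₀ ≤ lvlArg p n we kl (S₀ + i.1)) ∧ ∃ l₀, ∀ l ≥ l₀, _}) ∈ actFilter p n :=
    inter_mem hU ((harg.eventually_ge_atTop z₀).and hf)
  obtain ⟨s, hs, hsub⟩ := Filter.mem_comap.1 hmem
  obtain ⟨N₀, hN₀⟩ := Filter.mem_atTop_sets.1 hs
  set z := lvlArg p n we kl (S₀ + N₀) with hz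
  have hz0 : z₀ ≤ z := (hsub (a := (N₀, 0)) (hN₀ N₀ le_rfl)).2.1
  have hzpos : 0 < z := by
    have := hp.out.pos
    rw [hz, lvlArg]
    positivity
  obtain ⟨l₁, hl₁⟩ := act_spec hh hψ hst hzpos
  obtain ⟨l₂, hl₂⟩ := hslope
  obtain ⟨l₃, hl₃⟩ := act_spec hh hψ hst (mul_pos T.q_pos hzpos)
  obtain ⟨l₄, hl₄⟩ := T.iterN_eventually z hzpos
  have hall : ∀ a : GaloisField p n, ∃ l₀, ∀ l ≥ l₀,
      ‖f (N₀, a) - (∑ J ∈ Act ψ T l z,
        lamCoeff ψ l J * (ψ (teich p n a) * xe (l + kl) ^ p ^ (S₀ + N₀)) ^ p ^ J) ^ p ^ (h * kl)‖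
      < leadSize p n T S₀ kl we (N₀, a) := fun a => (hsub (a := (N₀, a)) (hN₀ N₀ le_rfl)).2.2
  choose la hla using hall
  have : Fintype (GaloisField p n) := Fintype.ofFinite _
  set l := max (max (max l₁ l₂) (max l₃ l₄)) (Finset.univ.sup la) with hl
  obtain ⟨hne, hmaj⟩ := hl₁ l (by omega)
  obtain ⟨hne', hmaj'⟩ := hl₃ l (by omega)
  by_contra hcon
  push Not at hcon
  set B := leadSize p n T S₀ kl we (N₀, 0) with hB
  have hBa : ∀ a, leadSize p n T S₀ kl we (N₀, a) = B := fun a => rfl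
  set cJ : ℕ → K := fun J => (lamCoeff ψ l J * xe (l + kl) ^ (p ^ (S₀ + N₀) * p ^ J)) ^ p ^ (h * kl)
    with hcJ
  have hsum : ∀ a : GaloisField p n,
      (∑ J ∈ Act ψ T l z,
        lamCoeff ψ l J * (ψ (teich p n a) * xe (l + kl) ^ p ^ (S₀ + N₀)) ^ p ^ J) ^ p ^ (h * kl)
      = ∑ J ∈ (Act ψ T l z).image (· + h * kl),
          cJ (J - h * kl) * ψ (teich p n a) ^ p ^ J := fun a => by
    rw [sum_pow_char_pow p, Finset.sum_image (fun a _ b _ hab => by simpa using hab)]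
    refine Finset.sum_congr rfl fun J _ => ?_
    simp only [hcJ, Nat.add_sub_cancel, mul_pow, ← pow_mul, pow_add]
    ring
  have hbound : ∀ a : GaloisField p n,
      ‖∑ J ∈ (Act ψ T l z).image (· + h * kl), cJ (J - h * kl) * ψ (teich p n a) ^ p ^ J‖ < B := by
    intro a
    have h1 := hla a l ((Finset.le_sup (Finset.mem_univ a)).trans (by omega))
    have h2 : ‖f (N₀, a)‖ < B := hcon (N₀, a) (hsub (a := (N₀, a)) (hN₀ N₀ le_rfl)).1
    rw [hsum a] at h1
    rw [← sub_sub_cancel (f (N₀, a))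
      (∑ J ∈ (Act ψ T l z).image (· + h * kl), cJ (J - h * kl) * ψ (teich p n a) ^ p ^ J)]
    refine lt_of_le_of_lt ?_ (max_lt h2 h1)
    rw [sub_eq_add_neg, ← norm_neg (f (N₀, a) - _)]
    exact IsUltrametricDist.norm_add_le_max _ _
  set B' := Finset.univ.sup' Finset.univ_nonempty
    (fun a => ‖∑ J ∈ (Act ψ T l z).image (· + h * kl), cJ (J - h * kl) * ψ (teich p n a) ^ p ^ J‖)
    with hB'
  have hB'lt : B' < B := (Finset.sup'_lt_iff _).2 fun a _ => hbound a
  have hdist : ∀ J ∈ (Act ψ T l z).image (· + h * kl), ∀ J' ∈ (Act ψ T l z).image (· + h * kl),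
      J % n = J' % n → J = J' := by
    intro J hJ J' hJ' hmod
    obtain ⟨A, hA, rfl⟩ := Finset.mem_image.1 hJ
    obtain ⟨A', hA', rfl⟩ := Finset.mem_image.1 hJ'
    obtain ⟨A'', hA''⟩ := hne'
    have d1 := T.maj_diff (hmaj A hA) (hmaj A' hA') hzpos (hz₀ z hz0) ⟨_, hmaj' A'' hA''⟩
    have d2 := T.maj_diff (hmaj A' hA') (hmaj A hA) hzpos (hz₀ z hz0) ⟨_, hmaj' A'' hA''⟩
    change ((A : ℤ) - n * l) - ((A' : ℤ) - n * l) ≤ (n : ℤ) - h at d1
    change ((A' : ℤ) - n * l) - ((A : ℤ) - n * l) ≤ (n : ℤ) - h at d2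
    have hdvd : (n : ℤ) ∣ ((A : ℤ) - A') := by
      have h3 := Nat.modEq_iff_dvd.1 (Nat.ModEq.symm hmod)
      simpa using h3
    have h0 := Int.eq_zero_of_abs_lt_dvd hdvd (abs_lt.2 ⟨by omega, by omega⟩)
    omega
  obtain ⟨A, hA⟩ := hne
  have h4 := norm_char_le hn hψ _ hdist (fun J => cJ (J - h * kl))
    (le_trans (norm_nonneg _) (Finset.le_sup'
      (fun a => ‖∑ J ∈ (Act ψ T l z).image (· + h * kl),
        cJ (J - h * kl) * ψ (teich p n a) ^ p ^ J‖) (Finset.mem_univ 0)))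
    (fun a => Finset.le_sup'
      (fun a => ‖∑ J ∈ (Act ψ T l z).image (· + h * kl),
        cJ (J - h * kl) * ψ (teich p n a) ^ p ^ J‖) (Finset.mem_univ a))
    (A + h * kl) (Finset.mem_image_of_mem _ hA)
  have h5 : ‖cJ (A + h * kl - h * kl)‖ = B := by
    have h6 := (mem_Act_iff hh hψ hst).1 hA
    rw [Nat.add_sub_cancel]
    simp only [hcJ, norm_pow, norm_mul]
    rw [hl₂ (l + kl) (by omega), pow_mul (Real.exp _)]
    have h7 : Real.exp (-(we / ((p : ℝ) ^ n) ^ (l + kl))) ^ p ^ (S₀ + N₀)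
        = Real.exp (-(z / T.q ^ l)) := by
      rw [← Real.exp_nat_mul]
      congr 1
      simp only [hz, lvlArg, Trop.q, hT, tropOf, pow_add]
      push_cast
      field_simp
    rw [h7, h6, hl₄ l (by omega), hB, leadSize, ← Real.exp_nat_mul]
    congr 1
    push_cast
    rw [mul_neg]
    rfl
  linarith

end

end Vale.Agent.P217
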