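import Vale.Agent.P217.HighPoint
import Vale.Agent.P217.GermExists

/-! # P217: slopes and germs at one point of a prime of positive height -/

open scoped Classical
open Filter Asymptotics Topology

namespace Vale.Agent.P217

noncomputable section

set_option linter.unusedSectionVars false

variable {p n : ℕ} [hp : Fact p.Prime]

/-- The separable closure of the fraction field of `E ⧸ P`. -/
abbrev SepCl (p n : ℕ) [Fact p.Prime] (P : Ideal (LTRing p n)) [P.IsPrime] : Type :=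
  separableClosure (FractionRing (LTRing p n ⧸ P)) (ResAlg p n P)

/-- The algebraic torsion data of a prime. -/
structure Labels (p n : ℕ) [Fact p.Prime] (F : FormalGroup (LTRing p n)) (h : ℕ)
    (P : Ideal (LTRing p n)) [P.IsPrime]
    (x : (Fin (n - h) → ℤ_[p]) → ℕ → ResAlg p n P) : Prop where
  hn : 0 < n
  hF : HasHazewinkelLog p n F
  hh1 : 1 ≤ h
  hh : h < n
  hker : ∀ i, i < h → ltU p n i ∈ P
  sep : ∀ e l, x e l ^ p ^ (h * l) ∈
    separableClosure (FractionRing (LTRing p n ⧸ P)) (ResAlg p n P)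
  alg : ∀ e l, ∃ Q : Polynomial (LTRing p n), Q.IsDistinguishedAt (mIdeal p n) ∧
    Q.eval₂ (resMap p n P) (x e l) = 0
  torsion : ∀ (U : UField) (j : ResAlg p n P →+* U.K), IsPoint p n (j.comp (resMap p n P)) →
    OnStratum p n h (j.comp (resMap p n P)) →
    IsTorsion (j.comp (resMap p n P)) F (n - h) (fun e l => j (x e l))

/-- The properties of the slope function. -/
structure Slope {K : Type} [NormedField K] (h : ℕ) (x : (Fin (n - h) → ℤ_[p]) → ℕ → K)
    (w : (Fin (n - h) → ℤ_[p]) → ℝ) : Prop where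
  slope : ∀ e, e ≠ 0 → 0 < w e ∧ ∃ l₀, ∀ l ≥ l₀,
    ‖x e l‖ = Real.exp (-(w e / ((p : ℝ) ^ n) ^ l))
  smul_p : ∀ e, e ≠ 0 → w ((p : ℤ_[p]) • e) = (p : ℝ) ^ n * w e
  smul_unit : ∀ (c : ℤ_[p]) e, e ≠ 0 → IsUnit c → w (c • e) = w e
  ultra : ∀ e e', e ≠ 0 → e' ≠ 0 → e + e' ≠ 0 → min (w e) (w e') ≤ w (e + e')

namespace Slope

variable {K : Type} [NormedField K] {h : ℕ} {x : (Fin (n - h) → ℤ_[p]) → ℕ → K}
  {w : (Fin (n - h) → ℤ_[p]) → ℝ} (hs : Slope (p := p) (n := n) h x w)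

include hs

theorem smul_pow {e : Fin (n - h) → ℤ_[p]} (he : e ≠ 0) (m : ℕ) :
    w (((p : ℤ_[p]) ^ m) • e) = ((p : ℝ) ^ n) ^ m * w e := by
  induction m with
  | zero => simp
  | succ m ih =>
    have hne : ((p : ℤ_[p]) ^ m) • e ≠ 0 :=
      smul_ne_zero (pow_ne_zero _ (Nat.cast_ne_zero.2 hp.out.pos.ne')) he
    rw [pow_succ', mul_smul, hs.smul_p _ hne, ih, pow_succ']
    ring

theorem le_smul {e : Fin (n - h) → ℤ_[p]} (he : e ≠ 0) {a : ℤ_[p]} (ha : a ≠ 0) :
    w e ≤ w (a • e) := by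
  rw [PadicInt.unitCoeff_spec ha, mul_smul,
    hs.smul_unit _ _ (smul_ne_zero (pow_ne_zero _ (Nat.cast_ne_zero.2 hp.out.pos.ne')) he)
      (Units.isUnit _), hs.smul_pow he]
  exact le_mul_of_one_le_left (hs.slope e he).1.le
    (one_le_pow₀ (one_le_pow₀ (by exact_mod_cast hp.out.one_le)))

theorem comb_ge {e₁ e₂ : Fin (n - h) → ℤ_[p]} (h₁ : e₁ ≠ 0) (h₂ : e₂ ≠ 0) {R : ℝ}
    (hR₁ : R ≤ w e₁) (hR₂ : R ≤ w e₂) (a b : ℤ_[p]) (hne : a • e₁ + b • e₂ ≠ 0) :
    R ≤ w (a • e₁ + b • e₂) := by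
  by_cases ha : a = 0
  · subst ha
    simp only [zero_smul, zero_add] at hne ⊢
    exact hR₂.trans (hs.le_smul h₂ (fun hb => hne (by simp [hb])))
  by_cases hb : b = 0
  · subst hb
    simp only [zero_smul, add_zero] at hne ⊢
    exact hR₁.trans (hs.le_smul h₁ ha)
  exact le_trans (le_min (hR₁.trans (hs.le_smul h₁ ha)) (hR₂.trans (hs.le_smul h₂ hb)))
    (hs.ultra _ _ (smul_ne_zero ha h₁) (smul_ne_zero hb h₂) hne)

end Slope

section Linear

variable {F : FormalGroup (LTRing p n)} {K : Type} [NormedField K] [IsUltrametricDist K]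
  [CompleteSpace K] {ψ : LTRing p n →+* K} {h : ℕ}
  {x : (Fin (n - h) → ℤ_[p]) → ℕ → K}

/-- Torsion points are additive up to second order. -/
theorem torsion_linear (hψ : IsPoint p n ψ) (hx : IsTorsion ψ F (n - h) x) {J : Type}
    (s : Finset J) (a : J → ℕ) (e : J → Fin (n - h) → ℤ_[p]) (l : ℕ) {b : ℝ} (hb : 0 ≤ b)
    (hb1 : b < 1) (he : ∀ j ∈ s, ‖x (e j) l‖ ≤ b) :
    ‖x (∑ j ∈ s, (a j : ℤ_[p]) • e j) l - ∑ j ∈ s, (a j : K) * x (e j) l‖ ≤ b ^ 2 ∧
      ‖x (∑ j ∈ s, (a j : ℤ_[p]) • e j) l‖ ≤ b := by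
  have hb2 : b ^ 2 ≤ b := by nlinarith
  induction s using Finset.induction_on with
  | empty => simp [IsTorsion.zero hψ hx, sq_nonneg, hb]
  | insert j s hj ih =>
    obtain ⟨h1, h2⟩ := ih fun i hi => he i (Finset.mem_insert_of_mem hi)
    have hj' := he j (Finset.mem_insert_self j s)
    set u := x ((a j : ℤ_[p]) • e j) l with hu
    set v := x (∑ i ∈ s, (a i : ℤ_[p]) • e i) l with hv
    have h3 : ‖u - (a j : K) * x (e j) l‖ ≤ b ^ 2 := by
      rw [hu, Nat.cast_smul_eq_nsmul]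
      exact (torsion_norm_nsmul hψ hx (e j) l (a j)).trans (pow_le_pow_left₀ (norm_nonneg _) hj' 2)
    have hu' : ‖u‖ ≤ b := by
      rw [show u = (u - (a j : K) * x (e j) l) + (a j : K) * x (e j) l by ring]
      refine (IsUltrametricDist.norm_add_le_max _ _).trans (max_le (h3.trans hb2) ?_)
      rw [norm_mul]
      exact (mul_le_of_le_one_left (norm_nonneg _)
        (IsUltrametricDist.norm_natCast_le_one K (a j))).trans hj'
    have hsum := hx.add ((a j : ℤ_[p]) • e j) (∑ i ∈ s, (a i : ℤ_[p]) • e i) l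
    have h4 : ‖fadd ψ F u v - (u + v)‖ ≤ b ^ 2 := by
      refine (norm_fadd_sub_add_le hψ (hx.norm_lt _ _) (hx.norm_lt _ _)).trans ?_
      rw [sq]
      exact mul_le_mul hu' h2 (norm_nonneg _) hb
    rw [Finset.sum_insert hj, Finset.sum_insert hj, hsum]
    constructor
    · rw [show fadd ψ F u v - ((a j : K) * x (e j) l + ∑ i ∈ s, (a i : K) * x (e i) l)
        = (fadd ψ F u v - (u + v)) + ((u - (a j : K) * x (e j) l)
          + (v - ∑ i ∈ s, (a i : K) * x (e i) l)) by ring]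
      exact (IsUltrametricDist.norm_add_le_max _ _).trans
        (max_le h4 ((IsUltrametricDist.norm_add_le_max _ _).trans (max_le h3 h1)))
    · rw [show fadd ψ F u v = (fadd ψ F u v - (u + v)) + (u + v) by ring]
      exact (IsUltrametricDist.norm_add_le_max _ _).trans
        (max_le (h4.trans hb2) ((IsUltrametricDist.norm_add_le_max _ _).trans (max_le hu' h2)))

end Linear

variable {F : FormalGroup (LTRing p n)} {h : ℕ} {P : Ideal (LTRing p n)} [P.IsPrime]
  {x : (Fin (n - h) → ℤ_[p]) → ℕ → ResAlg p n P}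

theorem Labels.natCast_p (hL : Labels p n F h P x) : (p : ResAlg p n P) = 0 := by
  have h0 : ltU p n 0 ∈ P := hL.hker 0 hL.hh1
  have h1 : resMap p n P (ltU p n 0) = 0 := by
    simp [resMap, Ideal.Quotient.eq_zero_iff_mem.2 h0]
  rwa [ltU, if_pos rfl, map_natCast] at h1

theorem Labels.charP_sepCl (hL : Labels p n F h P x) : CharP (SepCl p n P) p :=
  (CharP.charP_iff_prime_eq_zero hp.out).2 (Subtype.ext (by simpa using hL.natCast_p))

/-- The element `x_l(e) ^ (p ^ (h l))` of the separable closure. -/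
def Labels.y (hL : Labels p n F h P x) (e : Fin (n - h) → ℤ_[p]) (l : ℕ) : SepCl p n P :=
  ⟨x e l ^ p ^ (h * l), hL.sep e l⟩

/-- The hypotheses on the family of automorphisms. -/
structure FamilyOK {S₀ c : ℕ} (D : ActFamily p n F S₀ c) (P : Ideal (LTRing p n)) : Prop where
  one_le : 1 ≤ c
  inv : ∀ i, Ideal.map (D i).α.toRingHom P = P

theorem resMap_eq_zero_iff (y : LTRing p n) : resMap p n P y = 0 ↔ y ∈ P := by
  simp [resMap, Ideal.Quotient.eq_zero_iff_mem]

/-- The package attached to one point: the germ of the action and the displacements. -/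
theorem point_germ (hL : Labels p n F h P x) (U : UField) (j : ResAlg p n P →+* U.K)
    (hpt : IsPoint p n (j.comp (resMap p n P))) (hst : OnStratum p n h (j.comp (resMap p n P)))
    {S₀ c : ℕ} (D : ActFamily p n F S₀ c) (hD : FamilyOK D P)
    {w : (Fin (n - h) → ℤ_[p]) → ℝ} (hw : Slope (p := p) (n := n) h (fun e l => j (x e l)) w)
    {w₀ : ℝ} (hw₀ : 0 < w₀) (hmin : ∀ e, e ≠ 0 → w₀ ≤ w e) :
    ∃ G : Germ (SepCl p n P) U.K (ActIdx p n),
      G.l = actFilter p n ∧ G.d = moveDist (j.comp (resMap p n P)) D ∧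
      ∀ e l, (fun i => (ev (j.comp (resMap p n P)) (D i).φ (j (x e l)) - j (x e l)) ^ p ^ (h * l))
        =ᶠ[actFilter p n] G.δ (hL.y e l) := by
  have hchar : (p : U.K) = 0 := by rw [← map_natCast j, hL.natCast_p, map_zero]
  have hker : ∀ y, (j.comp (resMap p n P)) y = 0 ↔ y ∈ P := fun y => by
    rw [RingHom.comp_apply, map_eq_zero, resMap_eq_zero_iff]
  have hstI := onStratum_moved D hker hD.inv hst
  have hx := hL.torsion U j hpt hst
  obtain ⟨G, hl, hι, hd, hsh⟩ := exists_germ hL.hn hL.hF hL.hh P U j hpt hst D hD.inv x hx hL.alg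
    (moveDist_tendsto hL.hn hL.hF hL.hh1 hL.hh hD.one_le hpt hst D hx hw.slope hchar hstI hw₀ hmin)
    (disp_tendsto hL.hn hL.hF hL.hh1 hL.hh hD.one_le hpt hst D hx hw.slope hchar hstI hw₀ hmin)
  have hK : CharP U.K p := (CharP.charP_iff_prime_eq_zero hp.out).2 hchar
  have : ExpChar U.K p := ExpChar.prime hp.out
  refine ⟨G, hl, hd, fun e l => ?_⟩
  filter_upwards [hsh e l (hL.sep e l)] with i hi
  rw [Germ.δ, Labels.y, hi, hι]
  simp only [map_pow, sub_pow_expChar_pow]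

end

end Vale.Agent.P217
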