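import Vale.Agent.P217.PeriodCase
import Vale.Agent.P217.HighCase

/-! # P217: assembly of the invariant prime theorem -/

namespace Vale.Agent.P217

noncomputable section

theorem invariant_ideals_of_log (p : ℕ) [Fact p.Prime] (n : ℕ) (hn : 0 < n)
    {F : FormalGroup (LTRing p n)} (hF : HasHazewinkelLog p n F) :
      (∀ I : Ideal (LTRing p n),
        (I.IsPrime ∧ IsInvariant p n F I) ↔ ∃ h : ℕ, h ≤ n ∧ I = heightIdeal p n h) ∧
      (∀ I : Ideal (LTRing p n),
        (I.IsRadical ∧ IsInvariant p n F I) ↔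
          (I = ⊤ ∨ ∃ h : ℕ, h ≤ n ∧ I = heightIdeal p n h)) ∧
      (∀ I : Ideal (LTRing p n), I.IsPrime → IsStabilizerInvariant p n F I →
        ∃ h : ℕ, h ≤ n ∧ I = heightIdeal p n h) := by
  have hcore : ∀ h < n, CoreStatement p n F h := fun h hh => by
    rcases Nat.eq_zero_or_pos h with rfl | hpos
    · exact core_zero p n hn hF
    · exact core_pos p n hn hF hpos hh
  have hstab : ∀ I : Ideal (LTRing p n), I.IsPrime → IsStabilizerInvariant p n F I →
      ∃ h : ℕ, h ≤ n ∧ I = heightIdeal p n h := fun I hI hs =>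
    primes_of_core p n hn hF hcore I hI 0 fun α h1 h2 _ => hs α h1 h2
  refine ⟨fun I => ⟨fun h => hstab I h.1 fun α h1 _ => h.2 α h1, ?_⟩,
    fun I => ⟨fun h => radicals_of_core p n hn hF hcore I h.1 h.2, ?_⟩, hstab⟩
  · rintro ⟨h, hh, rfl⟩
    exact ⟨heightIdeal_isPrime p n hh, invariant_heightIdeal p n hn hF hh⟩
  · rintro (rfl | ⟨h, hh, rfl⟩)
    · exact ⟨fun x _ => trivial, fun α _ => Ideal.map_top _⟩
    · exact ⟨(heightIdeal_isPrime p n hh).isRadical, invariant_heightIdeal p n hn hF hh⟩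

theorem invariant_ideals (p : ℕ) [Fact p.Prime] (n : ℕ) (hn : 0 < n) :
    (∃ F : FormalGroup (LTRing p n), HasHazewinkelLog p n F) ∧
    ∀ F : FormalGroup (LTRing p n), HasHazewinkelLog p n F →
      (∀ I : Ideal (LTRing p n),
        (I.IsPrime ∧ IsInvariant p n F I) ↔ ∃ h : ℕ, h ≤ n ∧ I = heightIdeal p n h) ∧
      (∀ I : Ideal (LTRing p n),
        (I.IsRadical ∧ IsInvariant p n F I) ↔
          (I = ⊤ ∨ ∃ h : ℕ, h ≤ n ∧ I = heightIdeal p n h)) ∧
      (∀ I : Ideal (LTRing p n), I.IsPrime → IsStabilizerInvariant p n F I →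
        ∃ h : ℕ, h ≤ n ∧ I = heightIdeal p n h) :=
  ⟨exists_hazewinkel p n hn, fun _ hF => invariant_ideals_of_log p n hn hF⟩

end

end Vale.Agent.P217
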