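import Vale.Agent.P217.FGL

/-!
The `p`-series of the formal group law with Hazewinkel's logarithm modulo the height ideals.
-/

open scoped BigOperators
open Finset

namespace Vale.Agent.P217

noncomputable section

section general

variable {R S : Type*} [CommRing R] [CommRing S]

lemma const_pair {I : Type*} {a b : MvPowerSeries I R} (ha : MvPowerSeries.constantCoeff a = 0)
    (hb : MvPowerSeries.constantCoeff b = 0) (s : Fin 2) :
    MvPowerSeries.constantCoeff (![a, b] s) = 0 := by
  fin_cases s <;> simpa

/-- Sum in a formal group. -/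
def fsum (F : FormalGroup R) (a b : PowerSeries R) : PowerSeries R :=
  MvPowerSeries.subst ![a, b] F.toPowerSeries

lemma constantCoeff_fsum (F : FormalGroup R) {a b : PowerSeries R}
    (ha : PowerSeries.constantCoeff a = 0) (hb : PowerSeries.constantCoeff b = 0) :
    PowerSeries.constantCoeff (fsum F a b) = 0 :=
  MvPowerSeries.constantCoeff_subst_eq_zero
    (MvPowerSeries.hasSubst_of_constantCoeff_zero (const_pair ha hb)) (const_pair ha hb)
    F.zero_constantCoeff

lemma map_fsum (f : R →+* S) (F : FormalGroup R) {a b : PowerSeries R}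
    (ha : PowerSeries.constantCoeff a = 0) (hb : PowerSeries.constantCoeff b = 0) :
    PowerSeries.map f (fsum F a b) = fsum (F.map f) (PowerSeries.map f a) (PowerSeries.map f b) := by
  show MvPowerSeries.map f (MvPowerSeries.subst _ _) = _
  rw [MvPowerSeries.map_subst (MvPowerSeries.hasSubst_of_constantCoeff_zero (const_pair ha hb))]
  unfold fsum
  congr 1
  funext i
  fin_cases i <;> rfl

/-- Low coefficients of a formal sum. -/
lemma coeff_fsum_low (F : FormalGroup R) {a b : PowerSeries R} {N j : ℕ}
    (ha : (PowerSeries.X : PowerSeries R) ^ N ∣ a) (hb : (PowerSeries.X : PowerSeries R) ^ N ∣ b)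
    (hN : 0 < N) (hj : j < 2 * N) :
    PowerSeries.coeff j (fsum F a b) = PowerSeries.coeff j a + PowerSeries.coeff j b := by
  classical
  have h0 : ∀ x : PowerSeries R, (PowerSeries.X : PowerSeries R) ^ N ∣ x →
      PowerSeries.constantCoeff x = 0 := fun x hx => by
    rw [← PowerSeries.coeff_zero_eq_constantCoeff_apply]
    exact PowerSeries.X_pow_dvd_iff.1 hx 0 hN
  rw [fsum, PowerSeries.coeff, MvPowerSeries.coeff_subst
    (MvPowerSeries.hasSubst_of_constantCoeff_zero (const_pair (h0 a ha) (h0 b hb))),
    finsum_eq_sum_of_support_subset _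
      (s := {Finsupp.single 0 1, Finsupp.single 1 1}) ?_,
    sum_pair (by simp [Finsupp.single_eq_single_iff])]
  · simp [F.lin_coeff_X, F.lin_coeff_Y, PowerSeries.coeff]
  intro d hd
  simp only [coe_insert, coe_singleton, Set.mem_insert_iff, Set.mem_singleton_iff]
  by_contra hc
  refine hd ?_
  show _ • _ = 0
  have hd2 : d 0 + d 1 ≠ 1 := by
    intro h
    rcases (show d 0 = 1 ∧ d 1 = 0 ∨ d 0 = 0 ∧ d 1 = 1 by omega) with ⟨h0', h1'⟩ | ⟨h0', h1'⟩
    · exact hc (Or.inl (by ext i; fin_cases i <;> simp [h0', h1']))
    · exact hc (Or.inr (by ext i; fin_cases i <;> simp [h0', h1']))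
  rcases Nat.eq_zero_or_pos (d 0 + d 1) with h | h
  · have : d = 0 := by ext i; fin_cases i <;> simp <;> omega
    subst this
    rw [MvPowerSeries.coeff_zero_eq_constantCoeff_apply, F.zero_constantCoeff, zero_smul]
  have hdvd : (PowerSeries.X : PowerSeries R) ^ (2 * N) ∣ d.prod fun s e => ![a, b] s ^ e := by
    rw [Finsupp.prod_fintype _ _ (fun i => pow_zero _), Fin.prod_univ_two]
    simp only [Matrix.cons_val_zero, Matrix.cons_val_one]
    refine dvd_trans (pow_dvd_pow _ (show 2 * N ≤ N * d 0 + N * d 1 by
      rw [← mul_add, mul_comm 2 N]; exact Nat.mul_le_mul_left N (by omega))) ?_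
    rw [pow_add, pow_mul, pow_mul]
    exact mul_dvd_mul (pow_dvd_pow_of_dvd ha _) (pow_dvd_pow_of_dvd hb _)
  have := PowerSeries.X_pow_dvd_iff.1 hdvd j hj
  rw [PowerSeries.coeff] at this
  rw [this, smul_zero]

/-- The `k`-series of a formal group. -/
def nser (F : FormalGroup R) : ℕ → PowerSeries R
  | 0 => 0
  | k + 1 => fsum F PowerSeries.X (nser F k)

lemma constantCoeff_nser (F : FormalGroup R) :
    ∀ k, PowerSeries.constantCoeff (nser F k) = 0
  | 0 => by simp [nser]
  | k + 1 => constantCoeff_fsum F PowerSeries.constantCoeff_X (constantCoeff_nser F k)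

lemma map_nser (f : R →+* S) (F : FormalGroup R) :
    ∀ k, PowerSeries.map f (nser F k) = nser (F.map f) k
  | 0 => by simp [nser]
  | k + 1 => by
    rw [nser, map_fsum f F PowerSeries.constantCoeff_X (constantCoeff_nser F k), PowerSeries.map_X,
      map_nser f F k, nser]

/-- A homomorphism commutes with the `k`-series. -/
lemma hom_nser {F G : FormalGroup R} {φ : PowerSeries R} (h0 : PowerSeries.constantCoeff φ = 0)
    (hφ : PowerSeries.subst F.toPowerSeries φ = MvPowerSeries.subst
      ![PowerSeries.subst (MvPowerSeries.X (0 : Fin 2)) φ,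
        PowerSeries.subst (MvPowerSeries.X (1 : Fin 2)) φ] G.toPowerSeries) :
    ∀ k, PowerSeries.subst (nser F k) φ = PowerSeries.subst φ (nser G k) := by
  intro k
  induction k with
  | zero =>
    rw [nser, nser]
    rw [show PowerSeries.subst φ (0 : PowerSeries R) = 0 by
      rw [← PowerSeries.coe_substAlgHom (PowerSeries.HasSubst.of_constantCoeff_zero' h0), map_zero]]
    ext j
    rw [PowerSeries.coeff_subst' PowerSeries.HasSubst.zero', map_zero,
      finsum_eq_zero_of_forall_eq_zero]
    intro d
    rcases eq_or_ne d 0 with rfl | hd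
    · simp [PowerSeries.coeff_zero_eq_constantCoeff_apply, h0]
    · simp [zero_pow hd]
  | succ k ih =>
    have hX := PowerSeries.constantCoeff_X (R := R)
    have hk := constantCoeff_nser F k
    have hs := MvPowerSeries.hasSubst_of_constantCoeff_zero (const_pair hX hk)
    have hφ' := PowerSeries.HasSubst.of_constantCoeff_zero' h0
    have e1 : PowerSeries.subst (nser F (k + 1)) φ = MvPowerSeries.subst ![PowerSeries.X, nser F k]
        (PowerSeries.subst F.toPowerSeries φ) := by
      rw [PowerSeries.subst, PowerSeries.subst, MvPowerSeries.subst_comp_subst_apply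
        (PowerSeries.HasSubst.of_constantCoeff_zero F.zero_constantCoeff).const hs]
      rfl
    have hφX : ∀ j : Fin 2, MvPowerSeries.constantCoeff
        (PowerSeries.subst (MvPowerSeries.X j : MvPowerSeries (Fin 2) R) φ) = 0 := fun j =>
      PowerSeries.constantCoeff_subst_eq_zero (by simp) _ h0
    rw [e1, hφ, MvPowerSeries.subst_comp_subst_apply
      (MvPowerSeries.hasSubst_of_constantCoeff_zero (const_pair (hφX 0) (hφX 1))) hs]
    have e2 : ∀ j : Fin 2, MvPowerSeries.subst ![PowerSeries.X, nser F k]
        (PowerSeries.subst (MvPowerSeries.X j : MvPowerSeries (Fin 2) R) φ)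
        = PowerSeries.subst (![PowerSeries.X, nser F k] j) φ := fun j => by
      rw [PowerSeries.subst, PowerSeries.subst, MvPowerSeries.subst_comp_subst_apply
        (PowerSeries.HasSubst.X j).const hs, MvPowerSeries.subst_X hs]
    show _ = MvPowerSeries.subst (fun _ : Unit => φ) (nser G (k + 1))
    rw [nser, fsum, MvPowerSeries.subst_comp_subst_apply
      (MvPowerSeries.hasSubst_of_constantCoeff_zero
        (const_pair hX (constantCoeff_nser G k))) hφ'.const]
    congr 1
    funext i
    fin_cases i
    · simp only [Fin.zero_eta, Matrix.cons_val_zero]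
      rw [e2 0]
      simp only [Matrix.cons_val_zero]
      rw [PowerSeries.X_subst]
      exact (PowerSeries.subst_X hφ').symm
    · simp only [Fin.mk_one, Matrix.cons_val_one, Matrix.cons_val_fin_one]
      rw [e2 1]
      simp only [Matrix.cons_val_one, Matrix.cons_val_fin_one]
      exact ih

end general

variable (p n : ℕ) [hp : Fact p.Prime]

lemma log_add {F : FormalGroup (LTRing p n)} (hF : HasHazewinkelLog p n F) {I : Type*}
    {a b : MvPowerSeries I (LTField p n)} (ha : MvPowerSeries.constantCoeff a = 0)
    (hb : MvPowerSeries.constantCoeff b = 0) :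
    PowerSeries.subst (MvPowerSeries.subst ![a, b] (F.map (ltEmb p n)).toPowerSeries) (ltLog p n)
      = PowerSeries.subst a (ltLog p n) + PowerSeries.subst b (ltLog p n) := by
  have hs := MvPowerSeries.hasSubst_of_constantCoeff_zero (const_pair ha hb)
  have h := congrArg (MvPowerSeries.subst (R := LTField p n) ![a, b]) hF
  rw [MvPowerSeries.subst_add hs] at h
  simp only [PowerSeries.subst] at h ⊢
  rw [MvPowerSeries.subst_comp_subst_apply
      (PowerSeries.HasSubst.of_constantCoeff_zero (F.map (ltEmb p n)).zero_constantCoeff).const hs,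
    MvPowerSeries.subst_comp_subst_apply (PowerSeries.HasSubst.X _).const hs,
    MvPowerSeries.subst_comp_subst_apply (PowerSeries.HasSubst.X _).const hs,
    MvPowerSeries.subst_X hs, MvPowerSeries.subst_X hs] at h
  simpa using h

lemma log_map_fsum {F : FormalGroup (LTRing p n)} (hF : HasHazewinkelLog p n F)
    {a b : PowerSeries (LTRing p n)} (ha : PowerSeries.constantCoeff a = 0)
    (hb : PowerSeries.constantCoeff b = 0) :
    PowerSeries.subst (PowerSeries.map (ltEmb p n) (fsum F a b)) (ltLog p n)
      = PowerSeries.subst (PowerSeries.map (ltEmb p n) a) (ltLog p n)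
        + PowerSeries.subst (PowerSeries.map (ltEmb p n) b) (ltLog p n) := by
  rw [map_fsum _ F ha hb]
  refine log_add p n hF ?_ ?_
  · show MvPowerSeries.constantCoeff (MvPowerSeries.map _ a) = 0
    rw [MvPowerSeries.constantCoeff_map]
    exact (congrArg _ ha).trans (map_zero _)
  · show MvPowerSeries.constantCoeff (MvPowerSeries.map _ b) = 0
    rw [MvPowerSeries.constantCoeff_map]
    exact (congrArg _ hb).trans (map_zero _)

lemma log_zero : PowerSeries.subst (0 : PowerSeries (LTField p n)) (ltLog p n) = 0 := by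
  ext j
  rw [PowerSeries.coeff_subst' PowerSeries.HasSubst.zero', map_zero,
    finsum_eq_zero_of_forall_eq_zero]
  intro d
  rcases eq_or_ne d 0 with rfl | hd
  · simp [PowerSeries.coeff_zero_eq_constantCoeff_apply, coeff_zero_ltLog p n]
  · simp [zero_pow hd]

lemma log_nser {F : FormalGroup (LTRing p n)} (hF : HasHazewinkelLog p n F) (k : ℕ) :
    PowerSeries.subst (PowerSeries.map (ltEmb p n) (nser F k)) (ltLog p n) = k • ltLog p n := by
  induction k with
  | zero => rw [nser, map_zero, log_zero, zero_smul]
  | succ k ih =>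
    rw [nser, log_map_fsum p n hF PowerSeries.constantCoeff_X (constantCoeff_nser F k), ih,
      PowerSeries.map_X, succ_nsmul', PowerSeries.X_subst]

/-- `exp (p x)` is `p` times an integral series. -/
lemma exists_exp_prime : ∃ G : PowerSeries (LTRing p n), PowerSeries.constantCoeff G = 0 ∧
    PowerSeries.subst ((p : PowerSeries (LTField p n)) * PowerSeries.map (ltEmb p n) G) (ltLog p n)
      = (p : PowerSeries (LTField p n)) * PowerSeries.X := by
  classical
  set ι := ltEmb p n with hι
  have hp0 := natCast_prime_ne_zero p n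
  have h1 : IsUnit (PowerSeries.coeff 1 (ltLog p n)) := by rw [coeff_one_ltLog]; exact isUnit_one
  set E := PowerSeries.substInvOfIsUnit (ltLog p n) h1 with hE
  set H : PowerSeries (LTField p n) := (p : PowerSeries (LTField p n)) * PowerSeries.X with hH
  have H0 : PowerSeries.constantCoeff H = 0 := by rw [hH]; simp
  set Z : PowerSeries (LTField p n) := PowerSeries.subst H E with hZ
  have hH' := PowerSeries.HasSubst.of_constantCoeff_zero' H0
  have hLZ : PowerSeries.subst Z (ltLog p n) = H := by
    rw [hZ, ← PowerSeries.subst_comp_subst_apply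
      (PowerSeries.HasSubst.substInvOfIsUnit (ltLog p n) h1) hH',
      PowerSeries.subst_substInvOfIsUnit_right _ (coeff_zero_ltLog p n) h1, PowerSeries.subst_X hH']
  have Z0 : PowerSeries.constantCoeff Z = 0 :=
    PowerSeries.constantCoeff_subst_eq_zero H0 _ (by simp [hE])
  set W : PowerSeries (LTField p n) := PowerSeries.C ((p : LTField p n)⁻¹) * Z with hW
  have hZW : Z = (p : PowerSeries (LTField p n)) * W := by
    rw [hW, ← mul_assoc, ← map_natCast (PowerSeries.C (R := LTField p n)) p, ← map_mul,
      mul_inv_cancel₀ hp0, map_one, one_mul]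
  have hint : ∀ N, PowerSeries.coeff N W ∈ ι.range := by
    intro N
    induction N using Nat.strong_induction_on with
    | _ N ih =>
    let W' : PowerSeries (LTRing p n) := PowerSeries.mk fun j =>
      if h : j < N then (ih j h).choose else 0
    have hA : FEL.Agree N W (MvPowerSeries.map ι W') := by
      intro d hd
      have hj : d () < N := by rwa [Finsupp.unique_single d, Finsupp.degree_single] at hd
      rw [Finsupp.unique_single d]
      show PowerSeries.coeff _ W = PowerSeries.coeff _ (PowerSeries.map ι W')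
      rw [PowerSeries.coeff_map, show PowerSeries.coeff (d ()) W' = (ih _ hj).choose by
        rw [PowerSeries.coeff_mk, dif_pos hj]]
      exact (ih _ hj).choose_spec.symm
    have W0 : MvPowerSeries.constantCoeff W = 0 := by
      show PowerSeries.constantCoeff W = 0
      rw [hW, map_mul, Z0, mul_zero]
    have W'0 : MvPowerSeries.constantCoeff (MvPowerSeries.map ι W') = 0 := by
      rcases Nat.eq_zero_or_pos N with rfl | hN
      · show PowerSeries.constantCoeff (PowerSeries.map ι W') = 0
        rw [← PowerSeries.coeff_zero_eq_constantCoeff_apply, PowerSeries.coeff_map,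
          PowerSeries.coeff_mk, dif_neg (lt_irrefl 0), map_zero]
      · rw [← MvPowerSeries.coeff_zero_eq_constantCoeff_apply, ← hA 0 (by simpa using hN),
          MvPowerSeries.coeff_zero_eq_constantCoeff_apply, W0]
    have h := congrArg (MvPowerSeries.coeff (Finsupp.single () N)) hLZ
    have Z0' : MvPowerSeries.constantCoeff Z = 0 := Z0
    rw [coeff_subst_ltLog p n Z0', Finsupp.degree_single, sum_range_succ',
      show logCoeff p n 0 = 1 by rw [logCoeff], one_mul, pow_zero, pow_one] at h
    have hk : ∀ k ∈ range N, ∃ c, logCoeff p n (k + 1)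
        * MvPowerSeries.coeff (Finsupp.single () N) (Z ^ p ^ (k + 1)) = (p : LTField p n) * ι c := by
      intro k _
      obtain ⟨a, ha⟩ := FEL.pow_mul_coeff_mem (τ := ltFrobK p n) (σ := ltFrob p n) (ι := ι)
        (ltFrobK_emb p n) (s := ltS p n) (l := logCoeff p n)
        (fun i => ⟨_, (prime_mul_ltS p n (i + 1)).symm⟩) (by rw [logCoeff]) (logCoeff_funEq p n)
        (k + 1)
      obtain ⟨r, hr⟩ : ∃ r, p ^ (k + 1) = (k + 1) + 1 + r :=
        ⟨p ^ (k + 1) - (k + 2), by have := Nat.lt_pow_self hp.out.one_lt (n := k + 1); omega⟩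
      refine ⟨(p : LTRing p n) ^ r * a
        * MvPowerSeries.coeff (Finsupp.single () N) (W' ^ p ^ (k + 1)), ?_⟩
      rw [hZW, mul_pow, ← map_natCast (MvPowerSeries.C (R := LTField p n) (σ := Unit)) p,
        ← map_pow, MvPowerSeries.coeff_C_mul,
        hA.coeff_pow W0 W'0 (Nat.one_lt_pow (by omega) hp.out.one_lt) (by simp), ← map_pow (MvPowerSeries.map ι),
        MvPowerSeries.coeff_map, map_mul ι, map_mul ι, map_pow ι, map_natCast, ha]
      generalize ι (MvPowerSeries.coeff (Finsupp.single () N) (W' ^ p ^ (k + 1))) = w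
      rw [hr]
      ring
    choose! c hc using hk
    rw [sum_congr rfl hc, ← mul_sum] at h
    obtain ⟨e, he⟩ : ∃ e : LTRing p n, PowerSeries.coeff N H = (p : LTField p n) * ι e := by
      refine ⟨if N = 1 then 1 else 0, ?_⟩
      rw [hH, ← map_natCast (PowerSeries.C (R := LTField p n)) p, PowerSeries.coeff_C_mul,
        PowerSeries.coeff_X]
      split_ifs <;> simp
    refine ⟨e - ∑ k ∈ range N, c k, ?_⟩
    rw [hW, PowerSeries.coeff_C_mul, map_sub, map_sum]
    have h' : PowerSeries.coeff N Z = (p : LTField p n) * ι e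
        - (p : LTField p n) * ∑ k ∈ range N, ι (c k) := by
      rw [← he]
      exact eq_sub_of_add_eq' h
    rw [h', mul_sub, inv_mul_cancel_left₀ hp0, inv_mul_cancel_left₀ hp0]
  choose g hg using hint
  refine ⟨PowerSeries.mk g, ?_, ?_⟩
  · apply IsFractionRing.injective (LTRing p n) (LTField p n)
    show ι _ = _
    rw [← PowerSeries.coeff_zero_eq_constantCoeff_apply, PowerSeries.coeff_mk, hg,
      PowerSeries.coeff_zero_eq_constantCoeff_apply, hW, map_mul, Z0, mul_zero, map_zero]
  · have : PowerSeries.map ι (PowerSeries.mk g) = W := by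
      ext j
      rw [PowerSeries.coeff_map, PowerSeries.coeff_mk, hg]
    rw [this, ← hZW, hLZ]

/-- `u x ^ (p ^ i)` as a series. -/
def term (i : ℕ) : PowerSeries (LTRing p n) :=
  PowerSeries.C (ltU p n i) * PowerSeries.X ^ p ^ i

lemma constantCoeff_term (i : ℕ) : PowerSeries.constantCoeff (term p n i) = 0 := by
  simp [term, zero_pow (pow_ne_zero i hp.out.ne_zero)]

/-- The formal sum of `u_i x ^ (p ^ i)` over the last `r` indices. -/
def tail (F : FormalGroup (LTRing p n)) : ℕ → PowerSeries (LTRing p n)
  | 0 => 0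
  | r + 1 => fsum F (term p n (n - r)) (tail F r)

lemma constantCoeff_tail (F : FormalGroup (LTRing p n)) :
    ∀ r, PowerSeries.constantCoeff (tail p n F r) = 0
  | 0 => by simp [tail]
  | r + 1 => constantCoeff_fsum F (constantCoeff_term p n _) (constantCoeff_tail F r)

lemma log_tail {F : FormalGroup (LTRing p n)} (hF : HasHazewinkelLog p n F) (r : ℕ) :
    PowerSeries.subst (PowerSeries.map (ltEmb p n) (tail p n F r)) (ltLog p n)
      = ∑ s ∈ range r, PowerSeries.subst (PowerSeries.map (ltEmb p n) (term p n (n - s))) (ltLog p n) := by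
  induction r with
  | zero => rw [tail, map_zero, log_zero, range_zero, sum_empty]
  | succ r ih =>
    rw [tail, log_map_fsum p n hF (constantCoeff_term p n _) (constantCoeff_tail p n F r), ih,
      sum_range_succ, add_comm]

lemma coeff_log_term (i m : ℕ) :
    PowerSeries.coeff m (PowerSeries.subst (PowerSeries.map (ltEmb p n) (term p n i)) (ltLog p n))
      = if p ^ i ∣ m then ltEmb p n (ltU p n i) ^ (m / p ^ i)
          * PowerSeries.coeff (m / p ^ i) (ltLog p n) else 0 := by
  have hq := pow_ne_zero i hp.out.ne_zero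
  have e : PowerSeries.map (ltEmb p n) (term p n i)
      = PowerSeries.C (ltEmb p n (ltU p n i)) * PowerSeries.X ^ p ^ i := by
    rw [term, map_mul, PowerSeries.map_C, map_pow, PowerSeries.map_X]
  rw [e, PowerSeries.coeff_subst' (PowerSeries.HasSubst.of_constantCoeff_zero' (by
    simp [zero_pow hq]))]
  simp only [mul_pow, ← map_pow, ← pow_mul, PowerSeries.coeff_C_mul, PowerSeries.coeff_X_pow,
    smul_eq_mul, mul_ite, mul_one, mul_zero]
  by_cases h : p ^ i ∣ m
  · rw [if_pos h, finsum_eq_single _ (m / p ^ i), if_pos (Nat.mul_div_cancel' h).symm, mul_comm]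
    intro d hd
    rw [if_neg]
    intro hm
    exact hd (by rw [hm, Nat.mul_div_cancel_left _ (Nat.pos_of_ne_zero hq)])
  · rw [if_neg h, finsum_eq_zero_of_forall_eq_zero]
    intro d
    rw [if_neg fun hm => h ⟨d, hm⟩]

/-- Hazewinkel's identity `p f(x) = p x + ∑ f(u_i x^(p^i))`. -/
lemma prime_mul_ltLog : p • ltLog p n = (p : PowerSeries (LTField p n)) * PowerSeries.X
    + ∑ s ∈ range n, PowerSeries.subst (PowerSeries.map (ltEmb p n) (term p n (n - s))) (ltLog p n) := by
  ext N
  rw [map_add, map_nsmul, map_sum, nsmul_eq_mul,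
    ← map_natCast (PowerSeries.C (R := LTField p n)) p, PowerSeries.coeff_C_mul,
    PowerSeries.coeff_X]
  simp only [coeff_log_term]
  by_cases hN : ∃ m, p ^ m = N
  swap
  · push Not at hN
    rw [coeff_ltLog_of_ne p n hN, mul_zero, if_neg fun h => hN 0 (by simp [h]), mul_zero, zero_add,
      sum_eq_zero]
    intro s _
    split_ifs with h
    · rw [coeff_ltLog_of_ne p n fun k hk => hN (k + (n - s))
        (by rw [pow_add, hk, Nat.div_mul_cancel h]), mul_zero]
    · rfl
  obtain ⟨m, rfl⟩ := hN
  rcases m with _ | m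
  · rw [pow_zero, coeff_one_ltLog, if_pos rfl, sum_eq_zero, add_zero]
    intro s hs
    have := mem_range.1 hs
    rw [if_neg]
    rw [Nat.dvd_one]
    exact (Nat.one_lt_pow (by omega) hp.out.one_lt).ne'
  rw [if_neg (Nat.one_lt_pow (by omega) hp.out.one_lt).ne', mul_zero, zero_add, coeff_ltLog_pow,
    logCoeff_succ, mul_sum]
  simp only [mul_inv_cancel_left₀ (natCast_prime_ne_zero p n), Nat.pow_dvd_pow_iff_le_right hp.out.one_lt]
  refine sum_bij_ne_zero (fun j _ _ => n - (m + 1 - j)) (fun j hj hne => ?_)
    (fun j₁ h₁ n₁ j₂ h₂ n₂ h => ?_) (fun s hs hne => ?_) (fun j hj hne => ?_)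
  · have hj' := mem_range.1 hj
    have : m + 1 - j ≤ n := by
      by_contra hgt
      refine hne ?_
      rw [ltU, if_neg (by omega), dif_neg (by omega), if_neg (by omega)]
      simp [hp.out.ne_zero]
    exact mem_range.2 (by omega)
  · have := mem_range.1 h₁
    have := mem_range.1 h₂
    have hle : ∀ j, logCoeff p n j * ltEmb p n (ltU p n (m + 1 - j)) ^ p ^ j ≠ 0 → j < m + 1 →
        m + 1 - j ≤ n := by
      intro j hne hj
      by_contra hgt
      refine hne ?_
      rw [ltU, if_neg (by omega), dif_neg (by omega), if_neg (by omega)]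
      simp [hp.out.ne_zero]
    have := hle _ n₁ (by omega)
    have := hle _ n₂ (by omega)
    omega
  · have hs' := mem_range.1 hs
    have hle : n - s ≤ m + 1 := by
      by_contra hgt
      exact hne (if_neg (by omega))
    refine ⟨m + 1 - (n - s), mem_range.2 (by omega), ?_, by omega⟩
    rw [if_pos hle, Nat.pow_div hle hp.out.pos, coeff_ltLog_pow] at hne
    rw [show m + 1 - (m + 1 - (n - s)) = n - s by omega, mul_comm]
    exact hne
  · have hj' := mem_range.1 hj
    have hle : m + 1 - j ≤ n := by
      by_contra hgt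
      refine hne ?_
      rw [ltU, if_neg (by omega), dif_neg (by omega), if_neg (by omega)]
      simp [hp.out.ne_zero]
    rw [show n - (n - (m + 1 - j)) = m + 1 - j by omega, if_pos (by omega),
      Nat.pow_div (by omega) hp.out.pos, show m + 1 - (m + 1 - j) = j by omega, coeff_ltLog_pow,
      mul_comm]

/-- `[p](x) = exp (p x) +_F ∑^F u_i x ^ (p ^ i)`. -/
theorem exists_pSeries_eq {F : FormalGroup (LTRing p n)} (hF : HasHazewinkelLog p n F) :
    ∃ G : PowerSeries (LTRing p n), PowerSeries.constantCoeff G = 0 ∧
      nser F p = fsum F ((p : PowerSeries (LTRing p n)) * G) (tail p n F n) := by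
  obtain ⟨G, G0, hG⟩ := exists_exp_prime p n
  refine ⟨G, G0, ?_⟩
  have hpG : PowerSeries.constantCoeff ((p : PowerSeries (LTRing p n)) * G) = 0 := by
    rw [map_mul, G0, mul_zero]
  refine map_inj (IsFractionRing.injective (LTRing p n) (LTField p n)) ?_
  have hc : ∀ x : PowerSeries (LTRing p n), PowerSeries.constantCoeff x = 0 →
      MvPowerSeries.constantCoeff (MvPowerSeries.map (ltEmb p n) x) = 0 := fun x hx => by
    rw [MvPowerSeries.constantCoeff_map]
    exact (congrArg _ hx).trans (map_zero _)
  refine eq_of_ltLog_eq p n (hc _ (constantCoeff_nser F p))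
    (hc _ (constantCoeff_fsum F hpG (constantCoeff_tail p n F n))) ?_
  show PowerSeries.subst (PowerSeries.map (ltEmb p n) _) _
    = PowerSeries.subst (PowerSeries.map (ltEmb p n) _) _
  rw [log_nser p n hF, log_map_fsum p n hF hpG (constantCoeff_tail p n F n), log_tail p n hF,
    map_mul, map_natCast, hG, prime_mul_ltLog]

/-- Modulo an ideal containing `p, u_1, ..., u_{h-1}` only the last summands remain. -/
theorem map_pSeries_eq_tail {F : FormalGroup (LTRing p n)} (hF : HasHazewinkelLog p n F)
    {Q : Type*} [CommRing Q] (π : LTRing p n →+* Q) {h : ℕ} (h1 : 1 ≤ h) (hn : h ≤ n)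
    (hπ : ∀ i < h, π (ltU p n i) = 0) :
    PowerSeries.map π (nser F p) = PowerSeries.map π (tail p n F (n + 1 - h)) := by
  obtain ⟨G, G0, hG⟩ := exists_pSeries_eq p n hF
  have hzero : ∀ r, n + 1 - h ≤ r → r ≤ n →
      PowerSeries.map π (tail p n F r) = PowerSeries.map π (tail p n F (n + 1 - h)) := by
    intro r hr
    induction r, hr using Nat.le_induction with
    | base => exact fun _ => rfl
    | succ r hr ih =>
      intro hrn
      rw [tail, map_fsum π F (constantCoeff_term p n _) (constantCoeff_tail p n F r)]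
      have : PowerSeries.map π (term p n (n - r)) = 0 := by
        rw [term, map_mul, PowerSeries.map_C, hπ _ (by omega), map_zero, zero_mul]
      rw [this, fsum, (F.map π).zero_add (PowerSeries.HasSubst.of_constantCoeff_zero' (by
        rw [← PowerSeries.coeff_zero_eq_constantCoeff_apply, PowerSeries.coeff_map,
          PowerSeries.coeff_zero_eq_constantCoeff_apply, constantCoeff_tail, map_zero]))]
      exact ih (by omega)
  have hp0 : π (p : LTRing p n) = 0 := by simpa [ltU] using hπ 0 (by omega)
  have hfull : PowerSeries.map π (nser F p) = PowerSeries.map π (tail p n F (n + 1 - h)) := by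
    rw [hG, map_fsum π F (by rw [map_mul, G0, mul_zero]) (constantCoeff_tail p n F n), map_mul,
      ← map_natCast (PowerSeries.C (R := LTRing p n)) p, PowerSeries.map_C, hp0, map_zero,
      zero_mul, fsum, (F.map π).zero_add (PowerSeries.HasSubst.of_constantCoeff_zero' (by
        rw [← PowerSeries.coeff_zero_eq_constantCoeff_apply, PowerSeries.coeff_map,
          PowerSeries.coeff_zero_eq_constantCoeff_apply, constantCoeff_tail, map_zero]))]
    exact hzero n (by omega) le_rfl
  exact hfull

/-- Modulo an ideal containing `p, u_1, ..., u_{h-1}` the `p`-series starts with `u_h x ^ (p ^ h)`. -/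
theorem coeff_pSeries_mod {F : FormalGroup (LTRing p n)} (hF : HasHazewinkelLog p n F)
    {Q : Type*} [CommRing Q] (π : LTRing p n →+* Q) {h : ℕ} (h1 : 1 ≤ h) (hn : h ≤ n)
    (hπ : ∀ i < h, π (ltU p n i) = 0) {j : ℕ} (hj : j ≤ p ^ h) :
    π (PowerSeries.coeff j (nser F p)) = if j = p ^ h then π (ltU p n h) else 0 := by
  have hq : ∀ r, r ≤ n → (PowerSeries.X : PowerSeries (LTRing p n)) ^ p ^ (n + 1 - r) ∣ tail p n F r := by
    intro r
    induction r with
    | zero => exact fun _ => by simp [tail]
    | succ r ih =>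
      intro hr
      rw [PowerSeries.X_pow_dvd_iff]
      intro i hi
      have e1 : n + 1 - (r + 1) = n - r := by omega
      rw [e1] at hi
      have hb : (PowerSeries.X : PowerSeries (LTRing p n)) ^ p ^ (n - r) ∣ tail p n F r :=
        (pow_dvd_pow _ (Nat.pow_le_pow_right hp.out.pos (by omega))).trans (ih (by omega))
      rw [tail, coeff_fsum_low F (show _ ∣ term p n (n - r) from dvd_mul_left _ _) hb (pow_pos hp.out.pos _)
        (by have := pow_pos hp.out.pos (n - r); omega),
        PowerSeries.X_pow_dvd_iff.1 hb i hi, add_zero, term, PowerSeries.coeff_C_mul,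
        PowerSeries.coeff_X_pow, if_neg hi.ne, mul_zero]
  have hfull := map_pSeries_eq_tail p n hF π h1 hn hπ
  have hco := congrArg (PowerSeries.coeff j) hfull
  rw [PowerSeries.coeff_map, PowerSeries.coeff_map] at hco
  rw [hco, show n + 1 - h = (n - h) + 1 by omega, tail]
  have hb : (PowerSeries.X : PowerSeries (LTRing p n)) ^ p ^ (h + 1) ∣ tail p n F (n - h) := by
    have := hq (n - h) (by omega)
    rwa [show n + 1 - (n - h) = h + 1 by omega] at this
  have hlt : p ^ h < p ^ (h + 1) := Nat.pow_lt_pow_right hp.out.one_lt (by omega)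
  rw [show n - (n - h) = h by omega,
    coeff_fsum_low F (show _ ∣ term p n h from dvd_mul_left _ _) ((pow_dvd_pow _ hlt.le).trans hb) (pow_pos hp.out.pos _)
      (by have := pow_pos hp.out.pos h; omega),
    PowerSeries.X_pow_dvd_iff.1 hb j (by omega), add_zero, term, PowerSeries.coeff_C_mul,
    PowerSeries.coeff_X_pow]
  split_ifs <;> simp

end

end Vale.Agent.P217
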