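import Vale.Agent.P217.Action
import Vale.Agent.P217.Reduction
import Vale.Agent.P217.NormField
import Vale.Agent.P217.Generic.Main

/-! # P217: the mixed characteristic case -/

open scoped Classical
open Filter Topology Finset

namespace Vale.Agent.P217

noncomputable section

namespace PeriodCase

variable {p : ℕ} [hp : Fact p.Prime] {d : ℕ} {K : Type} [NormedField K]

/-- The coordinates of a point. -/
def pt (ψ : LTRing p (d + 1) →+* K) : Fin d → K := fun i => ψ (MvPowerSeries.X i)

omit [NormedField K] in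
lemma ltU_zero (n : ℕ) : ltU p n 0 = (p : LTRing p n) := if_pos rfl

omit [NormedField K] in
lemma ltU_castSucc (i : Fin d) : ltU p (d + 1) ((i.castSucc : ℕ) + 1) = MvPowerSeries.X i := by
  rw [ltU, if_neg (Nat.succ_ne_zero _), dif_pos (by simp)]
  congr 1

omit [NormedField K] in
lemma ltU_top : ltU p (d + 1) (d + 1) = 1 := by
  rw [ltU, if_neg (Nat.succ_ne_zero _), dif_neg (by simp), if_pos rfl]

omit [NormedField K] in
lemma ltU_above {i : ℕ} (hi : d + 1 < i) : ltU p (d + 1) i = 0 := by
  rw [ltU, if_neg (by omega), dif_neg (by omega), if_neg (by omega)]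

/-- Hazewinkel's generators, as a tuple. -/
def vU (p d : ℕ) [Fact p.Prime] : Fin (d + 1) → LTRing p (d + 1) :=
  fun i => ltU p (d + 1) ((i : ℕ) + 1)

lemma map_vU (f : LTRing p (d + 1) →+* K) : f ∘ vU p d = Generic.ext (pt f) := by
  funext i
  refine Fin.lastCases ?_ (fun j => ?_) i
  · rw [Generic.ext_last, Function.comp_apply, vU, Fin.val_last, ltU_top, map_one]
  · rw [Generic.ext_castSucc, Function.comp_apply, vU, ltU_castSucc, pt]

omit [NormedField K] in
lemma logCoeff_eq_lg (M : ℕ) :
    logCoeff p (d + 1) M = Generic.lg p (p : LTField p (d + 1))⁻¹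
      (algebraMap (LTRing p (d + 1)) (LTField p (d + 1)) ∘ vU p d) M := by
  induction M using Nat.strong_induction_on with
  | _ M ih =>
    cases M with
    | zero => rw [Generic.lg_zero, logCoeff]
    | succ M =>
      rw [logCoeff, Generic.lg_succ]
      congr 1
      set G : ℕ → LTField p (d + 1) := fun i => if i ≤ M then logCoeff p (d + 1) (M - i) *
        algebraMap (LTRing p (d + 1)) _ (ltU p (d + 1) (i + 1) ^ p ^ (M - i)) else 0 with hG
      have h1 : ∑ j : Fin (M + 1), logCoeff p (d + 1) j.1 *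
          algebraMap (LTRing p (d + 1)) (LTField p (d + 1))
            (ltU p (d + 1) (M + 1 - j.1) ^ p ^ j.1)
          = ∑ i ∈ range (M + 1), G i := by
        rw [Fin.sum_univ_eq_sum_range (fun j => logCoeff p (d + 1) j *
          algebraMap (LTRing p (d + 1)) (LTField p (d + 1)) (ltU p (d + 1) (M + 1 - j) ^ p ^ j)),
          ← Finset.sum_range_reflect]
        refine Finset.sum_congr rfl fun i hi => ?_
        have hi' := Finset.mem_range.1 hi
        simp only [hG]
        rw [if_pos (by omega), show M + 1 - 1 - i = M - i by omega,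
          show M + 1 - (M - i) = i + 1 by omega]
      have h2 : ∑ i : Fin (d + 1), (if (i : ℕ) ≤ M then
          (algebraMap (LTRing p (d + 1)) (LTField p (d + 1)) ∘ vU p d) i ^ p ^ (M - (i : ℕ)) *
            Generic.lg p (p : LTField p (d + 1))⁻¹
              (algebraMap (LTRing p (d + 1)) (LTField p (d + 1)) ∘ vU p d) (M - (i : ℕ)) else 0)
          = ∑ i ∈ range (d + 1), G i := by
        rw [← Fin.sum_univ_eq_sum_range G]
        refine Finset.sum_congr rfl fun i _ => ?_
        simp only [hG]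
        split_ifs with h
        · rw [ih _ (by omega), map_pow, mul_comm, Function.comp_apply, vU]
        · rfl
      rw [h1, h2]
      rcases le_total M d with h | h
      · refine Finset.sum_subset (Finset.range_subset_range.2 (by omega)) fun i _ hi => ?_
        simp only [Finset.mem_range] at hi
        exact if_neg (by omega)
      · refine (Finset.sum_subset (Finset.range_subset_range.2 (by omega)) fun i hi hi' => ?_).symm
        simp only [Finset.mem_range] at hi hi'
        simp only [hG]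
        rw [if_pos (by omega), ltU_above (by omega), zero_pow (pow_ne_zero _ hp.out.ne_zero),
          map_zero, mul_zero]

/-- Values at a point of a congruence modulo a power of the maximal ideal. -/
lemma norm_le_pow [IsUltrametricDist K] {n : ℕ} {ψ : LTRing p n →+* K} {θ : ℝ} (hθ0 : 0 ≤ θ)
    (h1 : ∀ x, ‖ψ x‖ ≤ 1) (hθ : ∀ x ∈ mIdeal p n, ‖ψ x‖ ≤ θ) :
    ∀ (c : ℕ), ∀ x ∈ mIdeal p n ^ c, ‖ψ x‖ ≤ θ ^ c := by
  intro c
  induction c with
  | zero => intro x _; simpa using h1 x
  | succ c ih =>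
    intro x hx
    rw [pow_succ] at hx
    refine Submodule.mul_induction_on hx (fun a ha b hb => ?_) fun a b ha hb => ?_
    · rw [map_mul, norm_mul, pow_succ]
      exact mul_le_mul (ih a ha) (hθ b hb) (norm_nonneg _) (pow_nonneg hθ0 c)
    · rw [map_add]
      exact (IsUltrametricDist.norm_add_le_max _ _).trans (max_le ha hb)

omit [NormedField K] in
lemma X_mem_mIdeal (i : Fin d) :
    (MvPowerSeries.X i : LTRing p (d + 1)) ∈ mIdeal p (d + 1) :=
  Ideal.subset_span ⟨(i : ℕ) + 1, by simp, by simpa using ltU_castSucc (p := p) i⟩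

omit [NormedField K] in
lemma natCast_mem_mIdeal : (p : LTRing p (d + 1)) ∈ mIdeal p (d + 1) :=
  Ideal.subset_span ⟨0, by simp, ltU_zero _⟩

omit [NormedField K] in
/-- A series without monomials in the box of side `N` lies in `m^N`. -/
lemma mem_pow_of_coeff_zero (N : ℕ) : ∀ (s : Finset (Fin d)) (f : LTRing p (d + 1)),
    (∀ β : Fin d →₀ ℕ, (∀ i ∈ s, β i < N) → MvPowerSeries.coeff β f = 0) →
    f ∈ mIdeal p (d + 1) ^ N := by
  intro s
  induction s using Finset.induction with
  | empty =>
    intro f hf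
    rw [show f = 0 from MvPowerSeries.ext fun β => hf β (by simp)]
    exact zero_mem _
  | insert j s hj ih =>
    intro f hf
    let r : LTRing p (d + 1) := fun β => if β j < N then f β else 0
    have hr : ∀ β, MvPowerSeries.coeff β r = if β j < N then MvPowerSeries.coeff β f else 0 :=
      fun _ => rfl
    have h1 : r ∈ mIdeal p (d + 1) ^ N := ih r fun β hβ => by
      rw [hr]
      split_ifs with h
      · exact hf β fun i hi => by
          rcases Finset.mem_insert.1 hi with rfl | hi'
          · exact h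
          · exact hβ i hi'
      · rfl
    obtain ⟨g, hg⟩ : (MvPowerSeries.X j : LTRing p (d + 1)) ^ N ∣ f - r := by
      refine MvPowerSeries.X_pow_dvd_iff.2 fun β hβ => ?_
      rw [map_sub, hr, if_pos hβ, sub_self]
    rw [show f = r + (MvPowerSeries.X j : LTRing p (d + 1)) ^ N * g by rw [← hg]; ring]
    exact add_mem h1 (Ideal.mul_mem_right _ _ (Ideal.pow_mem_pow (X_mem_mIdeal j) N))

/-- A point is the evaluation of the coefficients at its coordinates. -/
lemma evK_eq [IsUltrametricDist K] [CompleteSpace K] {ψ : LTRing p (d + 1) →+* K}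
    (hψ : IsPoint p (d + 1) ψ) (G : LTRing p (d + 1)) :
    Generic.evK (fun β : Fin d → ℕ =>
      ψ (MvPowerSeries.C (MvPowerSeries.coeff (Finsupp.equivFunOnFinite.symm β) G))) (pt ψ)
      = ψ G := by
  obtain ⟨h1, θ, hθ0, hθ1, hθ⟩ := hψ
  set g : (Fin d → ℕ) → K := fun β =>
    ψ (MvPowerSeries.C (MvPowerSeries.coeff (Finsupp.equivFunOnFinite.symm β) G)) with hg
  set box : ℕ → Finset (Fin d → ℕ) := fun N => Fintype.piFinset fun _ => range N with hbox
  have hu : ‖pt ψ‖ < 1 := by
    refine lt_of_le_of_lt ((pi_norm_le_iff_of_nonneg hθ0.le).2 fun i => ?_) hθ1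
    exact hθ _ (X_mem_mIdeal i)
  have hsum : Summable fun β => g β * Generic.mon (pt ψ) β := by
    simpa [Generic.dmon_zero] using
      Generic.summable_dmon (g := g) (fun β => h1 _) hu (0 : Fin d → ℕ)
  have hboxT : Tendsto box atTop atTop := by
    refine tendsto_atTop_finset_of_monotone ?_ fun β => ?_
    · intro a b hab
      exact Fintype.piFinset_subset _ _ fun _ => Finset.range_subset_range.2 hab
    · exact ⟨(∑ i, β i) + 1, Fintype.mem_piFinset.2 fun i => Finset.mem_range.2
        (Nat.lt_succ_of_le (Finset.single_le_sum (fun _ _ => Nat.zero_le _) (Finset.mem_univ i)))⟩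
  refine tendsto_nhds_unique (hsum.hasSum.comp hboxT) ?_
  rw [tendsto_iff_norm_sub_tendsto_zero]
  refine squeeze_zero (fun _ => norm_nonneg _) (fun N => ?_)
    (tendsto_pow_atTop_nhds_zero_of_lt_one hθ0.le hθ1)
  set T : LTRing p (d + 1) := ∑ β ∈ box N, MvPowerSeries.monomial (Finsupp.equivFunOnFinite.symm β)
    (MvPowerSeries.coeff (Finsupp.equivFunOnFinite.symm β) G) with hT
  have hval : ψ T = ∑ β ∈ box N, g β * Generic.mon (pt ψ) β := by
    rw [hT, map_sum]
    refine Finset.sum_congr rfl fun β _ => ?_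
    rw [MvPowerSeries.monomial_eq', map_mul, Finsupp.prod_fintype _ _ (fun _ => pow_zero _),
      map_prod]
    simp only [hg, Generic.mon, pt, map_pow, Finsupp.coe_equivFunOnFinite_symm]
  simp only [Function.comp_apply]
  rw [← hval, ← map_sub]
  refine norm_le_pow hθ0.le h1 hθ N _ ?_
  refine mem_pow_of_coeff_zero N Finset.univ _ fun β hβ => ?_
  have hmem : Finsupp.equivFunOnFinite β ∈ box N :=
    Fintype.mem_piFinset.2 fun i => Finset.mem_range.2 (hβ i (Finset.mem_univ i))
  rw [map_sub, hT, map_sum, Finset.sum_eq_single (Finsupp.equivFunOnFinite β)]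
  · rw [Equiv.symm_apply_apply, MvPowerSeries.coeff_monomial_same, sub_self]
  · intro b _ hb
    rw [MvPowerSeries.coeff_monomial_ne]
    intro h
    exact hb (by rw [h, Equiv.apply_symm_apply])
  · exact fun h => absurd hmem h

/-- The logarithmic identity of an element of the stabilizer, read at a point. -/
lemma log_eq_at {F : FormalGroup (LTRing p (d + 1))} {S : ℕ} {a : GaloisField p (d + 1)} {c : ℕ}
    (D : ActData p (d + 1) F S a c) (ψ : LTRing p (d + 1) →+* K) (hψp : (p : K) ≠ 0) (M : ℕ) :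
    ψ (D.b 0) * Generic.L p (pt ψ) M = ∑ k ∈ range (M + 1),
      ψ (D.b k) ^ p ^ (M - k) * Generic.L p (pt (ψ.comp D.α.toRingHom)) (M - k) := by
  let R := Localization.Away (p : LTRing p (d + 1))
  have hemb : IsUnit (algebraMap (LTRing p (d + 1)) (LTField p (d + 1)) (p : LTRing p (d + 1))) := by
    rw [map_natCast]; exact isUnit_iff_ne_zero.2 (natCast_prime_ne_zero p (d + 1))
  let ι : R →+* LTField p (d + 1) := IsLocalization.Away.lift (p : LTRing p (d + 1)) hemb
  have hι : ∀ x, ι (algebraMap _ R x) = algebraMap (LTRing p (d + 1)) (LTField p (d + 1)) x :=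
    IsLocalization.Away.lift_eq (p : LTRing p (d + 1)) hemb
  have hιi : Function.Injective ι := by
    refine (injective_iff_map_eq_zero ι).2 fun z hz => ?_
    obtain ⟨x, s, rfl⟩ := IsLocalization.exists_mk'_eq (Submonoid.powers (p : LTRing p (d + 1))) z
    have h := congrArg ι (IsLocalization.mk'_spec R x s)
    rw [map_mul, hz, zero_mul, hι] at h
    rw [(map_eq_zero_iff _ (IsFractionRing.injective (LTRing p (d + 1)) (LTField p (d + 1)))).1
      h.symm, IsLocalization.mk'_zero]
  have hψu : IsUnit (ψ (p : LTRing p (d + 1))) := by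
    rw [map_natCast]; exact isUnit_iff_ne_zero.2 hψp
  let χ : R →+* K := IsLocalization.Away.lift (p : LTRing p (d + 1)) hψu
  have hχ : ∀ x, χ (algebraMap _ R x) = ψ x :=
    IsLocalization.Away.lift_eq (p : LTRing p (d + 1)) hψu
  obtain ⟨π, hπ⟩ := (IsLocalization.Away.algebraMap_isUnit (S := R)
    (p : LTRing p (d + 1))).exists_right_inv
  rw [map_natCast] at hπ
  have hιπ : ι π = (p : LTField p (d + 1))⁻¹ := by
    refine eq_inv_of_mul_eq_one_right ?_
    simpa using congrArg ι hπ
  have hχπ : χ π = (p : K)⁻¹ := by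
    refine eq_inv_of_mul_eq_one_right ?_
    simpa using congrArg χ hπ
  set U : Fin (d + 1) → R := algebraMap _ R ∘ vU p d with hU
  set U' : Fin (d + 1) → R := algebraMap _ R ∘ D.α ∘ vU p d with hU'
  have hιU : ∀ N, ι (Generic.lg p π U N) = logCoeff p (d + 1) N := fun N => by
    rw [Generic.map_lg, hιπ, logCoeff_eq_lg]
    congr 1
    funext i
    exact hι _
  have hιU' : ∀ N, ι (Generic.lg p π U' N)
      = IsFractionRing.ringEquivOfRingEquiv D.α (logCoeff p (d + 1) N) := fun N => by
    rw [Generic.map_lg, hιπ, logCoeff_eq_lg, ← RingEquiv.coe_toRingHom, Generic.map_lg,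
      RingEquiv.coe_toRingHom, map_inv₀, map_natCast]
    congr 1
    funext i
    simp [hU', hι]
  have key : algebraMap _ R (D.b 0) * Generic.lg p π U M = ∑ k ∈ range (M + 1),
      algebraMap _ R (D.b k) ^ p ^ (M - k) * Generic.lg p π U' (M - k) := by
    refine hιi ?_
    rw [map_mul, hι, hιU, D.log_eq M, map_sum]
    refine Finset.sum_congr rfl fun k _ => ?_
    simp only [map_mul, map_pow, hι, hιU', mul_comm]
  have h := congrArg χ key
  simp only [map_mul, map_sum, map_pow, hχ, Generic.map_lg, hχπ] at h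
  have e1 : χ ∘ U = Generic.ext (pt ψ) := by
    rw [← map_vU]; funext i; exact hχ _
  have e2 : χ ∘ U' = Generic.ext (pt (ψ.comp D.α.toRingHom)) := by
    rw [← map_vU]; funext i; exact hχ _
  rw [e1, e2] at h
  exact h

end PeriodCase

open PeriodCase

variable (p n : ℕ) [hp : Fact p.Prime]

/-- The core statement in mixed characteristic. -/
theorem core_zero (hn : 0 < n) {F : FormalGroup (LTRing p n)} (hF : HasHazewinkelLog p n F) :
    CoreStatement p n F 0 := by
  intro P k c hP h2k hkn hle hu hrad hinv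
  obtain ⟨d, rfl⟩ : ∃ d, n = d + 1 := ⟨n - 1, by omega⟩
  obtain ⟨U, j, hpoint, ⟨-, hψp'⟩, -, -⟩ :=
    exists_point p (d + 1) hn P (by omega : 0 + 2 ≤ k) hkn hle hu hrad 1 one_pos
  set ψ : LTRing p (d + 1) →+* U.K := j.comp (resMap p (d + 1) P) with hψ
  rw [ltU_zero] at hψp'
  have hpK : (p : U.K) ≠ 0 := by simpa using hψp'
  obtain ⟨θ₀, -, hθ₁, hθ₂⟩ := hpoint.contracting
  have hp1 : ‖(p : U.K)‖ < 1 := by
    have := hθ₂ _ natCast_mem_mIdeal
    rw [map_natCast] at this
    linarith
  let _ : NontriviallyNormedField U.K :=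
    NontriviallyNormedField.ofNormNeOne ⟨(p : U.K), hpK, hp1.ne⟩
  have : CharZero U.K := by
    refine charZero_of_inj_zero fun m hm => ?_
    by_contra hm0
    obtain ⟨v, u, hu', rfl⟩ := Nat.exists_eq_pow_mul_and_not_dvd hm0 p hp.out.ne_one
    rw [Nat.cast_mul, Nat.cast_pow, mul_eq_zero] at hm
    have hu0 : (u : U.K) = 0 := hm.resolve_left (pow_ne_zero _ hpK)
    have hb := Int.gcd_eq_gcd_ab (u : ℤ) (p : ℤ)
    rw [Int.gcd_natCast_natCast, Nat.coprime_iff_gcd_eq_one.1
      ((Nat.coprime_comm.1 ((Nat.Prime.coprime_iff_not_dvd hp.out).2 hu')))] at hb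
    have hb' := congrArg (fun x : ℤ => (x : U.K)) hb
    simp only [Nat.cast_one, Int.cast_one, Int.cast_add, Int.cast_mul, Int.cast_natCast, hu0,
      zero_mul, zero_add] at hb'
    have h := congrArg norm hb'
    rw [norm_one, norm_mul] at h
    nlinarith [IsUltrametricDist.norm_intCast_le_one U.K ((u : ℤ).gcdB (p : ℤ)), norm_nonneg (p : U.K)]
  have hCinj : Function.Injective (ψ.comp (MvPowerSeries.C :
      WittVector p (GaloisField p (d + 1)) →+* LTRing p (d + 1))) := by
    refine (injective_iff_map_eq_zero _).2 fun w hw => ?_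
    by_contra hw0
    obtain ⟨m, b, rfl⟩ := WittVector.exists_eq_pow_p_mul' w hw0
    rw [map_mul, map_pow, map_natCast, mul_eq_zero] at hw
    exact hw.elim (pow_ne_zero _ hpK) (b.isUnit.map _).ne_zero
  -- the digit
  let _ : Fintype (GaloisField p (d + 1)) := Fintype.ofFinite _
  have hcard : Fintype.card (GaloisField p (d + 1)) = p ^ (d + 1) := by
    rw [← Nat.card_eq_fintype_card, GaloisField.card p (d + 1) (Nat.succ_ne_zero d)]
  obtain ⟨a, ha⟩ := IsCyclic.exists_ofOrder_eq_natCard (α := (GaloisField p (d + 1))ˣ)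
  rw [Nat.card_units, Nat.card_eq_fintype_card, hcard] at ha
  let χ : GaloisField p (d + 1) →* U.K :=
    (ψ.comp (MvPowerSeries.C :
      WittVector p (GaloisField p (d + 1)) →+* LTRing p (d + 1))).toMonoidHom.comp
      (WittVector.teichmuller p)
  have hχ : ∀ x, χ x = ψ (teich p (d + 1) x) := fun _ => rfl
  have hχinj : Function.Injective χ := fun x y h => by
    have := congrArg (fun w => WittVector.coeff w 0) (hCinj h)
    simpa [WittVector.teichmuller_coeff_zero] using this
  set ω : U.K := χ (a : GaloisField p (d + 1)) with hω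
  have hωpow : ω ^ p ^ (d + 1) = ω := by
    rw [hω, ← map_pow, ← hcard, FiniteField.pow_card]
  have hω1 : ‖ω‖ ≤ 1 := hpoint.le_one _
  have hωi : Function.Injective fun i : Fin (d + 1) => ω ^ p ^ (i : ℕ) := by
    intro i i' h
    simp only [hω, ← map_pow] at h
    have h' : a ^ p ^ (i : ℕ) = a ^ p ^ (i' : ℕ) := Units.ext (by simpa using hχinj h)
    have hlt : ∀ i : Fin (d + 1), p ^ (i : ℕ) < orderOf a := by
      intro i
      rw [ha]
      have h1 : p ^ (i : ℕ) ≤ p ^ d := Nat.pow_le_pow_right hp.out.pos (by omega)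
      have h2 : 2 * p ^ d ≤ p ^ (d + 1) := by
        rw [pow_succ, mul_comm]; exact Nat.mul_le_mul_left _ hp.out.two_le
      have h3 : 2 ≤ p ^ d :=
        hp.out.two_le.trans (Nat.le_self_pow (by omega) p)
      omega
    exact Fin.ext (Nat.pow_right_injective hp.out.two_le
      (pow_injOn_Iio_orderOf (hlt i) (hlt i') h'))
  -- the set of points
  set V : Set (Fin d → U.K) := {u | ∃ φ : LTRing p (d + 1) →+* U.K, IsPoint p (d + 1) φ ∧
    (∀ w, φ (MvPowerSeries.C w) = ψ (MvPowerSeries.C w)) ∧ (∀ x ∈ P, φ x = 0) ∧ u = pt φ} with hV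
  have hne : V.Nonempty := by
    refine ⟨pt ψ, ψ, hpoint, fun _ => rfl, fun x hx => ?_, rfl⟩
    simp [hψ, resMap, Ideal.Quotient.eq_zero_iff_mem.2 hx]
  have hV1 : ∀ u ∈ V, ‖u‖ < 1 := by
    rintro _ ⟨φ, ⟨-, θ, hθ0, hθ1, hθ⟩, -, -, rfl⟩
    exact lt_of_le_of_lt ((pi_norm_le_iff_of_nonneg hθ0.le).2 fun i => hθ _ (X_mem_mIdeal i)) hθ1
  have hlink : ∀ u ∈ V, ∀ l ≤ d, ∀ e ≤ d, ∀ ε > (0 : ℝ), ∀ᶠ m : ℕ in atTop,
      ∃ u' ∈ V, ‖u' - u‖ < ε ∧ Generic.Link p u (Generic.tau (ω ^ e) (m * (d + 1) + l)) u' := by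
    rintro _ ⟨φ, ⟨h1, θ, hθ0, hθ1, hθ⟩, hC, hker, rfl⟩ l _ e _ ε hε
    obtain ⟨c₁, hc₁⟩ := exists_pow_lt_of_lt_one hε hθ1
    set c' := max (max c c₁) 1 with hc'
    obtain ⟨S₀, hS₀⟩ := exists_actData p (d + 1) hn hF c'
    rw [eventually_atTop]
    refine ⟨S₀, fun m hm => ?_⟩
    set S := m * (d + 1) + l with hS
    obtain ⟨D⟩ := hS₀ S (hm.trans ((Nat.le_mul_of_pos_right m d.succ_pos).trans
      (Nat.le_add_right _ _))) ((a : GaloisField p (d + 1)) ^ e)
    set φ' := φ.comp D.α.toRingHom with hφ'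
    have hnear : ∀ x, D.α x - x ∈ mIdeal p (d + 1) ^ c := fun x =>
      Ideal.pow_le_pow_right ((le_max_left _ _).trans (le_max_left _ _)) (D.near x)
    have hmap := hinv D.α D.isDeformationAut D.fix hnear
    have hαm : ∀ x ∈ mIdeal p (d + 1), D.α x ∈ mIdeal p (d + 1) := fun x hx => by
      have h := Ideal.pow_le_self (by omega : c' ≠ 0) (D.near x)
      simpa using add_mem h hx
    refine ⟨pt φ', ⟨φ', ⟨fun x => h1 _, θ, hθ0, hθ1, fun x hx => hθ _ (hαm x hx)⟩,
      fun w => ?_, fun x hx => hker _ ?_, rfl⟩, ?_, fun i => φ (D.b i), fun i => h1 _,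
      fun i => ?_, fun M => log_eq_at D φ hpK M⟩
    · rw [hφ', RingHom.comp_apply, ← hC w]
      exact congrArg φ (D.fix w)
    · have := Ideal.mem_map_of_mem D.α.toRingHom hx
      rwa [hmap] at this
    · refine lt_of_le_of_lt ((pi_norm_le_iff_of_nonneg (pow_nonneg hθ0.le c')).2 fun i => ?_)
        (lt_of_le_of_lt (pow_le_pow_of_le_one hθ0.le hθ1.le
          ((le_max_right _ _).trans (le_max_left _ _))) hc₁)
      rw [Pi.sub_apply, pt, pt, hφ', RingHom.comp_apply, ← map_sub]
      exact norm_le_pow hθ0.le h1 hθ c' _ (D.near _)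
    · have h := hθ _ (D.b_res i)
      refine lt_of_le_of_lt (le_trans (le_of_eq ?_) h) hθ1
      rw [map_sub]
      congr 1
      simp only [Generic.tau, apply_ite φ, map_one, map_zero, sub_right_inj]
      rw [show φ (teich p (d + 1) ((a : GaloisField p (d + 1)) ^ e)) = ω ^ e by
        rw [hω, ← map_pow, hχ]; exact hC _]
  -- conclusion
  have hP0 : P = ⊥ := by
    refine eq_bot_iff.2 fun G hG => ?_
    rw [Ideal.mem_bot]
    have hg := Generic.eq_zero_of_vanish (p := p) hpK hp1 hp.out.two_le hne hV1 hωpow hω1 hωi hlink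
      (g := fun β : Fin d → ℕ =>
        ψ (MvPowerSeries.C (MvPowerSeries.coeff (Finsupp.equivFunOnFinite.symm β) G)))
      (fun β => hpoint.le_one _) (fun u hu => by
        obtain ⟨φ, hφ, hC, hker, rfl⟩ := hu
        simp only [← hC]
        rw [evK_eq hφ, hker G hG])
    refine MvPowerSeries.ext fun β => hCinj ?_
    have h := congrFun hg (Finsupp.equivFunOnFinite β)
    simpa using h
  rw [hP0, bot_sup_eq, ltU_zero] at hrad
  have h1 : heightIdeal p (d + 1) 1 = Ideal.span {(p : LTRing p (d + 1))} := by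
    simp [heightIdeal, ltU_zero]
  rw [← h1, (heightIdeal_isPrime p (d + 1) (by omega : 1 ≤ d + 1)).isRadical.radical] at hrad
  have := heightIdeal_injOn p (d + 1) (by omega : 1 ≤ d + 1) hkn hrad
  omega

end

end Vale.Agent.P217
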