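import Vale.Agent.P217.Action

/-!
# P217: rigidity of the universal deformation

Let two automorphisms of the Lubin-Tate ring carry `F` to formal group laws isomorphic to `F`. If
they agree on the residue field and the isomorphisms agree modulo the maximal ideal, then they are
equal. So an element of the extended stabilizer determines its automorphism.
-/

open scoped BigOperators

namespace Vale.Agent.P217

noncomputable section

namespace Rigid

variable {A k : Type*} [CommRing A] [CommRing k]

lemma add_pow_sq_zero {x y : A} (h : y * y = 0) :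
    ∀ d : ℕ, (x + y) ^ d = x ^ d + (d : A) * x ^ (d - 1) * y
  | 0 => by simp
  | 1 => by simp
  | d + 2 => by
    rw [pow_succ, add_pow_sq_zero h (d + 1)]
    simp only [Nat.add_sub_cancel, show d + 2 - 1 = d + 1 by omega]
    push_cast
    linear_combination ((d : A) + 1) * x ^ d * h

/-- Substitution only depends on the residue when the outer coefficients annihilate the kernel. -/
lemma subst_congr (ρ : A →+* k) {f g g' : PowerSeries A}
    (hf : ∀ d a, ρ a = 0 → PowerSeries.coeff d f * a = 0)
    (hg : PowerSeries.constantCoeff g = 0) (hg' : PowerSeries.constantCoeff g' = 0)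
    (h : PowerSeries.map ρ g = PowerSeries.map ρ g') :
    PowerSeries.subst g f = PowerSeries.subst g' f := by
  refine PowerSeries.ext fun N => ?_
  rw [PowerSeries.coeff_subst' (PowerSeries.HasSubst.of_constantCoeff_zero' hg),
    PowerSeries.coeff_subst' (PowerSeries.HasSubst.of_constantCoeff_zero' hg')]
  refine finsum_congr fun d => ?_
  rw [smul_eq_mul, smul_eq_mul, ← sub_eq_zero, ← mul_sub]
  refine hf d _ ?_
  rw [map_sub, ← PowerSeries.coeff_map, ← PowerSeries.coeff_map, map_pow (PowerSeries.map ρ), map_pow (PowerSeries.map ρ), h, sub_self]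

/-- A perturbation killed by the derivative does not change a substitution. -/
lemma subst_add_eq {f g η : PowerSeries A}
    (hη : ∀ i j, PowerSeries.coeff i η * PowerSeries.coeff j η = 0)
    (hf : ∀ d j : ℕ, (d : A) * PowerSeries.coeff d f * PowerSeries.coeff j η = 0)
    (hg : PowerSeries.constantCoeff g = 0) (h0 : PowerSeries.constantCoeff η = 0) :
    PowerSeries.subst (g + η) f = PowerSeries.subst g f := by
  have hc : PowerSeries.constantCoeff (g + η) = 0 := by simp [hg, h0]
  have hsq : η * η = 0 := by
    ext N
    rw [PowerSeries.coeff_mul, map_zero]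
    exact Finset.sum_eq_zero fun x _ => hη _ _
  refine PowerSeries.ext fun N => ?_
  rw [PowerSeries.coeff_subst' (PowerSeries.HasSubst.of_constantCoeff_zero' hc),
    PowerSeries.coeff_subst' (PowerSeries.HasSubst.of_constantCoeff_zero' hg)]
  refine finsum_congr fun d => ?_
  rw [smul_eq_mul, smul_eq_mul, add_pow_sq_zero hsq, map_add, mul_add, add_eq_left,
    PowerSeries.coeff_mul, Finset.mul_sum]
  refine Finset.sum_eq_zero fun x _ => ?_
  rw [← map_natCast (PowerSeries.C (R := A)), PowerSeries.coeff_C_mul]
  linear_combination PowerSeries.coeff x.1 (g ^ (d - 1)) * hf d x.2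

end Rigid

open Rigid

variable (p n : ℕ) [hp : Fact p.Prime]

/-- A series is its constant term plus a combination of the variables. -/
lemma sub_constant_mem_span_X (f : LTRing p n) :
    f - MvPowerSeries.C (MvPowerSeries.constantCoeff f)
      ∈ Ideal.span (Set.range (MvPowerSeries.X : Fin (n - 1) → LTRing p n)) := by
  classical
  suffices key : ∀ (s : Finset (Fin (n - 1))) (g : LTRing p n),
      (∀ β : Fin (n - 1) →₀ ℕ, (∀ i ∈ s, β i = 0) → MvPowerSeries.coeff β g = 0) →
      g ∈ Ideal.span (Set.range (MvPowerSeries.X : Fin (n - 1) → LTRing p n)) by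
    refine key Finset.univ _ fun β hβ => ?_
    rw [show β = 0 from Finsupp.ext fun i => hβ i (Finset.mem_univ i), map_sub,
      MvPowerSeries.coeff_zero_eq_constantCoeff_apply,
      MvPowerSeries.coeff_zero_eq_constantCoeff_apply, MvPowerSeries.constantCoeff_C, sub_self]
  intro s
  induction s using Finset.induction with
  | empty =>
    intro g hg
    rw [show g = 0 from MvPowerSeries.ext fun β => hg β (by simp)]
    exact zero_mem _
  | insert j s hj ih =>
    intro g hg
    let r : LTRing p n := fun β => if β j = 0 then g β else 0
    have hr : ∀ β, MvPowerSeries.coeff β r = if β j = 0 then MvPowerSeries.coeff β g else 0 :=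
      fun _ => rfl
    obtain ⟨q, hq⟩ : (MvPowerSeries.X j : LTRing p n) ∣ g - r := by
      rw [MvPowerSeries.X_dvd_iff]
      intro β hβ
      rw [map_sub, hr, if_pos hβ, sub_self]
    rw [show g = r + MvPowerSeries.X j * q by rw [← hq]; ring]
    refine add_mem (ih r fun β hβ => ?_) (Ideal.mul_mem_right _ _ (Ideal.subset_span ⟨j, rfl⟩))
    rw [hr]
    split_ifs with h
    · exact hg β fun i hi => by
        rcases Finset.mem_insert.1 hi with rfl | hi'
        · exact h
        · exact hβ i hi'
    · rfl

variable {p n}

/-- An automorphism which is trivial on the residue field fixes the coefficient ring. -/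
lemma fixesCoeff_of_residue (hn : 0 < n) (α : LTRing p n ≃+* LTRing p n)
    (h : ∀ a, α (teich p n a) - teich p n a ∈ mIdeal p n) : FixesCoeff p n α := by
  have := mIdeal_isAdicComplete p n hn
  have hT : ∀ a, α (teich p n a) = teich p n a := by
    intro a
    set x := teich p n a with hx
    set y := α x with hy
    have hxq : x ^ p ^ n = x := Act.teich_pow_card p n hn a
    have hyq : y ^ p ^ n = y := by rw [hy, ← map_pow, hxq]
    have hsum : ∑ i ∈ Finset.range (p ^ n), y ^ i * x ^ (p ^ n - 1 - i) ∈ mIdeal p n := by
      rw [← Ideal.Quotient.eq_zero_iff_mem, map_sum]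
      have hyx := Ideal.Quotient.mk_eq_mk_iff_sub_mem y x |>.2 (h a)
      rw [Finset.sum_congr rfl fun i hi => show _ =
        Ideal.Quotient.mk (mIdeal p n) x ^ (p ^ n - 1) by
          rw [map_mul, map_pow, map_pow, hyx, ← pow_add]
          congr 1
          have := Finset.mem_range.1 hi
          omega]
      rw [Finset.sum_const, Finset.card_range, nsmul_eq_mul, ← map_natCast (Ideal.Quotient.mk _),
        Ideal.Quotient.eq_zero_iff_mem.2, zero_mul]
      push_cast
      exact Ideal.pow_mem_of_mem _ (RingComplete.prime_mem_mIdeal p n hn) _ hn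
    have key : ∀ r, y - x ∈ mIdeal p n ^ r := by
      intro r
      induction r with
      | zero => simp
      | succ r ih =>
        have e := (Commute.all y x).geom_sum₂_mul (p ^ n)
        rw [hyq, hxq] at e
        rw [← e, pow_succ']
        exact Ideal.mul_mem_mul hsum ih
    refine sub_eq_zero.1 (IsHausdorff.haus (I := mIdeal p n) inferInstance _ fun r => ?_)
    rw [SModEq.zero, smul_eq_mul, Ideal.mul_top]
    exact key r
  have key : ∀ (r : ℕ) (w : WittVector p (GaloisField p n)),
      α (MvPowerSeries.C w) - MvPowerSeries.C w ∈ mIdeal p n ^ r := by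
    intro r
    induction r with
    | zero => simp
    | succ r ih =>
      intro w
      obtain ⟨v, hv⟩ := Ideal.mem_span_singleton.1
        ((WittVector.mem_span_p_iff_coeff_zero_eq_zero
          (w - WittVector.teichmuller p (w.coeff 0))).2 (by
            rw [← WittVector.constantCoeff_apply, map_sub, WittVector.constantCoeff_apply,
              WittVector.constantCoeff_apply, WittVector.teichmuller_coeff_zero, sub_self]))
      have e : MvPowerSeries.C w = teich p n (w.coeff 0) + (p : LTRing p n) * MvPowerSeries.C v := by
        rw [teich, ← map_natCast (MvPowerSeries.C (R := WittVector p (GaloisField p n))) p,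
          ← map_mul, ← map_add, ← hv, add_sub_cancel]
      rw [e, map_add, map_mul, map_natCast, hT, add_sub_add_left_eq_sub, ← mul_sub, pow_succ']
      exact Ideal.mul_mem_mul (RingComplete.prime_mem_mIdeal p n hn) (ih v)
  intro w
  refine sub_eq_zero.1 (IsHausdorff.haus (I := mIdeal p n) inferInstance _ fun r => ?_)
  rw [SModEq.zero, smul_eq_mul, Ideal.mul_top]
  exact key r w

/-- Closeness to the identity on the variables spreads to all series. -/
lemma near_of_near_X {α : LTRing p n ≃+* LTRing p n} (hfix : FixesCoeff p n α) {r : ℕ}
    (hX : ∀ i, α (MvPowerSeries.X i) - MvPowerSeries.X i ∈ mIdeal p n ^ r) :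
    ∀ x, α x - x ∈ mIdeal p n ^ r := by
  suffices key : ∀ s ≤ r, ∀ x, α x - x ∈ mIdeal p n ^ s from key r le_rfl
  intro s
  induction s with
  | zero => intro _ x; simp
  | succ s ih =>
    intro hs x
    have hC := hfix (MvPowerSeries.constantCoeff x)
    rw [show α x - x = α (x - MvPowerSeries.C (MvPowerSeries.constantCoeff x))
        - (x - MvPowerSeries.C (MvPowerSeries.constantCoeff x)) by rw [map_sub, hC]; ring]
    refine Submodule.span_induction (p := fun y _ => α y - y ∈ mIdeal p n ^ (s + 1)) ?_ ?_ ?_ ?_
      (sub_constant_mem_span_X p n x)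
    · rintro _ ⟨i, rfl⟩
      exact Ideal.pow_le_pow_right hs (hX i)
    · simp
    · intro a b _ _ ha hb
      rw [show α (a + b) - (a + b) = (α a - a) + (α b - b) by rw [map_add]; ring]
      exact add_mem ha hb
    · intro a b hb hb'
      rw [smul_eq_mul, show α (a * b) - a * b = α a * (α b - b) + b * (α a - a) by
        rw [map_mul]; ring]
      refine add_mem (Ideal.mul_mem_left _ _ hb') ?_
      rw [pow_succ']
      refine Ideal.mul_mem_mul ?_ (ih (by omega) a)
      exact (Ideal.span_le.2 fun y hy => by
        obtain ⟨i, rfl⟩ := hy; exact RingComplete.X_mem_mIdeal p n i) hb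

lemma mem_mIdeal_map (hn : 0 < n) (α : LTRing p n ≃+* LTRing p n) {x : LTRing p n}
    (hx : x ∈ mIdeal p n) : α x ∈ mIdeal p n := by
  rw [mIdeal_eq_maximalIdeal p n hn, IsLocalRing.mem_maximalIdeal, mem_nonunits_iff] at hx ⊢
  intro hu
  exact hx (by simpa using hu.map α.symm)

lemma pow_mem_mIdeal_map (hn : 0 < n) (α : LTRing p n ≃+* LTRing p n) {r : ℕ} {x : LTRing p n}
    (hx : x ∈ mIdeal p n ^ r) : α x ∈ mIdeal p n ^ r := by
  induction r generalizing x with
  | zero => simp
  | succ r ih =>
    rw [pow_succ] at hx ⊢
    refine Submodule.mul_induction_on hx (fun a ha b hb => ?_) fun a b ha hb => ?_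
    · rw [map_mul]; exact Ideal.mul_mem_mul (ih ha) (mem_mIdeal_map hn α hb)
    · rw [map_add]; exact add_mem ha hb

/-- Uniqueness of lifts: an element of the extended stabilizer determines its automorphism and
its isomorphism. -/
theorem lift_unique (hn : 0 < n) {F : FormalGroup (LTRing p n)} (hF : HasHazewinkelLog p n F)
    {α α' : LTRing p n ≃+* LTRing p n} {φ φ' : PowerSeries (LTRing p n)}
    (φ0 : PowerSeries.constantCoeff φ = 0) (φ0' : PowerSeries.constantCoeff φ' = 0)
    (φ1' : IsUnit (PowerSeries.coeff 1 φ'))
    (hφ : PowerSeries.subst F.toPowerSeries φ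
      = MvPowerSeries.subst
          ![PowerSeries.subst (MvPowerSeries.X (0 : Fin 2)) φ,
            PowerSeries.subst (MvPowerSeries.X (1 : Fin 2)) φ]
          (F.map α.toRingHom).toPowerSeries)
    (hφ' : PowerSeries.subst F.toPowerSeries φ'
      = MvPowerSeries.subst
          ![PowerSeries.subst (MvPowerSeries.X (0 : Fin 2)) φ',
            PowerSeries.subst (MvPowerSeries.X (1 : Fin 2)) φ']
          (F.map α'.toRingHom).toPowerSeries)
    (hα : ∀ a, α (teich p n a) - α' (teich p n a) ∈ mIdeal p n)
    (hres : ∀ N, PowerSeries.coeff N (φ - φ') ∈ mIdeal p n) :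
    α = α' ∧ φ = φ' := by
  classical
  set γ := α.trans α'.symm with hγ
  have hαγ : ∀ x, α x - α' x = α' (γ x - x) := fun x => by simp [hγ]
  have hfix : FixesCoeff p n γ := fixesCoeff_of_residue hn γ fun a => by
    have h := mem_mIdeal_map hn α'.symm (hα a)
    rwa [map_sub, RingEquiv.symm_apply_apply] at h
  set m := mIdeal p n with hm
  have key : ∀ r, (∀ i, γ (MvPowerSeries.X i) - MvPowerSeries.X i ∈ m ^ (r + 1)) ∧
      ∀ N, PowerSeries.coeff N (φ - φ') ∈ m ^ (r + 1) := by
    intro r
    induction r with
    | zero =>
      refine ⟨fun i => ?_, by simpa using hres⟩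
      rw [zero_add, pow_one]
      exact sub_mem (mem_mIdeal_map hn γ (RingComplete.X_mem_mIdeal p n i))
        (RingComplete.X_mem_mIdeal p n i)
    | succ r ih =>
      obtain ⟨ihX, ihφ⟩ := ih
      have hnear := near_of_near_X hfix ihX
      set J := m ^ (r + 1 + 1) with hJ
      set π := Ideal.Quotient.mk J with hπ
      have hJm : J ≤ m := Ideal.pow_le_self (by omega)
      set ρ : LTRing p n ⧸ J →+* LTRing p n ⧸ m := Ideal.Quotient.factor hJm with hρ
      have hker : ∀ a ∈ m ^ (r + 1), ∀ y, ρ y = 0 → π a * y = 0 := by
        intro a ha y hy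
        obtain ⟨b, rfl⟩ := Ideal.Quotient.mk_surjective y
        rw [hρ, Ideal.Quotient.factor_mk, Ideal.Quotient.eq_zero_iff_mem] at hy
        rw [hπ, ← map_mul, Ideal.Quotient.eq_zero_iff_mem, hJ, pow_succ]
        exact Ideal.mul_mem_mul ha hy
      set η := PowerSeries.map π (φ - φ') with hη
      set ψ := PowerSeries.map π φ' with hψ
      have η0 : PowerSeries.constantCoeff η = 0 := by
        rw [hη, ← PowerSeries.coeff_zero_eq_constantCoeff_apply, PowerSeries.coeff_map,
          PowerSeries.coeff_zero_eq_constantCoeff_apply]
        simp [φ0, φ0']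
      have ψ0 : PowerSeries.constantCoeff ψ = 0 := by
        rw [hψ, ← PowerSeries.coeff_zero_eq_constantCoeff_apply, PowerSeries.coeff_map,
          PowerSeries.coeff_zero_eq_constantCoeff_apply, φ0', map_zero]
      have hφη : PowerSeries.map π φ = ψ + η := by
        rw [hη, hψ, map_sub]; ring
      set P := nser F p with hP
      have hP0 : PowerSeries.constantCoeff P = 0 := constantCoeff_nser F p
      have hresP : ∀ N, PowerSeries.coeff N P - (if N = p ^ n then 1 else 0) ∈ m := fun N => by
        rw [hP, ← pSeries_eq_nser p n hF]; exact pSeries_residue p n hn hF N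
      have hq : 0 < p ^ n := pow_pos hp.out.pos n
      have mk : ∀ (β : LTRing p n ≃+* LTRing p n) (f : PowerSeries (LTRing p n)),
          PowerSeries.constantCoeff f = 0 →
          PowerSeries.subst F.toPowerSeries f = MvPowerSeries.subst
            ![PowerSeries.subst (MvPowerSeries.X (0 : Fin 2)) f,
              PowerSeries.subst (MvPowerSeries.X (1 : Fin 2)) f]
            (F.map β.toRingHom).toPowerSeries →
          PowerSeries.subst (PowerSeries.map π P) (PowerSeries.map π f)
            = PowerSeries.subst (PowerSeries.map π f)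
                (PowerSeries.map π (PowerSeries.map β.toRingHom P)) := by
        intro β f f0 hf
        have e := congrArg (PowerSeries.map π) (hom_nser f0 hf p)
        have m1 : PowerSeries.map π (PowerSeries.subst P f)
            = PowerSeries.subst (PowerSeries.map π P) (PowerSeries.map π f) :=
          PowerSeries.map_subst (PowerSeries.HasSubst.of_constantCoeff_zero' hP0) f
        have m2 : PowerSeries.map π (PowerSeries.subst f (nser (F.map β.toRingHom) p))
            = PowerSeries.subst (PowerSeries.map π f)
                (PowerSeries.map π (nser (F.map β.toRingHom) p)) :=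
          PowerSeries.map_subst (PowerSeries.HasSubst.of_constantCoeff_zero' f0) _
        rwa [m1, m2, ← map_nser β.toRingHom F p] at e
      have e := mk α φ φ0 hφ
      have e' := mk α' φ' φ0' hφ'
      rw [hφη] at e
      have hπP0 : PowerSeries.constantCoeff (PowerSeries.map π P) = 0 := by
        rw [← PowerSeries.coeff_zero_eq_constantCoeff_apply, PowerSeries.coeff_map,
          PowerSeries.coeff_zero_eq_constantCoeff_apply, hP0, map_zero]
      have hsP := PowerSeries.HasSubst.of_constantCoeff_zero' hπP0
      rw [PowerSeries.subst_add hsP] at e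
      have e1 : PowerSeries.subst (PowerSeries.map π P) η
          = PowerSeries.subst (PowerSeries.X ^ p ^ n) η := by
        refine subst_congr ρ (fun d a ha => ?_) hπP0
          (by simp [zero_pow (pow_ne_zero n hp.out.ne_zero)]) ?_
        · rw [hη, PowerSeries.coeff_map]; exact hker _ (ihφ d) a ha
        · ext N
          rw [PowerSeries.coeff_map, PowerSeries.coeff_map, PowerSeries.coeff_map,
            PowerSeries.coeff_X_pow, hρ, Ideal.Quotient.factor_mk]
          have h := Ideal.Quotient.eq_zero_iff_mem.2 (hresP N)
          rw [map_sub, sub_eq_zero] at h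
          rw [h]
          split_ifs <;> simp
      set P' := PowerSeries.map π (PowerSeries.map α.toRingHom P) with hP'
      set P'' := PowerSeries.map π (PowerSeries.map α'.toRingHom P) with hP''
      have e2 : PowerSeries.subst (ψ + η) P' = PowerSeries.subst ψ P' := by
        refine subst_add_eq (fun i j => ?_) (fun d j => ?_) ψ0 η0
        · rw [hη, PowerSeries.coeff_map, PowerSeries.coeff_map, ← map_mul,
            Ideal.Quotient.eq_zero_iff_mem, hJ]
          have := Ideal.mul_mem_mul (ihφ i) (ihφ j)
          rw [← pow_add] at this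
          exact Ideal.pow_le_pow_right (by omega) this
        · rw [hP', hη, PowerSeries.coeff_map, PowerSeries.coeff_map, PowerSeries.coeff_map,
            ← map_natCast π, ← map_mul, ← map_mul, Ideal.Quotient.eq_zero_iff_mem, hJ, pow_succ']
          refine Ideal.mul_mem_mul ?_ (ihφ j)
          by_cases hd : d = p ^ n
          · subst hd
            refine Ideal.mul_mem_right _ _ ?_
            push_cast
            exact Ideal.pow_mem_of_mem _ (RingComplete.prime_mem_mIdeal p n hn) _ (by omega)
          · refine Ideal.mul_mem_left _ _ (mem_mIdeal_map hn α ?_)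
            have h := hresP d
            rwa [if_neg hd, sub_zero] at h
      rw [e1, e2, e'] at e
      have hsψ := PowerSeries.HasSubst.of_constantCoeff_zero' ψ0
      have e3 : PowerSeries.subst ((PowerSeries.X : PowerSeries (LTRing p n ⧸ J)) ^ p ^ n) η
          = PowerSeries.subst ψ (P' - P'') := by
        rw [← add_left_inj (PowerSeries.subst ψ P''), ← PowerSeries.subst_add hsψ, sub_add_cancel,
          ← e, add_comm]
      have hD : ∀ N, PowerSeries.coeff N (P' - P'')
          = π (α' (γ (PowerSeries.coeff N P) - PowerSeries.coeff N P)) := fun N => by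
        rw [map_sub, hP', hP'', PowerSeries.coeff_map, PowerSeries.coeff_map, PowerSeries.coeff_map,
          PowerSeries.coeff_map, ← map_sub, ← hαγ]
        rfl
      have hsX : PowerSeries.HasSubst ((PowerSeries.X : PowerSeries (LTRing p n ⧸ J)) ^ p ^ n) :=
        PowerSeries.HasSubst.of_constantCoeff_zero'
          (by simp [zero_pow (pow_ne_zero n hp.out.ne_zero)])
      have hcoef : ∀ N, PowerSeries.coeff N (PowerSeries.subst
            ((PowerSeries.X : PowerSeries (LTRing p n ⧸ J)) ^ p ^ n) η)
          = ∑ᶠ d, PowerSeries.coeff d η * (if N = p ^ n * d then 1 else 0) := fun N => by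
        rw [PowerSeries.coeff_subst' hsX]
        exact finsum_congr fun d => by rw [smul_eq_mul, ← pow_mul, PowerSeries.coeff_X_pow]
      have hvar : ∀ i, 0 < i → i < n → γ (ltU p n i) - ltU p n i ∈ J := by
        intro i
        induction i using Nat.strong_induction_on with
        | _ i ihi =>
          intro hi0 hin
          have hlt : p ^ i < p ^ n := Nat.pow_lt_pow_right hp.out.one_lt hin
          have hfixI : ∀ x ∈ heightIdeal p n i, γ x - x ∈ J := by
            intro x hx
            refine Submodule.span_induction (p := fun y _ => γ y - y ∈ J) ?_ ?_ ?_ ?_ hx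
            · rintro _ ⟨j, hj, rfl⟩
              simp only [Set.mem_ofPred_eq] at hj
              rcases Nat.eq_zero_or_pos j with rfl | hj0
              · simp [ltU]
              · exact ihi j hj hj0 (by omega)
            · simp
            · intro a b _ _ ha hb
              rw [show γ (a + b) - (a + b) = (γ a - a) + (γ b - b) by rw [map_add]; ring]
              exact add_mem ha hb
            · intro a b hb hb'
              rw [smul_eq_mul, show γ (a * b) - a * b = γ a * (γ b - b) + b * (γ a - a) by
                rw [map_mul]; ring]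
              refine add_mem (Ideal.mul_mem_left _ _ hb') ?_
              rw [hJ, pow_succ']
              exact Ideal.mul_mem_mul (heightIdeal_mono p n hin.le hb) (hnear a)
          have hmod : ∀ j ≤ p ^ i, PowerSeries.coeff j P - (if j = p ^ i then ltU p n i else 0)
              ∈ heightIdeal p n i := fun j hj => by
            rw [← Ideal.Quotient.eq_zero_iff_mem, map_sub, sub_eq_zero, hP,
              coeff_pSeries_mod p n hF _ hi0 hin.le (fun l hl => Ideal.Quotient.eq_zero_iff_mem.2
                (ltU_mem_heightIdeal p n hl)) hj]
            split_ifs <;> simp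
          have hdvd : (PowerSeries.X : PowerSeries (LTRing p n ⧸ J)) ^ p ^ i ∣ P' - P'' := by
            rw [PowerSeries.X_pow_dvd_iff]
            intro j hj
            have h := hfixI _ (hmod j hj.le)
            rw [if_neg hj.ne, sub_zero] at h
            rw [hD, hπ, Ideal.Quotient.eq_zero_iff_mem]
            exact pow_mem_mIdeal_map hn α' h
          have hz : PowerSeries.coeff (p ^ i) (PowerSeries.subst
              ((PowerSeries.X : PowerSeries (LTRing p n ⧸ J)) ^ p ^ n) η) = 0 := by
            rw [hcoef]
            refine finsum_eq_zero_of_forall_eq_zero fun d => ?_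
            rw [if_neg, mul_zero]
            intro h
            rcases Nat.eq_zero_or_pos d with rfl | hd
            · rw [mul_zero] at h; exact pow_ne_zero i hp.out.ne_zero h
            · have := Nat.le_mul_of_pos_right (p ^ n) hd
              omega
          have hu : IsUnit (PowerSeries.coeff 1 ψ ^ p ^ i) := by
            rw [hψ, PowerSeries.coeff_map]; exact (φ1'.map π).pow _
          have h := congrArg (PowerSeries.coeff (p ^ i)) e3
          rw [hz, coeff_subst_low hdvd ψ0, eq_comm, hu.mul_left_eq_zero, hD, hπ,
            Ideal.Quotient.eq_zero_iff_mem] at h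
          have h' := pow_mem_mIdeal_map hn α'.symm h
          rw [RingEquiv.symm_apply_apply] at h'
          have h4 := sub_mem h' (hfixI _ (hmod _ le_rfl))
          rw [if_pos rfl] at h4
          rwa [show γ (PowerSeries.coeff (p ^ i) P) - PowerSeries.coeff (p ^ i) P
              - (γ (PowerSeries.coeff (p ^ i) P - ltU p n i)
                  - (PowerSeries.coeff (p ^ i) P - ltU p n i))
              = γ (ltU p n i) - ltU p n i by rw [map_sub]; ring] at h4
      have hX : ∀ i, γ (MvPowerSeries.X i) - MvPowerSeries.X i ∈ J := fun i => by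
        rw [RingComplete.X_eq_ltU]
        exact hvar _ (Nat.succ_pos _) (by have := i.2; omega)
      refine ⟨hX, fun d => ?_⟩
      have hall := near_of_near_X hfix hX
      have hPP : P' - P'' = 0 := by
        refine PowerSeries.ext fun N => ?_
        rw [hD, map_zero, hπ, Ideal.Quotient.eq_zero_iff_mem]
        exact pow_mem_mIdeal_map hn α' (hall _)
      rw [hPP, ← PowerSeries.coe_substAlgHom hsψ, map_zero] at e3
      have h := congrArg (PowerSeries.coeff (p ^ n * d)) e3
      rw [map_zero, hcoef, finsum_eq_single _ d, if_pos rfl, mul_one, hη,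
        PowerSeries.coeff_map, Ideal.Quotient.eq_zero_iff_mem] at h
      · exact h
      · intro d' hd'
        rw [if_neg fun h' => hd' (Nat.eq_of_mul_eq_mul_left hq h').symm, mul_zero]
  have hzero : ∀ x, (∀ r, x ∈ m ^ (r + 1)) → x = 0 := fun x hx => by
    have := mIdeal_isAdicComplete p n hn
    refine IsHausdorff.haus (I := mIdeal p n) inferInstance x fun r => ?_
    rw [SModEq.zero, smul_eq_mul, Ideal.mul_top]
    exact Ideal.pow_le_pow_right (Nat.le_succ r) (hx r)
  refine ⟨RingEquiv.ext fun x => sub_eq_zero.1 ?_, sub_eq_zero.1 ?_⟩
  · rw [hαγ, hzero _ fun r => near_of_near_X hfix (key r).1 x, map_zero]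
  · exact PowerSeries.ext fun N => (hzero _ fun r => (key r).2 N).trans (map_zero _).symm

end

end Vale.Agent.P217
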