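import Vale.Agent.P217.Setup
import Vale.Agent.P217.Invariant

/-!
# P217: the Lubin-Tate ring is complete; automorphisms close to the identity
-/

open scoped BigOperators

namespace Vale.Agent.P217

noncomputable section

namespace RingComplete

variable (p n : ℕ) [hp : Fact p.Prime]

/-- The series whose coefficient of degree `< k` are divisible by the complementary power of `p`. -/
def low (k : ℕ) : Ideal (LTRing p n) where
  carrier := {f | ∀ d : Fin (n - 1) →₀ ℕ,
    (p : WittVector p (GaloisField p n)) ^ (k - d.degree) ∣ MvPowerSeries.coeff d f}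
  add_mem' := fun {f g} hf hg d => by rw [map_add]; exact dvd_add (hf d) (hg d)
  zero_mem' := fun d => by rw [map_zero]; exact dvd_zero _
  smul_mem' := fun a f hf d => by
    classical
    rw [smul_eq_mul, MvPowerSeries.coeff_mul]
    refine Finset.dvd_sum fun x hx => ?_
    rw [Finset.HasAntidiagonal.mem_antidiagonal] at hx
    have : x.1.degree + x.2.degree = d.degree := by rw [← hx, map_add]
    exact (pow_dvd_pow _ (by omega)).trans ((hf x.2).trans (dvd_mul_left _ _))

lemma mul_mem_low {a b : ℕ} {f g : LTRing p n} (hf : f ∈ low p n a) (hg : g ∈ low p n b) :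
    f * g ∈ low p n (a + b) := by
  classical
  intro d
  rw [MvPowerSeries.coeff_mul]
  refine Finset.dvd_sum fun x hx => ?_
  rw [Finset.HasAntidiagonal.mem_antidiagonal] at hx
  have : x.1.degree + x.2.degree = d.degree := by rw [← hx, map_add]
  refine (pow_dvd_pow _ (show a + b - d.degree ≤ (a - x.1.degree) + (b - x.2.degree) by omega)).trans ?_
  rw [pow_add]
  exact mul_dvd_mul (hf x.1) (hg x.2)

lemma X_eq_ltU (i : Fin (n - 1)) : (MvPowerSeries.X i : LTRing p n) = ltU p n (i.1 + 1) := by
  rw [ltU, if_neg (by omega), dif_pos (show i.1 + 1 - 1 < n - 1 by have := i.2; omega)]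
  exact congrArg _ (Fin.ext (by simp))

lemma X_mem_mIdeal (i : Fin (n - 1)) : (MvPowerSeries.X i : LTRing p n) ∈ mIdeal p n := by
  rw [X_eq_ltU]
  exact ltU_mem_heightIdeal p n (by have := i.2; omega)

lemma prime_mem_mIdeal (hn : 0 < n) : (p : LTRing p n) ∈ mIdeal p n := by
  simpa [ltU] using ltU_mem_heightIdeal p n (i := 0) hn

lemma mIdeal_le_low : mIdeal p n ≤ low p n 1 := by
  classical
  refine Ideal.span_le.2 ?_
  rintro _ ⟨i, hi, rfl⟩ d
  simp only [Set.mem_ofPred_eq] at hi
  rcases eq_or_ne d 0 with rfl | hd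
  · rw [map_zero, Nat.sub_zero, pow_one, MvPowerSeries.coeff_zero_eq_constantCoeff_apply, ltU]
    split_ifs with h1 h2 h3
    · rw [map_natCast]
    · rw [MvPowerSeries.constantCoeff_X]; exact dvd_zero _
    · omega
    · rw [map_zero]; exact dvd_zero _
  · have : d.degree ≠ 0 := fun h => hd ((Finsupp.degree_eq_zero_iff _).1 h)
    rw [Nat.sub_eq_zero_of_le (by omega), pow_zero]
    exact one_dvd _

lemma pow_le_low : ∀ k, mIdeal p n ^ k ≤ low p n k
  | 0 => fun f _ d => by rw [Nat.zero_sub, pow_zero]; exact one_dvd _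
  | k + 1 => by
    rw [pow_succ, Ideal.mul_le]
    exact fun f hf g hg => mul_mem_low p n (pow_le_low k hf) (mIdeal_le_low p n hg)

lemma low_le_pow (hn : 0 < n) : ∀ k, low p n k ≤ mIdeal p n ^ k
  | 0 => by rw [pow_zero, Ideal.one_eq_top]; exact le_top
  | k + 1 => by
    classical
    intro f hf
    let h : Fin (n - 1) → LTRing p n := fun i d =>
      if ∀ j, j < i → (d + Finsupp.single i 1 : Fin (n - 1) →₀ ℕ) j = 0 then f (d + Finsupp.single i 1) else 0
    have hh : ∀ i d, MvPowerSeries.coeff d (h i) = if ∀ j, j < i → (d + Finsupp.single i 1 : Fin (n - 1) →₀ ℕ) j = 0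
        then MvPowerSeries.coeff (d + Finsupp.single i 1) f else 0 := fun _ _ => rfl
    have hlow : ∀ i, h i ∈ low p n k := by
      intro i d
      rw [hh]
      split_ifs
      · have := hf (d + Finsupp.single i 1)
        rwa [map_add, Finsupp.degree_single, Nat.add_sub_add_right] at this
      · exact dvd_zero _
    have e : f = MvPowerSeries.C (MvPowerSeries.constantCoeff f) + ∑ i, MvPowerSeries.X i * h i := by
      refine MvPowerSeries.ext fun d => ?_
      rw [map_add, map_sum, MvPowerSeries.coeff_C]
      rcases eq_or_ne d 0 with rfl | hd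
      · simp [MvPowerSeries.X, MvPowerSeries.coeff_monomial_mul,
          MvPowerSeries.coeff_zero_eq_constantCoeff_apply]
      rw [if_neg hd, zero_add]
      obtain ⟨j, hj, hmin⟩ := Finset.exists_min_image d.support id
        (Finsupp.support_nonempty_iff.2 hd)
      rw [Finsupp.mem_support_iff] at hj
      have hle : Finsupp.single j 1 ≤ d := Finsupp.single_le_iff.2 (Nat.one_le_iff_ne_zero.2 hj)
      rw [Finset.sum_eq_single j, MvPowerSeries.X, MvPowerSeries.coeff_monomial_mul, if_pos hle,
        one_mul, hh, tsub_add_cancel_of_le hle, if_pos]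
      · intro i hi
        by_contra h0
        exact absurd (hmin i (Finsupp.mem_support_iff.2 h0)) (not_le.2 hi)
      · intro i _ hij
        rw [MvPowerSeries.X, MvPowerSeries.coeff_monomial_mul]
        split_ifs with hle'
        · rw [one_mul, hh, tsub_add_cancel_of_le hle', if_neg]
          intro hall
          have hi0 : d i ≠ 0 := Nat.one_le_iff_ne_zero.1 (Finsupp.single_le_iff.1 hle')
          rcases lt_or_gt_of_ne hij with h' | h'
          · exact absurd (hmin i (Finsupp.mem_support_iff.2 hi0)) (not_le.2 h')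
          · exact hj (hall j h')
        · rfl
      · simp
    rw [e]
    refine add_mem ?_ (sum_mem fun i _ => ?_)
    · obtain ⟨c, hc⟩ := hf 0
      rw [map_zero, Nat.sub_zero, MvPowerSeries.coeff_zero_eq_constantCoeff_apply] at hc
      rw [hc, map_mul, map_pow, map_natCast]
      exact Ideal.mul_mem_right _ _ (Ideal.pow_mem_pow (prime_mem_mIdeal p n hn) _)
    · rw [pow_succ']
      exact Ideal.mul_mem_mul (X_mem_mIdeal p n i) (low_le_pow hn k (hlow i))

lemma eq_zero_of_forall_dvd (x : WittVector p (GaloisField p n))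
    (h : ∀ k : ℕ, (p : WittVector p (GaloisField p n)) ^ k ∣ x) : x = 0 := by
  refine IsHausdorff.haus (inferInstance : IsHausdorff
    (Ideal.span {(p : WittVector p (GaloisField p n))}) (WittVector p (GaloisField p n))) x
    fun k => ?_
  rw [SModEq.sub_mem, sub_zero, smul_eq_mul, Ideal.mul_top, Ideal.span_singleton_pow,
    Ideal.mem_span_singleton]
  exact h k

lemma eq_zero_of_forall_mem (x : LTRing p n) (h : ∀ k, x ∈ mIdeal p n ^ k) : x = 0 :=
  MvPowerSeries.ext fun d => by
    rw [map_zero]
    refine eq_zero_of_forall_dvd p n _ fun k => ?_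
    have := pow_le_low p n _ (h (k + d.degree)) d
    rwa [Nat.add_sub_cancel] at this

lemma exists_limit (hn : 0 < n) (f : ℕ → LTRing p n)
    (hf : ∀ a b, a ≤ b → f a - f b ∈ mIdeal p n ^ a) :
    ∃ L, ∀ k, f k - L ∈ mIdeal p n ^ k := by
  have hc : ∀ d : Fin (n - 1) →₀ ℕ, ∃ c : WittVector p (GaloisField p n), ∀ j,
      (p : WittVector p (GaloisField p n)) ^ j ∣ MvPowerSeries.coeff d (f (j + d.degree)) - c := by
    intro d
    obtain ⟨c, hc⟩ := IsPrecomplete.prec (inferInstance : IsPrecomplete
      (Ideal.span {(p : WittVector p (GaloisField p n))}) (WittVector p (GaloisField p n)))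
      (f := fun j => MvPowerSeries.coeff d (f (j + d.degree))) (fun {a b} hab => by
        rw [SModEq.sub_mem, smul_eq_mul, Ideal.mul_top, Ideal.span_singleton_pow,
          Ideal.mem_span_singleton]
        have := pow_le_low p n _ (hf (a + d.degree) (b + d.degree) (by omega)) d
        rwa [map_sub, Nat.add_sub_cancel] at this)
    refine ⟨c, fun j => ?_⟩
    have := hc j
    rwa [SModEq.sub_mem, smul_eq_mul, Ideal.mul_top, Ideal.span_singleton_pow,
      Ideal.mem_span_singleton] at this
  choose c hc using hc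
  let L : LTRing p n := c
  refine ⟨L, fun k => low_le_pow p n hn k fun d => ?_⟩
  rcases le_or_gt k d.degree with h | h
  · rw [Nat.sub_eq_zero_of_le h, pow_zero]; exact one_dvd _
  have := hc d (k - d.degree)
  rw [Nat.sub_add_cancel h.le] at this
  rw [map_sub]
  exact this

/-- Two homomorphisms killing `m ^ k` are equal if they agree on constants and variables. -/
lemma hom_ext (hn : 0 < n) {S : Type*} [CommRing S] {f g : LTRing p n →+* S} {k : ℕ}
    (hC : ∀ w : WittVector p (GaloisField p n), f (MvPowerSeries.C w) = g (MvPowerSeries.C w))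
    (hX : ∀ i, f (MvPowerSeries.X i) = g (MvPowerSeries.X i))
    (hf : ∀ x ∈ mIdeal p n ^ k, f x = 0) (hg : ∀ x ∈ mIdeal p n ^ k, g x = 0) : f = g := by
  classical
  refine RingHom.ext fun x => ?_
  set t := MvPowerSeries.truncTotal k x
  have hd : x - (t : LTRing p n) ∈ mIdeal p n ^ k := by
    refine low_le_pow p n hn k fun d => ?_
    rcases le_or_gt k d.degree with h | h
    · rw [Nat.sub_eq_zero_of_le h, pow_zero]; exact one_dvd _
    · rw [map_sub, MvPolynomial.coeff_coe, MvPowerSeries.coeff_truncTotal _ h, sub_self]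
      exact dvd_zero _
  have hpoly : f.comp MvPolynomial.coeToMvPowerSeries.ringHom
      = g.comp MvPolynomial.coeToMvPowerSeries.ringHom := by
    refine MvPolynomial.ringHom_ext (fun w => ?_) (fun i => ?_)
    · simpa using hC w
    · simpa using hX i
  have e := RingHom.congr_fun hpoly t
  simp only [RingHom.comp_apply, MvPolynomial.coeToMvPowerSeries.ringHom_apply] at e
  have e1 : x = (x - (t : LTRing p n)) + (t : LTRing p n) := by ring
  rw [e1, map_add, map_add, hf _ hd, hg _ hd, e]

section approx

variable {p n} {k : ℕ} (v : Fin (n - 1) → LTRing p n)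

lemma isNilpotent_mk {k : ℕ} {x : LTRing p n} (hx : x ∈ mIdeal p n) :
    IsNilpotent (Ideal.Quotient.mk (mIdeal p n ^ k) x) :=
  ⟨k, by rw [← map_pow, Ideal.Quotient.eq_zero_iff_mem]; exact Ideal.pow_mem_pow hx k⟩

/-- Substitution modulo a power of the maximal ideal. -/
def approx (hv : ∀ i, v i ∈ mIdeal p n) (k : ℕ) : LTRing p n →+* LTRing p n ⧸ mIdeal p n ^ k :=
  (MvPowerSeries.constantCoeff (σ := Empty)).comp
    (((MvPowerSeries.substAlgHom (R := LTRing p n ⧸ mIdeal p n ^ k)
        (a := fun i => MvPowerSeries.C (σ := Empty) (Ideal.Quotient.mk (mIdeal p n ^ k) (v i)))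
        (MvPowerSeries.hasSubst_of_constantCoeff_nilpotent fun i => by
          rw [MvPowerSeries.constantCoeff_C]; exact isNilpotent_mk (hv i))) :
      MvPowerSeries (Fin (n - 1)) (LTRing p n ⧸ mIdeal p n ^ k) →+*
        MvPowerSeries Empty (LTRing p n ⧸ mIdeal p n ^ k)).comp
      (MvPowerSeries.map ((Ideal.Quotient.mk (mIdeal p n ^ k)).comp MvPowerSeries.C)))

lemma approx_C (hv : ∀ i, v i ∈ mIdeal p n) (w : WittVector p (GaloisField p n)) :
    approx v hv k (MvPowerSeries.C w) = Ideal.Quotient.mk _ (MvPowerSeries.C w) := by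
  simp only [approx, RingHom.comp_apply, RingHom.coe_coe, MvPowerSeries.map_C,
    MvPowerSeries.substAlgHom_apply, MvPowerSeries.subst_C, MvPowerSeries.constantCoeff_C]

lemma approx_X (hv : ∀ i, v i ∈ mIdeal p n) (i : Fin (n - 1)) :
    approx v hv k (MvPowerSeries.X i) = Ideal.Quotient.mk _ (v i) := by
  simp only [approx, RingHom.comp_apply, RingHom.coe_coe, MvPowerSeries.map_X]
  rw [MvPowerSeries.substAlgHom_X, MvPowerSeries.constantCoeff_C]

lemma approx_kills (hn : 0 < n) (hv : ∀ i, v i ∈ mIdeal p n) {x : LTRing p n}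
    (hx : x ∈ mIdeal p n ^ k) : approx v hv k x = 0 := by
  have h1 : Ideal.map (approx v hv k) (mIdeal p n)
      ≤ Ideal.map (Ideal.Quotient.mk (mIdeal p n ^ k)) (mIdeal p n) := by
    rw [Ideal.map_le_iff_le_comap]
    refine Ideal.span_le.2 ?_
    rintro _ ⟨i, hi, rfl⟩
    simp only [Set.mem_ofPred_eq] at hi
    rw [SetLike.mem_coe, Ideal.mem_comap, ltU]
    split_ifs with h1 h2 h3
    · rw [map_natCast, ← map_natCast (Ideal.Quotient.mk (mIdeal p n ^ k))]
      exact Ideal.mem_map_of_mem _ (prime_mem_mIdeal p n hn)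
    · rw [approx_X]
      exact Ideal.mem_map_of_mem _ (hv _)
    · omega
    · rw [map_zero]; exact zero_mem _
  have h2 : approx v hv k x ∈ (⊥ : Ideal _) := by
    refine SetLike.le_def.1 ?_ (Ideal.mem_map_of_mem (approx v hv k) hx)
    rw [Ideal.map_pow]
    refine (Ideal.pow_right_mono h1 k).trans ?_
    rw [← Ideal.map_pow, Ideal.map_quotient_self]
  exact h2

lemma approx_compat (hn : 0 < n) (hv : ∀ i, v i ∈ mIdeal p n) {a b : ℕ} (hab : a ≤ b)
    (x : LTRing p n) :
    Ideal.Quotient.factorPow (mIdeal p n) hab (approx v hv b x) = approx v hv a x := by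
  refine RingHom.congr_fun (hom_ext p n hn (k := b)
    (f := (Ideal.Quotient.factorPow (mIdeal p n) hab).comp (approx v hv b))
    (g := approx v hv a) (fun w => ?_) (fun i => ?_) (fun y hy => ?_) (fun y hy => ?_)) x
  · rw [RingHom.comp_apply, approx_C, approx_C]; exact Ideal.Quotient.factor_mk _ _
  · rw [RingHom.comp_apply, approx_X, approx_X]; exact Ideal.Quotient.factor_mk _ _
  · rw [RingHom.comp_apply, approx_kills v hn hv hy, map_zero]
  · exact approx_kills v hn hv (Ideal.pow_le_pow_right hab hy)

end approx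

end RingComplete

open RingComplete

variable (p n : ℕ) [hp : Fact p.Prime]

theorem mIdeal_isAdicComplete (hn : 0 < n) : IsAdicComplete (mIdeal p n) (LTRing p n) where
  haus' x hx := eq_zero_of_forall_mem p n x fun k => by
    have := hx k
    rwa [SModEq.sub_mem, sub_zero, smul_eq_mul, Ideal.mul_top] at this
  prec' f hf := by
    obtain ⟨L, hL⟩ := exists_limit p n hn f fun a b hab => by
      have := hf hab
      rwa [SModEq.sub_mem, smul_eq_mul, Ideal.mul_top] at this
    exact ⟨L, fun k => by rw [SModEq.sub_mem, smul_eq_mul, Ideal.mul_top]; exact hL k⟩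

/-- Substitution automorphisms close to the identity. -/
theorem exists_equiv_of_near (hn : 0 < n) {c : ℕ} (hc : 2 ≤ c) (v : Fin (n - 1) → LTRing p n)
    (hv : ∀ i, v i - MvPowerSeries.X i ∈ mIdeal p n ^ c) :
    ∃ α : LTRing p n ≃+* LTRing p n, FixesCoeff p n α ∧ (∀ i, α (MvPowerSeries.X i) = v i) ∧
      ∀ x, α x - x ∈ mIdeal p n ^ c := by
  have hvm : ∀ i, v i ∈ mIdeal p n := fun i => by
    have h := add_mem (Ideal.pow_le_self (by omega) (hv i)) (X_mem_mIdeal p n i)
    rwa [sub_add_cancel] at h
  -- the endomorphism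
  choose F hF using fun (x : LTRing p n) (k : ℕ) => Ideal.Quotient.mk_surjective (approx v hvm k x)
  have hcauchy : ∀ x a b, a ≤ b → F x a - F x b ∈ mIdeal p n ^ a := fun x a b hab => by
    rw [← Ideal.Quotient.mk_eq_mk_iff_sub_mem, hF, ← approx_compat v hn hvm hab, ← hF x b]
    exact Ideal.Quotient.factor_mk _ _
  choose L hL using fun x => exists_limit p n hn (F x) (hcauchy x)
  have hspec : ∀ x k, Ideal.Quotient.mk (mIdeal p n ^ k) (L x) = approx v hvm k x := fun x k => by
    rw [← hF x k, eq_comm, Ideal.Quotient.mk_eq_mk_iff_sub_mem]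
    exact hL x k
  have huniq : ∀ a b : LTRing p n, (∀ k, Ideal.Quotient.mk (mIdeal p n ^ k) a
      = Ideal.Quotient.mk _ b) → a = b := fun a b h => sub_eq_zero.1
    (eq_zero_of_forall_mem p n _ fun k => Ideal.Quotient.mk_eq_mk_iff_sub_mem _ _ |>.1 (h k))
  let A : LTRing p n →+* LTRing p n :=
    { toFun := L
      map_one' := huniq _ _ fun k => by rw [hspec, map_one, map_one]
      map_mul' := fun x y => huniq _ _ fun k => by rw [hspec, map_mul, map_mul, hspec, hspec]
      map_zero' := huniq _ _ fun k => by rw [hspec, map_zero, map_zero]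
      map_add' := fun x y => huniq _ _ fun k => by rw [hspec, map_add, map_add, hspec, hspec] }
  have hAC : ∀ w : WittVector p (GaloisField p n), A (MvPowerSeries.C w) = MvPowerSeries.C w :=
    fun w => huniq _ _ fun k => (hspec _ k).trans (approx_C v hvm w)
  have hAX : ∀ i, A (MvPowerSeries.X i) = v i :=
    fun i => huniq _ _ fun k => (hspec _ k).trans (approx_X v hvm i)
  have hnear : ∀ x, A x - x ∈ mIdeal p n ^ c := fun x => by
    rw [← Ideal.Quotient.mk_eq_mk_iff_sub_mem]
    refine (hspec x c).trans (RingHom.congr_fun (hom_ext p n hn (k := c)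
      (f := approx v hvm c) (g := Ideal.Quotient.mk (mIdeal p n ^ c)) (fun w => approx_C v hvm w)
      (fun i => ?_) (fun y hy => approx_kills v hn hvm hy)
      (fun y hy => Ideal.Quotient.eq_zero_iff_mem.2 hy)) x)
    rw [approx_X, Ideal.Quotient.mk_eq_mk_iff_sub_mem]
    exact hv i
  have hle : mIdeal p n ^ c ≤ mIdeal p n ^ 2 := Ideal.pow_le_pow_right hc
  have hstep : ∀ k, ∀ x ∈ mIdeal p n ^ k, A x - x ∈ mIdeal p n ^ (k + 1) := by
    intro k
    induction k with
    | zero => exact fun x _ => Ideal.pow_le_pow_right (by omega) (hle (hnear x))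
    | succ k ih =>
      intro x hx
      rw [pow_succ] at hx
      induction hx using Submodule.mul_induction_on' with
      | mem_mul_mem a ha b hb =>
        have hab : A b ∈ mIdeal p n := by
          have h := add_mem (Ideal.pow_le_self (by omega) (hnear b)) hb
          rwa [sub_add_cancel] at h
        have : A (a * b) - a * b = (A a - a) * A b + a * (A b - b) := by rw [map_mul]; ring
        rw [this]
        refine add_mem ?_ ?_
        · rw [pow_succ]
          exact Ideal.mul_mem_mul (ih a ha) hab
        · rw [show k + 1 + 1 = k + 2 by rfl, pow_add]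
          exact Ideal.mul_mem_mul ha (hle (hnear b))
      | add a _ b _ ha hb =>
        rw [map_add, add_sub_add_comm]
        exact add_mem ha hb
  have hinj : Function.Injective A := by
    rw [injective_iff_map_eq_zero]
    intro x hx
    refine eq_zero_of_forall_mem p n x fun k => ?_
    induction k with
    | zero => simp
    | succ k ih =>
      have := hstep k x ih
      rwa [hx, zero_sub, neg_mem_iff] at this
  have hsurj : Function.Surjective A := by
    intro y
    let s : ℕ → LTRing p n := fun k => Nat.rec 0 (fun _ z => z + (y - A z)) k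
    have hs : ∀ k, y - A (s k) ∈ mIdeal p n ^ k := by
      intro k
      induction k with
      | zero => simp
      | succ k ih =>
        have h := hstep k _ ih
        have e : y - A (s (k + 1)) = -(A (y - A (s k)) - (y - A (s k))) := by
          show y - A (s k + (y - A (s k))) = _
          rw [map_add]
          ring
        rw [e]
        exact neg_mem h
    have hscauchy : ∀ a b, a ≤ b → s a - s b ∈ mIdeal p n ^ a := by
      intro a b hab
      induction b, hab using Nat.le_induction with
      | base => rw [sub_self]; exact zero_mem _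
      | succ b hab ih =>
        have e : s a - s (b + 1) = (s a - s b) - (y - A (s b)) := by
          show s a - (s b + (y - A (s b))) = _
          ring
        rw [e]
        exact Ideal.sub_mem _ ih (Ideal.pow_le_pow_right hab (hs b))
    obtain ⟨x, hx⟩ := exists_limit p n hn s hscauchy
    refine ⟨x, sub_eq_zero.1 (eq_zero_of_forall_mem p n _ fun k => ?_)⟩
    have h1 : A (s k - x) ∈ mIdeal p n ^ k := by
      have h := add_mem (Ideal.pow_le_pow_right (Nat.le_succ k) (hstep k _ (hx k))) (hx k)
      rwa [sub_add_cancel] at h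
    have e : A x - y = -A (s k - x) - (y - A (s k)) := by rw [map_sub]; ring
    rw [e]
    exact Ideal.sub_mem _ (neg_mem h1) (hs k)
  exact ⟨RingEquiv.ofBijective A ⟨hinj, hsurj⟩, hAC, hAX, hnear⟩

end

end Vale.Agent.P217
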