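import Vale.Agent.P217.Setup
import Vale.Agent.P217.Invariant
import Vale.Agent.P217.RingComplete

/-! # P217: elementary facts on the Lubin-Tate ring -/

open scoped Classical

namespace Vale.Agent.P217

noncomputable section

variable (p n : ℕ) [hp : Fact p.Prime]

lemma natCast_eq_C : (p : LTRing p n) = MvPowerSeries.C (p : WittVector p (GaloisField p n)) :=
  (map_natCast MvPowerSeries.C p).symm

lemma not_isUnit_natCast_witt : ¬ IsUnit (p : WittVector p (GaloisField p n)) :=
  (WittVector.irreducible p).not_isUnit

/-- The coefficients of an element of `I_h` away from the killed variables are divisible by `p`. -/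
lemma dvd_coeff_of_mem_heightIdeal {h : ℕ} (hh : h ≤ n) {f : LTRing p n}
    (hf : f ∈ heightIdeal p n h) :
    ∀ d : Fin (n - 1) →₀ ℕ, (∀ i : Fin (n - 1), i.1 + 1 < h → d i = 0) →
      (p : WittVector p (GaloisField p n)) ∣ MvPowerSeries.coeff d f := by
  induction hf using Submodule.span_induction with
  | mem x hx =>
    obtain ⟨i, hi, rfl⟩ := hx
    simp only [Set.mem_ofPred_eq] at hi
    intro d hd
    rcases Nat.eq_zero_or_pos i with rfl | hi0
    · rw [ltU, if_pos rfl, natCast_eq_C, MvPowerSeries.coeff_C]
      split_ifs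
      · exact dvd_rfl
      · exact dvd_zero _
    · rw [ltU, if_neg hi0.ne', dif_pos (show i - 1 < n - 1 by omega), MvPowerSeries.coeff_X,
        if_neg]
      · exact dvd_zero _
      · intro he
        have := hd ⟨i - 1, by omega⟩ (show i - 1 + 1 < h by omega)
        rw [he, Finsupp.single_eq_same] at this
        exact one_ne_zero this
  | zero => intro d _; simp
  | add x y _ _ ihx ihy => intro d hd; rw [map_add]; exact dvd_add (ihx d hd) (ihy d hd)
  | smul a x _ ih =>
    intro d hd
    rw [smul_eq_mul, MvPowerSeries.coeff_mul]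
    refine Finset.dvd_sum fun z hz => dvd_mul_of_dvd_right (ih z.2 fun i hi => ?_) _
    have h1 := congrArg (fun e : Fin (n - 1) →₀ ℕ => e i) (Finset.HasAntidiagonal.mem_antidiagonal.1 hz)
    simp only [Finsupp.coe_add, Pi.add_apply] at h1
    have h2 := hd i hi
    omega

theorem mIdeal_eq_maximalIdeal (hn : 0 < n) :
    mIdeal p n = IsLocalRing.maximalIdeal (LTRing p n) := by
  refine le_antisymm (IsLocalRing.le_maximalIdeal (heightIdeal_isPrime p n le_rfl).ne_top) ?_
  intro f hf
  rw [IsLocalRing.mem_maximalIdeal, mem_nonunits_iff, MvPowerSeries.isUnit_iff_constantCoeff,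
    ← mem_nonunits_iff, ← IsLocalRing.mem_maximalIdeal, (WittVector.irreducible p).maximalIdeal_eq,
    Ideal.mem_span_singleton] at hf
  have h := mem_heightIdeal_succ p n (n - 1) f le_rfl fun d hd => ?_
  · rwa [show n - 1 + 1 = n by omega] at h
  · have hd0 : d = 0 := Finsupp.ext fun i => hd i i.2
    rwa [hd0, MvPowerSeries.coeff_zero_eq_constantCoeff_apply]

theorem ltU_not_mem_heightIdeal {h : ℕ} (hh : h ≤ n) : ltU p n h ∉ heightIdeal p n h := by
  rcases Nat.eq_zero_or_pos h with rfl | h0
  · rw [heightIdeal_zero, Ideal.mem_bot, ltU, if_pos rfl, natCast_eq_C]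
    intro he
    exact (WittVector.irreducible (k := GaloisField p n) p).ne_zero
      (MvPowerSeries.C_injective (he.trans (map_zero _).symm))
  rcases lt_or_eq_of_le hh with hlt | rfl
  · intro hmem
    rw [ltU, if_neg h0.ne', dif_pos (show h - 1 < n - 1 by omega)] at hmem
    have hd := dvd_coeff_of_mem_heightIdeal p n hh hmem
      (Finsupp.single ⟨h - 1, by omega⟩ 1) fun i hi => by
        rw [Finsupp.single_eq_of_ne]
        intro he
        have := congrArg Fin.val he
        simp only at this
        omega
    rw [MvPowerSeries.coeff_index_single_self_X] at hd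
    exact not_isUnit_natCast_witt p n (isUnit_of_dvd_one hd)
  · rw [ltU, if_neg h0.ne', dif_neg (by omega), if_pos rfl, ← Ideal.eq_top_iff_one]
    exact (heightIdeal_isPrime p h le_rfl).ne_top

theorem heightIdeal_injOn {h k : ℕ} (hh : h ≤ n) (hk : k ≤ n)
    (he : heightIdeal p n h = heightIdeal p n k) : h = k := by
  rcases lt_trichotomy h k with hlt | heq | hgt
  · exact absurd (he ▸ ltU_mem_heightIdeal p n hlt) (ltU_not_mem_heightIdeal p n hh)
  · exact heq
  · exact absurd (he.symm ▸ ltU_mem_heightIdeal p n hgt) (ltU_not_mem_heightIdeal p n hk)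

end

end Vale.Agent.P217
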