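import Vale.Agent.P217.HighDefs

/-! # P217: the scales `exp (- N (p ^ S w))` of displacements -/

open scoped Classical
open Filter Asymptotics Topology

namespace Vale.Agent.P217

noncomputable section

variable {p n : ℕ} [hp : Fact p.Prime]

/-- The scale attached to a slope. -/
def scaleE (p n : ℕ) [Fact p.Prime] (T : Trop) (S₀ : ℕ) (w : ℝ) (i : ActIdx p n) : ℝ :=
  Real.exp (-T.N ((p : ℝ) ^ (S₀ + i.1) * w))

theorem scaleE_pos (T : Trop) (S₀ : ℕ) (w : ℝ) (i : ActIdx p n) : 0 < scaleE p n T S₀ w i :=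
  Real.exp_pos _

theorem tendsto_depth (S₀ : ℕ) :
    Tendsto (fun i : ActIdx p n => S₀ + i.1) (actFilter p n) atTop :=
  (tendsto_add_atTop_nat S₀).comp tendsto_comap |>.congr fun i => by
    simp [Function.comp_apply, add_comm]

theorem tendsto_arg {w : ℝ} (hw : 0 < w) (S₀ : ℕ) :
    Tendsto (fun i : ActIdx p n => (p : ℝ) ^ (S₀ + i.1) * w) (actFilter p n) atTop := by
  refine Tendsto.atTop_mul_const hw ?_
  exact (tendsto_pow_atTop_atTop_of_one_lt (by exact_mod_cast hp.out.one_lt)).comp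
    (tendsto_depth S₀)

instance actFilter_neBot : (actFilter p n).NeBot := by
  refine Filter.NeBot.comap_of_surj inferInstance fun k => ⟨(k, 0), rfl⟩

namespace Trop

variable (T : Trop)

/-- `N (q^m z)` is affine in `N z` for large `z`. -/
theorem N_iter (m : ℕ) : ∃ C z₀ : ℝ, 0 ≤ C ∧ ∀ z ≥ z₀,
    T.N (T.q ^ m * z) = C + ((T.p : ℝ) ^ T.h) ^ m * T.N z := by
  induction m with
  | zero => exact ⟨0, 0, le_rfl, fun z _ => by simp⟩
  | succ m ih =>
    obtain ⟨C, z₀, hC, h⟩ := ih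
    obtain ⟨z₁, h₁⟩ := T.N_eventually_linear
    refine ⟨T.v T.h + (T.p : ℝ) ^ T.h * C, max z₀ (max z₁ 0),
      add_nonneg T.v_h_pos.le (mul_nonneg (by positivity) hC), fun z hz => ?_⟩
    have hz0 : z₀ ≤ z := le_trans (le_max_left _ _) hz
    have hz1 : z₁ ≤ z := le_trans ((le_max_left _ _).trans (le_max_right _ _)) hz
    have hzp : 0 ≤ z := le_trans ((le_max_right _ _).trans (le_max_right _ _)) hz
    have hz2 : z₁ ≤ T.q ^ m * z :=
      hz1.trans (le_mul_of_one_le_left hzp (one_le_pow₀ T.one_lt_q.le))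
    rw [pow_succ', mul_assoc, h₁ _ hz2, h z hz0]
    ring

end Trop

variable {T : Trop} (hTp : T.p = p) (hTn : T.n = n)

include hTp hTn

theorem leadSize_eq (S₀ kl : ℕ) {w : ℝ} (hw : 0 < w) :
    ∃ κ : ℝ, 0 < κ ∧ ∀ᶠ i in actFilter p n,
      leadSize p n T S₀ kl w i = κ * scaleE p n T S₀ w i := by
  obtain ⟨C, z₀, -, h⟩ := T.N_iter kl
  refine ⟨Real.exp C, Real.exp_pos C, ?_⟩
  have hq : (0 : ℝ) < T.q ^ kl := pow_pos T.q_pos _
  filter_upwards [(tendsto_arg (p := p) (n := n) (div_pos hw hq) S₀).eventually_ge_atTop z₀]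
    with i hi
  have harg : lvlArg p n w kl (S₀ + i.1) = (p : ℝ) ^ (S₀ + i.1) * (w / T.q ^ kl) := by
    simp [lvlArg, Trop.q, hTp, hTn, mul_div_assoc]
  have h2 := h _ hi
  have e : T.q ^ kl * ((p : ℝ) ^ (S₀ + i.1) * (w / T.q ^ kl)) = (p : ℝ) ^ (S₀ + i.1) * w := by
    field_simp
  rw [e] at h2
  rw [leadSize, scaleE, ← Real.exp_add, harg]
  congr 1
  rw [h2, ← pow_mul, hTp]
  ring

omit hTn in
theorem scaleE_le_pow (S₀ m : ℕ) {w w' : ℝ} (hw' : 0 < w') (h : T.q ^ m * w' ≤ w) :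
    scaleE p n T S₀ w =O[actFilter p n] (fun i => scaleE p n T S₀ w' i ^ (p ^ (T.h * m))) := by
  obtain ⟨C, z₀, -, hN⟩ := T.N_iter m
  refine IsBigO.of_bound (Real.exp (-C)) ?_
  filter_upwards [(tendsto_arg (p := p) (n := n) hw' S₀).eventually_ge_atTop z₀] with i hi
  have hpos : (0 : ℝ) < (p : ℝ) ^ (S₀ + i.1) := pow_pos (by exact_mod_cast hp.out.pos) _
  have h2 := hN _ hi
  have h3 : T.N (T.q ^ m * ((p : ℝ) ^ (S₀ + i.1) * w')) ≤ T.N ((p : ℝ) ^ (S₀ + i.1) * w) := by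
    rcases eq_or_lt_of_le (show T.q ^ m * ((p : ℝ) ^ (S₀ + i.1) * w')
        ≤ (p : ℝ) ^ (S₀ + i.1) * w by nlinarith) with he | hlt
    · rw [he]
    · exact (T.N_strictMono (mul_pos (pow_pos T.q_pos _) (mul_pos hpos hw')) hlt).le
  rw [h2, ← pow_mul, hTp] at h3
  rw [scaleE, scaleE, Real.norm_of_nonneg (Real.exp_pos _).le, ← Real.exp_nat_mul,
    Real.norm_of_nonneg (Real.exp_pos _).le, ← Real.exp_add]
  refine Real.exp_le_exp.2 ?_
  push_cast
  linarith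

omit hTn in
theorem scaleE_pow_le (S₀ m : ℕ) {w w' : ℝ} (hw : 0 < w) (hw' : 0 < w') (h : w ≤ T.q ^ m * w') :
    (fun i => scaleE p n T S₀ w' i ^ (p ^ (T.h * m))) =O[actFilter p n] scaleE p n T S₀ w := by
  obtain ⟨C, z₀, -, hN⟩ := T.N_iter m
  refine IsBigO.of_bound (Real.exp C) ?_
  filter_upwards [(tendsto_arg (p := p) (n := n) hw' S₀).eventually_ge_atTop z₀] with i hi
  have hpos : (0 : ℝ) < (p : ℝ) ^ (S₀ + i.1) := pow_pos (by exact_mod_cast hp.out.pos) _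
  have h2 := hN _ hi
  have h3 : T.N ((p : ℝ) ^ (S₀ + i.1) * w) ≤ T.N (T.q ^ m * ((p : ℝ) ^ (S₀ + i.1) * w')) := by
    rcases eq_or_lt_of_le (show (p : ℝ) ^ (S₀ + i.1) * w
        ≤ T.q ^ m * ((p : ℝ) ^ (S₀ + i.1) * w') by nlinarith) with he | hlt
    · rw [he]
    · exact (T.N_strictMono (mul_pos hpos hw) hlt).le
  rw [h2, ← pow_mul, hTp] at h3
  rw [scaleE, scaleE, Real.norm_of_nonneg (Real.exp_pos _).le, ← Real.exp_nat_mul,
    Real.norm_of_nonneg (Real.exp_pos _).le, ← Real.exp_add]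
  refine Real.exp_le_exp.2 ?_
  push_cast
  linarith

omit hTp hTn in
theorem scaleE_tendsto (S₀ : ℕ) {w : ℝ} (hw : 0 < w) :
    Tendsto (scaleE p n T S₀ w) (actFilter p n) (𝓝 0) :=
  Real.tendsto_exp_atBot.comp (tendsto_neg_atTop_atBot.comp
    (T.N_tendsto.comp (tendsto_arg hw S₀)))

omit hTp hTn in
theorem scaleE_pow_isLittleO (S₀ : ℕ) {w : ℝ} (hw : 0 < w) {a b : ℕ} (hab : a < b) :
    (fun i => scaleE p n T S₀ w i ^ b) =o[actFilter p n]
      (fun i => scaleE p n T S₀ w i ^ a) := by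
  have h1 : (fun i => scaleE p n T S₀ w i ^ (b - a)) =o[actFilter p n] (fun _ => (1 : ℝ)) := by
    rw [isLittleO_one_iff]
    simpa [zero_pow (Nat.sub_ne_zero_of_lt hab)] using (scaleE_tendsto S₀ hw).pow (b - a)
  have h2 := h1.mul_isBigO (isBigO_refl (fun i => scaleE p n T S₀ w i ^ a) (actFilter p n))
  simpa [← pow_add, Nat.sub_add_cancel hab.le] using h2

end

end Vale.Agent.P217
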