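import Vale.Agent.P217.Defs

/-!
# P217: auxiliary definitions shared by the modules of the proof
-/

open scoped Classical

namespace Vale.Agent.P217

noncomputable section

variable (p n : ℕ) [hp : Fact p.Prime]

/-- The maximal ideal of the Lubin-Tate ring, as the top height ideal. -/
abbrev mIdeal : Ideal (LTRing p n) := heightIdeal p n n

/-- Teichmüller constant in the Lubin-Tate ring. -/
def teich (a : GaloisField p n) : LTRing p n :=
  MvPowerSeries.C (WittVector.teichmuller p a)

/-- The series of multiplication by `m` for a formal group law. -/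
def nmulSeries (F : FormalGroup (LTRing p n)) : ℕ → PowerSeries (LTRing p n)
  | 0 => 0
  | m + 1 => MvPowerSeries.subst ![nmulSeries F m, PowerSeries.X] F.toPowerSeries

/-- The series `[p]`. -/
def pSeries (F : FormalGroup (LTRing p n)) : PowerSeries (LTRing p n) := nmulSeries p n F p

/-- `G_h`: the series with `[p](x) = G_h(x^{p^h})` modulo `I_h`. -/
def gSeries (F : FormalGroup (LTRing p n)) (h : ℕ) : PowerSeries (LTRing p n) :=
  PowerSeries.mk fun j => PowerSeries.coeff (p ^ h * j) (pSeries p n F)

/-- `α` fixes the coefficient ring. -/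
def FixesCoeff (α : LTRing p n ≃+* LTRing p n) : Prop :=
  ∀ w : WittVector p (GaloisField p n), α (MvPowerSeries.C w) = MvPowerSeries.C w

/-- Invariance under the elements of the stabilizer which are congruent to the identity
modulo `m^c`. -/
def IsNearInvariant (F : FormalGroup (LTRing p n)) (c : ℕ) (P : Ideal (LTRing p n)) : Prop :=
  ∀ α : LTRing p n ≃+* LTRing p n, IsDeformationAut p n F α → FixesCoeff p n α →
    (∀ x, α x - x ∈ mIdeal p n ^ c) → Ideal.map α.toRingHom P = P

/-- The data of one element `1 + a Π^S` of the stabilizer acting on the model. -/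
structure ActData (F : FormalGroup (LTRing p n)) (S : ℕ) (a : GaloisField p n) (c : ℕ) where
  /-- The automorphism of the Lubin-Tate ring. -/
  α : LTRing p n ≃+* LTRing p n
  fix : FixesCoeff p n α
  near : ∀ x, α x - x ∈ mIdeal p n ^ c
  /-- The isomorphism from `F` to its transform. -/
  φ : PowerSeries (LTRing p n)
  φ_zero : PowerSeries.constantCoeff φ = 0
  φ_unit : IsUnit (PowerSeries.coeff 1 φ)
  φ_hom : PowerSeries.subst F.toPowerSeries φ
      = MvPowerSeries.subst
          ![PowerSeries.subst (MvPowerSeries.X (0 : Fin 2)) φ,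
            PowerSeries.subst (MvPowerSeries.X (1 : Fin 2)) φ]
          (F.map α.toRingHom).toPowerSeries
  φ_res : ∀ N, PowerSeries.coeff N φ -
      PowerSeries.coeff N (MvPowerSeries.subst
        ![PowerSeries.X, PowerSeries.C (teich p n a) * PowerSeries.X ^ p ^ S] F.toPowerSeries)
      ∈ mIdeal p n
  /-- The coefficients of `φ` as a formal sum. -/
  b : ℕ → LTRing p n
  b_res : ∀ k, b k - (if k = 0 then 1 else if k = S then teich p n a else 0) ∈ mIdeal p n
  log_eq : ∀ N,
    algebraMap (LTRing p n) (LTField p n) (b 0) * logCoeff p n N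
      = ∑ k ∈ Finset.range (N + 1),
          IsFractionRing.ringEquivOfRingEquiv α (logCoeff p n (N - k))
            * algebraMap (LTRing p n) (LTField p n) (b k ^ p ^ (N - k))

/-- A complete ultrametric field, bundled. -/
structure UField : Type 1 where
  /-- The underlying type. -/
  K : Type
  [nf : NormedField K]
  [ud : IsUltrametricDist K]
  [cs : CompleteSpace K]

attribute [instance] UField.nf UField.ud UField.cs

section Point

variable {K : Type} [NormedField K]

/-- A contracting homomorphism to a normed field: a point of the open unit polydisc. -/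
structure IsPoint (ψ : LTRing p n →+* K) : Prop where
  le_one : ∀ x, ‖ψ x‖ ≤ 1
  contracting : ∃ θ : ℝ, 0 < θ ∧ θ < 1 ∧ ∀ x ∈ mIdeal p n, ‖ψ x‖ ≤ θ

/-- Two points which agree on the coefficient ring and are `D`-close on the variables. -/
def Near (ψ ψ' : LTRing p n →+* K) (D : ℝ) : Prop :=
  0 ≤ D ∧
    (∀ w : WittVector p (GaloisField p n),
      ψ' (MvPowerSeries.C w) = ψ (MvPowerSeries.C w)) ∧
    ∀ i : Fin (n - 1), ‖ψ' (MvPowerSeries.X i) - ψ (MvPowerSeries.X i)‖ ≤ D

/-- `ψ` kills `u_0, ..., u_{h-1}` and not `u_h`. -/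
def OnStratum (h : ℕ) (ψ : LTRing p n →+* K) : Prop :=
  (∀ i < h, ψ (ltU p n i) = 0) ∧ ψ (ltU p n h) ≠ 0

end Point

variable {p n}

/-- Value at `x` of a power series specialised by `ψ`. -/
def ev {K : Type} [NormedField K] (ψ : LTRing p n →+* K) (f : PowerSeries (LTRing p n)) (x : K) :
    K :=
  ∑' i : ℕ, ψ (PowerSeries.coeff i f) * x ^ i

/-- Value at `(x, y)` of a two-variable power series specialised by `ψ`. -/
def ev2 {K : Type} [NormedField K] (ψ : LTRing p n →+* K)
    (f : MvPowerSeries (Fin 2) (LTRing p n)) (x y : K) : K :=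
  ∑' d : Fin 2 →₀ ℕ, ψ (MvPowerSeries.coeff d f) * (x ^ d 0 * y ^ d 1)

/-- The group law on the open disc. -/
def fadd {K : Type} [NormedField K] (ψ : LTRing p n →+* K) (F : FormalGroup (LTRing p n))
    (x y : K) : K :=
  ev2 ψ F.toPowerSeries x y

/-- A parametrisation of the torsion points by `ℤ_p^d`: `x e l` is killed by `p^l`. -/
structure IsTorsion {K : Type} [NormedField K] (ψ : LTRing p n →+* K)
    (F : FormalGroup (LTRing p n)) (d : ℕ) (x : (Fin d → ℤ_[p]) → ℕ → K) : Prop where
  level_zero : ∀ e, x e 0 = 0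
  norm_lt : ∀ e l, ‖x e l‖ < 1
  step : ∀ e l, ev ψ (pSeries p n F) (x e (l + 1)) = x e l
  add : ∀ e e' l, x (e + e') l = fadd ψ F (x e l) (x e' l)
  eq_zero_iff : ∀ e l, x e l = 0 ↔ ∀ i, (p : ℤ_[p]) ^ l ∣ e i
  surj : ∀ (l : ℕ) (z : K), ‖z‖ < 1 → (ev ψ (pSeries p n F))^[l] z = 0 →
    (∀ i, i < l → ‖(ev ψ (pSeries p n F))^[i] z‖ < 1) →
    (∃ y : (Fin d → ℤ_[p]), x y l = z)

variable (p n)

/-- The residual algebraic closure attached to a prime. -/
abbrev ResAlg (P : Ideal (LTRing p n)) [P.IsPrime] : Type :=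
  AlgebraicClosure (FractionRing (LTRing p n ⧸ P))

/-- The canonical map to it. -/
def resMap (P : Ideal (LTRing p n)) [P.IsPrime] : LTRing p n →+* ResAlg p n P :=
  (algebraMap (FractionRing (LTRing p n ⧸ P)) (ResAlg p n P)).comp
    ((algebraMap (LTRing p n ⧸ P) (FractionRing (LTRing p n ⧸ P))).comp (Ideal.Quotient.mk P))

/-- The `r`-fold Frobenius twist of a homomorphism to a ring of characteristic `p`. -/
def IsFrobTwist {L : Type} [CommRing L] (r : ℕ) (ψ ψr : LTRing p n →+* L) : Prop :=
  ∀ x, ψr x = ψ x ^ p ^ r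

end

end Vale.Agent.P217
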