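import Mathlib

/-!
# P217: parametrisation of the `p`-power torsion of an abelian group by `ℤ_p^d`
-/

open scoped Classical

namespace Vale.Agent.P217

noncomputable section

variable (p : ℕ) [hp : Fact p.Prime] {G : Type*} [AddCommGroup G]

/-- Multiples of an element killed by `N` depend on the multiplier modulo `N` only. -/
lemma nsmul_eq_of_cast_eq {N a b : ℕ} {g : G} (hg : N • g = 0)
    (h : (a : ZMod N) = (b : ZMod N)) : a • g = b • g := by
  have key : ∀ c : ℕ, c • g = (c % N) • g := fun c => by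
    conv_lhs => rw [← Nat.mod_add_div c N, add_nsmul, mul_comm, mul_nsmul', hg, nsmul_zero,
      add_zero]
  rw [key a, key b, (ZMod.natCast_eq_natCast_iff' a b N).1 h]

lemma dvd_padic_iff {l : ℕ} (a : ℤ_[p]) :
    PadicInt.toZModPow l a = 0 ↔ (p : ℤ_[p]) ^ l ∣ a := by
  rw [← RingHom.mem_ker, PadicInt.ker_toZModPow, Ideal.mem_span_singleton]

lemma exists_basis_of_card_module {V : Type*} [AddCommGroup V] [Module (ZMod p) V] [Finite V]
    {d : ℕ} (hc : Nat.card V = p ^ d) :
    ∃ b : Fin d → V, (∀ a : Fin d → ℕ, ∑ i, a i • b i = 0 → ∀ i, p ∣ a i) ∧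
      ∀ v, ∃ a : Fin d → ℕ, ∑ i, a i • b i = v := by
  have : Module.Finite (ZMod p) V := Module.Finite.of_finite
  have hrank : Module.finrank (ZMod p) V = d := by
    have := Module.natCard_eq_pow_finrank (K := ZMod p) (V := V)
    rw [hc, Nat.card_zmod] at this
    exact (Nat.pow_right_injective hp.out.two_le this).symm
  let B := Module.finBasisOfFinrankEq (ZMod p) V hrank
  refine ⟨fun i => B i, fun a ha i => (ZMod.natCast_eq_zero_iff _ _).1 ?_, fun v => ?_⟩
  · refine Fintype.linearIndependent_iff.1 B.linearIndependent (fun i => (a i : ZMod p)) ?_ i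
    simpa only [Nat.cast_smul_eq_nsmul] using ha
  · refine ⟨fun i => (B.repr v i).val, ?_⟩
    rw [Finset.sum_congr rfl fun i _ => show (B.repr v i).val • B i = B.repr v i • B i by
      rw [← Nat.cast_smul_eq_nsmul (ZMod p), ZMod.natCast_zmod_val], B.sum_repr]

/-- A group of exponent `p` with `p^d` elements has a basis over `ZMod p`. -/
lemma exists_basis_of_card {V : Type*} [AddCommGroup V] {d : ℕ} (h : ∀ v : V, p • v = 0)
    (hc : Nat.card V = p ^ d) :
    ∃ b : Fin d → V, (∀ a : Fin d → ℕ, ∑ i, a i • b i = 0 → ∀ i, p ∣ a i) ∧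
      ∀ v, ∃ a : Fin d → ℕ, ∑ i, a i • b i = v := by
  have : Finite V := Nat.finite_of_card_ne_zero (by rw [hc]; exact pow_ne_zero _ hp.out.ne_zero)
  exact @exists_basis_of_card_module p hp V _ (AddCommGroup.zmodModule h) _ d hc

/-- An abelian group with `p^{dl}` elements killed by `p^l`, for every `l`, has its torsion
parametrised by `ℤ_p^d`. -/
theorem exists_torsion_param (d : ℕ)
    (hcard : ∀ l, Nat.card (nsmulAddMonoidHom (p ^ l) : G →+ G).ker = p ^ (d * l)) :
    ∃ x : (Fin d → ℤ_[p]) → ℕ → G, (∀ e, x e 0 = 0) ∧ (∀ e l, p ^ l • x e l = 0) ∧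
      (∀ e l, p • x e (l + 1) = x e l) ∧ (∀ e e' l, x (e + e') l = x e l + x e' l) ∧
      (∀ e l, x e l = 0 ↔ ∀ i, (p : ℤ_[p]) ^ l ∣ e i) ∧
      ∀ l z, p ^ l • z = 0 → ∃ e, x e l = z := by
  let T : ℕ → AddSubgroup G := fun l => (nsmulAddMonoidHom (p ^ l) : G →+ G).ker
  have memT : ∀ {l} {z : G}, z ∈ T l ↔ p ^ l • z = 0 := fun {l z} => by simp [T]
  have hfin : ∀ l, Finite (T l) := fun l => Nat.finite_of_card_ne_zero (by
    rw [hcard l]; exact pow_ne_zero _ hp.out.ne_zero)
  -- multiplication by `p` is onto between consecutive levels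
  have hsurj : ∀ l, ∀ z ∈ T l, ∃ w ∈ T (l + 1), p • w = z := by
    intro l
    let μ : T (l + 1) →+ T l :=
      { toFun := fun w => ⟨p • (w : G), memT.2 (by
          rw [← mul_nsmul', ← pow_succ]; exact memT.1 w.2)⟩
        map_zero' := by ext; simp
        map_add' := fun a b => by ext; simp [nsmul_add] }
    have hker : Nat.card μ.ker = p ^ d := by
      rw [← mul_one d, ← hcard 1]
      refine Nat.card_congr
        { toFun := fun w => ⟨(w : T (l + 1)), memT.2 ?_⟩
          invFun := fun z => ⟨⟨(z : G), memT.2 ?_⟩, ?_⟩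
          left_inv := fun w => rfl
          right_inv := fun z => rfl }
      · rw [pow_one]
        exact congrArg Subtype.val (AddMonoidHom.mem_ker.1 w.2)
      · rw [pow_succ, mul_nsmul', show p • (z : G) = 0 by simpa using memT.1 z.2, nsmul_zero]
      · exact AddMonoidHom.mem_ker.2 (Subtype.ext (show p • (z : G) = 0 by simpa using memT.1 z.2))
    have hrange : Nat.card μ.range = p ^ (d * l) := by
      have h1 := AddSubgroup.card_eq_card_quotient_mul_card_addSubgroup μ.ker
      rw [Nat.card_congr (QuotientAddGroup.quotientKerEquivRange μ).toEquiv, hker, hcard (l + 1),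
        mul_add, mul_one, pow_add] at h1
      exact (Nat.eq_of_mul_eq_mul_right (pow_pos hp.out.pos d) h1).symm
    have htop : μ.range = ⊤ := by
      have := hfin l
      exact AddSubgroup.eq_top_of_card_eq _ (hrange.trans (hcard l).symm)
    intro z hz
    obtain ⟨w, hw⟩ : (⟨z, hz⟩ : T l) ∈ μ.range := htop ▸ AddSubgroup.mem_top _
    exact ⟨w, w.2, congrArg Subtype.val hw⟩
  choose! lift hliftT hlift using hsurj
  -- a basis of the first level
  obtain ⟨B, hBi, hBs⟩ := exists_basis_of_card p (V := T 1) (d := d)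
    (fun z => Subtype.ext (by simpa using memT.1 z.2)) ((hcard 1).trans (by rw [mul_one]))
  let g' : Fin d → ℕ → G := fun i k => Nat.rec (B i : G) (fun k y => lift (k + 1) y) k
  let g : Fin d → ℕ → G := fun i l => if l = 0 then 0 else g' i (l - 1)
  have hg'T : ∀ i k, g' i k ∈ T (k + 1) := by
    intro i k
    induction k with
    | zero => exact (B i).2
    | succ k ih => exact hliftT (k + 1) _ ih
  have hgT : ∀ i l, p ^ l • g i l = 0 := by
    intro i l
    rcases l with _ | l
    · simp [g]
    · simpa [g] using memT.1 (hg'T i l)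
  have hgs : ∀ i l, p • g i (l + 1) = g i l := by
    intro i l
    rcases l with _ | l
    · have : p • (B i : G) = 0 := by simpa using memT.1 (B i).2
      simpa [g, g'] using this
    · simpa [g, g'] using hlift (l + 1) _ (hg'T i l)
  have hdesc : ∀ i l, p ^ l • g i (l + 1) = g i 1 := by
    intro i l
    induction l with
    | zero => simp
    | succ l ih => rw [pow_succ, mul_nsmul', hgs, ih]
  have hg1 : ∀ i, g i 1 = (B i : G) := fun i => by simp [g, g']
  have hsum1 : ∀ v : Fin d → ℕ, ∑ i, v i • g i 1 = (((∑ i, v i • B i : T 1)) : G) := by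
    intro v
    rw [AddSubgroup.val_finset_sum]
    refine Finset.sum_congr rfl fun i _ => ?_
    rw [AddSubmonoidClass.coe_nsmul, hg1]
  have hinj : ∀ l, ∀ v : Fin d → ℕ, ∑ i, v i • g i l = 0 → ∀ i, p ^ l ∣ v i := by
    intro l
    induction l with
    | zero => simp
    | succ l ih =>
      intro v hv
      have hv' : ∑ i, v i • g i l = 0 := by
        rw [← Finset.sum_congr rfl fun i _ => show p • (v i • g i (l + 1)) = v i • g i l by
          rw [← mul_nsmul', mul_comm, mul_nsmul', hgs], ← Finset.smul_sum, hv, nsmul_zero]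
      choose b hb using ih v hv'
      have h1 : ∑ i, b i • g i 1 = 0 := by
        rw [← hv]
        refine Finset.sum_congr rfl fun i _ => ?_
        rw [hb i, mul_comm, mul_nsmul', hdesc]
      rw [hsum1] at h1
      have h2 : ∀ i, p ∣ b i := hBi b (Subtype.ext h1)
      intro i
      rw [hb i, pow_succ]
      exact mul_dvd_mul_left _ (h2 i)
  have hspan : ∀ l, ∀ z, p ^ l • z = 0 → ∃ v : Fin d → ℕ, ∑ i, v i • g i l = z := by
    intro l
    induction l with
    | zero => exact fun z hz => ⟨0, by simpa using (by simpa using hz : z = 0).symm⟩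
    | succ l ih =>
      intro z hz
      obtain ⟨v, hv⟩ := ih (p • z) (by rw [← mul_nsmul', ← pow_succ]; exact hz)
      let y := z - ∑ i, v i • g i (l + 1)
      have hy : y ∈ T 1 := memT.2 (by
        simp only [y, pow_one, nsmul_sub, Finset.smul_sum]
        rw [Finset.sum_congr rfl fun i _ => show p • (v i • g i (l + 1)) = v i • g i l by
          rw [← mul_nsmul', mul_comm, mul_nsmul', hgs], hv, sub_self])
      obtain ⟨a, ha⟩ := hBs ⟨y, hy⟩
      refine ⟨fun i => v i + a i * p ^ l, ?_⟩
      have h1 : ∑ i, (a i * p ^ l) • g i (l + 1) = y := by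
        rw [Finset.sum_congr rfl fun i _ => show (a i * p ^ l) • g i (l + 1) = a i • g i 1 by
            rw [mul_nsmul', hdesc], hsum1, ha]
      simp only [add_nsmul, Finset.sum_add_distrib, h1, y]
      abel
  refine ⟨fun e l => ∑ i, (PadicInt.toZModPow l (e i)).val • g i l, ?_, ?_, ?_, ?_, ?_, ?_⟩
  · exact fun e => by simp [g]
  · intro e l
    rw [Finset.smul_sum, Finset.sum_eq_zero]
    intro i _
    rw [← mul_nsmul', mul_comm, mul_nsmul', hgT, nsmul_zero]
  · intro e l
    rw [Finset.smul_sum]
    refine Finset.sum_congr rfl fun i _ => ?_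
    rw [← mul_nsmul', mul_comm, mul_nsmul', hgs]
    refine nsmul_eq_of_cast_eq (hgT i l) ?_
    rw [ZMod.natCast_zmod_val, ZMod.natCast_val, PadicInt.cast_toZModPow l (l + 1) (by omega)]
  · intro e e' l
    rw [← Finset.sum_add_distrib]
    refine Finset.sum_congr rfl fun i _ => ?_
    rw [← add_nsmul]
    refine nsmul_eq_of_cast_eq (hgT i l) ?_
    simp
  · intro e l
    constructor
    · intro h i
      rw [← dvd_padic_iff p, ← ZMod.natCast_zmod_val (PadicInt.toZModPow l (e i)),
        ZMod.natCast_eq_zero_iff]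
      exact hinj l _ h i
    · intro h
      exact Finset.sum_eq_zero fun i _ => by simp [(dvd_padic_iff p _).2 (h i)]
  · intro l z hz
    obtain ⟨v, hv⟩ := hspan l z hz
    refine ⟨fun i => (v i : ℤ_[p]), ?_⟩
    rw [← hv]
    refine Finset.sum_congr rfl fun i _ => nsmul_eq_of_cast_eq (hgT i l) ?_
    simp

end

end Vale.Agent.P217
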