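import Vale.Agent.P217.TorsionLevel
import Vale.Agent.P217.TorsionGroup

/-! # P217: torsion points

`ev2_algebraic` (values of series at integral algebraic points) is proved in `TorsionSeries`.
-/

open scoped Classical

namespace Vale.Agent.P217

noncomputable section

variable {p n : ℕ} [hp : Fact p.Prime] {F : FormalGroup (LTRing p n)}

section Group

variable {K : Type} [NormedField K] [IsUltrametricDist K] [CompleteSpace K] {ψ : LTRing p n →+* K}

/-- The open unit disc. -/
abbrev OpenDisc (K : Type) [NormedField K] : Type := {x : K // ‖x‖ < 1}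

/-- The group of the formal group law on the open disc. -/
@[instance_reducible]
def discGroup (hψ : IsPoint p n ψ) (hF : HasHazewinkelLog p n F) :
    AddCommGroup (OpenDisc K) :=
  letI : Add (OpenDisc K) := ⟨fun a b => ⟨fadd ψ F a.1 b.1, norm_fadd_lt hψ a.2 b.2⟩⟩
  letI : Zero (OpenDisc K) := ⟨⟨0, by simp⟩⟩
  letI : Neg (OpenDisc K) := ⟨fun a =>
    ⟨(exists_fadd_eq (F := F) hψ a.2 (z := 0) (by simp)).choose,
      (exists_fadd_eq (F := F) hψ a.2 (z := 0) (by simp)).choose_spec.1⟩⟩
  { add_assoc := fun a b c => Subtype.ext (fadd_assoc hψ a.2 b.2 c.2)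
    zero_add := fun a => Subtype.ext (fadd_zero hψ a.2).2
    add_zero := fun a => Subtype.ext (fadd_zero hψ a.2).1
    add_comm := fun a b => Subtype.ext (fadd_comm hψ hF a.2 b.2)
    neg_add_cancel := fun a => Subtype.ext (by
      show fadd ψ F (exists_fadd_eq (F := F) hψ a.2 (z := 0) (by simp)).choose a.1 = 0
      rw [fadd_comm hψ hF (exists_fadd_eq (F := F) hψ a.2 (z := 0) (by simp)).choose_spec.1 a.2]
      exact (exists_fadd_eq (F := F) hψ a.2 (z := 0) (by simp)).choose_spec.2.1)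
    nsmul := nsmulRec
    zsmul := zsmulRec }

lemma ev_nmulSeries_succ (hψ : IsPoint p n ψ) (m : ℕ) {x : K} (hx : ‖x‖ < 1) :
    ev ψ (nmulSeries p n F (m + 1)) x = fadd ψ F (ev ψ (nmulSeries p n F m) x) x := by
  rw [nmulSeries, ev_subst_two hψ _ _ _ (constantCoeff_nmulSeries p n F m) PowerSeries.constantCoeff_X hx,
    ev_X, fadd]

omit [IsUltrametricDist K] [CompleteSpace K] in
lemma ev_zero_apply (x : K) : ev ψ (0 : PowerSeries (LTRing p n)) x = 0 := by
  simp [ev]

lemma nsmul_val (hψ : IsPoint p n ψ) (hF : HasHazewinkelLog p n F) (m : ℕ) (a : OpenDisc K) :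
    letI := discGroup hψ hF
    ((m • a : OpenDisc K) : K) = ev ψ (nmulSeries p n F m) a.1 := by
  let _ := discGroup hψ hF
  induction m with
  | zero =>
    rw [zero_nsmul, nmulSeries, ev_zero_apply]
    rfl
  | succ m ih =>
    rw [succ_nsmul, ev_nmulSeries_succ hψ m a.2, ← ih]
    rfl

lemma pow_nsmul_val (hψ : IsPoint p n ψ) (hF : HasHazewinkelLog p n F) (l : ℕ) (a : OpenDisc K) :
    letI := discGroup hψ hF
    ((p ^ l • a : OpenDisc K) : K) = (ev ψ (pSeries p n F))^[l] a.1 := by
  let _ := discGroup hψ hF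
  induction l with
  | zero => simp
  | succ l ih =>
    rw [pow_succ', mul_nsmul', nsmul_val hψ hF p, ih, Function.iterate_succ_apply']
    rfl

end Group

/-- The kernel of each level has `p^{(n-h)l}` points. -/
lemma card_level (hn : 0 < n) (hF : HasHazewinkelLog p n F) {h : ℕ} (hh : h < n) {L : Type}
    [Field L] [IsAlgClosed L] (σ : LTRing p n →+* L) {K : Type} [NormedField K]
    [IsUltrametricDist K] [CompleteSpace K] (j : L →+* K) (hψ : IsPoint p n (j.comp σ))
    (hst : OnStratum p n h (j.comp σ)) (l : ℕ) :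
    Nat.card {z : K // ‖z‖ < 1 ∧ (ev (j.comp σ) (pSeries p n F))^[l] z = 0}
      = p ^ ((n - h) * l) := by
  obtain ⟨S, u, hS, hdeg, hu, hSu⟩ := exists_torsPoly (F := F) hn hF hh l
  have key := level_iff_alg σ j hψ hF hh.le hst.1 l hS hu hSu
  have hne : S.map σ ≠ 0 := (hS.monic.map σ).ne_zero
  have hmem : ∀ a, a ∈ (S.map σ).roots.toFinset ↔ S.eval₂ σ a = 0 := fun a => by
    rw [Multiset.mem_toFinset, Polynomial.mem_roots hne, Polynomial.IsRoot, Polynomial.eval_map]
  have hex : ∀ z : {z : K // ‖z‖ < 1 ∧ (ev (j.comp σ) (pSeries p n F))^[l] z = 0},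
      ∃ a : {a // a ∈ (S.map σ).roots.toFinset}, j a.1 = (z : K) ^ p ^ (h * l) := by
    intro z
    obtain ⟨b, hb, hbz⟩ := (key z).1 z.2
    exact ⟨⟨b ^ p ^ (h * l), (hmem _).2 hb⟩, by rw [map_pow, hbz]⟩
  choose f hf using hex
  have hbij : Function.Bijective f := by
    refine ⟨fun z z' e => Subtype.ext (pow_prime_pow_inj _ (char_or_height_zero hst.1 l) ?_),
      fun a => ?_⟩
    · rw [← hf z, ← hf z', e]
    · obtain ⟨b, hb⟩ := IsAlgClosed.exists_pow_nat_eq a.1 (pow_pos hp.out.pos (h * l))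
      refine ⟨⟨j b, (key _).2 ⟨b, by rw [hb]; exact (hmem _).1 a.2, rfl⟩⟩,
        Subtype.ext (j.injective ?_)⟩
      rw [hf, ← map_pow, hb]
  rw [Nat.card_eq_of_bijective f hbij, Nat.card_eq_fintype_card, Fintype.card_coe,
    Multiset.toFinset_card_of_nodup (nodup_roots_torsPoly σ j hn hψ hF hh hst l hS hu hSu),
    IsAlgClosed.card_roots_eq_natDegree, hS.monic.natDegree_map, hdeg]

/-- A torsion parametrisation exists, by algebraic points, for one valuation. -/
theorem exists_torsion (hn : 0 < n) (hF : HasHazewinkelLog p n F) {h : ℕ} (hh : h < n)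
    (P : Ideal (LTRing p n)) [P.IsPrime] (U : UField) (j : ResAlg p n P →+* U.K)
    (hpt : IsPoint p n (j.comp (resMap p n P)))
    (hst : OnStratum p n h (j.comp (resMap p n P))) :
    ∃ x : (Fin (n - h) → ℤ_[p]) → ℕ → ResAlg p n P,
      IsTorsion (j.comp (resMap p n P)) F (n - h) (fun e l => j (x e l)) ∧
      (∀ e l, x e l ^ p ^ (h * l) ∈
        separableClosure (FractionRing (LTRing p n ⧸ P)) (ResAlg p n P)) ∧
      (∀ e l, ∃ Q : Polynomial (LTRing p n), Q.IsDistinguishedAt (mIdeal p n) ∧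
        Q.eval₂ (resMap p n P) (x e l) = 0) := by
  let _ := discGroup hpt hF
  choose S u hS hdeg hu hSu using exists_torsPoly (F := F) hn hF hh
  have key := fun l =>
    level_iff_alg (resMap p n P) j hpt hF hh.le hst.1 l (hS l) (hu l) (hSu l)
  have hcard : ∀ l, Nat.card (nsmulAddMonoidHom (p ^ l) : OpenDisc U.K →+ OpenDisc U.K).ker
      = p ^ ((n - h) * l) := by
    intro l
    rw [← card_level hn hF hh (resMap p n P) j hpt hst l]
    refine Nat.card_congr
      { toFun := fun z => ⟨(z.1 : U.K), z.1.2, ?_⟩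
        invFun := fun z => ⟨⟨z.1, z.2.1⟩, ?_⟩
        left_inv := fun z => rfl
        right_inv := fun z => rfl }
    · rw [← pow_nsmul_val hpt hF l z.1]
      exact congrArg Subtype.val (AddMonoidHom.mem_ker.1 z.2)
    · exact AddMonoidHom.mem_ker.2 (Subtype.ext ((pow_nsmul_val hpt hF l _).trans z.2.2))
  obtain ⟨y, hy0, hykill, hystep, hyadd, hyzero, hysurj⟩ := exists_torsion_param p (n - h) hcard
  have hlev : ∀ e l, ‖(y e l : U.K)‖ < 1 ∧
      (ev (j.comp (resMap p n P)) (pSeries p n F))^[l] (y e l : U.K) = 0 := fun e l =>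
    ⟨(y e l).2, (pow_nsmul_val hpt hF l (y e l)).symm.trans (congrArg Subtype.val (hykill e l))⟩
  choose x hxroot hxy using fun e l => (key l (y e l : U.K)).1 (hlev e l)
  refine ⟨x, ⟨?_, ?_, ?_, ?_, ?_, ?_⟩, ?_, ?_⟩
  · exact fun e => by
      rw [hxy, hy0]
      rfl
  · exact fun e l => by rw [hxy]; exact (y e l).2
  · intro e l
    have h1 := (pow_nsmul_val hpt hF 1 (y e (l + 1))).symm
    rw [pow_one, hystep, Function.iterate_one] at h1
    rw [hxy, hxy]
    exact h1
  · intro e e' l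
    rw [hxy, hxy, hxy, hyadd]
    rfl
  · intro e l
    rw [hxy, ← hyzero e l]
    exact ⟨fun h => Subtype.ext h, fun h => congrArg Subtype.val h⟩
  · intro l z hz hit _
    obtain ⟨e, he⟩ := hysurj l ⟨z, hz⟩ (Subtype.ext ((pow_nsmul_val hpt hF l _).trans hit))
    exact ⟨e, by rw [hxy, he]⟩
  · intro e l
    rw [mem_separableClosure_iff]
    set σ₀ := (algebraMap (LTRing p n ⧸ P) (FractionRing (LTRing p n ⧸ P))).comp
      (Ideal.Quotient.mk P) with hσ₀
    have hmap : ((S l).map σ₀).map (algebraMap (FractionRing (LTRing p n ⧸ P)) (ResAlg p n P))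
        = (S l).map (resMap p n P) := by
      rw [Polynomial.map_map]; rfl
    have hsep : ((S l).map σ₀).Separable := by
      refine (Polynomial.separable_map (algebraMap (FractionRing (LTRing p n ⧸ P))
        (ResAlg p n P))).1 ?_
      rw [hmap]
      exact (Polynomial.nodup_roots_iff_of_splits ((hS l).monic.map _).ne_zero
        (IsAlgClosed.splits _)).1
        (nodup_roots_torsPoly (resMap p n P) j hn hpt hF hh hst l (hS l) (hu l) (hSu l))
    refine hsep.of_dvd (minpoly.dvd _ _ ?_)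
    rw [Polynomial.aeval_def, Polynomial.eval₂_map]
    exact hxroot e l
  · intro e l
    refine ⟨Polynomial.expand (LTRing p n) (p ^ (h * l)) (S l), ⟨⟨fun {i} hi => ?_⟩, ?_⟩, ?_⟩
    · rw [Polynomial.natDegree_expand] at hi
      rw [Polynomial.coeff_expand (pow_pos hp.out.pos _)]
      split_ifs with hd
      · exact (hS l).mem (Nat.lt_of_mul_lt_mul_right (a := p ^ (h * l))
          (by rwa [Nat.div_mul_cancel hd]))
      · exact zero_mem _
    · exact (hS l).monic.expand (pow_pos hp.out.pos _)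
    · rw [← Polynomial.eval_map, Polynomial.map_expand, Polynomial.expand_eval,
        Polynomial.eval_map]
      exact hxroot e l

/-- The same points are torsion points for every valuation. -/
theorem torsion_transfer (hn : 0 < n) (hF : HasHazewinkelLog p n F) {h : ℕ} (hh : h < n)
    (P : Ideal (LTRing p n)) [P.IsPrime] (U U' : UField) (j : ResAlg p n P →+* U.K)
    (j' : ResAlg p n P →+* U'.K) (hpt : IsPoint p n (j.comp (resMap p n P)))
    (hpt' : IsPoint p n (j'.comp (resMap p n P)))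
    (hst : OnStratum p n h (j.comp (resMap p n P)))
    (x : (Fin (n - h) → ℤ_[p]) → ℕ → ResAlg p n P)
    (hx : IsTorsion (j.comp (resMap p n P)) F (n - h) (fun e l => j (x e l)))
    (halg : ∀ e l, ∃ Q : Polynomial (LTRing p n), Q.IsDistinguishedAt (mIdeal p n) ∧
        Q.eval₂ (resMap p n P) (x e l) = 0) :
    IsTorsion (j'.comp (resMap p n P)) F (n - h) (fun e l => j' (x e l)) := by
  have hkill : ∀ i < h, resMap p n P (ltU p n i) = 0 := fun i hi =>
    j.injective (by rw [map_zero]; exact hst.1 i hi)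
  have hkill' : ∀ i < h, j'.comp (resMap p n P) (ltU p n i) = 0 := fun i hi => by
    rw [RingHom.comp_apply, hkill i hi, map_zero]
  refine ⟨fun e => ?_, fun e l => ?_, fun e l => ?_, fun e e' l => ?_, fun e l => ?_, ?_⟩
  · rw [show x e 0 = 0 from j.injective ((hx.level_zero e).trans (map_zero j).symm), map_zero]
  · obtain ⟨Q, hQ, hQx⟩ := halg e l
    exact norm_lt_one_of_root hpt' hQ (by rw [← Polynomial.hom_eval₂, hQx, map_zero])
  · obtain ⟨Q, hQ, hQx⟩ := halg e (l + 1)
    obtain ⟨z, hz⟩ := ev_algebraic hn (resMap p n P) hQ hQx (pSeries p n F)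
    have : z = x e l := j.injective ((hz U j hpt).symm.trans (hx.step e l))
    rw [hz U' j' hpt', this]
  · obtain ⟨Q₁, hQ₁, hQ₁x⟩ := halg e l
    obtain ⟨Q₂, hQ₂, hQ₂x⟩ := halg e' l
    obtain ⟨z, -, hz⟩ := ev2_algebraic hn (resMap p n P) Q₁ Q₂ hQ₁ hQ₂ hQ₁x hQ₂x F.toPowerSeries
    have : x (e + e') l = z := j.injective ((hx.add e e' l).trans (hz U j hpt))
    rw [this]
    exact (hz U' j' hpt').symm
  · rw [← hx.eq_zero_iff e l, map_eq_zero_iff j' j'.injective, map_eq_zero_iff j j.injective]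
  · intro l z hz hit _
    obtain ⟨S, u, hS, -, hu, hSu⟩ := exists_torsPoly (F := F) hn hF hh l
    obtain ⟨b, hb, hbz⟩ :=
      (level_iff_alg (resMap p n P) j' hpt' hF hh.le hkill' l hS hu hSu z).1 ⟨hz, hit⟩
    obtain ⟨h1, h2⟩ :=
      (level_iff_alg (resMap p n P) j hpt hF hh.le hst.1 l hS hu hSu (j b)).2 ⟨b, hb, rfl⟩
    have hlt : ∀ i, ‖(ev (j.comp (resMap p n P)) (pSeries p n F))^[i] (j b)‖ < 1 := by
      intro i
      induction i with
      | zero => exact h1
      | succ i ih =>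
        rw [Function.iterate_succ_apply']
        exact (norm_ev_le hpt _ (pSeries_constantCoeff p n) ih).trans_lt ih
    obtain ⟨e, he⟩ := hx.surj l (j b) h1 h2 fun i _ => hlt i
    exact ⟨e, by rw [show x e l = b from j.injective he, hbz]⟩

variable {K : Type} [NormedField K] [IsUltrametricDist K] [CompleteSpace K]
  {ψ ψ' : LTRing p n →+* K}

omit [IsUltrametricDist K] [CompleteSpace K] in
theorem IsTorsion.zero {d : ℕ} {x : (Fin d → ℤ_[p]) → ℕ → K} (_hψ : IsPoint p n ψ)
    (hx : IsTorsion ψ F d x) (l : ℕ) : x 0 l = 0 :=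
  (hx.eq_zero_iff 0 l).2 fun _ => dvd_zero _

theorem IsTorsion.natCast_mul_succ {d : ℕ} {x : (Fin d → ℤ_[p]) → ℕ → K} (hψ : IsPoint p n ψ)
    (hF : HasHazewinkelLog p n F) (hx : IsTorsion ψ F d x) (e : Fin d → ℤ_[p]) (l : ℕ) :
    x ((p : ℤ_[p]) • e) (l + 1) = x e l := by
  have key : ∀ m : ℕ, x (m • e) (l + 1) = ev ψ (nmulSeries p n F m) (x e (l + 1)) := by
    intro m
    induction m with
    | zero => rw [zero_nsmul, hx.zero hψ, nmulSeries, ev_zero_apply]
    | succ m ih => rw [succ_nsmul, hx.add, ev_nmulSeries_succ hψ m (hx.norm_lt _ _), ih]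
  rw [Nat.cast_smul_eq_nsmul, key]
  exact hx.step e l

end

end Vale.Agent.P217
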