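import Vale.Agent.P217.TorsionSeries

/-!
# P217: the zeros of each level `[p^l]` at a point of a stratum
-/

open scoped Classical

namespace Vale.Agent.P217

noncomputable section

variable {p n : ℕ} [hp : Fact p.Prime] {F : FormalGroup (LTRing p n)}

/-- In characteristic `p`, or for `r = 0`, raising to the power `p^r` respects differences. -/
lemma sub_pow_prime_pow {R : Type*} [Field R] (r : ℕ) (h : r = 0 ∨ (p : R) = 0) (a b : R) :
    (a - b) ^ p ^ r = a ^ p ^ r - b ^ p ^ r := by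
  rcases h with rfl | h
  · simp
  · have : CharP R p := (CharP.charP_iff_prime_eq_zero hp.out).2 h
    exact sub_pow_char_pow a b r

lemma pow_prime_pow_inj {R : Type*} [Field R] (r : ℕ) (h : r = 0 ∨ (p : R) = 0) {a b : R}
    (hab : a ^ p ^ r = b ^ p ^ r) : a = b := by
  have h0 : (a - b) ^ p ^ r = 0 := by rw [sub_pow_prime_pow r h, hab, sub_self]
  exact sub_eq_zero.1 (eq_zero_of_pow_eq_zero h0)

variable {K : Type} [NormedField K] {ψ : LTRing p n →+* K}

lemma char_or_height_zero {h : ℕ} (hkill : ∀ i < h, ψ (ltU p n i) = 0) (l : ℕ) :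
    h * l = 0 ∨ (p : K) = 0 := by
  rcases Nat.eq_zero_or_pos h with rfl | hpos
  · exact Or.inl (zero_mul l)
  · refine Or.inr ?_
    have := hkill 0 hpos
    simpa [ltU] using this

variable [IsUltrametricDist K] [CompleteSpace K]

lemma ev_coe_polynomial (hψ : IsPoint p n ψ) (S : Polynomial (LTRing p n)) {x : K} (hx : ‖x‖ < 1) :
    ev ψ (S : PowerSeries (LTRing p n)) x = S.eval₂ ψ x := by
  induction S using Polynomial.induction_on with
  | C a => rw [Polynomial.coe_C, ev_C hψ, Polynomial.eval₂_C]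
  | add f g hf hg => rw [Polynomial.coe_add, ev_add hψ _ _ hx, hf, hg, Polynomial.eval₂_add]
  | monomial m a _ =>
    rw [Polynomial.coe_mul, Polynomial.coe_C, Polynomial.coe_pow, Polynomial.coe_X,
      ev_mul hψ _ _ hx, ev_C hψ, ev_X_pow hψ, Polynomial.eval₂_mul, Polynomial.eval₂_C,
      Polynomial.eval₂_X_pow]

lemma ev_unit_ne_zero (hψ : IsPoint p n ψ) {u : PowerSeries (LTRing p n)} (hu : IsUnit u) {x : K}
    (hx : ‖x‖ < 1) : ev ψ u x ≠ 0 := by
  obtain ⟨v, hv⟩ := hu.exists_right_inv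
  intro h0
  have h1 := ev_mul hψ u v hx
  rw [hv, h0, zero_mul, ← map_one (PowerSeries.C (R := LTRing p n)), ev_C hψ, map_one] at h1
  exact one_ne_zero h1

lemma ev_twist (hψ : IsPoint p n ψ) (r : ℕ) (hr : r = 0 ∨ (p : K) = 0)
    (g : PowerSeries (LTRing p n)) {y : K} (hy : ‖y‖ < 1) :
    ev ψ (twistSeries p n r g) (y ^ p ^ r) = ev ψ g y ^ p ^ r := by
  rcases hr with rfl | hr
  · have : twistSeries p n 0 g = g := by
      ext i; simp [twistSeries, PowerSeries.coeff_mk]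
    rw [this, pow_zero, pow_one, pow_one]
  · have : CharP K p := (CharP.charP_iff_prime_eq_zero hp.out).2 hr
    have h' : IsFrobTwist p n r ψ ((iterateFrobenius K p r).comp ψ) := fun x => by
      rw [RingHom.comp_apply, iterateFrobenius_def]
    rw [← ev_frobTwist hψ hr h' g hy]
    unfold ev
    refine tsum_congr fun i => ?_
    rw [twistSeries, PowerSeries.coeff_mk, map_pow, h']

/-- `[p^l](x) = H_l(x^{p^{hl}})` on the stratum. -/
lemma iterate_eq_torsSeries (hψ : IsPoint p n ψ) (hF : HasHazewinkelLog p n F) {h : ℕ} (hh : h ≤ n)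
    (hkill : ∀ i < h, ψ (ltU p n i) = 0) (l : ℕ) {x : K} (hx : ‖x‖ < 1) :
    (ev ψ (pSeries p n F))^[l] x = ev ψ (torsSeries p n F h l) (x ^ p ^ (h * l)) := by
  induction l generalizing x with
  | zero => simp [torsSeries, ev_X]
  | succ l ih =>
    have hxh : ‖x ^ p ^ h‖ < 1 := by
      rw [norm_pow]; exact pow_lt_one₀ (norm_nonneg _) hx (pow_ne_zero _ hp.out.ne_zero)
    have hpow : ‖x ^ p ^ (h * (l + 1))‖ < 1 := by
      rw [norm_pow]; exact pow_lt_one₀ (norm_nonneg _) hx (pow_ne_zero _ hp.out.ne_zero)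
    have hp1 : ‖ev ψ (pSeries p n F) x‖ < 1 :=
      (norm_ev_le hψ _ (pSeries_constantCoeff p n) hx).trans_lt hx
    rw [Function.iterate_succ_apply, ih hp1, torsSeries,
      ev_subst hψ _ _ (constantCoeff_twist _ _) hpow, ev_pSeries_gSeries hψ hF hh hkill hx,
      ← ev_twist hψ _ (char_or_height_zero hkill l) _ hxh, ← pow_mul, ← pow_add]
    congr 3
    ring

lemma norm_ev_sub_linear (hψ : IsPoint p n ψ) (g : PowerSeries (LTRing p n))
    (hg : PowerSeries.constantCoeff g = 0) {y : K} (hy : ‖y‖ < 1) :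
    ‖ev ψ g y - ψ (PowerSeries.coeff 1 g) * y‖ ≤ ‖y‖ ^ 2 := by
  have e : g = PowerSeries.C (PowerSeries.coeff 1 g) * PowerSeries.X ^ 1
      + PowerSeries.X ^ 2 * PowerSeries.mk fun i => PowerSeries.coeff (i + 2) g := by
    refine PowerSeries.ext fun j => ?_
    rcases j with _ | _ | j
    · rw [PowerSeries.coeff_zero_eq_constantCoeff_apply, hg]; simp
    · rw [map_add, PowerSeries.coeff_C_mul, PowerSeries.coeff_X_pow, if_pos rfl, mul_one,
        PowerSeries.coeff_X_pow_mul', if_neg (by omega), add_zero]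
    · rw [map_add, PowerSeries.coeff_C_mul, PowerSeries.coeff_X_pow, if_neg (by omega), mul_zero,
        zero_add, show j + 1 + 1 = j + 2 from rfl, PowerSeries.coeff_X_pow_mul, PowerSeries.coeff_mk]
  generalize hc : PowerSeries.coeff 1 g = c at e ⊢
  generalize hv : (PowerSeries.mk fun i => PowerSeries.coeff (i + 2) g) = v at e
  rw [e, ev_add hψ _ _ hy, ev_mul hψ _ _ hy, ev_mul hψ _ _ hy, ev_C hψ, ev_X_pow hψ, ev_X_pow hψ,
    pow_one, add_sub_cancel_left, norm_mul, norm_pow]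
  exact mul_le_of_le_one_right (by positivity) (norm_ev_le_one hψ _ hy)

omit [IsUltrametricDist K] [CompleteSpace K] in
lemma coeff_pSeries_at_height (hn : 0 < n) (hF : HasHazewinkelLog p n F) {h : ℕ} (hh : h < n)
    (hkill : ∀ i < h, ψ (ltU p n i) = 0) :
    ψ (PowerSeries.coeff (p ^ h) (pSeries p n F)) = ψ (ltU p n h) := by
  obtain ⟨R, R₀, e⟩ := pSeries_decomp p n hn hF
  rw [e]
  simp only [map_add, map_sum]
  have h3 : ψ (PowerSeries.coeff (p ^ h)
      (PowerSeries.C (p : LTRing p n) * PowerSeries.X ^ 2 * R₀)) = 0 := by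
    rw [mul_assoc, PowerSeries.coeff_C_mul, map_mul]
    rcases Nat.eq_zero_or_pos h with rfl | hpos
    · rw [PowerSeries.coeff_X_pow_mul', if_neg (by simp), map_zero, mul_zero]
    · have := hkill 0 hpos
      rw [show (p : LTRing p n) = ltU p n 0 by simp [ltU], this, zero_mul]
  have h2 : ∀ i j, ψ (PowerSeries.coeff (p ^ h)
      (PowerSeries.C (ltU p n i * ltU p n j) * PowerSeries.X ^ (p ^ i + p ^ j) * R i j)) = 0 := by
    intro i j
    rw [mul_assoc, PowerSeries.coeff_C_mul, map_mul, map_mul]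
    by_cases hi : i < h
    · rw [hkill i hi, zero_mul, zero_mul]
    by_cases hj : j < h
    · rw [hkill j hj, mul_zero, zero_mul]
    · have h1 : p ^ h ≤ p ^ i := Nat.pow_le_pow_right hp.out.pos (by omega)
      have h2 : 0 < p ^ j := pow_pos hp.out.pos j
      rw [PowerSeries.coeff_X_pow_mul', if_neg (by omega), map_zero, mul_zero]
  have h1 : ∀ i, ψ (PowerSeries.coeff (p ^ h)
      (PowerSeries.C (ltU p n i) * PowerSeries.X ^ p ^ i))
        = if i = h then ψ (ltU p n h) else 0 := by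
    intro i
    rw [PowerSeries.coeff_C_mul, PowerSeries.coeff_X_pow, map_mul]
    by_cases hi : i = h
    · subst hi; simp
    · rw [if_neg hi, if_neg, map_zero, mul_zero]
      exact fun e => hi (Nat.pow_right_injective hp.out.two_le e.symm)
  simp only [h1, h2, h3, Finset.sum_const_zero, add_zero, Finset.sum_ite_eq', Finset.mem_range,
    show h < n + 1 by omega, if_true]

/-- The linear coefficient of each level does not vanish on the stratum. -/
lemma exists_linear_torsSeries (hn : 0 < n) (hψ : IsPoint p n ψ) (hF : HasHazewinkelLog p n F)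
    {h : ℕ} (hh : h < n) (hst : OnStratum p n h ψ) (l : ℕ) :
    ∃ a : K, a ≠ 0 ∧ ‖a‖ ≤ 1 ∧
      ∀ y : K, ‖y‖ < 1 → ‖ev ψ (torsSeries p n F h l) y - a * y‖ ≤ ‖y‖ ^ 2 := by
  induction l with
  | zero =>
    exact ⟨1, one_ne_zero, by simp, fun y _ => by rw [torsSeries, ev_X]; simp⟩
  | succ l ih =>
    obtain ⟨a, ha0, ha1, ha⟩ := ih
    set g := twistSeries p n (h * l) (gSeries p n F h) with hg
    have hgv : ψ (PowerSeries.coeff 1 g) = ψ (ltU p n h) ^ p ^ (h * l) := by
      rw [hg, twistSeries, PowerSeries.coeff_mk, gSeries, PowerSeries.coeff_mk, mul_one, map_pow,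
        coeff_pSeries_at_height hn hF hh hst.1]
    refine ⟨a * ψ (PowerSeries.coeff 1 g),
      mul_ne_zero ha0 (by rw [hgv]; exact pow_ne_zero _ hst.2),
      by rw [norm_mul]; exact mul_le_one₀ ha1 (norm_nonneg _) (hψ.le_one _), fun y hy => ?_⟩
    have hg0 : PowerSeries.constantCoeff g = 0 := constantCoeff_twist _ _
    have hw : ‖ev ψ g y‖ ≤ ‖y‖ := norm_ev_le hψ g hg0 hy
    rw [torsSeries, ev_subst hψ _ _ hg0 hy, ← sub_add_sub_cancel _ (a * ev ψ g y),
      mul_assoc, ← mul_sub]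
    refine (IsUltrametricDist.norm_add_le_max _ _).trans (max_le ?_ ?_)
    · exact (ha _ (hw.trans_lt hy)).trans (by gcongr)
    · rw [norm_mul]
      exact (mul_le_of_le_one_left (norm_nonneg _) ha1).trans (norm_ev_sub_linear hψ g hg0 hy)

omit [IsUltrametricDist K] [CompleteSpace K] in
lemma exists_root_of_eval₂ {L : Type} [Field L] [IsAlgClosed L] (σ : LTRing p n →+* L)
    (j : L →+* K) {S : Polynomial (LTRing p n)} (hS : S.Monic) {w : K}
    (hw : S.eval₂ (j.comp σ) w = 0) : ∃ a, S.eval₂ σ a = 0 ∧ j a = w := by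
  have hne : S.map σ ≠ 0 := (hS.map σ).ne_zero
  have hw' : w ∈ ((S.map σ).map j).roots := by
    rw [Polynomial.mem_roots (Polynomial.map_ne_zero hne), Polynomial.IsRoot, Polynomial.map_map,
      Polynomial.eval_map]
    exact hw
  rw [(IsAlgClosed.splits (S.map σ)).roots_map j, Multiset.mem_map] at hw'
  obtain ⟨a, ha, rfl⟩ := hw'
  refine ⟨a, ?_, rfl⟩
  rw [Polynomial.mem_roots hne, Polynomial.IsRoot, Polynomial.eval_map] at ha
  exact ha

/-- A level set is the set of `p^{hl}`-th roots of the roots of its polynomial. -/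
lemma level_iff (hψ : IsPoint p n ψ) (hF : HasHazewinkelLog p n F) {h : ℕ} (hh : h ≤ n)
    (hkill : ∀ i < h, ψ (ltU p n i) = 0) (l : ℕ) {S : Polynomial (LTRing p n)}
    {u : PowerSeries (LTRing p n)} (hS : S.IsDistinguishedAt (mIdeal p n)) (hu : IsUnit u)
    (hSu : torsSeries p n F h l = (S : PowerSeries (LTRing p n)) * u) (z : K) :
    ‖z‖ < 1 ∧ (ev ψ (pSeries p n F))^[l] z = 0 ↔ S.eval₂ ψ (z ^ p ^ (h * l)) = 0 := by
  have hq : p ^ (h * l) ≠ 0 := pow_ne_zero _ hp.out.ne_zero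
  have key : ‖z‖ < 1 → ((ev ψ (pSeries p n F))^[l] z = 0 ↔ S.eval₂ ψ (z ^ p ^ (h * l)) = 0) := by
    intro hz
    have hzq : ‖z ^ p ^ (h * l)‖ < 1 := by
      rw [norm_pow]; exact pow_lt_one₀ (norm_nonneg _) hz hq
    rw [iterate_eq_torsSeries hψ hF hh hkill l hz, hSu, ev_mul hψ _ _ hzq, ev_coe_polynomial hψ _ hzq,
      mul_eq_zero, or_iff_left (ev_unit_ne_zero hψ hu hzq)]
  refine ⟨fun hz => (key hz.1).1 hz.2, fun h0 => ?_⟩
  have hz := norm_lt_one_of_root hψ hS h0
  rw [norm_pow, pow_lt_one_iff_of_nonneg (norm_nonneg _) hq] at hz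
  exact ⟨hz, (key hz).2 h0⟩

/-- The same, through an embedding of an algebraically closed field. -/
lemma level_iff_alg {L : Type} [Field L] [IsAlgClosed L] (σ : LTRing p n →+* L) (j : L →+* K)
    (hψ : IsPoint p n (j.comp σ)) (hF : HasHazewinkelLog p n F) {h : ℕ} (hh : h ≤ n)
    (hkill : ∀ i < h, j.comp σ (ltU p n i) = 0) (l : ℕ) {S : Polynomial (LTRing p n)}
    {u : PowerSeries (LTRing p n)} (hS : S.IsDistinguishedAt (mIdeal p n)) (hu : IsUnit u)
    (hSu : torsSeries p n F h l = (S : PowerSeries (LTRing p n)) * u) (z : K) :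
    ‖z‖ < 1 ∧ (ev (j.comp σ) (pSeries p n F))^[l] z = 0 ↔
      ∃ b, S.eval₂ σ (b ^ p ^ (h * l)) = 0 ∧ j b = z := by
  rw [level_iff hψ hF hh hkill l hS hu hSu]
  constructor
  · intro h0
    obtain ⟨a, ha, haz⟩ := exists_root_of_eval₂ σ j hS.monic h0
    obtain ⟨b, rfl⟩ := IsAlgClosed.exists_pow_nat_eq a (pow_pos hp.out.pos (h * l))
    rw [map_pow] at haz
    exact ⟨b, ha, pow_prime_pow_inj _ (char_or_height_zero hkill l) haz⟩
  · rintro ⟨b, hb, rfl⟩
    rw [← map_pow, ← Polynomial.hom_eval₂, hb, map_zero]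

lemma iterate_level_fadd (hψ : IsPoint p n ψ) (hF : HasHazewinkelLog p n F) (l : ℕ) {x y : K}
    (hx : ‖x‖ < 1) (hy : ‖y‖ < 1) :
    (ev ψ (pSeries p n F))^[l] (fadd ψ F x y)
      = fadd ψ F ((ev ψ (pSeries p n F))^[l] x) ((ev ψ (pSeries p n F))^[l] y) := by
  induction l generalizing x y with
  | zero => rfl
  | succ l ih =>
    have hlt : ∀ {w : K}, ‖w‖ < 1 → ‖ev ψ (pSeries p n F) w‖ < 1 := fun {w} hw =>
      (norm_ev_le hψ _ (pSeries_constantCoeff p n) hw).trans_lt hw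
    simp only [Function.iterate_succ_apply]
    rw [ev_pSeries_fadd hψ hF hx hy, ih (hlt hx) (hlt hy)]

omit [IsUltrametricDist K] [CompleteSpace K] in
lemma norm_eval_le_sum {R : Polynomial K} {y : K} (hy : ‖y‖ ≤ 1) :
    ‖R.eval y‖ ≤ ∑ i ∈ Finset.range (R.natDegree + 1), ‖R.coeff i‖ := by
  rw [Polynomial.eval_eq_sum_range]
  refine (norm_sum_le _ _).trans (Finset.sum_le_sum fun i _ => ?_)
  rw [norm_mul, norm_pow]
  exact mul_le_of_le_one_right (norm_nonneg _) (pow_le_one₀ (norm_nonneg _) hy)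

/-- The roots of the polynomial of a level are simple. -/
lemma nodup_roots_torsPoly {L : Type} [Field L] [IsAlgClosed L] (σ : LTRing p n →+* L)
    (j : L →+* K) (hn : 0 < n) (hψ : IsPoint p n (j.comp σ)) (hF : HasHazewinkelLog p n F)
    {h : ℕ} (hh : h < n) (hst : OnStratum p n h (j.comp σ)) (l : ℕ)
    {S : Polynomial (LTRing p n)} {u : PowerSeries (LTRing p n)}
    (hS : S.IsDistinguishedAt (mIdeal p n)) (hu : IsUnit u)
    (hSu : torsSeries p n F h l = (S : PowerSeries (LTRing p n)) * u) :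
    (S.map σ).roots.Nodup := by
  set q := p ^ (h * l) with hq'
  have hq : q ≠ 0 := pow_ne_zero _ hp.out.ne_zero
  have hne : S.map σ ≠ 0 := (hS.monic.map σ).ne_zero
  rw [Multiset.nodup_iff_count_le_one]
  intro a
  rw [Polynomial.count_roots]
  by_contra hcount
  obtain ⟨R, hR⟩ : (Polynomial.X - Polynomial.C a) ^ 2 ∣ S.map σ :=
    (pow_dvd_pow _ (by omega)).trans (Polynomial.pow_rootMultiplicity_dvd _ a)
  have ha : S.eval₂ σ a = 0 := by
    rw [← Polynomial.eval_map, hR]; simp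
  obtain ⟨b, hb⟩ := IsAlgClosed.exists_pow_nat_eq a (pow_pos hp.out.pos (h * l))
  obtain ⟨ht, ht0⟩ : ‖j b‖ < 1 ∧ (ev (j.comp σ) (pSeries p n F))^[l] (j b) = 0 :=
    (level_iff_alg σ j hψ hF hh.le hst.1 l hS hu hSu _).2 ⟨b, by rw [hb]; exact ha, rfl⟩
  obtain ⟨A, hA0, hA1, hA⟩ := exists_linear_torsSeries hn hψ hF hh hst l
  set M := ∑ i ∈ Finset.range ((R.map j).natDegree + 1), ‖(R.map j).coeff i‖ with hM
  have hM0 : 0 ≤ M := by positivity
  set c := j.comp σ (ltU p n h) with hc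
  have hcmem : ltU p n h ∈ mIdeal p n := Ideal.subset_span ⟨h, hh, rfl⟩
  obtain ⟨θ, hθ0, hθ1, hθ⟩ := hψ.contracting
  have hc1 : ‖c‖ < 1 := (hθ _ hcmem).trans_lt hθ1
  have hc0 : 0 < ‖c‖ := norm_pos_iff.2 hst.2
  obtain ⟨i, hi⟩ := exists_pow_lt_of_lt_one
    (div_pos (norm_pos_iff.2 hA0) (by linarith : 0 < M + 2)) hc1
  set x := c ^ (i + 1) with hx'
  have hxn : ‖x‖ = ‖c‖ ^ (i + 1) := by rw [hx', norm_pow]
  have hx : ‖x‖ < 1 := by rw [hxn]; exact pow_lt_one₀ (norm_nonneg _) hc1 (by omega)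
  set z := fadd (j.comp σ) F x (j b) with hz'
  have hz : ‖z‖ < 1 := norm_fadd_lt hψ hx ht
  have hzt : ‖z - j b‖ = ‖x‖ := by
    have h0 : ‖(0 : K)‖ < 1 := by simp
    have h1 := norm_fadd_sub_fadd (F := F) hψ ht hx h0
    rwa [fadd_comm hψ hF ht hx, ← hz', (fadd_zero hψ ht).1, sub_zero] at h1
  have hiter : (ev (j.comp σ) (pSeries p n F))^[l] z
      = (ev (j.comp σ) (pSeries p n F))^[l] x := by
    rw [hz', iterate_level_fadd hψ hF l hx ht, ht0]
    refine (fadd_zero hψ ?_).1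
    rw [iterate_eq_torsSeries hψ hF hh.le hst.1 l hx]
    exact (norm_ev_le hψ _ (constantCoeff_torsSeries _ _) (by
      rw [norm_pow]; exact pow_lt_one₀ (norm_nonneg _) hx hq)).trans_lt (by
        rw [norm_pow]; exact pow_lt_one₀ (norm_nonneg _) hx hq)
  have hzq : ‖z ^ q‖ < 1 := by rw [norm_pow]; exact pow_lt_one₀ (norm_nonneg _) hz hq
  have hxq : ‖x ^ q‖ < 1 := by rw [norm_pow]; exact pow_lt_one₀ (norm_nonneg _) hx hq
  rw [iterate_eq_torsSeries hψ hF hh.le hst.1 l hx, iterate_eq_torsSeries hψ hF hh.le hst.1 l hz,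
    ← hq'] at hiter
  -- the double root makes the left side small
  have hδ : ‖z ^ q - j a‖ = ‖x ^ q‖ := by
    rw [← hb, map_pow, hq', ← sub_pow_prime_pow _ (char_or_height_zero hst.1 l), norm_pow (z - j b),
      hzt, ← norm_pow]
  have hL : ‖ev (j.comp σ) (torsSeries p n F h l) (z ^ q)‖ ≤ ‖x ^ q‖ ^ 2 * M := by
    rw [hSu, ev_mul hψ _ _ hzq, ev_coe_polynomial hψ _ hzq, ← Polynomial.eval_map,
      ← Polynomial.map_map, hR, Polynomial.map_mul, Polynomial.map_pow, Polynomial.map_sub,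
      Polynomial.map_X, Polynomial.map_C, Polynomial.eval_mul, Polynomial.eval_pow,
      Polynomial.eval_sub, Polynomial.eval_X, Polynomial.eval_C, norm_mul, norm_mul, norm_pow, hδ]
    refine (mul_le_of_le_one_right (by positivity) (norm_ev_le_one hψ _ hzq)).trans ?_
    exact mul_le_mul_of_nonneg_left (norm_eval_le_sum hzq.le) (by positivity)
  rw [hiter] at hL
  have hax : ‖A‖ * ‖x ^ q‖ ≤ ‖x ^ q‖ ^ 2 * (M + 1) := by
    rw [← norm_mul, show A * x ^ q = ev (j.comp σ) (torsSeries p n F h l) (x ^ q)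
      - (ev (j.comp σ) (torsSeries p n F h l) (x ^ q) - A * x ^ q) by ring]
    refine (norm_sub_le _ _).trans ?_
    have := hA (x ^ q) hxq
    nlinarith
  have hxq0 : 0 < ‖x ^ q‖ := by
    rw [norm_pow, hxn]; positivity
  have hAle : ‖A‖ ≤ ‖x ^ q‖ * (M + 1) := le_of_mul_le_mul_right (by linarith [hax]) hxq0
  have hxle : ‖x ^ q‖ ≤ ‖c‖ ^ i := by
    rw [norm_pow, hxn, ← pow_mul]
    refine pow_le_pow_of_le_one hc0.le hc1.le ?_
    have := Nat.le_mul_of_pos_right (i + 1) (Nat.pos_of_ne_zero hq)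
    omega
  rw [lt_div_iff₀ (by linarith : 0 < M + 2)] at hi
  nlinarith [norm_nonneg A, pow_nonneg hc0.le i]

end

end Vale.Agent.P217
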