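import Vale.Agent.P217.Torsion

/-!
# P217: the first level of the torsion

The roots of `G_h` at a point are the roots of its Weierstrass polynomial. So they recover the
variables (`near_of_level_one`), fall into two slopes (`level_one_split`), and the product over
the lifts of a torsion point gives a small lift (`exists_high_lift`).
-/

open scoped Classical

namespace Vale.Agent.P217

noncomputable section

variable {p n : ℕ} [hp : Fact p.Prime] {F : FormalGroup (LTRing p n)}
  {K : Type} [NormedField K] [IsUltrametricDist K] [CompleteSpace K]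
  {ψ ψ' : LTRing p n →+* K}

/-! ## Ultrametric helpers -/

omit [CompleteSpace K] in
theorem norm_sum_le_bound {ι : Type} (s : Finset ι) (f : ι → K) {b : ℝ} (hb : 0 ≤ b)
    (h : ∀ i ∈ s, ‖f i‖ ≤ b) : ‖∑ i ∈ s, f i‖ ≤ b := by
  induction s using Finset.induction_on with
  | empty => simpa using hb
  | insert a s ha ih =>
    rw [Finset.sum_insert ha]
    exact (IsUltrametricDist.norm_add_le_max _ _).trans
      (max_le (h a (Finset.mem_insert_self a s))
        (ih fun i hi => h i (Finset.mem_insert_of_mem hi)))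

omit [CompleteSpace K] in
theorem norm_sum_lt_bound {ι : Type} (s : Finset ι) (f : ι → K) {b : ℝ} (hb : 0 < b)
    (h : ∀ i ∈ s, ‖f i‖ < b) : ‖∑ i ∈ s, f i‖ < b := by
  induction s using Finset.induction_on with
  | empty => simpa using hb
  | insert a s ha ih =>
    rw [Finset.sum_insert ha]
    exact (IsUltrametricDist.norm_add_le_max _ _).trans_lt
      (max_lt (h a (Finset.mem_insert_self a s))
        (ih fun i hi => h i (Finset.mem_insert_of_mem hi)))

omit [CompleteSpace K] in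
theorem norm_sub_le_ultra (x y : K) : ‖x - y‖ ≤ max ‖x‖ ‖y‖ := by
  rw [sub_eq_add_neg, ← norm_neg y]
  exact IsUltrametricDist.norm_add_le_max _ _

omit [CompleteSpace K] in
/-- Bounds on generators pass to the ideal. -/
theorem norm_le_of_mem_span (hψ : IsPoint p n ψ) {s : Set (LTRing p n)} {b : ℝ} (hb : 0 ≤ b)
    (h : ∀ x ∈ s, ‖ψ x‖ ≤ b) {x : LTRing p n} (hx : x ∈ Ideal.span s) : ‖ψ x‖ ≤ b := by
  induction hx using Submodule.span_induction with
  | mem x hx => exact h x hx
  | zero => simpa using hb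
  | add x y _ _ hx hy =>
    rw [map_add]
    exact (IsUltrametricDist.norm_add_le_max _ _).trans (max_le hx hy)
  | smul a x _ hx =>
    rw [smul_eq_mul, map_mul, norm_mul]
    exact (mul_le_mul (hψ.le_one a) hx (norm_nonneg _) zero_le_one).trans_eq (one_mul b)

omit [CompleteSpace K] in
theorem norm_le_of_mem_sq {b : ℝ} (hb : 0 ≤ b) (h : ∀ x ∈ mIdeal p n, ‖ψ x‖ ≤ b)
    {x : LTRing p n} (hx : x ∈ mIdeal p n * mIdeal p n) : ‖ψ x‖ ≤ b * b := by
  induction hx using Submodule.mul_induction_on' with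
  | mem_mul_mem a ha c hc =>
    rw [map_mul, norm_mul]
    exact mul_le_mul (h a ha) (h c hc) (norm_nonneg _) hb
  | add a _ c _ ha hc =>
    rw [map_add]
    exact (IsUltrametricDist.norm_add_le_max _ _).trans (max_le ha hc)

/-! ## Products of linear factors -/

omit [IsUltrametricDist K] [CompleteSpace K] in
theorem coeff_linear_mul (y : K) (A : Polynomial K) (k : ℕ) :
    ((Polynomial.X - Polynomial.C y) * A).coeff k
      = (if k = 0 then 0 else A.coeff (k - 1)) - y * A.coeff k := by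
  cases k with
  | zero => simp [sub_mul, Polynomial.mul_coeff_zero]
  | succ k => simp [sub_mul, Polynomial.coeff_X_mul]

omit [CompleteSpace K] in
theorem norm_coeff_prod {ι : Type} (s : Finset ι) (y : ι → K) {L : ℝ} (hL0 : 0 ≤ L) (hL : L ≤ 1)
    (hy : ∀ i ∈ s, ‖y i‖ ≤ L) (k : ℕ) :
    ‖(∏ i ∈ s, (Polynomial.X - Polynomial.C (y i))).coeff k‖ ≤ L ^ (s.card - k) := by
  induction s using Finset.induction_on generalizing k with
  | empty =>
    rw [Finset.prod_empty, Polynomial.coeff_one]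
    split <;> simp
  | insert a s ha ih =>
    have ih' := ih fun i hi => hy i (Finset.mem_insert_of_mem hi)
    rw [Finset.prod_insert ha, coeff_linear_mul, Finset.card_insert_of_notMem ha]
    refine (norm_sub_le_ultra _ _).trans (max_le ?_ ?_)
    · split_ifs with hk
      · simp [pow_nonneg hL0]
      · exact (ih' _).trans_eq (by congr 1; omega)
    · rw [norm_mul]
      refine (mul_le_mul (hy a (Finset.mem_insert_self a s)) (ih' k) (norm_nonneg _) hL0).trans ?_
      rw [← pow_succ']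
      exact pow_le_pow_of_le_one hL0 hL (by omega)

omit [CompleteSpace K] in
theorem norm_coeff_prod_sub {ι : Type} (s : Finset ι) (y y' : ι → K) (hy : ∀ i ∈ s, ‖y i‖ ≤ 1)
    (hy' : ∀ i ∈ s, ‖y' i‖ ≤ 1) {D : ℝ} (hD : 0 ≤ D) (hd : ∀ i ∈ s, ‖y' i - y i‖ ≤ D) (k : ℕ) :
    ‖(∏ i ∈ s, (Polynomial.X - Polynomial.C (y' i))).coeff k
      - (∏ i ∈ s, (Polynomial.X - Polynomial.C (y i))).coeff k‖ ≤ D := by
  induction s using Finset.induction_on generalizing k with
  | empty => simpa using hD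
  | insert a s ha ih =>
    have hs : ∀ i ∈ s, i ∈ insert a s := fun i hi => Finset.mem_insert_of_mem hi
    have ih' := ih (fun i hi => hy i (hs i hi)) (fun i hi => hy' i (hs i hi))
      (fun i hi => hd i (hs i hi))
    have hb := norm_coeff_prod s y zero_le_one le_rfl (fun i hi => hy i (hs i hi)) k
    rw [one_pow] at hb
    rw [Finset.prod_insert ha, Finset.prod_insert ha, coeff_linear_mul, coeff_linear_mul]
    set A := ∏ i ∈ s, (Polynomial.X - Polynomial.C (y i))
    set A' := ∏ i ∈ s, (Polynomial.X - Polynomial.C (y' i))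
    have key : (if k = 0 then (0 : K) else A'.coeff (k - 1)) - y' a * A'.coeff k
        - ((if k = 0 then (0 : K) else A.coeff (k - 1)) - y a * A.coeff k)
        = ((if k = 0 then (0 : K) else A'.coeff (k - 1))
          - (if k = 0 then (0 : K) else A.coeff (k - 1)))
          - (y' a * (A'.coeff k - A.coeff k) + (y' a - y a) * A.coeff k) := by ring
    rw [key]
    refine (norm_sub_le_ultra _ _).trans (max_le ?_
      ((IsUltrametricDist.norm_add_le_max _ _).trans (max_le ?_ ?_)))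
    · split_ifs
      · simpa using hD
      · exact ih' _
    · rw [norm_mul]
      exact (mul_le_mul (hy' a (Finset.mem_insert_self a s)) (ih' k) (norm_nonneg _)
        zero_le_one).trans_eq (one_mul D)
    · rw [norm_mul]
      exact (mul_le_mul (hd a (Finset.mem_insert_self a s)) hb (norm_nonneg _) hD).trans_eq
        (mul_one D)

omit [CompleteSpace K] in
/-- With roots of norm `L` and others of norm `≤ c < L`: the two coefficient estimates. -/
theorem norm_coeff_prod_split {ι : Type} (s : Finset ι) (Sh : Finset ι) (hSh : Sh ⊆ s) (y : ι → K)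
    {L c : ℝ} (hc : 0 ≤ c) (hcL : c < L) (hL : L ≤ 1) (hhigh : ∀ i ∈ Sh, ‖y i‖ ≤ c)
    (hlow : ∀ i ∈ s \ Sh, ‖y i‖ = L) :
    ‖(∏ i ∈ s, (Polynomial.X - Polynomial.C (y i))).coeff Sh.card‖ = L ^ (s.card - Sh.card) ∧
    ∀ j < Sh.card, ‖(∏ i ∈ s, (Polynomial.X - Polynomial.C (y i))).coeff j‖
      < L ^ (s.card - j) := by
  have hL0 : 0 < L := hc.trans_lt hcL
  set PH := ∏ i ∈ Sh, (Polynomial.X - Polynomial.C (y i)) with hPH
  set PL := ∏ i ∈ s \ Sh, (Polynomial.X - Polynomial.C (y i)) with hPL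
  have hsplit : ∏ i ∈ s, (Polynomial.X - Polynomial.C (y i)) = PH * PL := by
    rw [hPH, hPL, mul_comm, Finset.prod_sdiff hSh]
  have hcard : (s \ Sh).card = s.card - Sh.card := by
    rw [Finset.card_sdiff, Finset.inter_eq_left.mpr hSh]
  have hcs : Sh.card ≤ s.card := Finset.card_le_card hSh
  -- a term with a factor from a proper coefficient of the high part
  have hterm : ∀ j, j ≤ Sh.card → ∀ ab ∈ Finset.HasAntidiagonal.antidiagonal j, ab.1 < Sh.card →
      ‖PH.coeff ab.1 * PL.coeff ab.2‖ < L ^ (s.card - j) := by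
    intro j hj ab hab hlt
    have hsum : ab.1 + ab.2 = j := Finset.HasAntidiagonal.mem_antidiagonal.1 hab
    have h1 : ‖PH.coeff ab.1‖ ≤ c ^ (Sh.card - ab.1) :=
      norm_coeff_prod Sh y hc (hcL.le.trans hL) hhigh _
    have h2 : ‖PL.coeff ab.2‖ ≤ L ^ ((s \ Sh).card - ab.2) :=
      norm_coeff_prod (s \ Sh) y hL0.le hL (fun i hi => (hlow i hi).le) _
    rw [norm_mul]
    calc ‖PH.coeff ab.1‖ * ‖PL.coeff ab.2‖
        ≤ c ^ (Sh.card - ab.1) * L ^ ((s \ Sh).card - ab.2) :=
          mul_le_mul h1 h2 (norm_nonneg _) (pow_nonneg hc _)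
      _ < L ^ (Sh.card - ab.1) * L ^ ((s \ Sh).card - ab.2) :=
          mul_lt_mul_of_pos_right (pow_lt_pow_left₀ hcL hc (by omega)) (pow_pos hL0 _)
      _ ≤ L ^ (s.card - j) := by
          rw [← pow_add]
          exact pow_le_pow_of_le_one hL0.le hL (by omega)
  constructor
  · rw [hsplit, Polynomial.coeff_mul]
    have htop : PH.coeff Sh.card = 1 := by
      have hm : PH.Monic := Polynomial.monic_prod_of_monic _ _ fun i _ => Polynomial.monic_X_sub_C _
      have hd : PH.natDegree = Sh.card := by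
        rw [hPH, Polynomial.natDegree_prod _ _ fun i _ => Polynomial.X_sub_C_ne_zero _]
        simp
      rw [← hd]
      exact hm.coeff_natDegree
    have hconst : ‖PL.coeff 0‖ = L ^ (s.card - Sh.card) := by
      rw [hPL, Polynomial.coeff_zero_eq_eval_zero, Polynomial.eval_prod, norm_prod,
        Finset.prod_congr rfl (g := fun _ => L) fun i hi => by simp [hlow i hi],
        Finset.prod_const, hcard]
    have hmem : ((Sh.card, 0) : ℕ × ℕ) ∈ Finset.HasAntidiagonal.antidiagonal Sh.card := by simp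
    rw [← Finset.add_sum_erase _ _ hmem]
    have hfirst : ‖PH.coeff Sh.card * PL.coeff 0‖ = L ^ (s.card - Sh.card) := by
      rw [htop, one_mul, hconst]
    have hrest : ‖∑ ab ∈ (Finset.HasAntidiagonal.antidiagonal Sh.card).erase (Sh.card, 0),
        PH.coeff ab.1 * PL.coeff ab.2‖ < L ^ (s.card - Sh.card) := by
      refine norm_sum_lt_bound _ _ (pow_pos hL0 _) fun ab hab => ?_
      obtain ⟨hne, hin⟩ := Finset.mem_erase.1 hab
      refine hterm _ le_rfl ab hin ?_
      rcases ab with ⟨a, b⟩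
      have hs' : a + b = Sh.card := Finset.HasAntidiagonal.mem_antidiagonal.1 hin
      rcases Nat.eq_zero_or_pos b with hb | hb
      · exact absurd (Prod.ext (by simp only; omega) hb) hne
      · simp only; omega
    rw [IsUltrametricDist.norm_add_eq_max_of_norm_ne_norm (by rw [hfirst]; exact hrest.ne'),
      hfirst, max_eq_left hrest.le]
  · intro j hj
    rw [hsplit, Polynomial.coeff_mul]
    refine norm_sum_lt_bound _ _ (pow_pos hL0 _) fun ab hab => hterm j hj.le ab hab ?_
    have := Finset.HasAntidiagonal.mem_antidiagonal.1 hab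
    omega

/-! ## Evaluation -/

theorem ev_zero_series (hψ : IsPoint p n ψ) (x : K) : ev ψ 0 x = 0 := by
  have h := ev_C hψ (0 : LTRing p n) x
  rwa [map_zero, map_zero] at h

theorem ev_finset_sum (hψ : IsPoint p n ψ) {ι : Type} (s : Finset ι)
    (f : ι → PowerSeries (LTRing p n)) {x : K} (hx : ‖x‖ < 1) :
    ev ψ (∑ i ∈ s, f i) x = ∑ i ∈ s, ev ψ (f i) x := by
  induction s using Finset.induction_on with
  | empty => simpa using ev_zero_series hψ x
  | insert a s ha ih => rw [Finset.sum_insert ha, Finset.sum_insert ha, ev_add hψ _ _ hx, ih]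

theorem ev_C_mul_X_pow (hψ : IsPoint p n ψ) (r : LTRing p n) (m : ℕ) {x : K} (hx : ‖x‖ < 1) :
    ev ψ (PowerSeries.C r * PowerSeries.X ^ m) x = ψ r * x ^ m := by
  rw [ev_mul hψ _ _ hx, ev_C hψ, ev_X_pow hψ]

theorem ev_polynomial (hψ : IsPoint p n ψ) (Q : Polynomial (LTRing p n)) {x : K} (hx : ‖x‖ < 1) :
    ev ψ (Q : PowerSeries (LTRing p n)) x = (Q.map ψ).eval x := by
  induction Q using Polynomial.induction_on' with
  | add a b ha hb =>
    rw [Polynomial.coe_add, ev_add hψ _ _ hx, ha, hb, Polynomial.map_add, Polynomial.eval_add]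
  | monomial m r =>
    have h : ((Polynomial.monomial m r : Polynomial (LTRing p n)) : PowerSeries (LTRing p n))
        = PowerSeries.C r * PowerSeries.X ^ m := by
      rw [← Polynomial.C_mul_X_pow_eq_monomial, Polynomial.coe_mul, Polynomial.coe_C,
        Polynomial.coe_pow, Polynomial.coe_X]
    rw [h, ev_C_mul_X_pow hψ r m hx, Polynomial.map_monomial, Polynomial.eval_monomial]

theorem norm_ev_unit (hψ : IsPoint p n ψ) {H : PowerSeries (LTRing p n)} (hH : IsUnit H) {x : K}
    (hx : ‖x‖ < 1) : ‖ev ψ H x‖ = 1 := by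
  obtain ⟨H', hH'⟩ := hH.exists_right_inv
  have h := congrArg (fun f => ‖ev ψ f x‖) hH'
  simp only [ev_mul hψ _ _ hx, norm_mul] at h
  have h1 : ev ψ (1 : PowerSeries (LTRing p n)) x = 1 := by
    have h0 := ev_C hψ (1 : LTRing p n) x
    rwa [map_one, map_one] at h0
  rw [h1, norm_one] at h
  refine le_antisymm (norm_ev_le_one hψ H hx) (le_of_not_gt fun hlt => ?_)
  exact (mul_lt_one_of_nonneg_of_lt_one_left (norm_nonneg _) hlt (norm_ev_le_one hψ H' hx)).ne h

/-! ## The Weierstrass polynomial of `G_h` -/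

theorem ltU_mem_height_of_lt {i k : ℕ} (h : i < k) : ltU p n i ∈ heightIdeal p n k :=
  Ideal.subset_span ⟨i, h, rfl⟩

theorem coeff_C_mul_X_pow_mul (r : LTRing p n) (m N : ℕ) (R : PowerSeries (LTRing p n)) :
    PowerSeries.coeff N (PowerSeries.C r * PowerSeries.X ^ m * R)
      = if m ≤ N then r * PowerSeries.coeff (N - m) R else 0 := by
  rw [mul_assoc, PowerSeries.coeff_C_mul, PowerSeries.coeff_X_pow_mul']
  split_ifs <;> simp

/-- The two consequences of the shape of `[p]` used here. -/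
theorem coeff_pSeries_low (hn : 0 < n) (hF : HasHazewinkelLog p n F) :
    (∀ i, i < n → PowerSeries.coeff (p ^ i) (pSeries p n F) - ltU p n i
        ∈ mIdeal p n * mIdeal p n ⊔ Ideal.span {(p : LTRing p n)}) ∧
    ∀ k N, 0 < k → k ≤ n → N < p ^ k →
      PowerSeries.coeff N (pSeries p n F) ∈ heightIdeal p n k := by
  obtain ⟨R, R₀, hdec⟩ := pSeries_decomp p n hn hF
  have hp1 : 1 < p := hp.out.one_lt
  have hco : ∀ N, PowerSeries.coeff N (pSeries p n F)
      = (∑ i ∈ Finset.range (n + 1), if N = p ^ i then ltU p n i else 0)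
        + (∑ i ∈ Finset.range (n + 1), ∑ j ∈ Finset.range (n + 1),
            if p ^ i + p ^ j ≤ N then
              ltU p n i * ltU p n j * PowerSeries.coeff (N - (p ^ i + p ^ j)) (R i j) else 0)
        + (if 2 ≤ N then (p : LTRing p n) * PowerSeries.coeff (N - 2) R₀ else 0) := by
    intro N
    rw [hdec, map_add, map_add, map_sum, map_sum]
    congr 1
    · congr 1
      · refine Finset.sum_congr rfl fun i _ => ?_
        rw [PowerSeries.coeff_C_mul, PowerSeries.coeff_X_pow]
        split_ifs <;> simp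
      · refine Finset.sum_congr rfl fun i _ => ?_
        rw [map_sum]
        exact Finset.sum_congr rfl fun j _ => coeff_C_mul_X_pow_mul _ _ _ _
    · exact coeff_C_mul_X_pow_mul _ _ _ _
  constructor
  · intro i hi
    rw [hco, Finset.sum_eq_single i
      (fun j _ hj => if_neg fun h => hj (Nat.pow_right_injective hp1 h.symm))
      (fun h => absurd (Finset.mem_range.2 (by omega)) h), if_pos rfl, add_assoc, add_sub_cancel_left]
    refine Ideal.add_mem _ (Ideal.sum_mem _ fun a _ => Ideal.sum_mem _ fun b _ => ?_) ?_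
    · split_ifs with hab
      · have hpa : 0 < p ^ a := pow_pos hp.out.pos _
        have hpb : 0 < p ^ b := pow_pos hp.out.pos _
        have ha : a < i := (Nat.pow_lt_pow_iff_right hp1).1 (by omega)
        have hb : b < i := (Nat.pow_lt_pow_iff_right hp1).1 (by omega)
        exact Ideal.mem_sup_left (Ideal.mul_mem_right _ _ (Ideal.mul_mem_mul
          (ltU_mem_height_of_lt (ha.trans hi)) (ltU_mem_height_of_lt (hb.trans hi))))
      · exact Ideal.zero_mem _
    · split_ifs
      · exact Ideal.mem_sup_right (Ideal.mul_mem_right _ _ (Ideal.mem_span_singleton_self _))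
      · exact Ideal.zero_mem _
  · intro k N hk hkn hN
    rw [hco]
    refine Ideal.add_mem _ (Ideal.add_mem _ (Ideal.sum_mem _ fun i _ => ?_)
      (Ideal.sum_mem _ fun a _ => Ideal.sum_mem _ fun b _ => ?_)) ?_
    · split_ifs with h
      · exact ltU_mem_height_of_lt ((Nat.pow_lt_pow_iff_right hp1).1 (h ▸ hN))
      · exact Ideal.zero_mem _
    · split_ifs with h
      · refine Ideal.mul_mem_right _ _ (Ideal.mul_mem_right _ _ (ltU_mem_height_of_lt ?_))
        exact (Nat.pow_lt_pow_iff_right hp1).1 (by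
          have : 0 < p ^ b := pow_pos hp.out.pos _
          omega)
      · exact Ideal.zero_mem _
    · split_ifs
      · have h0 : ltU p n 0 = (p : LTRing p n) := by simp [ltU]
        rw [← h0]
        exact Ideal.mul_mem_right _ _ (ltU_mem_height_of_lt hk)
      · exact Ideal.zero_mem _

/-- The distinguished polynomial of `G_h`, and its low coefficients. -/
theorem exists_weierstrass (hn : 0 < n) (hF : HasHazewinkelLog p n F) {h : ℕ} (hh : h < n) :
    ∃ (Q : Polynomial (LTRing p n)) (H : PowerSeries (LTRing p n)),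
      Q.Monic ∧ Q.natDegree = p ^ (n - h) ∧ IsUnit H ∧
      gSeries p n F h = (Q : PowerSeries (LTRing p n)) * H ∧
      (∀ i, h ≤ i → i < n → Q.coeff (p ^ (i - h)) - ltU p n i
        ∈ mIdeal p n * mIdeal p n ⊔ Ideal.span {(p : LTRing p n)}) ∧
      (∀ k j, h < k → k ≤ n → j < p ^ (k - h) → Q.coeff j ∈ heightIdeal p n k) := by
  have hm := mIdeal_eq_maximalIdeal p n hn
  have : IsAdicComplete (IsLocalRing.maximalIdeal (LTRing p n)) (LTRing p n) :=
    hm ▸ mIdeal_isAdicComplete p n hn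
  have hp1 : 1 < p := hp.out.one_lt
  set G := gSeries p n F h with hG
  have hcoe : ∀ j, PowerSeries.coeff j G = PowerSeries.coeff (p ^ h * j) (pSeries p n F) :=
    fun j => PowerSeries.coeff_mk _ _
  have hres : G.map (IsLocalRing.residue (LTRing p n)) = PowerSeries.X ^ p ^ (n - h) := by
    ext j
    rw [PowerSeries.coeff_map, PowerSeries.coeff_X_pow, hcoe]
    have hr := pSeries_residue p n hn hF (p ^ h * j)
    rw [hm, ← IsLocalRing.residue_eq_zero_iff, map_sub, sub_eq_zero] at hr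
    rw [hr]
    have : (p ^ h * j = p ^ n) ↔ j = p ^ (n - h) := by
      rw [show p ^ n = p ^ h * p ^ (n - h) by rw [← pow_add]; congr 1; omega]
      exact Nat.mul_left_cancel_iff (pow_pos hp.out.pos h)
    simp only [this]
    split <;> simp
  have hne : G.map (IsLocalRing.residue (LTRing p n)) ≠ 0 := by
    rw [hres]
    exact pow_ne_zero _ PowerSeries.X_ne_zero
  obtain ⟨Q, H, hW⟩ := G.exists_isWeierstrassFactorization hne
  have hdeg : Q.natDegree = p ^ (n - h) := by
    rw [hW.natDegree_eq_toNat_order_map, hres, PowerSeries.order_X_pow, ENat.toNat_natCast]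
  have hQm : ∀ j, j < p ^ (n - h) → Q.coeff j ∈ mIdeal p n := fun j hj => by
    rw [hm]
    exact hW.isDistinguishedAt.mem (hdeg ▸ hj)
  -- the unit is congruent to one
  have hQmap : Q.map (IsLocalRing.residue (LTRing p n)) = Polynomial.X ^ p ^ (n - h) := by
    ext j
    rw [Polynomial.coeff_map, Polynomial.coeff_X_pow]
    rcases lt_trichotomy j (p ^ (n - h)) with hj | hj | hj
    · rw [if_neg hj.ne, IsLocalRing.residue_eq_zero_iff, ← hm]
      exact hQm j hj
    · rw [if_pos hj, hj, ← hdeg, hW.isDistinguishedAt.monic.coeff_natDegree, map_one]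
    · rw [if_neg hj.ne', Polynomial.coeff_eq_zero_of_natDegree_lt (hdeg ▸ hj), map_zero]
  have hH1 : H.map (IsLocalRing.residue (LTRing p n)) = 1 := by
    have h2 := congrArg (PowerSeries.map (IsLocalRing.residue (LTRing p n))) hW.eq_mul
    rw [map_mul, hres, ← Polynomial.polynomial_map_coe, hQmap, Polynomial.coe_pow,
      Polynomial.coe_X] at h2
    exact mul_left_cancel₀ (pow_ne_zero _ PowerSeries.X_ne_zero) (h2.symm.trans (mul_one _).symm)
  have hHmem : ∀ b, PowerSeries.coeff b H - (if b = 0 then 1 else 0) ∈ mIdeal p n := fun b => by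
    rw [hm, ← IsLocalRing.residue_eq_zero_iff, map_sub, ← PowerSeries.coeff_map, hH1,
      PowerSeries.coeff_one, sub_eq_zero]
    split <;> simp
  have hmul : ∀ j, PowerSeries.coeff j G
      = ∑ ab ∈ Finset.HasAntidiagonal.antidiagonal j, Q.coeff ab.1 * PowerSeries.coeff ab.2 H := fun j => by
    rw [hW.eq_mul, PowerSeries.coeff_mul]
    exact Finset.sum_congr rfl fun ab _ => by rw [Polynomial.coeff_coe]
  refine ⟨Q, H, hW.isDistinguishedAt.monic, hdeg, hW.isUnit, hW.eq_mul, fun i hi hin => ?_, ?_⟩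
  · have hj : p ^ (i - h) < p ^ (n - h) := Nat.pow_lt_pow_right hp1 (by omega)
    have h1 : PowerSeries.coeff (p ^ (i - h)) G - Q.coeff (p ^ (i - h))
        ∈ mIdeal p n * mIdeal p n := by
      rw [hmul]
      have hmem : ((p ^ (i - h), 0) : ℕ × ℕ) ∈ Finset.HasAntidiagonal.antidiagonal (p ^ (i - h)) := by simp
      rw [← Finset.add_sum_erase _ _ hmem, add_sub_right_comm]
      refine Ideal.add_mem _ ?_ (Ideal.sum_mem _ fun ab hab => ?_)
      · rw [show ∀ a b : LTRing p n, a * b - a = a * (b - 1) from fun a b => by ring]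
        exact Ideal.mul_mem_mul (hQm _ hj) (by simpa using hHmem 0)
      · obtain ⟨hne', hin'⟩ := Finset.mem_erase.1 hab
        rcases ab with ⟨a, b⟩
        have hs' : a + b = p ^ (i - h) := Finset.HasAntidiagonal.mem_antidiagonal.1 hin'
        have hb : b ≠ 0 := fun hb => hne' (Prod.ext (by simp only; omega) hb)
        refine Ideal.mul_mem_mul (hQm a (by omega)) ?_
        simpa [hb] using hHmem b
    have h2 : PowerSeries.coeff (p ^ (i - h)) G - ltU p n i
        ∈ mIdeal p n * mIdeal p n ⊔ Ideal.span {(p : LTRing p n)} := by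
      rw [hcoe, show p ^ h * p ^ (i - h) = p ^ i by rw [← pow_add]; congr 1; omega]
      exact (coeff_pSeries_low hn hF).1 i hin
    have h3 := Ideal.sub_mem _ h2 (Ideal.mem_sup_left h1)
    rwa [sub_sub_sub_cancel_left] at h3
  · intro k j hk hkn
    induction j using Nat.strong_induction_on with
    | _ j ih =>
      intro hj
      have hGk : PowerSeries.coeff j G ∈ heightIdeal p n k := by
        rw [hcoe]
        refine (coeff_pSeries_low hn hF).2 k _ (by omega) hkn ?_
        rw [show p ^ k = p ^ h * p ^ (k - h) by rw [← pow_add]; congr 1; omega]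
        exact Nat.mul_lt_mul_of_pos_left hj (pow_pos hp.out.pos h)
      have hmem : ((j, 0) : ℕ × ℕ) ∈ Finset.HasAntidiagonal.antidiagonal j := by simp
      rw [hmul, ← Finset.add_sum_erase _ _ hmem] at hGk
      have hrest : ∑ ab ∈ (Finset.HasAntidiagonal.antidiagonal j).erase (j, 0),
          Q.coeff ab.1 * PowerSeries.coeff ab.2 H ∈ heightIdeal p n k := by
        refine Ideal.sum_mem _ fun ab hab => ?_
        obtain ⟨hne', hin'⟩ := Finset.mem_erase.1 hab
        rcases ab with ⟨a, b⟩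
        have hs' : a + b = j := Finset.HasAntidiagonal.mem_antidiagonal.1 hin'
        have hb : b ≠ 0 := fun hb => hne' (Prod.ext (by simp only; omega) hb)
        exact Ideal.mul_mem_right _ _ (ih a (by omega) (by omega))
      refine (Ideal.mul_unit_mem_iff_mem _ ?_).1 ((Ideal.add_mem_iff_left _ hrest).1 hGk)
      rw [PowerSeries.coeff_zero_eq_constantCoeff]
      exact PowerSeries.isUnit_constantCoeff H hW.isUnit

/-! ## Points on a stratum -/

section Strat

variable {h : ℕ}

omit [IsUltrametricDist K] [CompleteSpace K] in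
theorem pow_p_pow_sub {h : ℕ} (hst : OnStratum p n h ψ) (x y : K) :
    (x - y) ^ p ^ h = x ^ p ^ h - y ^ p ^ h := by
  rcases Nat.eq_zero_or_pos h with rfl | hh
  · simp
  · have h0 := hst.1 0 hh
    simp only [ltU, if_pos, map_natCast] at h0
    have : CharP K p := (CharP.charP_iff_prime_eq_zero hp.out).2 h0
    exact sub_pow_char_pow x y h

omit [IsUltrametricDist K] [CompleteSpace K] in
theorem norm_pow_p_lt {x : K} (hx : ‖x‖ < 1) (h : ℕ) : ‖x ^ p ^ h‖ < 1 := by
  rw [norm_pow]
  exact pow_lt_one₀ (norm_nonneg _) hx (pow_pos hp.out.pos _).ne'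

omit [IsUltrametricDist K] [CompleteSpace K] in
theorem pow_p_pow_injective {h : ℕ} (hst : OnStratum p n h ψ) {x y : K} (hxy : x ^ p ^ h = y ^ p ^ h) :
    x = y := by
  rw [← sub_eq_zero, ← pow_p_pow_sub hst] at hxy
  exact sub_eq_zero.1 (eq_zero_of_pow_eq_zero hxy)

theorem ev_pSeries_factor (hψ : IsPoint p n ψ) (hF : HasHazewinkelLog p n F) {h : ℕ} (hh : h < n)
    (hst : OnStratum p n h ψ) {Q : Polynomial (LTRing p n)} {H : PowerSeries (LTRing p n)}
    (hQ : gSeries p n F h = (Q : PowerSeries (LTRing p n)) * H) (hH : IsUnit H) {x : K}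
    (hx : ‖x‖ < 1) :
    ‖ev ψ (pSeries p n F) x‖ = ‖(Q.map ψ).eval (x ^ p ^ h)‖ := by
  have hy := norm_pow_p_lt (p := p) hx h
  rw [ev_pSeries_gSeries hψ hF hh.le hst.1 hx, hQ, ev_mul hψ _ _ hy, norm_mul,
    norm_ev_unit hψ hH hy, mul_one, ev_polynomial hψ Q hy]

/-- Reduction of a torsion index. -/
def redIdx {d : ℕ} (e : Fin d → ℤ_[p]) : Fin d → ZMod p := fun i => PadicInt.toZMod (e i)

/-- A representative of a class of torsion indices. -/
def secIdx {d : ℕ} (c : Fin d → ZMod p) : Fin d → ℤ_[p] := fun i => ((c i).val : ℤ_[p])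

theorem redIdx_secIdx {d : ℕ} (c : Fin d → ZMod p) : redIdx (secIdx c) = c := by
  funext i
  rw [redIdx, secIdx, map_natCast, ZMod.natCast_zmod_val]

theorem redIdx_eq_iff {d : ℕ} (e e' : Fin d → ℤ_[p]) :
    redIdx e = redIdx e' ↔ ∀ i, (p : ℤ_[p]) ∣ e i - e' i := by
  rw [funext_iff]
  refine forall_congr' fun i => ?_
  rw [redIdx, redIdx, ← sub_eq_zero, ← map_sub, ← RingHom.mem_ker, PadicInt.ker_toZMod,
    PadicInt.maximalIdeal_eq_span_p, Ideal.mem_span_singleton]

theorem redIdx_eq_zero_iff {d : ℕ} (e : Fin d → ℤ_[p]) :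
    redIdx e = 0 ↔ ∀ i, (p : ℤ_[p]) ∣ e i := by
  have h := redIdx_eq_iff e 0
  rw [show redIdx (p := p) (0 : Fin d → ℤ_[p]) = 0 from funext fun i => map_zero _] at h
  simpa using h

end Strat

section Torsion

variable {d : ℕ} {x : (Fin d → ℤ_[p]) → ℕ → K}

theorem torsion_eq_iff (hψ : IsPoint p n ψ) (hx : IsTorsion ψ F d x) (e e' : Fin d → ℤ_[p])
    (l : ℕ) : x e l = x e' l ↔ ∀ i, (p : ℤ_[p]) ^ l ∣ e i - e' i := by
  have he : x e l = fadd ψ F (x e' l) (x (e - e') l) := by
    rw [← hx.add, add_sub_cancel]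
  constructor
  · intro h
    have h2 := norm_fadd_sub_fadd (F := F) hψ (hx.norm_lt e' l) (hx.norm_lt (e - e') l)
      (y' := 0) (by simp)
    rw [(fadd_zero hψ (hx.norm_lt e' l)).1, ← he, h, sub_self, norm_zero, sub_zero] at h2
    exact (hx.eq_zero_iff _ _).1 (norm_eq_zero.1 h2.symm)
  · intro h
    rw [he, (hx.eq_zero_iff (e - e') l).2 h, (fadd_zero hψ (hx.norm_lt e' l)).1]

theorem torsion_one_eq_iff (hψ : IsPoint p n ψ) (hx : IsTorsion ψ F d x)
    (e e' : Fin d → ℤ_[p]) : x e 1 = x e' 1 ↔ redIdx e = redIdx e' := by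
  rw [torsion_eq_iff hψ hx, redIdx_eq_iff, pow_one]

omit [IsUltrametricDist K] [CompleteSpace K] in
theorem torsion_one_ne_zero (hx : IsTorsion ψ F d x) {e : Fin d → ℤ_[p]}
    (he : ¬ ∀ i, (p : ℤ_[p]) ∣ e i) : x e 1 ≠ 0 :=
  fun h => he (by simpa using (hx.eq_zero_iff e 1).1 h)

theorem torsion_pow_smul (hψ : IsPoint p n ψ) (hF : HasHazewinkelLog p n F)
    (hx : IsTorsion ψ F d x) (c : Fin d → ℤ_[p]) (l : ℕ) :
    x (((p : ℤ_[p]) ^ l) • c) (l + 1) = x c 1 := by
  induction l with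
  | zero => simp
  | succ l ih => rw [pow_succ', mul_smul, hx.natCast_mul_succ hψ hF, ih]

end Torsion

/-- The Weierstrass polynomial at a point is the product over the first level. -/
theorem map_eq_prod (hψ : IsPoint p n ψ) (hF : HasHazewinkelLog p n F) {h : ℕ} (hh : h < n)
    (hst : OnStratum p n h ψ) {Q : Polynomial (LTRing p n)} {H : PowerSeries (LTRing p n)}
    (hQ : gSeries p n F h = (Q : PowerSeries (LTRing p n)) * H) (hH : IsUnit H) (hm : Q.Monic)
    (hd : Q.natDegree = p ^ (n - h)) (x : (Fin (n - h) → ZMod p) → K) (hx : ∀ c, ‖x c‖ < 1)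
    (hroot : ∀ c, ev ψ (pSeries p n F) (x c) = 0) (hinj : Function.Injective x) :
    Q.map ψ = ∏ c, (Polynomial.X - Polynomial.C (x c ^ p ^ h)) := by
  set P := ∏ c, (Polynomial.X - Polynomial.C (x c ^ p ^ h)) with hP
  have hcard : Fintype.card (Fin (n - h) → ZMod p) = p ^ (n - h) := by simp
  have hPm : P.Monic := Polynomial.monic_prod_of_monic _ _ fun _ _ => Polynomial.monic_X_sub_C _
  have hPd : P.natDegree = p ^ (n - h) := by
    rw [hP, Polynomial.natDegree_prod _ _ fun _ _ => Polynomial.X_sub_C_ne_zero _,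
      Finset.sum_congr rfl fun c _ => Polynomial.natDegree_X_sub_C _]
    simp
  have hQd : (Q.map ψ).natDegree = p ^ (n - h) := by rw [hm.natDegree_map, hd]
  rw [← sub_eq_zero]
  by_contra hne
  have hlt : (Q.map ψ - P).natDegree < p ^ (n - h) := by
    rw [Polynomial.natDegree_lt_iff_degree_lt hne]
    have hdeg : (Q.map ψ).degree = P.degree := by
      rw [Polynomial.degree_eq_natDegree (hm.map ψ).ne_zero,
        Polynomial.degree_eq_natDegree hPm.ne_zero, hQd, hPd]
    have := Polynomial.degree_sub_lt_left hdeg (hm.map ψ).ne_zero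
      (by rw [(hm.map ψ).leadingCoeff, hPm.leadingCoeff])
    rwa [Polynomial.degree_eq_natDegree (hm.map ψ).ne_zero, hQd] at this
  refine hne (Polynomial.eq_zero_of_natDegree_lt_card_of_eval_eq_zero _
    (f := fun c => x c ^ p ^ h) (fun a b hab => hinj (pow_p_pow_injective hst hab)) (fun c => ?_)
    (by rw [hcard]; exact hlt))
  have h1 := ev_pSeries_factor hψ hF hh hst hQ hH (hx c)
  rw [hroot c, norm_zero, eq_comm, norm_eq_zero] at h1
  rw [Polynomial.eval_sub, h1, hP, Polynomial.eval_prod,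
    Finset.prod_eq_zero (Finset.mem_univ c) (by simp), sub_zero]

/-! ## The three theorems -/

/-- The variables are recovered from the first level: the displacement bound. -/
theorem near_of_level_one (hn : 0 < n) (hF : HasHazewinkelLog p n F) {h : ℕ} (hh : h < n)
    (hψ : IsPoint p n ψ) (hψ' : IsPoint p n ψ') (hst : OnStratum p n h ψ)
    (hst' : OnStratum p n h ψ')
    (hC : ∀ w : WittVector p (GaloisField p n),
      ψ' (MvPowerSeries.C w) = ψ (MvPowerSeries.C w))
    {x : (Fin (n - h) → ℤ_[p]) → ℕ → K} (hx : IsTorsion ψ F (n - h) x)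
    (x' : (Fin (n - h) → ℤ_[p]) → K) (hx' : ∀ e, ‖x' e‖ < 1)
    (hroot : ∀ e, ev ψ' (pSeries p n F) (x' e) = 0)
    (hinj : ∀ e e', x' e = x' e' → x e 1 = x e' 1)
    {D : ℝ} (hD : 0 ≤ D) (hdist : ∀ e, ‖x' e ^ p ^ h - x e 1 ^ p ^ h‖ ≤ D) :
    Near p n ψ ψ' D := by
  refine ⟨hD, hC, ?_⟩
  rcases isEmpty_or_nonempty (Fin (n - 1)) with he | hne
  · exact fun i => (IsEmpty.false i).elim
  obtain ⟨Q, H, hm, hd, hH, hQ, hcoef, -⟩ := exists_weierstrass hn hF hh
  have hroot1 : ∀ e, ev ψ (pSeries p n F) (x e 1) = 0 := fun e => by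
    rw [hx.step e 0, hx.level_zero]
  have e1 := map_eq_prod hψ hF hh hst hQ hH hm hd (fun c => x (secIdx c) 1)
    (fun c => hx.norm_lt _ _) (fun c => hroot1 _) (fun a b hab => by
      have h2 := (torsion_one_eq_iff hψ hx _ _).1 hab
      rwa [redIdx_secIdx, redIdx_secIdx] at h2)
  have e2 := map_eq_prod hψ' hF hh hst' hQ hH hm hd (fun c => x' (secIdx c))
    (fun c => hx' _) (fun c => hroot _) (fun a b hab => by
      have h2 := (torsion_one_eq_iff hψ hx _ _).1 (hinj _ _ hab)
      rwa [redIdx_secIdx, redIdx_secIdx] at h2)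
  have hcd : ∀ j, ‖ψ' (Q.coeff j) - ψ (Q.coeff j)‖ ≤ D := fun j => by
    rw [← Polynomial.coeff_map, ← Polynomial.coeff_map, e1, e2]
    exact norm_coeff_prod_sub _ _ _ (fun c _ => (norm_pow_p_lt (hx.norm_lt _ _) h).le)
      (fun c _ => (norm_pow_p_lt (hx' _) h).le) hD (fun c _ => hdist _) j
  obtain ⟨θ₁, hθ₁, hθ₁', hb₁⟩ := hψ.contracting
  obtain ⟨θ₂, hθ₂, hθ₂', hb₂⟩ := hψ'.contracting
  set θ := max θ₁ θ₂
  have hθ0 : 0 ≤ θ := hθ₁.le.trans (le_max_left _ _)
  have hθ1 : θ < 1 := max_lt hθ₁' hθ₂'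
  obtain ⟨i₀, hi₀⟩ := Finite.exists_max fun i : Fin (n - 1) =>
    ‖ψ' (MvPowerSeries.X i) - ψ (MvPowerSeries.X i)‖
  set Δ := ‖ψ' (MvPowerSeries.X i₀) - ψ (MvPowerSeries.X i₀)‖ with hΔ
  have hnear : Near p n ψ ψ' Δ := ⟨norm_nonneg _, hC, hi₀⟩
  have hall := near_norm_sub_le hψ hψ' hnear
  -- the displacement is contracted on `m^2 + (p)`
  have hJ : ∀ r ∈ mIdeal p n * mIdeal p n ⊔ Ideal.span {(p : LTRing p n)},
      ‖ψ' r - ψ r‖ ≤ θ * Δ := by
    intro r hr
    obtain ⟨a, ha, b, hb, rfl⟩ := Submodule.mem_sup.1 hr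
    rw [map_add, map_add, add_sub_add_comm]
    refine (IsUltrametricDist.norm_add_le_max _ _).trans (max_le ?_ ?_)
    · clear hr
      induction ha using Submodule.mul_induction_on' with
      | mem_mul_mem u hu v hv =>
        rw [map_mul, map_mul,
          show ψ' u * ψ' v - ψ u * ψ v = ψ' u * (ψ' v - ψ v) + (ψ' u - ψ u) * ψ v by ring]
        refine (IsUltrametricDist.norm_add_le_max _ _).trans (max_le ?_ ?_)
        · rw [norm_mul]
          exact mul_le_mul ((hb₂ u hu).trans (le_max_right _ _)) (hall v) (norm_nonneg _) hθ0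
        · rw [norm_mul, mul_comm]
          exact mul_le_mul ((hb₁ v hv).trans (le_max_left _ _)) (hall u) (norm_nonneg _) hθ0
      | add u _ v _ hu hv =>
        rw [map_add, map_add, add_sub_add_comm]
        exact (IsUltrametricDist.norm_add_le_max _ _).trans (max_le hu hv)
    · obtain ⟨s, rfl⟩ := Ideal.mem_span_singleton.1 hb
      rw [map_mul, map_mul, map_natCast, map_natCast, ← mul_sub, norm_mul]
      have hpm : (p : LTRing p n) ∈ mIdeal p n := by
        have h0 : ltU p n 0 = (p : LTRing p n) := by simp [ltU]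
        exact h0 ▸ ltU_mem_height_of_lt hn
      have hp' : ‖(p : K)‖ ≤ θ := by
        have h2 := hb₁ _ hpm
        rw [map_natCast] at h2
        exact h2.trans (le_max_left _ _)
      exact mul_le_mul hp' (hall s) (norm_nonneg _) hθ0
  have hX : ∀ i : Fin (n - 1), ‖ψ' (MvPowerSeries.X i) - ψ (MvPowerSeries.X i)‖ ≤ max D (θ * Δ) := by
    intro i
    have hu : ltU p n (i.1 + 1) = MvPowerSeries.X i := by
      unfold ltU
      rw [if_neg (by omega), dif_pos (by simp)]
      congr 1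
    have hin : i.1 + 1 < n := by omega
    rw [← hu]
    by_cases hih : i.1 + 1 < h
    · rw [hst.1 _ hih, hst'.1 _ hih, sub_self, norm_zero]
      exact le_max_of_le_left hD
    · have h2 := hJ _ (hcoef _ (by omega) hin)
      rw [map_sub, map_sub] at h2
      calc ‖ψ' (ltU p n (i.1 + 1)) - ψ (ltU p n (i.1 + 1))‖
          = ‖(ψ' (Q.coeff (p ^ (i.1 + 1 - h))) - ψ (Q.coeff (p ^ (i.1 + 1 - h))))
              - (ψ' (Q.coeff (p ^ (i.1 + 1 - h))) - ψ' (ltU p n (i.1 + 1))
                - (ψ (Q.coeff (p ^ (i.1 + 1 - h))) - ψ (ltU p n (i.1 + 1))))‖ := by ring_nf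
        _ ≤ max D (θ * Δ) := (norm_sub_le_ultra _ _).trans (max_le_max (hcd _) h2)
  have hΔD : Δ ≤ D := by
    rcases le_max_iff.1 (hX i₀) with h1 | h1
    · exact h1
    · have hΔ0 : 0 ≤ Δ := norm_nonneg _
      have : (1 - θ) * Δ ≤ 0 := by linarith
      nlinarith
  exact fun i => (hi₀ i).trans hΔD

/-- A torsion point of the first level has one of two slopes. -/
theorem level_one_slope (hn : 0 < n) (hF : HasHazewinkelLog p n F) {h k : ℕ} (hh : 1 ≤ h)
    (hkn : k < n) (hψ : IsPoint p n ψ) (hst : OnStratum p n h ψ)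
    (hone : ∀ i, k ≤ i → i < n → ‖ψ (ltU p n i)‖ = Real.exp (-1)) {B : ℝ}
    (hsmall : ∀ i, h ≤ i → i < k → ‖ψ (ltU p n i)‖ ≤ Real.exp (-B))
    {z : K} (hz : ‖z‖ < 1) (hz0 : z ≠ 0) (hroot : ev ψ (pSeries p n F) z = 0)
    (hbig : Real.exp (-((B - 1) / (p : ℝ) ^ k)) < ‖z‖) :
    ‖z‖ = Real.exp (-(1 / ((p : ℝ) ^ n - (p : ℝ) ^ k))) := by
  have hp1 : 1 < p := hp.out.one_lt
  have hpk : (0 : ℝ) < (p : ℝ) ^ k := pow_pos (Nat.cast_pos.2 hp.out.pos) _
  have hzp : 0 < ‖z‖ := norm_pos_iff.2 hz0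
  obtain ⟨R, R₀, hdec⟩ := pSeries_decomp p n hn hF
  set t : ℕ → K := fun i => ψ (ltU p n i) * z ^ p ^ i with ht
  have hp0 : ψ (p : LTRing p n) = 0 := by
    have h0 := hst.1 0 hh
    simpa [ltU] using h0
  have hsum : (∑ i ∈ Finset.range (n + 1), t i)
      + ∑ i ∈ Finset.range (n + 1), ∑ j ∈ Finset.range (n + 1),
          t i * t j * ev ψ (R i j) z = 0 := by
    rw [← hroot, hdec, ev_add hψ _ _ hz, ev_add hψ _ _ hz, ev_mul hψ _ _ hz,
      ev_C_mul_X_pow hψ _ _ hz, hp0, zero_mul, zero_mul, add_zero, ev_finset_sum hψ _ _ hz,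
      ev_finset_sum hψ _ _ hz]
    congr 1
    · exact Finset.sum_congr rfl fun i _ => (ev_C_mul_X_pow hψ _ _ hz).symm
    · refine Finset.sum_congr rfl fun i _ => ?_
      rw [ev_finset_sum hψ _ _ hz]
      refine Finset.sum_congr rfl fun j _ => ?_
      rw [ev_mul hψ _ _ hz, ev_C_mul_X_pow hψ _ _ hz, map_mul, pow_add, ht]
      ring
  have hk_norm : ‖t k‖ = Real.exp (-1) * ‖z‖ ^ p ^ k := by
    rw [ht, norm_mul, norm_pow, hone k le_rfl hkn]
  have hn_norm : ‖t n‖ = ‖z‖ ^ p ^ n := by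
    have hu : ltU p n n = 1 := by
      unfold ltU
      rw [if_neg hn.ne', dif_neg (lt_irrefl _), if_pos rfl]
    simp only [ht]
    rw [hu, map_one, one_mul, norm_pow]
  have hpos : 0 < ‖t k‖ := by rw [hk_norm]; positivity
  have hother : ∀ i ∈ Finset.range (n + 1), i ≠ k → i ≠ n → ‖t i‖ < ‖t k‖ := by
    intro i hi hik hin
    have hin' : i < n := by have := Finset.mem_range.1 hi; omega
    rw [hk_norm, ht, norm_mul, norm_pow]
    by_cases hih : i < h
    · rw [hst.1 i hih, norm_zero, zero_mul]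
      positivity
    by_cases hik' : i < k
    · have h1 : Real.exp (-B) < Real.exp (-1) * ‖z‖ ^ p ^ k := by
        have h2 : Real.exp (-((B - 1) / (p : ℝ) ^ k)) ^ p ^ k < ‖z‖ ^ p ^ k :=
          pow_lt_pow_left₀ hbig (Real.exp_pos _).le (pow_pos hp.out.pos _).ne'
        rw [← Real.exp_nat_mul, Nat.cast_pow, mul_neg, mul_div_cancel₀ _ hpk.ne'] at h2
        calc Real.exp (-B) = Real.exp (-1) * Real.exp (-(B - 1)) := by
              rw [← Real.exp_add]; congr 1; ring
          _ < _ := mul_lt_mul_of_pos_left h2 (Real.exp_pos _)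
      refine lt_of_le_of_lt ?_ h1
      exact (mul_le_mul (hsmall i (by omega) hik') (pow_le_one₀ hzp.le hz.le) (by positivity)
        (Real.exp_pos _).le).trans_eq (mul_one _)
    · rw [hone i (by omega) hin']
      exact mul_lt_mul_of_pos_left (pow_lt_pow_right_of_lt_one₀ hzp hz
        (Nat.pow_lt_pow_right hp1 (by omega))) (Real.exp_pos _)
  have hlt1 : ∀ i, ‖t i‖ < 1 := fun i => by
    rw [ht, norm_mul, norm_pow]
    exact mul_lt_one_of_nonneg_of_lt_one_right (hψ.le_one _) (by positivity)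
      (pow_lt_one₀ hzp.le hz (pow_pos hp.out.pos _).ne')
  have heq : ‖t k‖ = ‖t n‖ := by
    by_contra hne
    have htop : ‖t k + t n‖ = max ‖t k‖ ‖t n‖ :=
      IsUltrametricDist.norm_add_eq_max_of_norm_ne_norm hne
    set M := max ‖t k‖ ‖t n‖
    have hM : 0 < M := lt_max_of_lt_left hpos
    have hle : ∀ i ∈ Finset.range (n + 1), ‖t i‖ ≤ M := fun i hi => by
      by_cases h1 : i = k
      · exact h1 ▸ le_max_left _ _
      by_cases h2 : i = n
      · exact h2 ▸ le_max_right _ _
      exact (hother i hi h1 h2).le.trans (le_max_left _ _)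
    have hkm : k ∈ Finset.range (n + 1) := Finset.mem_range.2 (by omega)
    have hnm : n ∈ (Finset.range (n + 1)).erase k := by simp; omega
    rw [← Finset.add_sum_erase _ _ hkm, ← Finset.add_sum_erase _ _ hnm, ← add_assoc,
      add_assoc] at hsum
    have hrest : ‖(∑ i ∈ ((Finset.range (n + 1)).erase k).erase n, t i)
        + ∑ i ∈ Finset.range (n + 1), ∑ j ∈ Finset.range (n + 1),
          t i * t j * ev ψ (R i j) z‖ < M := by
      refine (IsUltrametricDist.norm_add_le_max _ _).trans_lt (max_lt ?_ ?_)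
      · refine norm_sum_lt_bound _ _ hM fun i hi => ?_
        simp only [Finset.mem_erase] at hi
        exact (hother i hi.2.2 hi.2.1 hi.1).trans_le (le_max_left _ _)
      · refine norm_sum_lt_bound _ _ hM fun i hi => norm_sum_lt_bound _ _ hM fun j hj => ?_
        rw [norm_mul, norm_mul]
        calc ‖t i‖ * ‖t j‖ * ‖ev ψ (R i j) z‖ ≤ ‖t i‖ * ‖t j‖ * 1 :=
              mul_le_mul_of_nonneg_left (norm_ev_le_one hψ _ hz) (by positivity)
          _ ≤ M * ‖t j‖ := by
              rw [mul_one]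
              exact mul_le_mul_of_nonneg_right (hle i hi) (norm_nonneg _)
          _ < M * 1 := mul_lt_mul_of_pos_left (hlt1 j) hM
          _ = M := mul_one M
    rw [eq_neg_of_add_eq_zero_left hsum, norm_neg] at htop
    exact hrest.ne htop
  rw [hk_norm, hn_norm] at heq
  have hlog := congrArg Real.log heq
  rw [Real.log_mul (Real.exp_pos _).ne' (by positivity), Real.log_exp, Real.log_pow,
    Real.log_pow, Nat.cast_pow, Nat.cast_pow] at hlog
  have hkn' : (p : ℝ) ^ k < (p : ℝ) ^ n := pow_lt_pow_right₀ (Nat.one_lt_cast.2 hp1) hkn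
  rw [← Real.exp_log hzp]
  congr 1
  field_simp [sub_ne_zero.2 hkn'.ne']
  linarith

/-- The two slopes of the first level. -/
theorem level_one_split (hn : 0 < n) (hF : HasHazewinkelLog p n F) {h k : ℕ} (hh : 1 ≤ h)
    (hhk : h + 2 ≤ k) (hkn : k < n) (hψ : IsPoint p n ψ) (hst : OnStratum p n h ψ)
    (hone : ∀ i, k ≤ i → i < n → ‖ψ (ltU p n i)‖ = Real.exp (-1)) {B : ℝ}
    (hB : 2 * (p : ℝ) ^ n < B)
    (hsmall : ∀ i, h ≤ i → i < k → ‖ψ (ltU p n i)‖ ≤ Real.exp (-B))
    {x : (Fin (n - h) → ℤ_[p]) → ℕ → K} (hx : IsTorsion ψ F (n - h) x) :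
    let lowval : ℝ := 1 / ((p : ℝ) ^ n - (p : ℝ) ^ k)
    (∀ e, ¬ (∀ i, (p : ℤ_[p]) ∣ e i) →
        ‖x e 1‖ = Real.exp (-lowval) ∨ ‖x e 1‖ ≤ Real.exp (-((B - 1) / (p : ℝ) ^ k))) ∧
      ∃ (el : Fin (n - k) → Fin (n - h) → ℤ_[p]) (eh : Fin 2 → Fin (n - h) → ℤ_[p]),
        (∀ a : Fin (n - k) → ℤ_[p], ¬ (∀ i, (p : ℤ_[p]) ∣ a i) →
          ‖x (∑ i, a i • el i) 1‖ = Real.exp (-lowval)) ∧
        (∀ a : Fin 2 → ℤ_[p], ¬ (∀ i, (p : ℤ_[p]) ∣ a i) →
          ¬ (∀ i, (p : ℤ_[p]) ∣ (∑ m, a m • eh m) i) ∧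
          ‖x (∑ m, a m • eh m) 1‖ ≤ Real.exp (-((B - 1) / (p : ℝ) ^ k))) := by
  intro lowval
  have hroot1 : ∀ e, ev ψ (pSeries p n F) (x e 1) = 0 := fun e => by
    rw [hx.step e 0, hx.level_zero]
  set cb := Real.exp (-((B - 1) / (p : ℝ) ^ k)) with hcb
  have hdich : ∀ e, ¬ (∀ i, (p : ℤ_[p]) ∣ e i) →
      ‖x e 1‖ = Real.exp (-lowval) ∨ ‖x e 1‖ ≤ cb := by
    intro e he
    by_cases hb : ‖x e 1‖ ≤ cb
    · exact Or.inr hb
    · exact Or.inl (level_one_slope hn hF hh hkn hψ hst hone hsmall (hx.norm_lt e 1)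
        (torsion_one_ne_zero hx he) (hroot1 e) (lt_of_not_ge hb))
  refine ⟨hdich, ?_⟩
  -- the high classes form a subspace
  set xb : (Fin (n - h) → ZMod p) → K := fun c => x (secIdx c) 1 with hxb
  have hxred : ∀ e, x e 1 = xb (redIdx e) := fun e => by
    rw [hxb, torsion_one_eq_iff hψ hx, redIdx_secIdx]
  have hx0 : xb 0 = 0 := by
    have h2 := hxred 0
    rw [hx.zero hψ 1, show redIdx (p := p) (0 : Fin (n - h) → ℤ_[p]) = 0 from
      funext fun i => map_zero _] at h2
    exact h2.symm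
  have hadd : ∀ a b, ‖xb a‖ ≤ cb → ‖xb b‖ ≤ cb → ‖xb (a + b)‖ ≤ cb := by
    intro a b ha hb
    have hred : redIdx (secIdx a + secIdx b) = a + b := by
      funext i
      have h1 := congrFun (redIdx_secIdx a) i
      have h2 := congrFun (redIdx_secIdx b) i
      simp only [redIdx, Pi.add_apply, map_add] at h1 h2 ⊢
      rw [h1, h2]
    rw [← hred, ← hxred, hx.add]
    set u := x (secIdx a) 1
    set v := x (secIdx b) 1
    calc ‖fadd ψ F u v‖ = ‖(fadd ψ F u v - (u + v)) + (u + v)‖ := by rw [sub_add_cancel]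
      _ ≤ max (‖u‖ * ‖v‖) (max ‖u‖ ‖v‖) :=
          (IsUltrametricDist.norm_add_le_max _ _).trans (max_le_max
            (norm_fadd_sub_add_le hψ (hx.norm_lt _ _) (hx.norm_lt _ _))
            (IsUltrametricDist.norm_add_le_max _ _))
      _ ≤ cb := max_le ((mul_le_of_le_one_right (norm_nonneg _) (hx.norm_lt _ _).le).trans ha)
          (max_le ha hb)
  have hnsmul : ∀ (m : ℕ) a, ‖xb a‖ ≤ cb → ‖xb (m • a)‖ ≤ cb := by
    intro m a ha
    induction m with
    | zero => rw [zero_nsmul, hx0, norm_zero]; exact (Real.exp_pos _).le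
    | succ m ih => rw [succ_nsmul]; exact hadd _ _ ih ha
  let Hh : Submodule (ZMod p) (Fin (n - h) → ZMod p) :=
    { carrier := {c | ‖xb c‖ ≤ cb}
      add_mem' := fun {a b} => hadd a b
      zero_mem' := by
        simp only [Set.mem_ofPred_eq, hx0, norm_zero]
        exact (Real.exp_pos _).le
      smul_mem' := fun r a ha => by
        have h2 := hnsmul r.val a ha
        rwa [← Nat.cast_smul_eq_nsmul (ZMod p), ZMod.natCast_zmod_val] at h2 }
  -- the number of high classes
  obtain ⟨Q, H, hm, hd, hH, hQ, hcoef, hlowc⟩ := exists_weierstrass hn hF (h := h) (by omega)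
  have e1 := map_eq_prod hψ hF (by omega) hst hQ hH hm hd xb (fun c => hx.norm_lt _ _)
    (fun c => hroot1 _) (fun a b hab => by
      have h2 := (torsion_one_eq_iff hψ hx _ _).1 hab
      rwa [redIdx_secIdx, redIdx_secIdx] at h2)
  have hp1R : (1 : ℝ) ≤ (p : ℝ) := Nat.one_le_cast.2 hp.out.one_le
  have hkpos : (0 : ℝ) < (p : ℝ) ^ k := by positivity
  have hkn' : (p : ℝ) ^ k < (p : ℝ) ^ n :=
    pow_lt_pow_right₀ (Nat.one_lt_cast.2 hp.out.one_lt) hkn
  have hgap : 1 ≤ (p : ℝ) ^ n - (p : ℝ) ^ k := by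
    have h2 : p ^ k + 1 ≤ p ^ n := Nat.pow_lt_pow_right hp.out.one_lt hkn
    have h3 : ((p ^ k + 1 : ℕ) : ℝ) ≤ ((p ^ n : ℕ) : ℝ) := Nat.cast_le.2 h2
    push_cast at h3
    linarith
  have hlv0 : 0 < lowval := by simp only [lowval]; positivity
  have hlv1 : lowval ≤ 1 := by
    simp only [lowval]
    rw [div_le_one (by linarith)]
    exact hgap
  have hpn1 : 1 ≤ (p : ℝ) ^ n := one_le_pow₀ hp1R
  have hcbL : cb < Real.exp (-lowval) := by
    rw [hcb, Real.exp_lt_exp, neg_lt_neg_iff]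
    refine hlv1.trans_lt ?_
    rw [one_lt_div hkpos]
    linarith
  set L := Real.exp (-lowval) ^ p ^ h with hL
  set c' := cb ^ p ^ h with hc'
  have hph : p ^ h ≠ 0 := (pow_pos hp.out.pos h).ne'
  have hcL : c' < L := pow_lt_pow_left₀ hcbL (Real.exp_pos _).le hph
  have hL1 : L ≤ 1 := pow_le_one₀ (Real.exp_pos _).le (Real.exp_le_one_iff.2 (by linarith))
  set Sh := Finset.univ.filter fun c => c ∈ Hh with hSh
  obtain ⟨hatN, hbelow⟩ := norm_coeff_prod_split Finset.univ Sh (Finset.subset_univ _)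
    (fun c => xb c ^ p ^ h) (L := L) (c := c') (by positivity) hcL hL1
    (fun c hc => by
      rw [norm_pow]
      exact pow_le_pow_left₀ (norm_nonneg _) (Finset.mem_filter.1 hc).2 _)
    (fun c hc => by
      have hc' : ¬ ‖xb c‖ ≤ cb := fun h2 => by
        simp [hSh, Hh, h2] at hc
      have hne : ¬ ∀ i, (p : ℤ_[p]) ∣ secIdx c i := fun h2 => hc' (by
        rw [← redIdx_eq_zero_iff, redIdx_secIdx] at h2
        rw [h2, hx0, norm_zero]
        exact (Real.exp_pos _).le)
      rcases hdich _ hne with h2 | h2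
      · rw [norm_pow]
        exact congrArg (· ^ p ^ h) h2
      · exact absurd h2 hc')
  rw [← e1] at hatN hbelow
  simp only [Polynomial.coeff_map, Finset.card_univ] at hatN hbelow
  have hcardV : Fintype.card (Fin (n - h) → ZMod p) = p ^ (n - h) := by simp
  rw [hcardV] at hatN hbelow
  -- norms of the two coefficients
  have hLpow : ∀ j, L ^ (p ^ (n - h) - j) =
      Real.exp (-lowval * (((p ^ h * (p ^ (n - h) - j) : ℕ) : ℝ))) := fun j => by
    rw [hL, ← pow_mul, ← Real.exp_nat_mul, mul_comm]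
  have hB1 : (1 : ℝ) < B := by linarith
  have hmb : ∀ r ∈ mIdeal p n, ‖ψ r‖ ≤ Real.exp (-1) := fun r hr => by
    refine norm_le_of_mem_span hψ (Real.exp_pos _).le ?_ hr
    rintro _ ⟨i, hi, rfl⟩
    by_cases h1 : i < h
    · rw [hst.1 i h1, norm_zero]; exact (Real.exp_pos _).le
    by_cases h2 : i < k
    · exact (hsmall i (by omega) h2).trans (Real.exp_le_exp.2 (by linarith))
    · exact (hone i (by omega) hi).le
  have hqk : ‖ψ (Q.coeff (p ^ (k - h)))‖ = Real.exp (-1) := by
    obtain ⟨a, ha, b, hb, hab⟩ := Submodule.mem_sup.1 (hcoef k (by omega) hkn)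
    have hb0 : ψ b = 0 := by
      obtain ⟨s, rfl⟩ := Ideal.mem_span_singleton.1 hb
      have h0 := hst.1 0 hh
      simp only [ltU, if_pos] at h0
      rw [map_mul, h0, zero_mul]
    have hlt : ‖ψ a‖ < ‖ψ (ltU p n k)‖ := by
      rw [hone k le_rfl hkn]
      refine (norm_le_of_mem_sq (Real.exp_pos _).le hmb ha).trans_lt ?_
      exact mul_lt_of_lt_one_left (Real.exp_pos _) (Real.exp_lt_one_iff.2 (by norm_num))
    rw [← hone k le_rfl hkn, show Q.coeff (p ^ (k - h)) = a + b + ltU p n k from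
      eq_add_of_sub_eq hab.symm, map_add, map_add, hb0, add_zero,
      IsUltrametricDist.norm_add_eq_max_of_norm_ne_norm hlt.ne, max_eq_right hlt.le]
  have hqsmall : ∀ j < p ^ (k - h), ‖ψ (Q.coeff j)‖ ≤ Real.exp (-B) := fun j hj => by
    refine norm_le_of_mem_span hψ (Real.exp_pos _).le ?_ (hlowc k j (by omega) hkn.le hj)
    rintro _ ⟨i, hi, rfl⟩
    by_cases h1 : i < h
    · rw [hst.1 i h1, norm_zero]; exact (Real.exp_pos _).le
    · exact hsmall i (by omega) hi
  have hN : Sh.card = p ^ (k - h) := by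
    rcases lt_trichotomy Sh.card (p ^ (k - h)) with h1 | h1 | h1
    · exfalso
      have h2 := hqsmall _ h1
      rw [hatN, hLpow, Real.exp_le_exp] at h2
      have h3 : ((p ^ h * (p ^ (n - h) - Sh.card) : ℕ) : ℝ) ≤ (p : ℝ) ^ n := by
        rw [← Nat.cast_pow, Nat.cast_le]
        calc p ^ h * (p ^ (n - h) - Sh.card) ≤ p ^ h * p ^ (n - h) :=
              Nat.mul_le_mul_left _ (Nat.sub_le _ _)
          _ = p ^ n := by rw [← pow_add]; congr 1; omega
      have h4 : lowval * ((p ^ h * (p ^ (n - h) - Sh.card) : ℕ) : ℝ) ≤ (p : ℝ) ^ n :=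
        (mul_le_of_le_one_left (Nat.cast_nonneg _) hlv1).trans h3
      linarith
    · exact h1
    · exfalso
      have h2 := hbelow _ h1
      rw [hqk, hLpow, Real.exp_lt_exp] at h2
      have h3 : ((p ^ h * (p ^ (n - h) - p ^ (k - h)) : ℕ) : ℝ) = (p : ℝ) ^ n - (p : ℝ) ^ k := by
        rw [Nat.mul_sub, ← pow_add, ← pow_add, show h + (n - h) = n by omega,
          show h + (k - h) = k by omega,
          Nat.cast_sub (Nat.pow_le_pow_right hp.out.pos hkn.le), Nat.cast_pow, Nat.cast_pow]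
      rw [h3] at h2
      simp only [lowval] at h2
      rw [neg_mul, one_div_mul_cancel (by linarith)] at h2
      exact lt_irrefl _ h2
  have hfr : Module.finrank (ZMod p) Hh = k - h := by
    have h2 := Module.card_eq_pow_finrank (K := ZMod p) (V := Hh)
    rw [ZMod.card, Fintype.card_subtype, ← hSh, hN] at h2
    exact (Nat.pow_right_injective hp.out.two_le h2).symm
  obtain ⟨W, hW⟩ := Submodule.exists_isCompl Hh
  have hfW : Module.finrank (ZMod p) W = n - k := by
    have h2 := Submodule.finrank_add_eq_of_isCompl hW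
    rw [hfr, Module.finrank_fin_fun] at h2
    omega
  let bW := Module.finBasisOfFinrankEq (ZMod p) W hfW
  let bH := Module.finBasisOfFinrankEq (ZMod p) Hh hfr
  -- reduction of combinations
  have hcomb : ∀ {m : ℕ} (a : Fin m → ℤ_[p]) (v : Fin m → Fin (n - h) → ZMod p),
      redIdx (∑ i, a i • secIdx (v i)) = ∑ i, PadicInt.toZMod (a i) • v i := by
    intro m a v
    funext j
    have hv : ∀ i, PadicInt.toZMod (secIdx (v i) j) = v i j :=
      fun i => congrFun (redIdx_secIdx (v i)) j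
    simp only [redIdx, Finset.sum_apply, map_sum, Pi.smul_apply, smul_eq_mul, map_mul, hv]
  have hnz : ∀ {m : ℕ} (a : Fin m → ℤ_[p]), ¬ (∀ i, (p : ℤ_[p]) ∣ a i) →
      ∃ i, PadicInt.toZMod (a i) ≠ 0 := fun a ha => by
    by_contra hall
    push Not at hall
    exact ha ((redIdx_eq_zero_iff a).1 (funext hall))
  refine ⟨fun i => secIdx (bW i : Fin (n - h) → ZMod p),
    fun i => secIdx (bH (Fin.castLE (by omega) i) : Fin (n - h) → ZMod p), fun a ha => ?_,
    fun a ha => ?_⟩
  · obtain ⟨i₀, hi₀⟩ := hnz a ha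
    set w : W := ∑ i, PadicInt.toZMod (a i) • bW i with hw
    have hwne : w ≠ 0 := fun h0 =>
      hi₀ (Fintype.linearIndependent_iff.1 bW.linearIndependent _ h0 i₀)
    have hred : redIdx (∑ i, a i • secIdx (bW i : Fin (n - h) → ZMod p))
        = (w : Fin (n - h) → ZMod p) := by
      rw [hcomb, hw, Submodule.coe_sum]
      simp
    have hnot : (w : Fin (n - h) → ZMod p) ∉ Hh := fun h2 =>
      hwne (Subtype.ext (Submodule.disjoint_def.1 hW.disjoint _ h2 w.2))
    have hne : ¬ ∀ i, (p : ℤ_[p]) ∣ (∑ i, a i • secIdx (bW i : Fin (n - h) → ZMod p)) i :=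
      fun h2 => by
        rw [← redIdx_eq_zero_iff, hred, Submodule.coe_eq_zero] at h2
        exact hwne h2
    rcases hdich _ hne with h2 | h2
    · exact h2
    · rw [hxred, hred] at h2
      exact absurd h2 hnot
  · obtain ⟨i₀, hi₀⟩ := hnz a ha
    set w : Hh := ∑ i, PadicInt.toZMod (a i) • bH (Fin.castLE (by omega) i) with hw
    have hwne : w ≠ 0 := fun h0 => hi₀ (Fintype.linearIndependent_iff.1
      (bH.linearIndependent.comp _ (Fin.castLE_injective _)) _ h0 i₀)
    have hred : redIdx (∑ i, a i • secIdx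
        (bH (Fin.castLE (by omega) i) : Fin (n - h) → ZMod p))
        = (w : Fin (n - h) → ZMod p) := by
      rw [hcomb, hw, Submodule.coe_sum]
      simp
    refine ⟨fun h2 => ?_, ?_⟩
    · rw [← redIdx_eq_zero_iff, hred, Submodule.coe_eq_zero] at h2
      exact hwne h2
    · rw [hxred, hred]
      exact w.2

/-- One step down: some lift has small norm, by the product over all lifts. -/
theorem exists_small_lift (hn : 0 < n) (hF : HasHazewinkelLog p n F) {h : ℕ} (hh : h < n)
    (hψ : IsPoint p n ψ) (hst : OnStratum p n h ψ)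
    {x : (Fin (n - h) → ℤ_[p]) → ℕ → K} (hx : IsTorsion ψ F (n - h) x)
    (e : Fin (n - h) → ℤ_[p]) (l : ℕ) :
    ∃ c : Fin (n - h) → ℤ_[p],
      ‖x (e - (p : ℤ_[p]) ^ (l + 1) • c) (l + 2)‖ ^ p ^ n ≤ ‖x e (l + 1)‖ := by
  obtain ⟨Q, H, hm, hd, hH, hQ, -, -⟩ := exists_weierstrass hn hF hh
  have hroot1 : ∀ e, ev ψ (pSeries p n F) (x e 1) = 0 := fun e => by
    rw [hx.step e 0, hx.level_zero]
  have e1 := map_eq_prod hψ hF hh hst hQ hH hm hd (fun c => x (secIdx c) 1)
    (fun c => hx.norm_lt _ _) (fun c => hroot1 _) (fun a b hab => by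
      have h2 := (torsion_one_eq_iff hψ hx _ _).1 hab
      rwa [redIdx_secIdx, redIdx_secIdx] at h2)
  set w : (Fin (n - h) → ZMod p) → K :=
    fun c => x (e - (p : ℤ_[p]) ^ (l + 1) • secIdx c) (l + 2) with hw
  have hdiff : ∀ c, ‖x e (l + 2) - x (secIdx c) 1‖ = ‖w c‖ := fun c => by
    have h1 : x e (l + 2) = fadd ψ F (x (secIdx c) 1) (w c) := by
      rw [← torsion_pow_smul hψ hF hx (secIdx c) (l + 1), hw, ← hx.add, add_sub_cancel]
    have h2 := norm_fadd_sub_fadd (F := F) hψ (hx.norm_lt (secIdx c) 1)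
      (hx.norm_lt (e - (p : ℤ_[p]) ^ (l + 1) • secIdx c) (l + 2)) (y' := 0) (by simp)
    rw [(fadd_zero hψ (hx.norm_lt _ _)).1, sub_zero] at h2
    rw [h1]
    exact h2
  have hprod : ‖x e (l + 1)‖ = ∏ c, ‖w c‖ ^ p ^ h := by
    rw [← hx.step e (l + 1), ev_pSeries_factor hψ hF hh hst hQ hH (hx.norm_lt _ _), e1,
      Polynomial.eval_prod, norm_prod]
    refine Finset.prod_congr rfl fun c _ => ?_
    rw [Polynomial.eval_sub, Polynomial.eval_X, Polynomial.eval_C, ← pow_p_pow_sub hst,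
      norm_pow, hdiff]
  obtain ⟨c₀, hc₀⟩ := Finite.exists_min fun c => ‖w c‖
  refine ⟨secIdx c₀, ?_⟩
  calc ‖w c₀‖ ^ p ^ n = ∏ _c : Fin (n - h) → ZMod p, ‖w c₀‖ ^ p ^ h := by
        rw [Finset.prod_const, Finset.card_univ, Fintype.card_fun, ZMod.card, Fintype.card_fin,
          ← pow_mul, ← pow_add]
        congr 2
        omega
    _ ≤ ∏ c, ‖w c‖ ^ p ^ h := Finset.prod_le_prod (fun c _ => by positivity)
        (fun c _ => pow_le_pow_left₀ (norm_nonneg _) (hc₀ c) _)
    _ = ‖x e (l + 1)‖ := hprod.symm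

/-- Every class has a lift with torsion sequence as small as the Newton polygon allows. -/
theorem exists_high_lift (hn : 0 < n) (hF : HasHazewinkelLog p n F) {h : ℕ} (hh : h < n)
    (hψ : IsPoint p n ψ) (hst : OnStratum p n h ψ)
    {x : (Fin (n - h) → ℤ_[p]) → ℕ → K} (hx : IsTorsion ψ F (n - h) x)
    (e : Fin (n - h) → ℤ_[p]) :
    ∃ e' : Fin (n - h) → ℤ_[p], (∀ i, (p : ℤ_[p]) ∣ (e' i - e i)) ∧
      ∀ l : ℕ, ‖x e' (l + 1)‖ ^ (p ^ (n * l)) ≤ ‖x e 1‖ := by
  choose c hc using fun (e : Fin (n - h) → ℤ_[p]) (l : ℕ) => exists_small_lift hn hF hh hψ hst hx e l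
  let E : ℕ → (Fin (n - h) → ℤ_[p]) :=
    fun l => Nat.rec e (fun j v => v - (p : ℤ_[p]) ^ (j + 1) • c v j) l
  have hE : ∀ j, E (j + 1) = E j - (p : ℤ_[p]) ^ (j + 1) • c (E j) j := fun j => rfl
  have hstep : ∀ j i, (p : ℤ_[p]) ^ (j + 1) ∣ E (j + 1) i - E j i := fun j i => by
    rw [hE]
    simp
  have hbound : ∀ l, ‖x (E l) (l + 1)‖ ^ p ^ (n * l) ≤ ‖x e 1‖ := by
    intro l
    induction l with
    | zero => simp [E]
    | succ l ih =>
      refine le_trans ?_ ih
      have hlow : x (E (l + 1)) (l + 1) = x (E l) (l + 1) :=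
        (torsion_eq_iff hψ hx _ _ _).2 (hstep l)
      rw [show n * (l + 1) = n + n * l by ring, pow_add, pow_mul]
      refine pow_le_pow_left₀ (by positivity) ?_ _
      rw [hE]
      exact hc (E l) l
  have hdiff : ∀ j m, j ≤ m → ∀ i, (p : ℤ_[p]) ^ (j + 1) ∣ E m i - E j i := by
    intro j m hjm i
    induction m, hjm using Nat.le_induction with
    | base => simp
    | succ m hm ih =>
      rw [show E (m + 1) i - E j i = (E (m + 1) i - E m i) + (E m i - E j i) by ring]
      exact dvd_add ((pow_dvd_pow _ (by omega)).trans (hstep m i)) ih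
  have hnorm : ∀ j m, j ≤ m → ∀ i, ‖E m i - E j i‖ ≤ (p : ℝ) ^ (-((j + 1 : ℕ) : ℤ)) :=
    fun j m hjm i => (PadicInt.norm_le_pow_iff_mem_span_pow _ _).2
      (Ideal.mem_span_singleton.2 (hdiff j m hjm i))
  have hcauchy : ∀ i, ∃ v : ℤ_[p], Filter.Tendsto (fun m => E m i) Filter.atTop (nhds v) := by
    intro i
    refine cauchySeq_tendsto_of_complete (cauchySeq_of_le_geometric ((p : ℝ)⁻¹) 1 ?_ fun m => ?_)
    · exact inv_lt_one_of_one_lt₀ (Nat.one_lt_cast.2 hp.out.one_lt)
    · rw [dist_comm, dist_eq_norm, one_mul]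
      refine (hnorm m (m + 1) (Nat.le_succ m) i).trans ?_
      rw [zpow_neg, zpow_natCast, ← inv_pow]
      exact pow_le_pow_of_le_one (by positivity)
        (inv_le_one_of_one_le₀ (Nat.one_le_cast.2 hp.out.one_le)) (Nat.le_succ m)
  choose e' he' using hcauchy
  have hlim : ∀ j i, (p : ℤ_[p]) ^ (j + 1) ∣ e' i - E j i := fun j i => by
    rw [← Ideal.mem_span_singleton, ← PadicInt.norm_le_pow_iff_mem_span_pow]
    exact le_of_tendsto' (((Filter.tendsto_add_atTop_iff_nat j).2 (he' i)).sub_const (E j i)).norm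
      fun m => hnorm j (m + j) (Nat.le_add_left j m) i
  refine ⟨e', fun i => by simpa [E] using hlim 0 i, fun l => ?_⟩
  rw [(torsion_eq_iff hψ hx e' (E l) (l + 1)).2 (hlim l)]
  exact hbound l

end

end Vale.Agent.P217
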