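import Vale.Agent.P217.Eval

/-!
# P217: values of series at integral algebraic points, and the series of the levels of the torsion
-/

open scoped Classical

namespace Vale.Agent.P217

noncomputable section

variable {p n : ℕ} [hp : Fact p.Prime] {F : FormalGroup (LTRing p n)}

section General

variable {K : Type} [NormedField K] [IsUltrametricDist K] {ψ : LTRing p n →+* K}

/-- A root of a distinguished polynomial lies in the open disc. -/
lemma norm_lt_one_of_root (hψ : IsPoint p n ψ) {Q : Polynomial (LTRing p n)}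
    (hQ : Q.IsDistinguishedAt (mIdeal p n)) {x : K} (hx : Q.eval₂ ψ x = 0) : ‖x‖ < 1 := by
  obtain ⟨θ, hθ0, hθ1, hθ⟩ := hψ.contracting
  by_contra hlt
  have hx1 : 1 ≤ ‖x‖ := not_lt.1 hlt
  rw [hQ.monic.as_sum, Polynomial.eval₂_add, Polynomial.eval₂_finsetSum] at hx
  simp only [Polynomial.eval₂_mul, Polynomial.eval₂_C, Polynomial.eval₂_X_pow] at hx
  have hd : ‖x ^ Q.natDegree‖ ≤ θ * ‖x‖ ^ Q.natDegree := by
    rw [eq_neg_of_add_eq_zero_left hx, norm_neg]
    refine IsUltrametricDist.norm_sum_le_of_forall_le_of_nonneg (by positivity) fun i hi => ?_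
    rw [norm_mul, norm_pow]
    exact mul_le_mul (hθ _ (hQ.mem (Finset.mem_range.1 hi)))
      (pow_le_pow_right₀ hx1 (Finset.mem_range.1 hi).le) (by positivity) hθ0.le
  rw [norm_pow] at hd
  have : 1 ≤ ‖x‖ ^ Q.natDegree := one_le_pow₀ hx1
  nlinarith

end General

/-- A family with finitely many terms outside each power of `m` has a sum with the right value at
every point. -/
lemma exists_uniform_sum (hn : 0 < n) {ι : Type} (c : ι → LTRing p n)
    (hc : ∀ N, {i | c i ∉ mIdeal p n ^ N}.Finite) :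
    ∃ r : LTRing p n, ∀ (U : UField) (ψ : LTRing p n →+* U.K), IsPoint p n ψ →
      HasSum (fun i => ψ (c i)) (ψ r) := by
  have := mIdeal_isAdicComplete p n hn
  let s : ℕ → Finset ι := fun N => (hc N).toFinset
  have hs : ∀ {N i}, i ∉ s N → c i ∈ mIdeal p n ^ N := fun {N i} hi => by simpa [s] using hi
  have hmono : ∀ {m k}, m ≤ k → s m ⊆ s k := fun {m k} hmk i hi => by
    simp only [s, Set.Finite.mem_toFinset, Set.mem_ofPred_eq] at hi ⊢
    exact fun h => hi (Ideal.pow_le_pow_right hmk h)
  obtain ⟨r, hr⟩ := IsPrecomplete.prec' (I := mIdeal p n) (M := LTRing p n)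
    (fun N => ∑ i ∈ s N, c i) (fun {m k} hmk => by
      rw [SModEq.sub_mem, smul_eq_mul, Ideal.mul_top, ← Finset.sum_sdiff (hmono hmk)]
      rw [sub_add_cancel_right, neg_mem_iff]
      exact Submodule.sum_mem _ fun i hi => hs (Finset.mem_sdiff.1 hi).2)
  refine ⟨r, fun U ψ hψ => ?_⟩
  obtain ⟨θ, hθ0, hθ1, hθ⟩ := hψ.contracting
  rw [HasSum, SummationFilter.unconditional_filter, Metric.tendsto_atTop]
  intro ε hε
  obtain ⟨N, hN⟩ := exists_pow_lt_of_lt_one hε hθ1
  refine ⟨s N, fun t ht => lt_of_le_of_lt ?_ hN⟩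
  rw [dist_eq_norm, ← Finset.sum_sdiff (show s N ⊆ t from ht), add_sub_assoc]
  refine (IsUltrametricDist.norm_add_le_max _ _).trans (max_le ?_ ?_)
  · exact IsUltrametricDist.norm_sum_le_of_forall_le_of_nonneg (by positivity) fun i hi =>
      norm_le_pow_of_mem hψ hθ0.le hθ N _ (hs (Finset.mem_sdiff.1 hi).2)
  · rw [← map_sum, ← map_sub]
    refine norm_le_pow_of_mem hψ hθ0.le hθ N _ ?_
    have := hr N
    rwa [SModEq.sub_mem, smul_eq_mul, Ideal.mul_top] at this

/-- The remainders of the powers of `X` by a distinguished polynomial. -/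
lemma coeff_pow_modByMonic_mem {Q : Polynomial (LTRing p n)}
    (hQ : Q.IsDistinguishedAt (mIdeal p n)) (i : ℕ) :
    ∀ a, ((Polynomial.X ^ i : Polynomial (LTRing p n)) %ₘ Q).coeff a
      ∈ mIdeal p n ^ (i / Q.natDegree) := by
  induction i using Nat.strong_induction_on with
  | _ i ih =>
  intro a
  rcases lt_or_ge i Q.natDegree with hi | hi
  · simp [Nat.div_eq_of_lt hi]
  rcases Nat.eq_zero_or_pos Q.natDegree with hd | hd
  · simp [hd]
  obtain ⟨j, rfl⟩ := Nat.exists_eq_add_of_le hi
  set d := Q.natDegree with hd'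
  have e : (Polynomial.X ^ (d + j) : Polynomial (LTRing p n))
      = Polynomial.X ^ j * Q - ∑ b ∈ Finset.range d, Q.coeff b • Polynomial.X ^ (j + b) := by
    conv_rhs =>
      arg 1
      rw [hQ.monic.as_sum, ← hd', mul_add, Finset.mul_sum]
    rw [add_sub_assoc, ← Finset.sum_sub_distrib, Finset.sum_eq_zero, add_zero, ← pow_add,
      add_comm]
    intro b _
    rw [Polynomial.smul_eq_C_mul, pow_add]
    ring
  rw [e, ← Polynomial.modByMonicHom_apply, map_sub, map_sum, Polynomial.modByMonicHom_apply,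
    (Polynomial.modByMonic_eq_zero_iff_dvd hQ.monic).2 (dvd_mul_left _ _), zero_sub,
    Polynomial.coeff_neg, Polynomial.finsetSum_coeff, neg_mem_iff]
  refine Submodule.sum_mem _ fun b hb => ?_
  rw [map_smul, Polynomial.modByMonicHom_apply, Polynomial.coeff_smul, smul_eq_mul]
  refine Ideal.pow_le_pow_right (?_ : (d + j) / d ≤ 1 + (j + b) / d) ?_
  · rw [Nat.add_div_left _ hd, add_comm 1]
    exact Nat.succ_le_succ (Nat.div_le_div_right (Nat.le_add_right _ _))
  · rw [pow_add, pow_one]
    exact Ideal.mul_mem_mul (hQ.mem (Finset.mem_range.1 hb))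
      (ih _ (by have := Finset.mem_range.1 hb; omega) a)

lemma pow_eq_sum_of_root {L : Type} [Field L] (σ : LTRing p n →+* L) {Q : Polynomial (LTRing p n)}
    (hQ : Q.IsDistinguishedAt (mIdeal p n)) {x : L} (hx : Q.eval₂ σ x = 0) (i : ℕ) :
    x ^ i = ∑ a ∈ Finset.range Q.natDegree,
      σ (((Polynomial.X ^ i : Polynomial (LTRing p n)) %ₘ Q).coeff a) * x ^ a := by
  have hQ1 : Q ≠ 1 := fun h => by simp [h] at hx
  rw [← Polynomial.eval₂_eq_sum_range' σ (Polynomial.natDegree_modByMonic_lt _ hQ.monic hQ1) x,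
    Polynomial.eval₂_modByMonic_eq_self_of_root hx, Polynomial.eval₂_X_pow]

/-- Values of series at integral algebraic points are algebraic, uniformly in the point: for
roots `x, y` of distinguished polynomials there is one algebraic number giving every value. -/
theorem ev2_algebraic (hn : 0 < n) {L : Type} [Field L] (σ : LTRing p n →+* L)
    (Q₁ Q₂ : Polynomial (LTRing p n))
    (h₁ : Q₁.IsDistinguishedAt (mIdeal p n)) (h₂ : Q₂.IsDistinguishedAt (mIdeal p n)) {x y : L}
    (hx : Q₁.eval₂ σ x = 0) (hy : Q₂.eval₂ σ y = 0)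
    (f : MvPowerSeries (Fin 2) (LTRing p n)) :
    ∃ z ∈ Subfield.closure (Set.range σ ∪ {x, y}),
      ∀ (U : UField) (j : L →+* U.K), IsPoint p n (j.comp σ) →
        ev2 (j.comp σ) f (j x) (j y) = j z := by
  have hpos : ∀ {Q : Polynomial (LTRing p n)} {w : L}, Q.IsDistinguishedAt (mIdeal p n) →
      Q.eval₂ σ w = 0 → 0 < Q.natDegree := fun {Q w} hQ hw => by
    by_contra h
    simp [Polynomial.eq_one_of_monic_natDegree_zero hQ.monic (by omega)] at hw
  let c : ℕ → ℕ → (Fin 2 →₀ ℕ) → LTRing p n := fun a b d => MvPowerSeries.coeff d f *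
    (((Polynomial.X ^ d 0 : Polynomial (LTRing p n)) %ₘ Q₁).coeff a *
      ((Polynomial.X ^ d 1 : Polynomial (LTRing p n)) %ₘ Q₂).coeff b)
  have hc : ∀ a b N, {d | c a b d ∉ mIdeal p n ^ N}.Finite := by
    intro a b N
    refine Set.Finite.subset ((Set.Finite.prod (Set.finite_Iio (Q₁.natDegree * N))
      (Set.finite_Iio (Q₂.natDegree * N))).preimage (f := fun d : Fin 2 →₀ ℕ => (d 0, d 1))
      (fun u _ v _ h => ?_)) fun d hd => ?_
    · simp only [Prod.mk.injEq] at h
      ext i
      fin_cases i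
      · exact h.1
      · exact h.2
    simp only [Set.mem_preimage, Set.mem_prod, Set.mem_Iio]
    by_contra hno
    refine hd (Ideal.mul_mem_left _ _ ?_)
    rcases not_and_or.1 hno with h | h
    · refine Ideal.mul_mem_right _ _ (Ideal.pow_le_pow_right ?_ (coeff_pow_modByMonic_mem h₁ _ a))
      exact (Nat.le_div_iff_mul_le (hpos h₁ hx)).2 (by rw [mul_comm]; omega)
    · refine Ideal.mul_mem_left _ _ (Ideal.pow_le_pow_right ?_ (coeff_pow_modByMonic_mem h₂ _ b))
      exact (Nat.le_div_iff_mul_le (hpos h₂ hy)).2 (by rw [mul_comm]; omega)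
  choose r hr using fun a b => exists_uniform_sum hn (c a b) (hc a b)
  refine ⟨∑ a ∈ Finset.range Q₁.natDegree, ∑ b ∈ Finset.range Q₂.natDegree,
    σ (r a b) * (x ^ a * y ^ b), ?_, fun U j hj => ?_⟩
  · refine sum_mem fun a _ => sum_mem fun b _ => mul_mem ?_ (mul_mem (pow_mem ?_ _) (pow_mem ?_ _))
    · exact Subfield.subset_closure (Or.inl ⟨_, rfl⟩)
    · exact Subfield.subset_closure (Or.inr (Set.mem_insert _ _))
    · exact Subfield.subset_closure (Or.inr (Set.mem_insert_of_mem _ rfl))
  simp only [map_sum, map_mul, map_pow]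
  refine HasSum.tsum_eq ?_
  have hterm : ∀ d : Fin 2 →₀ ℕ,
      (j.comp σ) (MvPowerSeries.coeff d f) * (j x ^ d 0 * j y ^ d 1)
        = ∑ a ∈ Finset.range Q₁.natDegree, ∑ b ∈ Finset.range Q₂.natDegree,
            (j.comp σ) (c a b d) * (j x ^ a * j y ^ b) := by
    intro d
    rw [← map_pow, ← map_pow, pow_eq_sum_of_root σ h₁ hx (d 0), pow_eq_sum_of_root σ h₂ hy (d 1),
      map_sum, map_sum, Finset.sum_mul_sum, Finset.mul_sum]
    refine Finset.sum_congr rfl fun a _ => ?_
    rw [Finset.mul_sum]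
    refine Finset.sum_congr rfl fun b _ => ?_
    simp only [c, RingHom.comp_apply, map_mul, map_pow]
    ring
  simp only [hterm]
  exact hasSum_sum fun a _ => hasSum_sum fun b _ =>
    (hr a b U (j.comp σ) hj).mul_right (j x ^ a * j y ^ b)

/-- The same for one variable. -/
lemma ev_algebraic (hn : 0 < n) {L : Type} [Field L] (σ : LTRing p n →+* L)
    {Q : Polynomial (LTRing p n)} (hQ : Q.IsDistinguishedAt (mIdeal p n)) {x : L}
    (hx : Q.eval₂ σ x = 0) (f : PowerSeries (LTRing p n)) :
    ∃ z : L, ∀ (U : UField) (j : L →+* U.K), IsPoint p n (j.comp σ) →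
      ev (j.comp σ) f (j x) = j z := by
  let g : MvPowerSeries (Fin 2) (LTRing p n) :=
    fun d => if d 1 = 0 then PowerSeries.coeff (d 0) f else 0
  obtain ⟨z, -, hz⟩ := ev2_algebraic hn σ Q Q hQ hQ hx hx g
  refine ⟨z, fun U j hj => ?_⟩
  rw [← hz U j hj, ev, ev2]
  have hg : ∀ d : Fin 2 →₀ ℕ,
      MvPowerSeries.coeff d g = if d 1 = 0 then PowerSeries.coeff (d 0) f else 0 := fun d => rfl
  refine (tsum_congr fun i => ?_).trans
    ((Finsupp.single_injective (0 : Fin 2)).tsum_eq fun d hd => ?_)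
  · simp [hg]
  · refine ⟨d 0, ?_⟩
    have h1 : d 1 = 0 := by
      by_contra h
      exact hd (by simp [hg, h])
    ext i
    fin_cases i <;> simp [h1]

/-! The series of the levels. -/

variable (p n)

/-- Coefficientwise `p^r`-th powers. -/
def twistSeries (r : ℕ) (g : PowerSeries (LTRing p n)) : PowerSeries (LTRing p n) :=
  PowerSeries.mk fun i => PowerSeries.coeff i g ^ p ^ r

/-- `[p^l](x) = H_l(x^{p^{hl}})` at the points of the stratum `h`. -/
def torsSeries (F : FormalGroup (LTRing p n)) (h : ℕ) : ℕ → PowerSeries (LTRing p n)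
  | 0 => PowerSeries.X
  | l + 1 => PowerSeries.subst (twistSeries p n (h * l) (gSeries p n F h)) (torsSeries F h l)

variable {p n}

lemma constantCoeff_twist (r h : ℕ) :
    PowerSeries.constantCoeff (twistSeries p n r (gSeries p n F h)) = 0 := by
  rw [← PowerSeries.coeff_zero_eq_constantCoeff_apply, twistSeries, PowerSeries.coeff_mk, gSeries,
    PowerSeries.coeff_mk, mul_zero, PowerSeries.coeff_zero_eq_constantCoeff_apply,
    pSeries_constantCoeff, zero_pow (pow_ne_zero _ hp.out.ne_zero)]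

lemma constantCoeff_torsSeries (h l : ℕ) :
    PowerSeries.constantCoeff (torsSeries p n F h l) = 0 := by
  induction l with
  | zero => rw [torsSeries]; exact PowerSeries.constantCoeff_X
  | succ l ih =>
    rw [torsSeries]
    exact PowerSeries.constantCoeff_subst_eq_zero
      (constantCoeff_twist (F := F) (h * l) h) (torsSeries p n F h l) ih

lemma map_twist_residue (hn : 0 < n) (hF : HasHazewinkelLog p n F) {h : ℕ} (hh : h < n) (r : ℕ) :
    PowerSeries.map (Ideal.Quotient.mk (mIdeal p n)) (twistSeries p n r (gSeries p n F h))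
      = PowerSeries.X ^ p ^ (n - h) := by
  ext j
  rw [PowerSeries.coeff_map, twistSeries, PowerSeries.coeff_mk, gSeries, PowerSeries.coeff_mk,
    map_pow, PowerSeries.coeff_X_pow, Ideal.Quotient.eq.2 (pSeries_residue p n hn hF (p ^ h * j))]
  have hiff : p ^ h * j = p ^ n ↔ j = p ^ (n - h) := by
    rw [show p ^ n = p ^ h * p ^ (n - h) by rw [← pow_add, Nat.add_sub_cancel' hh.le]]
    exact Nat.mul_left_cancel_iff (pow_pos hp.out.pos h)
  by_cases hj : j = p ^ (n - h)
  · rw [if_pos hj, if_pos (hiff.2 hj), map_one, one_pow]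
  · rw [if_neg hj, if_neg (mt hiff.1 hj), map_zero, zero_pow (pow_ne_zero _ hp.out.ne_zero)]

lemma map_torsSeries_residue (hn : 0 < n) (hF : HasHazewinkelLog p n F) {h : ℕ} (hh : h < n) :
    ∀ l, PowerSeries.map (Ideal.Quotient.mk (mIdeal p n)) (torsSeries p n F h l)
      = PowerSeries.X ^ p ^ ((n - h) * l)
  | 0 => by simp [torsSeries]
  | l + 1 => by
    have hs := PowerSeries.HasSubst.of_constantCoeff_zero'
      (constantCoeff_twist (F := F) (h * l) h)
    have h0 : PowerSeries.constantCoeff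
        ((PowerSeries.X : PowerSeries (LTRing p n ⧸ mIdeal p n)) ^ p ^ (n - h)) = 0 := by
      simp [hp.out.ne_zero]
    have hs' := PowerSeries.HasSubst.of_constantCoeff_zero' h0
    calc PowerSeries.map (Ideal.Quotient.mk (mIdeal p n)) (torsSeries p n F h (l + 1))
        = PowerSeries.subst (PowerSeries.map (Ideal.Quotient.mk (mIdeal p n))
            (twistSeries p n (h * l) (gSeries p n F h)))
            (PowerSeries.map (Ideal.Quotient.mk (mIdeal p n)) (torsSeries p n F h l)) :=
          PowerSeries.map_subst hs _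
      _ = _ := by
        rw [map_twist_residue hn hF hh, map_torsSeries_residue hn hF hh l,
          PowerSeries.subst_pow hs', PowerSeries.subst_X hs', ← pow_mul, ← pow_add, mul_add,
          mul_one, add_comm]

/-- The distinguished polynomial of each level. -/
lemma exists_torsPoly (hn : 0 < n) (hF : HasHazewinkelLog p n F) {h : ℕ} (hh : h < n) (l : ℕ) :
    ∃ (S : Polynomial (LTRing p n)) (u : PowerSeries (LTRing p n)),
      S.IsDistinguishedAt (mIdeal p n) ∧ S.natDegree = p ^ ((n - h) * l) ∧ IsUnit u ∧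
      torsSeries p n F h l = (S : PowerSeries (LTRing p n)) * u := by
  have hm := mIdeal_eq_maximalIdeal p n hn
  have hne : (⊤ : Ideal (LTRing p n)) ≠ mIdeal p n := by
    rw [hm]; exact (IsLocalRing.maximalIdeal.isMaximal _).ne_top.symm
  have : IsAdicComplete (IsLocalRing.maximalIdeal (LTRing p n)) (LTRing p n) :=
    hm ▸ mIdeal_isAdicComplete p n hn
  have hres := map_torsSeries_residue (F := F) hn hF hh l
  rw [hm] at hres
  have hnt : Nontrivial (LTRing p n ⧸ IsLocalRing.maximalIdeal (LTRing p n)) :=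
    Ideal.Quotient.nontrivial_iff.2 (IsLocalRing.maximalIdeal.isMaximal _).ne_top
  have hnz : (torsSeries p n F h l).map (IsLocalRing.residue (LTRing p n)) ≠ 0 := by
    change PowerSeries.map (Ideal.Quotient.mk _) (torsSeries p n F h l) ≠ 0
    rw [hres]
    intro h0
    simpa using congrArg (PowerSeries.coeff (p ^ ((n - h) * l))) h0
  obtain ⟨S, u, H⟩ := PowerSeries.exists_isWeierstrassFactorization hnz
  refine ⟨S, u, hm ▸ H.isDistinguishedAt, ?_, H.isUnit, H.eq_mul⟩
  rw [H.natDegree_eq_toNat_order_map]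
  change (PowerSeries.map (Ideal.Quotient.mk _) (torsSeries p n F h l)).order.toNat = _
  rw [hres, PowerSeries.order_X_pow, ENat.toNat_natCast]

end

end Vale.Agent.P217
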