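import Vale.Agent.P217.TorsionLevelOne

/-! # P217 interface: the tropical function, leading terms, slopes of torsion sequences -/

open scoped Classical

namespace Vale.Agent.P217

noncomputable section

/-- A Newton polygon datum: valuations `v i` for `i ∈ I ⊆ [h, n]`. -/
structure Trop where
  /-- The prime. -/
  p : ℕ
  /-- The lower height. -/
  h : ℕ
  /-- The height. -/
  n : ℕ
  /-- The indices of nonzero coefficients. -/
  I : Finset ℕ
  /-- The valuations. -/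
  v : ℕ → ℝ
  two_le : 2 ≤ p
  lt : h < n
  subset : I ⊆ Finset.Icc h n
  h_mem : h ∈ I
  n_mem : n ∈ I
  v_top : v n = 0
  v_pos : ∀ i ∈ I, i ≠ n → 0 < v i

namespace Trop

variable (T : Trop)

/-- One step: `X ↦ min (v i + p^i X)`. -/
def step (X : ℝ) : ℝ := T.I.inf' ⟨T.h, T.h_mem⟩ fun i => T.v i + (T.p : ℝ) ^ i * X

/-- `q = p^n`. -/
def q : ℝ := (T.p : ℝ) ^ T.n

/-- `l` steps, renormalised. -/
def iterN (l : ℕ) (z : ℝ) : ℝ := T.step^[l] (z / T.q ^ l)

/-- The limiting function. -/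
def N (z : ℝ) : ℝ := ⨅ l : ℕ, T.iterN l z

theorem one_lt_p : (1 : ℝ) < T.p := by exact_mod_cast T.two_le

theorem p_pos : (0 : ℝ) < T.p := lt_trans one_pos T.one_lt_p

theorem n_pos : 0 < T.n := lt_of_le_of_lt (Nat.zero_le _) T.lt

theorem one_lt_q : 1 < T.q := one_lt_pow₀ T.one_lt_p T.n_pos.ne'

theorem q_pos : 0 < T.q := lt_trans one_pos T.one_lt_q

theorem mem_range {i : ℕ} (hi : i ∈ T.I) : T.h ≤ i ∧ i ≤ T.n := by
  simpa using T.subset hi

theorem v_nonneg {i : ℕ} (hi : i ∈ T.I) : 0 ≤ T.v i := by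
  rcases eq_or_ne i T.n with rfl | h
  · rw [T.v_top]
  · exact (T.v_pos i hi h).le

theorem v_h_pos : 0 < T.v T.h := T.v_pos _ T.h_mem T.lt.ne

theorem step_le {i : ℕ} (hi : i ∈ T.I) (X : ℝ) : T.step X ≤ T.v i + (T.p : ℝ) ^ i * X :=
  Finset.inf'_le _ hi

theorem exists_step_eq (X : ℝ) : ∃ i ∈ T.I, T.step X = T.v i + (T.p : ℝ) ^ i * X :=
  Finset.exists_mem_eq_inf' (⟨T.h, T.h_mem⟩ : T.I.Nonempty) _

theorem step_strictMono : StrictMono T.step := by
  intro X Y hXY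
  obtain ⟨i, hi, he⟩ := T.exists_step_eq Y
  rw [he]
  refine lt_of_le_of_lt (T.step_le hi X) ?_
  have := mul_lt_mul_of_pos_left hXY (pow_pos T.p_pos i)
  linarith

theorem step_le_q (X : ℝ) : T.step X ≤ T.q * X := by
  have h := T.step_le T.n_mem X
  rwa [T.v_top, zero_add] at h

theorem step_ge {X : ℝ} (hX : 0 ≤ X) : (T.p : ℝ) ^ T.h * X ≤ T.step X := by
  obtain ⟨i, hi, he⟩ := T.exists_step_eq X
  rw [he]
  have h1 := mul_le_mul_of_nonneg_right
    (pow_le_pow_right₀ T.one_lt_p.le (T.mem_range hi).1) hX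
  linarith [T.v_nonneg hi]

theorem step_add {X : ℝ} (hX : 0 ≤ X) : X + min (T.v T.h) X ≤ T.step X := by
  obtain ⟨i, hi, he⟩ := T.exists_step_eq X
  rw [he]
  rcases eq_or_ne i 0 with rfl | h0
  · have hh : T.h = 0 := Nat.le_zero.1 (T.mem_range hi).1
    rw [hh, pow_zero, one_mul]
    linarith [min_le_left (T.v 0) X]
  · have h1 : (2 : ℝ) * X ≤ (T.p : ℝ) ^ i * X := by
      refine mul_le_mul_of_nonneg_right ?_ hX
      exact le_trans (by exact_mod_cast T.two_le) (le_self_pow₀ T.one_lt_p.le h0)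
    linarith [T.v_nonneg hi, min_le_right (T.v T.h) X]

theorem step_pos {X : ℝ} (hX : 0 < X) : 0 < T.step X := by
  have := T.step_add hX.le
  have := lt_min T.v_h_pos hX
  linarith

theorem step_small : ∃ δ : ℝ, 0 < δ ∧ ∀ X, 0 < X → X ≤ δ →
    ∀ i ∈ T.I, i ≠ T.n → T.q * X < T.v i + (T.p : ℝ) ^ i * X := by
  have hne : (T.I.erase T.n).Nonempty := ⟨T.h, Finset.mem_erase.2 ⟨T.lt.ne, T.h_mem⟩⟩
  refine ⟨(T.I.erase T.n).inf' hne T.v / T.q, ?_, ?_⟩
  · refine div_pos ?_ T.q_pos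
    rw [Finset.lt_inf'_iff]
    intro i hi
    exact T.v_pos i (Finset.mem_of_mem_erase hi) (Finset.ne_of_mem_erase hi)
  · intro X hX hle i hi hin
    have h1 := Finset.inf'_le (f := T.v) (s := T.I.erase T.n) (Finset.mem_erase.2 ⟨hin, hi⟩)
    rw [le_div_iff₀ T.q_pos] at hle
    have h2 : (0 : ℝ) < (T.p : ℝ) ^ i * X := mul_pos (pow_pos T.p_pos i) hX
    linarith

theorem step_eq_q {X : ℝ}
    (hd : ∀ i ∈ T.I, i ≠ T.n → T.q * X ≤ T.v i + (T.p : ℝ) ^ i * X) :
    T.step X = T.q * X := by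
  refine le_antisymm (T.step_le_q X) ?_
  obtain ⟨i, hi, he⟩ := T.exists_step_eq X
  rw [he]
  rcases eq_or_ne i T.n with rfl | hne
  · rw [T.v_top, zero_add]; rfl
  · exact hd i hi hne

theorem iterate_pos {X : ℝ} (hX : 0 < X) (l : ℕ) : 0 < T.step^[l] X := by
  induction l with
  | zero => simpa using hX
  | succ l ih =>
    rw [Function.iterate_succ_apply']
    exact T.step_pos ih

theorem iterN_succ_mul (l : ℕ) (z : ℝ) :
    T.iterN (l + 1) (T.q * z) = T.step (T.iterN l z) := by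
  have h : T.q * z / T.q ^ (l + 1) = z / T.q ^ l := by
    rw [pow_succ']
    exact mul_div_mul_left _ _ T.q_pos.ne'
  rw [iterN, iterN, h, Function.iterate_succ_apply']

theorem iterN_pos {z : ℝ} (hz : 0 < z) (l : ℕ) : 0 < T.iterN l z :=
  T.iterate_pos (div_pos hz (pow_pos T.q_pos l)) l

theorem iterN_antitone (z : ℝ) : Antitone fun l => T.iterN l z := by
  refine antitone_nat_of_succ_le fun l => ?_
  simp only [iterN, Function.iterate_succ_apply]
  refine (T.step_strictMono.monotone.iterate l) ?_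
  refine (T.step_le_q _).trans (le_of_eq ?_)
  rw [pow_succ']
  field_simp [T.q_pos.ne']

theorem tendsto_div (z : ℝ) :
    Filter.Tendsto (fun l : ℕ => z / T.q ^ l) Filter.atTop (nhds 0) :=
  tendsto_const_nhds.div_atTop (tendsto_pow_atTop_atTop_of_one_lt T.one_lt_q)

theorem iterN_stable (z : ℝ) (hz : 0 < z) :
    ∃ l₀, ∀ l ≥ l₀, T.iterN l z = T.iterN l₀ z := by
  obtain ⟨δ, hδ, hsm⟩ := T.step_small
  obtain ⟨l₀, hl₀⟩ := Filter.eventually_atTop.1 ((T.tendsto_div z).eventually (ge_mem_nhds hδ))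
  refine ⟨l₀, fun l hl => ?_⟩
  induction l, hl using Nat.le_induction with
  | base => rfl
  | succ l hl ih =>
    rw [← ih, iterN, iterN, Function.iterate_succ_apply]
    congr 1
    have hpos : 0 < z / T.q ^ (l + 1) := div_pos hz (pow_pos T.q_pos _)
    rw [T.step_eq_q fun i hi hne => (hsm _ hpos (hl₀ _ (by omega)) i hi hne).le, pow_succ']
    field_simp [T.q_pos.ne']

theorem bddBelow_iterN {z : ℝ} (hz : 0 < z) : BddBelow (Set.range fun l => T.iterN l z) :=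
  ⟨0, by rintro _ ⟨l, rfl⟩; exact (T.iterN_pos hz l).le⟩

theorem N_le_iterN {z : ℝ} (hz : 0 < z) (l : ℕ) : T.N z ≤ T.iterN l z :=
  ciInf_le (T.bddBelow_iterN hz) l

/-- `p^i y` plus a constant bounds `N` above, with equality at `z`. -/
def Maj (i : ℤ) (z : ℝ) : Prop :=
  ∀ y : ℝ, 0 < y → T.N y ≤ T.N z + (T.p : ℝ) ^ i * (y - z)

theorem iterN_eventually (z : ℝ) (hz : 0 < z) : ∃ l₀, ∀ l ≥ l₀, T.iterN l z = T.N z := by
  obtain ⟨l₀, hl₀⟩ := T.iterN_stable z hz
  refine ⟨l₀, fun l hl => le_antisymm (le_ciInf fun m => ?_) (T.N_le_iterN hz l)⟩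
  rcases le_total m l with hml | hlm
  · exact T.iterN_antitone z hml
  · rw [hl₀ l hl, hl₀ m (hl.trans hlm)]

theorem N_pos {z : ℝ} (hz : 0 < z) : 0 < T.N z := by
  obtain ⟨l₀, hl₀⟩ := T.iterN_eventually z hz
  rw [← hl₀ l₀ le_rfl]
  exact T.iterN_pos hz l₀

theorem N_strictMono {y z : ℝ} (hy : 0 < y) (hz : y < z) : T.N y < T.N z := by
  obtain ⟨l₀, hl₀⟩ := T.iterN_eventually y hy
  obtain ⟨l₁, hl₁⟩ := T.iterN_eventually z (hy.trans hz)
  rw [← hl₀ (max l₀ l₁) (le_max_left _ _), ← hl₁ (max l₀ l₁) (le_max_right _ _)]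
  exact T.step_strictMono.iterate _ (div_lt_div_of_pos_right hz (pow_pos T.q_pos _))

theorem N_mono {y z : ℝ} (hy : 0 < y) (hz : y ≤ z) : T.N y ≤ T.N z := by
  rcases hz.eq_or_lt with rfl | h
  · exact le_rfl
  · exact (T.N_strictMono hy h).le

theorem N_step {z : ℝ} (hz : 0 < z) : T.N (T.q * z) = T.step (T.N z) := by
  obtain ⟨l₀, hl₀⟩ := T.iterN_eventually z hz
  obtain ⟨l₁, hl₁⟩ := T.iterN_eventually (T.q * z) (mul_pos T.q_pos hz)
  rw [← hl₀ (max l₀ l₁) (le_max_left _ _), ← hl₁ (max l₀ l₁ + 1) (by omega), T.iterN_succ_mul]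

theorem N_growth : ∃ c : ℝ, 0 < c ∧ ∀ (m : ℕ) (z : ℝ), T.q ^ m ≤ z → (m : ℝ) * c ≤ T.N z := by
  refine ⟨min (T.v T.h) (T.N 1), lt_min T.v_h_pos (T.N_pos one_pos), ?_⟩
  intro m z hz
  refine le_trans ?_ (T.N_mono (pow_pos T.q_pos m) hz)
  clear hz
  induction m with
  | zero => simpa using (T.N_pos one_pos).le
  | succ m ih =>
    rw [pow_succ', T.N_step (pow_pos T.q_pos m)]
    have h1 : T.N 1 ≤ T.N (T.q ^ m) := T.N_mono one_pos (one_le_pow₀ T.one_lt_q.le)
    have h2 := T.step_add (T.N_pos (pow_pos T.q_pos m)).le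
    have h3 : min (T.v T.h) (T.N 1) ≤ min (T.v T.h) (T.N (T.q ^ m)) := min_le_min le_rfl h1
    push_cast
    linarith

theorem N_eventually_linear : ∃ z₀, ∀ z ≥ z₀,
    T.N (T.q * z) = T.v T.h + (T.p : ℝ) ^ T.h * T.N z := by
  obtain ⟨c, hc, hg⟩ := T.N_growth
  obtain ⟨m, hm⟩ := exists_nat_gt (T.v T.h / c)
  refine ⟨T.q ^ m, fun z hz => ?_⟩
  have hzpos : 0 < z := lt_of_lt_of_le (pow_pos T.q_pos m) hz
  rw [T.N_step hzpos]
  refine le_antisymm (T.step_le T.h_mem _) ?_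
  obtain ⟨i, hi, he⟩ := T.exists_step_eq (T.N z)
  rw [he]
  rcases eq_or_ne i T.h with rfl | hne
  · exact le_rfl
  · have hlt : T.h + 1 ≤ i := Nat.lt_of_le_of_ne (T.mem_range hi).1 (Ne.symm hne)
    have hB : T.v T.h ≤ T.N z := by
      rw [div_lt_iff₀ hc] at hm
      exact hm.le.trans (hg m z hz)
    have h1 : (T.p : ℝ) ^ T.h * 2 ≤ (T.p : ℝ) ^ i := by
      refine le_trans ?_ (pow_le_pow_right₀ T.one_lt_p.le hlt)
      rw [pow_succ]
      exact mul_le_mul_of_nonneg_left (by exact_mod_cast T.two_le) (pow_pos T.p_pos _).le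
    have h2 := mul_le_mul_of_nonneg_right h1 (T.N_pos hzpos).le
    have h3 : T.N z ≤ (T.p : ℝ) ^ T.h * T.N z :=
      le_mul_of_one_le_left (T.N_pos hzpos).le (one_le_pow₀ T.one_lt_p.le)
    linarith [T.v_nonneg hi]

theorem N_pow_ge (m : ℕ) : ∃ z₀, ∀ z ≥ z₀,
    ((T.p : ℝ) ^ T.h) ^ m * T.N z ≤ T.N (T.q ^ m * z) := by
  refine ⟨1, fun z hz => ?_⟩
  have hz0 : 0 < z := lt_of_lt_of_le one_pos hz
  induction m with
  | zero => simp
  | succ m ih =>
    have hpos : 0 < T.q ^ m * z := mul_pos (pow_pos T.q_pos m) hz0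
    rw [show T.q ^ (m + 1) * z = T.q * (T.q ^ m * z) by ring, T.N_step hpos]
    refine le_trans ?_ (T.step_ge (T.N_pos hpos).le)
    rw [pow_succ', mul_assoc]
    exact mul_le_mul_of_nonneg_left ih (pow_pos T.p_pos _).le

theorem N_tendsto : Filter.Tendsto T.N Filter.atTop Filter.atTop := by
  obtain ⟨c, hc, hg⟩ := T.N_growth
  refine Filter.tendsto_atTop.2 fun b => ?_
  obtain ⟨m, hm⟩ := exists_nat_gt (b / c)
  rw [div_lt_iff₀ hc] at hm
  exact Filter.eventually_atTop.2 ⟨T.q ^ m, fun z hz => hm.le.trans (hg m z hz)⟩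

theorem N_gap_tendsto (hh : 1 ≤ T.h) {a b : ℝ} (ha : 0 < a) (hb : T.q * a ≤ b) :
    Filter.Tendsto (fun z => T.N (b * z) - T.N (a * z)) Filter.atTop Filter.atTop := by
  refine Filter.tendsto_atTop_mono' _ ?_
    (T.N_tendsto.comp (Filter.tendsto_id.const_mul_atTop ha))
  filter_upwards [Filter.eventually_gt_atTop (0 : ℝ)] with z hz
  have haz : 0 < a * z := mul_pos ha hz
  simp only [Function.comp_apply, id_eq]
  have h1 : T.N (T.q * (a * z)) ≤ T.N (b * z) := by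
    refine T.N_mono (mul_pos T.q_pos haz) ?_
    rw [← mul_assoc]
    exact mul_le_mul_of_nonneg_right hb hz.le
  rw [T.N_step haz] at h1
  have h2 := T.step_ge (T.N_pos haz).le
  have h3 : (2 : ℝ) * T.N (a * z) ≤ (T.p : ℝ) ^ T.h * T.N (a * z) := by
    refine mul_le_mul_of_nonneg_right ?_ (T.N_pos haz).le
    exact le_trans (by exact_mod_cast T.two_le)
      (le_self_pow₀ T.one_lt_p.le (by omega))
  linarith

theorem maj_antitone {y z : ℝ} {i j : ℤ} (hy : 0 < y) (hyz : y < z) (hi : T.Maj i y)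
    (hj : T.Maj j z) : j ≤ i := by
  have h1 := hi z (hy.trans hyz)
  have h2 := hj y hy
  have h3 : (T.p : ℝ) ^ j * (z - y) ≤ (T.p : ℝ) ^ i * (z - y) := by linarith
  exact (zpow_le_zpow_iff_right₀ T.one_lt_p).1 (le_of_mul_le_mul_right h3 (sub_pos.2 hyz))

theorem maj_shift {z : ℝ} {i : ℤ} (hi : T.Maj i z) (hz : 0 < z) (hlin : T.N (T.q * z) =
    T.v T.h + (T.p : ℝ) ^ T.h * T.N z) :
    T.Maj (i - ((T.n : ℤ) - T.h)) (T.q * z) := by
  intro y hy
  have hyq : 0 < y / T.q := div_pos hy T.q_pos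
  have h1 := T.N_step hyq
  rw [mul_div_cancel₀ y T.q_pos.ne'] at h1
  have h2 := mul_le_mul_of_nonneg_left (hi (y / T.q) hyq) (pow_pos T.p_pos T.h).le
  have h3 := T.step_le T.h_mem (T.N (y / T.q))
  have he : (T.p : ℝ) ^ (i - ((T.n : ℤ) - T.h)) * (y - T.q * z)
      = (T.p : ℝ) ^ T.h * ((T.p : ℝ) ^ i * (y / T.q - z)) := by
    rw [zpow_sub₀ T.p_pos.ne', zpow_sub₀ T.p_pos.ne', zpow_natCast, zpow_natCast, q]
    field_simp [T.p_pos.ne']
  rw [hlin, he, h1]
  linarith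

theorem maj_diff {z : ℝ} {i i' : ℤ} (hi : T.Maj i z) (hi' : T.Maj i' z) (hz : 0 < z)
    (hlin : T.N (T.q * z) = T.v T.h + (T.p : ℝ) ^ T.h * T.N z)
    (hex : ∃ j, T.Maj j (T.q * z)) : i - i' ≤ (T.n : ℤ) - T.h := by
  obtain ⟨_, -⟩ := hex
  have h1 := T.maj_antitone hz (lt_mul_of_one_lt_left hz T.one_lt_q) hi' (T.maj_shift hi hz hlin)
  linarith

end Trop

variable {p n : ℕ} [hp : Fact p.Prime] {F : FormalGroup (LTRing p n)}
  {K : Type} [NormedField K] [IsUltrametricDist K] [CompleteSpace K] {ψ : LTRing p n →+* K}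

omit [IsUltrametricDist K] [CompleteSpace K] in
theorem ltU_top (hn : 0 < n) : ltU p n n = 1 := by
  rw [ltU, if_neg hn.ne', dif_neg (lt_irrefl _), if_pos rfl]

/-- The Newton polygon datum of a point on the stratum `h`. -/
def tropOf (ψ : LTRing p n →+* K) {h : ℕ} (hh : h < n) (hψ : IsPoint p n ψ)
    (hst : OnStratum p n h ψ) : Trop where
  p := p
  h := h
  n := n
  I := (Finset.Icc h n).filter fun i => ψ (ltU p n i) ≠ 0
  v i := -Real.log ‖ψ (ltU p n i)‖
  two_le := hp.out.two_le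
  lt := hh
  subset := Finset.filter_subset _ _
  h_mem := Finset.mem_filter.2 ⟨Finset.mem_Icc.2 ⟨le_rfl, hh.le⟩, hst.2⟩
  n_mem := Finset.mem_filter.2 ⟨Finset.mem_Icc.2 ⟨hh.le, le_rfl⟩, by
    rw [ltU_top (Nat.lt_of_le_of_lt (Nat.zero_le h) hh), map_one]
    exact one_ne_zero⟩
  v_top := by
    rw [ltU_top (Nat.lt_of_le_of_lt (Nat.zero_le h) hh), map_one, norm_one, Real.log_one, neg_zero]
  v_pos := by
    intro i hi hne
    obtain ⟨hi1, hi2⟩ := Finset.mem_filter.1 hi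
    obtain ⟨θ, -, hθ1, hθ⟩ := hψ.contracting
    have hlt : i < n := lt_of_le_of_ne (Finset.mem_Icc.1 hi1).2 hne
    have hle := hθ _ (Ideal.subset_span (Set.mem_image_of_mem _ hlt) : ltU p n i ∈ mIdeal p n)
    exact neg_pos.2 (Real.log_neg (norm_pos_iff.2 hi2) (lt_of_le_of_lt hle hθ1))

/-- Coefficients of the additive leading part of `[p^l]`. -/
def lamCoeff (ψ : LTRing p n →+* K) : ℕ → ℕ → K
  | 0, J => if J = 0 then 1 else 0
  | l + 1, J => ∑ i ∈ (Finset.range (n + 1)).filter (· ≤ J),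
      ψ (ltU p n i) * lamCoeff ψ l (J - i) ^ p ^ i

/-- The exponents realising the minimum at the normalised valuation `z`. -/
def Act (ψ : LTRing p n →+* K) (T : Trop) (l : ℕ) (z : ℝ) : Finset ℕ :=
  (Finset.range (n * l + 1)).filter fun J =>
    ‖lamCoeff ψ l J‖ * Real.exp (-((p : ℝ) ^ J * (z / T.q ^ l))) = Real.exp (-T.iterN l z)

omit [IsUltrametricDist K] [CompleteSpace K] in
theorem mem_I {h i : ℕ} (hh : h < n) (hψ : IsPoint p n ψ) (hst : OnStratum p n h ψ) (hin : i ≤ n)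
    (hne : ψ (ltU p n i) ≠ 0) : i ∈ (tropOf ψ hh hψ hst).I :=
  Finset.mem_filter.2 ⟨Finset.mem_Icc.2 ⟨not_lt.1 fun hlt => hne (hst.1 i hlt), hin⟩, hne⟩

omit [IsUltrametricDist K] [CompleteSpace K] in
theorem norm_eq_exp_v {h i : ℕ} (hh : h < n) (hψ : IsPoint p n ψ) (hst : OnStratum p n h ψ)
    (hne : ψ (ltU p n i) ≠ 0) :
    ‖ψ (ltU p n i)‖ = Real.exp (-(tropOf ψ hh hψ hst).v i) := by
  show ‖ψ (ltU p n i)‖ = Real.exp (- -Real.log ‖ψ (ltU p n i)‖)
  rw [neg_neg, Real.exp_log (norm_pos_iff.2 hne)]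

omit hp in
theorem exp_pow_mul (i : ℕ) (Y : ℝ) :
    Real.exp (-Y) ^ p ^ i = Real.exp (-((p : ℝ) ^ i * Y)) := by
  rw [← Real.exp_nat_mul]
  push_cast
  ring_nf

omit [IsUltrametricDist K] [CompleteSpace K] in
theorem term_le {h i : ℕ} (hh : h < n) (hψ : IsPoint p n ψ) (hst : OnStratum p n h ψ) (hin : i ≤ n)
    (Y : ℝ) :
    ‖ψ (ltU p n i)‖ * Real.exp (-Y) ^ p ^ i ≤ Real.exp (-(tropOf ψ hh hψ hst).step Y) := by
  rcases eq_or_ne (ψ (ltU p n i)) 0 with h0 | hne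
  · rw [h0, norm_zero, zero_mul]
    exact (Real.exp_pos _).le
  · rw [norm_eq_exp_v hh hψ hst hne, exp_pow_mul, ← Real.exp_add]
    refine Real.exp_le_exp.2 ?_
    have := (tropOf ψ hh hψ hst).step_le (mem_I hh hψ hst hin hne) Y
    simp only [tropOf] at this ⊢
    linarith

omit [IsUltrametricDist K] [CompleteSpace K] in
theorem norm_natCast_p_lt (hn : 0 < n) (hψ : IsPoint p n ψ) : ‖(p : K)‖ < 1 := by
  obtain ⟨θ, -, hθ1, hθ⟩ := hψ.contracting
  have h0 : ltU p n 0 = (p : LTRing p n) := by rw [ltU, if_pos rfl]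
  have := hθ _ (Ideal.subset_span (Set.mem_image_of_mem _ hn) : ltU p n 0 ∈ mIdeal p n)
  rw [h0, map_natCast] at this
  exact lt_of_le_of_lt this hθ1

omit [CompleteSpace K] in
theorem norm_add_lt_of_lt {x y : K} {B : ℝ} (hx : ‖x‖ < B) (hy : ‖y‖ < B) : ‖x + y‖ < B :=
  lt_of_le_of_lt (IsUltrametricDist.norm_add_le_max x y) (max_lt hx hy)

omit [CompleteSpace K] in
theorem norm_sum_lt {ι : Type*} {s : Finset ι} {f : ι → K} {B : ℝ} (hB : 0 < B)
    (hf : ∀ i ∈ s, ‖f i‖ < B) : ‖∑ i ∈ s, f i‖ < B := by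
  classical
  induction s using Finset.induction_on with
  | empty => simpa using hB
  | @insert a s ha ih =>
    rw [Finset.sum_insert ha]
    exact norm_add_lt_of_lt (hf a (Finset.mem_insert_self _ _))
      (ih fun i hi => hf i (Finset.mem_insert_of_mem hi))

omit [CompleteSpace K] in
theorem norm_pow_sub_pow_le_mul {x y : K} {B : ℝ} (hx : ‖x‖ ≤ B) (hy : ‖y‖ ≤ B) (m : ℕ) :
    ‖x ^ m - y ^ m‖ ≤ ‖x - y‖ * B ^ (m - 1) := by
  have hB : 0 ≤ B := (norm_nonneg x).trans hx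
  rw [← geom_sum₂_mul, mul_comm, norm_mul]
  refine mul_le_mul_of_nonneg_left ?_ (norm_nonneg _)
  refine IsUltrametricDist.norm_sum_le_of_forall_le_of_nonneg (pow_nonneg hB _) fun i hi => ?_
  rw [norm_mul, norm_pow, norm_pow]
  have hle : i + (m - 1 - i) = m - 1 := by
    have := Finset.mem_range.1 hi
    omega
  rw [← hle, pow_add, hle]
  exact mul_le_mul (pow_le_pow_left₀ (norm_nonneg _) hx _) (pow_le_pow_left₀ (norm_nonneg _) hy _)
    (by positivity) (by positivity)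

omit [CompleteSpace K] in
theorem norm_add_pow_prime_sub_le {a b : K} {B : ℝ} (ha : ‖a‖ ≤ B) (hb : ‖b‖ ≤ B) :
    ‖(a + b) ^ p - (a ^ p + b ^ p)‖ ≤ ‖(p : K)‖ * B ^ p := by
  have hB : 0 ≤ B := (norm_nonneg a).trans ha
  obtain ⟨k, hk⟩ : ∃ k, p = k + 1 := ⟨p - 1, by have := hp.out.two_le; omega⟩
  have e : (a + b) ^ p - (a ^ p + b ^ p)
      = ∑ j ∈ Finset.range k, a ^ (j + 1) * b ^ (p - (j + 1)) * (p.choose (j + 1) : K) := by
    rw [add_pow, Finset.sum_range_succ, hk, Finset.sum_range_succ' _ k]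
    simp [Nat.choose_self]
    ring
  rw [e]
  refine IsUltrametricDist.norm_sum_le_of_forall_le_of_nonneg
    (mul_nonneg (norm_nonneg _) (pow_nonneg hB _)) fun j hj => ?_
  have hj' : j + 1 < p := by
    have := Finset.mem_range.1 hj
    omega
  obtain ⟨c, hc⟩ := hp.out.dvd_choose_self (Nat.succ_ne_zero j) hj'
  have hBp : B ^ p = B ^ (j + 1) * B ^ (p - (j + 1)) := by
    rw [← pow_add, Nat.add_sub_of_le hj'.le]
  rw [hc, Nat.cast_mul, norm_mul, norm_mul, norm_mul, norm_pow, norm_pow, hBp, mul_comm]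
  refine mul_le_mul (mul_le_of_le_one_right (norm_nonneg _)
    (IsUltrametricDist.norm_natCast_le_one K c)) ?_ (by positivity) (norm_nonneg _)
  exact mul_le_mul (pow_le_pow_left₀ (norm_nonneg _) ha _) (pow_le_pow_left₀ (norm_nonneg _) hb _)
    (by positivity) (by positivity)

omit [CompleteSpace K] in
theorem norm_sum_pow_prime_sub_le {ι : Type*} (s : Finset ι) (t : ι → K) {B : ℝ} (hB : 0 ≤ B)
    (ht : ∀ j ∈ s, ‖t j‖ ≤ B) :
    ‖(∑ j ∈ s, t j) ^ p - ∑ j ∈ s, t j ^ p‖ ≤ ‖(p : K)‖ * B ^ p := by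
  classical
  induction s using Finset.induction_on with
  | empty =>
    simp [zero_pow hp.out.ne_zero, mul_nonneg (norm_nonneg (p : K)) (pow_nonneg hB p)]
  | @insert a s ha ih =>
    have hs : ∀ j ∈ s, ‖t j‖ ≤ B := fun j hj => ht j (Finset.mem_insert_of_mem hj)
    rw [Finset.sum_insert ha, Finset.sum_insert ha]
    have h1 := norm_add_pow_prime_sub_le (p := p) (ht a (Finset.mem_insert_self _ _))
      (IsUltrametricDist.norm_sum_le_of_forall_le_of_nonneg hB hs)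
    have h2 := ih hs
    rw [show (t a + ∑ j ∈ s, t j) ^ p - (t a ^ p + ∑ j ∈ s, t j ^ p)
        = ((t a + ∑ j ∈ s, t j) ^ p - (t a ^ p + (∑ j ∈ s, t j) ^ p))
          + ((∑ j ∈ s, t j) ^ p - ∑ j ∈ s, t j ^ p) by ring]
    exact (IsUltrametricDist.norm_add_le_max _ _).trans (max_le h1 h2)

omit [CompleteSpace K] in
theorem norm_sum_pow_sub_le {ι : Type*} (s : Finset ι) (t : ι → K) {B : ℝ} (hB : 0 ≤ B)
    (ht : ∀ j ∈ s, ‖t j‖ ≤ B) (i : ℕ) :
    ‖(∑ j ∈ s, t j) ^ p ^ i - ∑ j ∈ s, t j ^ p ^ i‖ ≤ ‖(p : K)‖ * B ^ p ^ i := by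
  induction i with
  | zero => simp [mul_nonneg (norm_nonneg (p : K)) hB]
  | succ i ih =>
    set a := (∑ j ∈ s, t j) ^ p ^ i with ha
    set b := ∑ j ∈ s, t j ^ p ^ i with hb
    have hBi : 0 ≤ B ^ p ^ i := pow_nonneg hB _
    have hb' : ∀ j ∈ s, ‖t j ^ p ^ i‖ ≤ B ^ p ^ i := fun j hj => by
      rw [norm_pow]
      exact pow_le_pow_left₀ (norm_nonneg _) (ht j hj) _
    have hna : ‖a‖ ≤ B ^ p ^ i := by
      rw [ha, norm_pow]
      exact pow_le_pow_left₀ (norm_nonneg _)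
        (IsUltrametricDist.norm_sum_le_of_forall_le_of_nonneg hB ht) _
    have hnb : ‖b‖ ≤ B ^ p ^ i := IsUltrametricDist.norm_sum_le_of_forall_le_of_nonneg hBi hb'
    have e1 : (∑ j ∈ s, t j) ^ p ^ (i + 1) - ∑ j ∈ s, t j ^ p ^ (i + 1)
        = (a ^ p - b ^ p) + (b ^ p - ∑ j ∈ s, (t j ^ p ^ i) ^ p) := by
      simp only [ha, hb, ← pow_mul, pow_succ, sub_add_sub_cancel]
    rw [e1]
    have hpe : B ^ p ^ (i + 1) = (B ^ p ^ i) ^ p := by rw [← pow_mul, pow_succ]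
    rw [hpe]
    refine (IsUltrametricDist.norm_add_le_max _ _).trans
      (max_le ((norm_pow_sub_pow_le_mul hna hnb p).trans ?_) (norm_sum_pow_prime_sub_le s _ hBi hb'))
    calc ‖a - b‖ * (B ^ p ^ i) ^ (p - 1)
        ≤ ‖(p : K)‖ * B ^ p ^ i * (B ^ p ^ i) ^ (p - 1) :=
          mul_le_mul_of_nonneg_right ih (pow_nonneg hBi _)
      _ = ‖(p : K)‖ * (B ^ p ^ i) ^ p := by
          rw [mul_assoc, ← pow_succ', Nat.sub_add_cancel hp.out.one_le]

theorem ev_sum (hψ : IsPoint p n ψ) {ι : Type*} (s : Finset ι)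
    (f : ι → PowerSeries (LTRing p n)) {x : K} (hx : ‖x‖ < 1) :
    ev ψ (∑ i ∈ s, f i) x = ∑ i ∈ s, ev ψ (f i) x := by
  classical
  induction s using Finset.induction_on with
  | empty => simp [ev]
  | @insert a s ha ih => rw [Finset.sum_insert ha, Finset.sum_insert ha, ev_add hψ _ _ hx, ih]

/-- The key one-step estimate: `[p](x)` is `∑ u_i x^{p^i}` up to strictly smaller terms. -/
theorem pSeries_step (hn : 0 < n) (hF : HasHazewinkelLog p n F) {h : ℕ} (hh : h < n)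
    (hψ : IsPoint p n ψ) (hst : OnStratum p n h ψ) {Y : ℝ} (hY : 0 < Y) {x : K}
    (hx : ‖x‖ ≤ Real.exp (-Y)) :
    ‖ev ψ (pSeries p n F) x
        - ∑ i ∈ Finset.range (n + 1), ψ (ltU p n i) * x ^ p ^ i‖
      < Real.exp (-(tropOf ψ hh hψ hst).step Y) := by
  set T := tropOf ψ hh hψ hst with hT
  have hx1 : ‖x‖ < 1 := lt_of_le_of_lt hx (Real.exp_lt_one_iff.2 (neg_neg_iff_pos.2 hY))
  have hS : 0 < T.step Y := T.step_pos hY
  have hterm : ∀ i ∈ Finset.range (n + 1),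
      ‖ψ (ltU p n i)‖ * ‖x‖ ^ p ^ i ≤ Real.exp (-T.step Y) := fun i hi =>
    le_trans (mul_le_mul_of_nonneg_left (pow_le_pow_left₀ (norm_nonneg _) hx _) (norm_nonneg _))
      (term_le hh hψ hst (by simpa [Nat.lt_succ_iff] using hi) Y)
  obtain ⟨R, R₀, hdec⟩ := pSeries_decomp p n hn hF
  rw [hdec, ev_add hψ _ _ hx1, ev_add hψ _ _ hx1, ev_sum hψ _ _ hx1]
  simp only [ev_sum hψ _ _ hx1, ev_mul hψ _ _ hx1, ev_C hψ, ev_X_pow hψ, map_mul]
  rw [add_assoc, add_sub_cancel_left]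
  refine norm_add_lt_of_lt (norm_sum_lt (Real.exp_pos _) fun i hi =>
    norm_sum_lt (Real.exp_pos _) fun j hj => ?_) ?_
  · have h1 := norm_ev_le_one hψ (R i j) hx1
    simp only [norm_mul, norm_pow, pow_add]
    calc ‖ψ (ltU p n i)‖ * ‖ψ (ltU p n j)‖ * (‖x‖ ^ p ^ i * ‖x‖ ^ p ^ j) * ‖ev ψ (R i j) x‖
        ≤ (‖ψ (ltU p n i)‖ * ‖x‖ ^ p ^ i) * (‖ψ (ltU p n j)‖ * ‖x‖ ^ p ^ j) * 1 := by
          rw [show ∀ a b c d : ℝ, a * b * (c * d) = a * c * (b * d) by intros; ring]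
          exact mul_le_mul_of_nonneg_left h1 (by positivity)
      _ ≤ Real.exp (-T.step Y) * Real.exp (-T.step Y) := by
          rw [mul_one]
          exact mul_le_mul (hterm i hi) (hterm j hj) (by positivity) (Real.exp_pos _).le
      _ < Real.exp (-T.step Y) := by
          rw [← Real.exp_add]
          exact Real.exp_lt_exp.2 (by linarith)
  · have h1 := norm_ev_le_one hψ R₀ hx1
    have h0 : (p : LTRing p n) = ltU p n 0 := by rw [ltU, if_pos rfl]
    have h2 := hterm 0 (Finset.mem_range.2 (Nat.succ_pos n))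
    rw [pow_zero, pow_one] at h2
    simp only [norm_mul, norm_pow, h0, sq]
    calc ‖ψ (ltU p n 0)‖ * (‖x‖ * ‖x‖) * ‖ev ψ R₀ x‖
        ≤ ‖ψ (ltU p n 0)‖ * ‖x‖ * ‖x‖ * 1 := by
          rw [show ∀ a b c : ℝ, a * (b * c) = a * b * c by intros; ring]
          exact mul_le_mul_of_nonneg_left h1 (by positivity)
      _ ≤ Real.exp (-T.step Y) * Real.exp (-Y) := by
          rw [mul_one]
          exact mul_le_mul h2 hx (norm_nonneg _) (Real.exp_pos _).le
      _ < Real.exp (-T.step Y) := by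
          rw [← Real.exp_add]
          exact Real.exp_lt_exp.2 (by linarith)

omit [IsUltrametricDist K] [CompleteSpace K] in
theorem lamCoeff_eq_zero (l : ℕ) : ∀ J, n * l < J → lamCoeff ψ l J = 0 := by
  induction l with
  | zero => intro J hJ; simp [lamCoeff, show J ≠ 0 by omega]
  | succ l ih =>
    intro J hJ
    refine Finset.sum_eq_zero fun i hi => ?_
    have hin : i ≤ n := by simpa [Nat.lt_succ_iff] using (Finset.mem_filter.1 hi).1
    rw [Nat.mul_succ] at hJ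
    rw [ih (J - i) (by omega), zero_pow (pow_ne_zero _ hp.out.ne_zero), mul_zero]

omit [CompleteSpace K] in
theorem lamCoeff_bound' {h : ℕ} (hh : h < n) (hψ : IsPoint p n ψ) (hst : OnStratum p n h ψ)
    (l : ℕ) : ∀ (J : ℕ) (X : ℝ), ‖lamCoeff ψ l J‖ * Real.exp (-X) ^ p ^ J
      ≤ Real.exp (-((tropOf ψ hh hψ hst).step^[l] X)) := by
  set T := tropOf ψ hh hψ hst
  induction l with
  | zero =>
    intro J X
    rcases eq_or_ne J 0 with rfl | hJ
    · simp [lamCoeff]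
    · simpa [lamCoeff, hJ] using (Real.exp_pos _).le
  | succ l ih =>
    intro J X
    rw [Function.iterate_succ_apply']
    have hpos := pow_pos (Real.exp_pos (-X)) (p ^ J)
    show ‖∑ i ∈ (Finset.range (n + 1)).filter (· ≤ J),
      ψ (ltU p n i) * lamCoeff ψ l (J - i) ^ p ^ i‖ * _ ≤ _
    rw [← le_div_iff₀ hpos]
    refine IsUltrametricDist.norm_sum_le_of_forall_le_of_nonneg (by positivity) fun i hi => ?_
    obtain ⟨hi1, hi2⟩ := Finset.mem_filter.1 hi
    rw [le_div_iff₀ hpos, norm_mul, norm_pow, mul_assoc]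
    rw [show Real.exp (-X) ^ p ^ J = (Real.exp (-X) ^ p ^ (J - i)) ^ p ^ i by
      rw [← pow_mul, ← pow_add, Nat.sub_add_cancel hi2], ← mul_pow]
    exact le_trans (mul_le_mul_of_nonneg_left (pow_le_pow_left₀ (by positivity) (ih _ X) _)
      (norm_nonneg _)) (term_le hh hψ hst (by simpa [Nat.lt_succ_iff] using hi1) _)

omit [IsUltrametricDist K] [CompleteSpace K] in
theorem exp_div_eq {h : ℕ} (hh : h < n) (hψ : IsPoint p n ψ) (hst : OnStratum p n h ψ)
    (l J : ℕ) (z : ℝ) :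
    Real.exp (-((p : ℝ) ^ J * (z / (tropOf ψ hh hψ hst).q ^ l)))
      = Real.exp (-(z / (tropOf ψ hh hψ hst).q ^ l)) ^ p ^ J :=
  (exp_pow_mul J _).symm

omit [IsUltrametricDist K] [CompleteSpace K] in
/-- Sum over exponents of a lifted family, reindexed by the total exponent. -/
theorem sum_shift (l : ℕ) (f : ℕ → ℕ → K) :
    ∑ J ∈ Finset.range (n * (l + 1) + 1),
        ∑ i ∈ (Finset.range (n + 1)).filter (· ≤ J), f i (J - i)
      = ∑ i ∈ Finset.range (n + 1), ∑ J ∈ Finset.range (n * (l + 1) + 1 - i), f i J := by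
  simp only [Finset.sum_filter]
  rw [Finset.sum_comm]
  refine Finset.sum_congr rfl fun i hi => ?_
  have hin : i ≤ n * (l + 1) + 1 := by
    have := Finset.mem_range.1 hi
    rw [Nat.mul_succ]
    omega
  conv_lhs => rw [← Nat.add_sub_of_le hin, Finset.sum_range_add]
  rw [Finset.sum_eq_zero fun J hJ => if_neg (by have := Finset.mem_range.1 hJ; omega), zero_add]
  exact Finset.sum_congr rfl fun J _ => by rw [if_pos (Nat.le_add_right _ _), Nat.add_sub_cancel_left]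

/-- The iterate is the whole additive leading part up to strictly smaller terms. -/
theorem iterate_approx (hn : 0 < n) (hF : HasHazewinkelLog p n F) {h : ℕ} (hh : h < n)
    (hψ : IsPoint p n ψ) (hst : OnStratum p n h ψ) {D : K} {X : ℝ} (hX : 0 < X)
    (hD : ‖D‖ ≤ Real.exp (-X)) (l : ℕ) :
    (∀ J, ‖lamCoeff ψ l J * D ^ p ^ J‖ ≤ Real.exp (-((tropOf ψ hh hψ hst).step^[l] X))) ∧
    ‖(ev ψ (pSeries p n F))^[l] D
        - ∑ J ∈ Finset.range (n * l + 1), lamCoeff ψ l J * D ^ p ^ J‖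
      < Real.exp (-((tropOf ψ hh hψ hst).step^[l] X)) := by
  set T := tropOf ψ hh hψ hst with hT
  have hterm : ∀ l J, ‖lamCoeff ψ l J * D ^ p ^ J‖ ≤ Real.exp (-(T.step^[l] X)) := fun l J => by
    rw [norm_mul, norm_pow]
    exact le_trans (mul_le_mul_of_nonneg_left (pow_le_pow_left₀ (norm_nonneg _) hD _)
      (norm_nonneg _)) (lamCoeff_bound' hh hψ hst l J X)
  refine ⟨hterm l, ?_⟩
  induction l with
  | zero => simp [lamCoeff, Real.exp_pos]
  | succ l ih =>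
    rw [Function.iterate_succ_apply', Function.iterate_succ_apply']
    set x := (ev ψ (pSeries p n F))^[l] D
    set A := ∑ J ∈ Finset.range (n * l + 1), lamCoeff ψ l J * D ^ p ^ J with hA
    set Y := T.step^[l] X
    have hY : 0 < Y := T.iterate_pos hX l
    have hAB : ‖A‖ ≤ Real.exp (-Y) :=
      IsUltrametricDist.norm_sum_le_of_forall_le_of_nonneg (Real.exp_pos _).le fun J _ => hterm l J
    have hxB : ‖x‖ ≤ Real.exp (-Y) := by
      rw [← sub_add_cancel x A]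
      exact (IsUltrametricDist.norm_add_le_max _ _).trans (max_le ih.le hAB)
    have hSB : 0 < Real.exp (-T.step Y) := Real.exp_pos _
    have e2 : ∀ i ∈ Finset.range (n + 1),
        ‖ψ (ltU p n i) * x ^ p ^ i
          - ψ (ltU p n i) * ∑ J ∈ Finset.range (n * l + 1), (lamCoeff ψ l J * D ^ p ^ J) ^ p ^ i‖
          < Real.exp (-T.step Y) := by
      intro i hi
      have hin : i ≤ n := by simpa [Nat.lt_succ_iff] using hi
      rcases eq_or_ne (ψ (ltU p n i)) 0 with h0 | hne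
      · simpa [h0] using hSB
      have hpi : 1 ≤ p ^ i := Nat.one_le_pow _ _ hp.out.pos
      have h1 : ‖x ^ p ^ i - A ^ p ^ i‖ < Real.exp (-Y) ^ p ^ i :=
        calc ‖x ^ p ^ i - A ^ p ^ i‖
            ≤ ‖x - A‖ * Real.exp (-Y) ^ (p ^ i - 1) := norm_pow_sub_pow_le_mul hxB hAB _
          _ < Real.exp (-Y) * Real.exp (-Y) ^ (p ^ i - 1) :=
              mul_lt_mul_of_pos_right ih (pow_pos (Real.exp_pos _) _)
          _ = Real.exp (-Y) ^ p ^ i := by rw [← pow_succ', Nat.sub_add_cancel hpi]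
      have h2 : ‖A ^ p ^ i - ∑ J ∈ Finset.range (n * l + 1), (lamCoeff ψ l J * D ^ p ^ J) ^ p ^ i‖
          < Real.exp (-Y) ^ p ^ i :=
        lt_of_le_of_lt (norm_sum_pow_sub_le _ _ (Real.exp_pos _).le (fun J _ => hterm l J) i)
          (mul_lt_of_lt_one_left (pow_pos (Real.exp_pos _) _) (norm_natCast_p_lt hn hψ))
      have h3 := norm_add_lt_of_lt h1 h2
      rw [sub_add_sub_cancel] at h3
      rw [← mul_sub, norm_mul]
      exact lt_of_lt_of_le (mul_lt_mul_of_pos_left h3 (norm_pos_iff.2 hne))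
        (term_le hh hψ hst hin Y)
    have e3 : ∑ i ∈ Finset.range (n + 1),
          ψ (ltU p n i) * ∑ J ∈ Finset.range (n * l + 1), (lamCoeff ψ l J * D ^ p ^ J) ^ p ^ i
        = ∑ J ∈ Finset.range (n * (l + 1) + 1), lamCoeff ψ (l + 1) J * D ^ p ^ J := by
      have := sum_shift (n := n) l fun i J =>
        ψ (ltU p n i) * (lamCoeff ψ l J * D ^ p ^ J) ^ p ^ i
      refine Eq.trans ?_ (this.symm.trans ?_)
      · refine Finset.sum_congr rfl fun i hi => ?_
        have hin : i ≤ n := by simpa [Nat.lt_succ_iff] using hi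
        rw [Finset.mul_sum]
        refine Finset.sum_subset (Finset.range_mono (by rw [Nat.mul_succ]; omega)) fun J _ hJ => ?_
        rw [lamCoeff_eq_zero l J (by simpa [Nat.lt_succ_iff] using hJ), zero_mul,
          zero_pow (pow_ne_zero _ hp.out.ne_zero), mul_zero]
      · refine Finset.sum_congr rfl fun J _ => ?_
        show _ = (∑ i ∈ (Finset.range (n + 1)).filter (· ≤ J),
          ψ (ltU p n i) * lamCoeff ψ l (J - i) ^ p ^ i) * D ^ p ^ J
        rw [Finset.sum_mul]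
        refine Finset.sum_congr rfl fun i hi => ?_
        rw [mul_pow, ← pow_mul, ← pow_add, Nat.sub_add_cancel (Finset.mem_filter.1 hi).2, mul_assoc]
    have h4 := norm_sum_lt hSB e2
    rw [Finset.sum_sub_distrib, e3] at h4
    have h5 := norm_add_lt_of_lt (pSeries_step hn hF hh hψ hst hY hxB) h4
    rwa [sub_add_sub_cancel] at h5

theorem lamCoeff_bound {h : ℕ} (hh : h < n) (hψ : IsPoint p n ψ) (hst : OnStratum p n h ψ)
    (l J : ℕ) (z : ℝ) (hz : 0 < z) :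
    ‖lamCoeff ψ l J‖ * Real.exp (-((p : ℝ) ^ J * (z / (tropOf ψ hh hψ hst).q ^ l)))
      ≤ Real.exp (-(tropOf ψ hh hψ hst).iterN l z) := by
  rw [exp_div_eq hh hψ hst]
  exact lamCoeff_bound' hh hψ hst l J _

theorem leading_iterate (hn : 0 < n) (hF : HasHazewinkelLog p n F) {h : ℕ} (hh : h < n)
    (hψ : IsPoint p n ψ) (hst : OnStratum p n h ψ) (l : ℕ) {D : K} {z : ℝ} (hz : 0 < z)
    (hD : ‖D‖ = Real.exp (-(z / (tropOf ψ hh hψ hst).q ^ l))) :
    ‖(ev ψ (pSeries p n F))^[l] D - ∑ J ∈ Act ψ (tropOf ψ hh hψ hst) l z,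
        lamCoeff ψ l J * D ^ p ^ J‖ < Real.exp (-(tropOf ψ hh hψ hst).iterN l z) := by
  set T := tropOf ψ hh hψ hst with hT
  obtain ⟨hterm, happ⟩ := iterate_approx hn hF hh hψ hst
    (div_pos hz (pow_pos T.q_pos l)) hD.le l
  have hrest : ‖∑ J ∈ Finset.range (n * l + 1) \ Act ψ T l z, lamCoeff ψ l J * D ^ p ^ J‖
      < Real.exp (-T.iterN l z) := by
    refine norm_sum_lt (Real.exp_pos _) fun J hJ => lt_of_le_of_ne (hterm J) fun he => ?_
    obtain ⟨hJ1, hJ2⟩ := Finset.mem_sdiff.1 hJ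
    refine hJ2 (Finset.mem_filter.2 ⟨hJ1, ?_⟩)
    rw [norm_mul, norm_pow, hD, ← exp_div_eq hh hψ hst] at he
    exact he
  have hsum := Finset.sum_sdiff (s₁ := Act ψ T l z) (s₂ := Finset.range (n * l + 1))
    (f := fun J => lamCoeff ψ l J * D ^ p ^ J) (Finset.filter_subset _ _)
  have h2 := norm_add_lt_of_lt happ hrest
  rw [← hsum, sub_add_eq_sub_sub, sub_right_comm, sub_add_cancel] at h2
  exact h2

theorem norm_iterate_le (hn : 0 < n) (hF : HasHazewinkelLog p n F) {h : ℕ} (hh : h < n)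
    (hψ : IsPoint p n ψ) (hst : OnStratum p n h ψ) (l : ℕ) {D : K} {z : ℝ} (hz : 0 < z)
    (hD : ‖D‖ ≤ Real.exp (-(z / (tropOf ψ hh hψ hst).q ^ l))) :
    ‖(ev ψ (pSeries p n F))^[l] D‖ ≤ Real.exp (-(tropOf ψ hh hψ hst).iterN l z) := by
  obtain ⟨hterm, happ⟩ := iterate_approx hn hF hh hψ hst
    (div_pos hz (pow_pos (tropOf ψ hh hψ hst).q_pos l)) hD l
  rw [← sub_add_cancel ((ev ψ (pSeries p n F))^[l] D)
    (∑ J ∈ Finset.range (n * l + 1), lamCoeff ψ l J * D ^ p ^ J)]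
  exact (IsUltrametricDist.norm_add_le_max _ _).trans (max_le happ.le
    (IsUltrametricDist.norm_sum_le_of_forall_le_of_nonneg (Real.exp_pos _).le fun J _ => hterm J))

omit [CompleteSpace K] in
/-- The top active exponent propagates along the top minimiser. -/
theorem hit_succ {h : ℕ} (hh : h < n) (hψ : IsPoint p n ψ) (hst : OnStratum p n h ψ) (l : ℕ)
    (X : ℝ) {i₀ J₀ : ℕ} (hi₀ : i₀ ∈ (tropOf ψ hh hψ hst).I)
    (hieq : (tropOf ψ hh hψ hst).step ((tropOf ψ hh hψ hst).step^[l] X)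
      = (tropOf ψ hh hψ hst).v i₀ + (p : ℝ) ^ i₀ * (tropOf ψ hh hψ hst).step^[l] X)
    (himax : ∀ i ∈ (tropOf ψ hh hψ hst).I, (tropOf ψ hh hψ hst).step
        ((tropOf ψ hh hψ hst).step^[l] X)
      = (tropOf ψ hh hψ hst).v i + (p : ℝ) ^ i * (tropOf ψ hh hψ hst).step^[l] X → i ≤ i₀)
    (hJ : ‖lamCoeff ψ l J₀‖ * Real.exp (-X) ^ p ^ J₀
      = Real.exp (-((tropOf ψ hh hψ hst).step^[l] X)))
    (hJmax : ∀ J, ‖lamCoeff ψ l J‖ * Real.exp (-X) ^ p ^ J
      = Real.exp (-((tropOf ψ hh hψ hst).step^[l] X)) → J ≤ J₀) :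
    ‖lamCoeff ψ (l + 1) (J₀ + i₀)‖ * Real.exp (-X) ^ p ^ (J₀ + i₀)
      = Real.exp (-((tropOf ψ hh hψ hst).step^[l + 1] X)) := by
  set T := tropOf ψ hh hψ hst with hT
  rw [Function.iterate_succ_apply']
  set Y := T.step^[l] X with hY
  obtain ⟨hi1, hi2⟩ := Finset.mem_filter.1 hi₀
  obtain ⟨hhi, hin⟩ := Finset.mem_Icc.1 hi1
  set ε := Real.exp (-X) ^ p ^ (J₀ + i₀) with hε
  have hεpos : 0 < ε := pow_pos (Real.exp_pos _) _
  set t : ℕ → K := fun i => ψ (ltU p n i) * lamCoeff ψ l (J₀ + i₀ - i) ^ p ^ i with ht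
  have hval : ∀ i ≤ J₀ + i₀, ‖t i‖ * ε
      = ‖ψ (ltU p n i)‖
        * (‖lamCoeff ψ l (J₀ + i₀ - i)‖ * Real.exp (-X) ^ p ^ (J₀ + i₀ - i)) ^ p ^ i := by
    intro i hi
    rw [ht, norm_mul, norm_pow, mul_assoc, hε, mul_pow, ← pow_mul, ← pow_add, Nat.sub_add_cancel hi]
  have hmain : ‖t i₀‖ * ε = Real.exp (-T.step Y) := by
    rw [hval i₀ (Nat.le_add_left _ _), Nat.add_sub_cancel, hJ, norm_eq_exp_v hh hψ hst hi2,
      exp_pow_mul, ← Real.exp_add, hieq, hY, hT]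
    ring_nf
  have hother : ∀ i ∈ ((Finset.range (n + 1)).filter (· ≤ J₀ + i₀)).erase i₀,
      ‖t i‖ < ‖t i₀‖ := by
    intro i hi
    obtain ⟨hne, hi⟩ := Finset.mem_erase.1 hi
    obtain ⟨hr, hle⟩ := Finset.mem_filter.1 hi
    have hin' : i ≤ n := by simpa [Nat.lt_succ_iff] using hr
    refine lt_of_mul_lt_mul_right ?_ hεpos.le
    rw [hmain, hval i hle]
    rcases eq_or_ne (ψ (ltU p n i)) 0 with h0 | hu
    · rw [h0, norm_zero, zero_mul]
      exact Real.exp_pos _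
    have hb := lamCoeff_bound' hh hψ hst l (J₀ + i₀ - i) X
    rcases hb.lt_or_eq with hlt | heq
    · exact lt_of_lt_of_le (mul_lt_mul_of_pos_left (pow_lt_pow_left₀ hlt (by positivity)
        (pow_ne_zero _ hp.out.ne_zero)) (norm_pos_iff.2 hu)) (term_le hh hψ hst hin' Y)
    · have hJle := hJmax _ heq
      have hilt : i₀ < i := by omega
      rw [heq, norm_eq_exp_v hh hψ hst hu, exp_pow_mul, ← Real.exp_add]
      refine Real.exp_lt_exp.2 ?_
      have hI := mem_I hh hψ hst hin' hu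
      have h1 : T.step Y ≠ T.v i + (p : ℝ) ^ i * Y := fun he => absurd (himax i hI he) (by omega)
      have h2 := lt_of_le_of_ne (T.step_le hI Y) (by simpa [hT, tropOf] using h1)
      simp only [hT, tropOf] at h2 ⊢
      simp only [hY, hT, tropOf] at h2 ⊢
      linarith
  show ‖∑ i ∈ (Finset.range (n + 1)).filter (· ≤ J₀ + i₀), t i‖ * ε = _
  rw [← Finset.add_sum_erase _ t (Finset.mem_filter.2
    ⟨Finset.mem_range.2 (Nat.lt_succ_of_le hin), Nat.le_add_left _ _⟩)]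
  have hpos : 0 < ‖t i₀‖ := by
    by_contra hcon
    have h0 : ‖t i₀‖ = 0 := le_antisymm (not_lt.1 hcon) (norm_nonneg _)
    rw [h0, zero_mul] at hmain
    exact (Real.exp_pos _).ne hmain
  have hsum := norm_sum_lt hpos hother
  rw [IsUltrametricDist.norm_add_eq_max_of_norm_ne_norm hsum.ne', max_eq_left hsum.le, hmain]

omit [CompleteSpace K] in
theorem hit_exists {h : ℕ} (hh : h < n) (hψ : IsPoint p n ψ) (hst : OnStratum p n h ψ) (l : ℕ)
    (X : ℝ) :
    ∃ J, ‖lamCoeff ψ l J‖ * Real.exp (-X) ^ p ^ J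
      = Real.exp (-((tropOf ψ hh hψ hst).step^[l] X)) := by
  classical
  set T := tropOf ψ hh hψ hst with hT
  induction l with
  | zero => exact ⟨0, by simp [lamCoeff]⟩
  | succ l ih =>
    obtain ⟨J, hJ⟩ := ih
    set P : ℕ → Prop := fun J => ‖lamCoeff ψ l J‖ * Real.exp (-X) ^ p ^ J
      = Real.exp (-(T.step^[l] X)) with hP
    have hle : ∀ J, P J → J ≤ n * l := fun J hJ => by
      by_contra hcon
      rw [hP, lamCoeff_eq_zero l J (not_le.1 hcon), norm_zero, zero_mul] at hJ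
      exact (Real.exp_pos _).ne hJ
    set S := T.I.filter fun i => T.step (T.step^[l] X) = T.v i + (p : ℝ) ^ i * T.step^[l] X
    have hS : S.Nonempty := by
      obtain ⟨i, hi, he⟩ := T.exists_step_eq (T.step^[l] X)
      exact ⟨i, Finset.mem_filter.2 ⟨hi, he⟩⟩
    obtain ⟨h1, h2⟩ := Finset.mem_filter.1 (S.max'_mem hS)
    exact ⟨_, hit_succ hh hψ hst l X h1 h2
      (fun i hi he => S.le_max' i (Finset.mem_filter.2 ⟨hi, he⟩))
      (Nat.findGreatest_spec (P := P) (hle J hJ) hJ)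
      (fun J' hJ' => Nat.le_findGreatest (P := P) (hle J' hJ') hJ')⟩

omit [IsUltrametricDist K] [CompleteSpace K] in
theorem mem_Act_iff {h : ℕ} (hh : h < n) (hψ : IsPoint p n ψ) (hst : OnStratum p n h ψ) {l J : ℕ}
    {z : ℝ} :
    J ∈ Act ψ (tropOf ψ hh hψ hst) l z ↔
      ‖lamCoeff ψ l J‖ * Real.exp (-(z / (tropOf ψ hh hψ hst).q ^ l)) ^ p ^ J
        = Real.exp (-(tropOf ψ hh hψ hst).iterN l z) := by
  rw [Act, Finset.mem_filter, exp_div_eq hh hψ hst, Finset.mem_range]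
  refine ⟨fun h => h.2, fun h => ⟨?_, h⟩⟩
  by_contra hcon
  rw [lamCoeff_eq_zero l J (by omega), norm_zero, zero_mul] at h
  exact (Real.exp_pos _).ne h

/-- For large `l` the active exponents are affine majorants; the largest one shifts. -/
theorem act_spec {h : ℕ} (hh : h < n) (hψ : IsPoint p n ψ) (hst : OnStratum p n h ψ) {z : ℝ}
    (hz : 0 < z) :
    ∃ l₀, ∀ l ≥ l₀,
      (Act ψ (tropOf ψ hh hψ hst) l z).Nonempty ∧
      ∀ J ∈ Act ψ (tropOf ψ hh hψ hst) l z,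
        (tropOf ψ hh hψ hst).Maj ((J : ℤ) - n * l) z := by
  set T := tropOf ψ hh hψ hst with hT
  obtain ⟨l₀, hl₀⟩ := T.iterN_eventually z hz
  refine ⟨l₀, fun l hl => ⟨?_, fun J hJ y hy => ?_⟩⟩
  · obtain ⟨J, hJ⟩ := hit_exists hh hψ hst l (z / T.q ^ l)
    exact ⟨J, (mem_Act_iff hh hψ hst).2 hJ⟩
  · have he := (mem_Act_iff hh hψ hst).1 hJ
    rw [← exp_div_eq hh hψ hst] at he
    have hb := lamCoeff_bound hh hψ hst l J y hy
    have hc : ‖lamCoeff ψ l J‖
        = Real.exp (-T.iterN l z + (p : ℝ) ^ J * (z / T.q ^ l)) := by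
      rw [Real.exp_add, ← he, mul_assoc, ← Real.exp_add, neg_add_cancel, Real.exp_zero, mul_one]
    rw [hc, ← Real.exp_add, Real.exp_le_exp, hl₀ l hl] at hb
    refine (T.N_le_iterN hy l).trans ?_
    have hq : (T.p : ℝ) ^ ((J : ℤ) - n * l) * (y - z)
        = (p : ℝ) ^ J * (y / T.q ^ l) - (p : ℝ) ^ J * (z / T.q ^ l) := by
      show (p : ℝ) ^ ((J : ℤ) - n * l) * (y - z)
        = (p : ℝ) ^ J * (y / ((p : ℝ) ^ n) ^ l) - (p : ℝ) ^ J * (z / ((p : ℝ) ^ n) ^ l)
      rw [zpow_sub₀ (Nat.cast_ne_zero.2 hp.out.ne_zero), ← Nat.cast_mul, zpow_natCast, zpow_natCast,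
        pow_mul]
      ring
    rw [hq]
    linarith

theorem act_succ {h : ℕ} (hh : h < n) (hψ : IsPoint p n ψ) (hst : OnStratum p n h ψ) :
    ∃ z₀, ∀ z ≥ z₀, ∃ l₀, ∀ l ≥ l₀,
      ∀ (hne : (Act ψ (tropOf ψ hh hψ hst) l z).Nonempty),
        (Act ψ (tropOf ψ hh hψ hst) l z).max' hne + h
          ∈ Act ψ (tropOf ψ hh hψ hst) (l + 1) ((tropOf ψ hh hψ hst).q * z) := by
  set T := tropOf ψ hh hψ hst with hT
  obtain ⟨z₀, hz₀⟩ := Filter.eventually_atTop.1
    ((T.N_tendsto.eventually (Filter.eventually_gt_atTop (T.v T.h))).and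
      (Filter.eventually_gt_atTop (0 : ℝ)))
  refine ⟨z₀, fun z hz => ⟨0, fun l _ hne => ?_⟩⟩
  obtain ⟨hB, hzpos⟩ := hz₀ z hz
  have hY : T.v T.h < T.iterN l z := lt_of_lt_of_le hB (T.N_le_iterN hzpos l)
  have hYpos : 0 < T.iterN l z := T.iterN_pos hzpos l
  have honly : ∀ i ∈ T.I, i ≠ T.h →
      T.v T.h + (p : ℝ) ^ h * T.iterN l z < T.v i + (p : ℝ) ^ i * T.iterN l z := by
    intro i hi hih
    have hlt : h + 1 ≤ i := Nat.lt_of_le_of_ne (T.mem_range hi).1 (Ne.symm hih)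
    have hp1 : (1 : ℝ) ≤ p := by exact_mod_cast hp.out.one_le
    have h1 : (p : ℝ) ^ h * 2 ≤ (p : ℝ) ^ i := by
      refine le_trans ?_ (pow_le_pow_right₀ hp1 hlt)
      rw [pow_succ]
      exact mul_le_mul_of_nonneg_left (by exact_mod_cast hp.out.two_le) (by positivity)
    have h2 := mul_le_mul_of_nonneg_right h1 hYpos.le
    have h3 : T.iterN l z ≤ (p : ℝ) ^ h * T.iterN l z :=
      le_mul_of_one_le_left hYpos.le (one_le_pow₀ hp1)
    linarith [T.v_nonneg hi]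
  have hstep : T.step (T.iterN l z) = T.v T.h + (p : ℝ) ^ h * T.iterN l z := by
    refine le_antisymm (T.step_le T.h_mem _) ?_
    obtain ⟨i, hi, he⟩ := T.exists_step_eq (T.iterN l z)
    rw [he]
    rcases eq_or_ne i T.h with rfl | hih
    · exact le_rfl
    · exact (honly i hi hih).le
  have hX : T.q * z / T.q ^ (l + 1) = z / T.q ^ l := by
    rw [pow_succ']
    exact mul_div_mul_left _ _ T.q_pos.ne'
  rw [mem_Act_iff hh hψ hst, ← hT, Trop.iterN, hX]
  refine hit_succ hh hψ hst l (z / T.q ^ l) T.h_mem hstep (fun i hi he => ?_)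
    ((mem_Act_iff hh hψ hst).1 ((Act ψ T l z).max'_mem hne))
    (fun J hJ => (Act ψ T l z).le_max' J ((mem_Act_iff hh hψ hst).2 hJ))
  by_contra hcon
  exact (honly i hi fun hih => hcon (le_of_eq hih)).ne (hstep.symm.trans he)

/-- Characters `a ↦ a^{p^J}` separate exponents which are distinct modulo `n`. -/
theorem norm_char_le (hn : 0 < n) (hψ : IsPoint p n ψ) (s : Finset ℕ)
    (hs : ∀ J ∈ s, ∀ J' ∈ s, J % n = J' % n → J = J') (c : ℕ → K) {B : ℝ} (hB : 0 ≤ B)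
    (hbd : ∀ a : GaloisField p n, ‖∑ J ∈ s, c J * ψ (teich p n a) ^ p ^ J‖ ≤ B) :
    ∀ J ∈ s, ‖c J‖ ≤ B := by
  classical
  intro J₀ hJ₀
  haveI : Fintype (GaloisField p n) := Fintype.ofFinite _
  have hcard : Fintype.card (GaloisField p n) = p ^ n := by
    rw [← Nat.card_eq_fintype_card, GaloisField.card p n hn.ne']
  set ε : GaloisField p n →* K :=
    ((ψ : LTRing p n →* K).comp (MvPowerSeries.C : _ →+* LTRing p n).toMonoidHom).comp
      (WittVector.teichmuller p) with hεdef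
  have hεa : ∀ a, ε a = ψ (teich p n a) := fun a => rfl
  -- two units with different residues stay apart
  have hinj : ∀ a : GaloisField p n, a ≠ 1 → a ≠ 0 → ε a ≠ 1 := by
    intro a ha1 _ he
    have hu : IsUnit (teich p n a - 1) := by
      rw [MvPowerSeries.isUnit_iff_constantCoeff, map_sub, map_one, teich,
        MvPowerSeries.constantCoeff_C]
      refine WittVector.isUnit_of_coeff_zero_ne_zero _ ?_
      rw [show ((WittVector.teichmuller p a : WittVector p (GaloisField p n)) - 1).coeff 0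
        = a - 1 from ?_]
      · exact sub_ne_zero.2 ha1
      · have := map_sub (WittVector.constantCoeff (p := p) (R := GaloisField p n))
          (WittVector.teichmuller p a) 1
        simpa [WittVector.constantCoeff, WittVector.teichmuller_coeff_zero] using this
    have h0 := hu.map ψ
    rw [map_sub, map_one, ← hεa, he, sub_self] at h0
    exact not_isUnit_zero h0
  have hnorm : ∀ a : (GaloisField p n)ˣ, ‖ε a‖ ≤ 1 := fun a => hψ.le_one _
  let χ : ℕ → (GaloisField p n)ˣ →* K := fun J =>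
    { toFun := fun a => ε ((a : GaloisField p n) ^ p ^ J * ((a⁻¹ : _ˣ) : GaloisField p n) ^ p ^ J₀)
      map_one' := by simp
      map_mul' := fun a b => by rw [← map_mul]; congr 1; simp [mul_pow]; ring }
  have horth : ∀ J ∈ s, J ≠ J₀ → ∑ a, χ J a = 0 := by
    intro J hJ hne
    obtain ⟨g, hg⟩ := IsCyclic.exists_generator (α := (GaloisField p n)ˣ)
    have hord : orderOf g = p ^ n - 1 := by
      rw [orderOf_eq_card_of_forall_mem_zpowers hg, Nat.card_eq_fintype_card, Fintype.card_units,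
        hcard]
    have hgne : χ J g ≠ 1 := by
      refine hinj _ ?_ (mul_ne_zero (pow_ne_zero _ g.ne_zero) (pow_ne_zero _ (g⁻¹).ne_zero))
      intro he
      rw [← Units.val_pow_eq_pow_val, ← Units.val_pow_eq_pow_val, inv_pow, ← Units.val_mul,
        Units.val_eq_one, mul_inv_eq_one, pow_eq_pow_iff_modEq, hord] at he
      refine hne (hs J hJ J₀ hJ₀ ?_)
      have hq1 : 1 ≤ p ^ n := Nat.one_le_pow _ _ hp.out.pos
      have hred : ∀ J : ℕ, p ^ J ≡ p ^ (J % n) [MOD p ^ n - 1] := fun J => by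
        conv_lhs => rw [← Nat.mod_add_div J n, pow_add, pow_mul]
        have h1 : p ^ n ≡ 1 [MOD p ^ n - 1] := ((Nat.modEq_iff_dvd' hq1).2 dvd_rfl).symm
        simpa using Nat.ModEq.mul_left (p ^ (J % n)) (h1.pow (J / n))
      have hlt : ∀ r, r < n → p ^ r ≤ p ^ n - 1 := fun r hr => by
        have := Nat.pow_lt_pow_right hp.out.one_lt hr
        omega
      have h2 := ((hred J).symm.trans he).trans (hred J₀)
      refine Nat.pow_right_injective hp.out.two_le (?_ : p ^ (J % n) = p ^ (J₀ % n))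
      have a1 := hlt _ (Nat.mod_lt J hn)
      have a2 := hlt _ (Nat.mod_lt J₀ hn)
      have b1 : 1 ≤ p ^ (J % n) := Nat.one_le_pow _ _ hp.out.pos
      have b2 : 1 ≤ p ^ (J₀ % n) := Nat.one_le_pow _ _ hp.out.pos
      rcases le_total (p ^ (J % n)) (p ^ (J₀ % n)) with hle | hle
      · have := Nat.eq_zero_of_dvd_of_lt ((Nat.modEq_iff_dvd' hle).1 h2) (by omega)
        omega
      · have := Nat.eq_zero_of_dvd_of_lt ((Nat.modEq_iff_dvd' hle).1 h2.symm) (by omega)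
        omega
    have h1 : χ J g * ∑ a, χ J a = ∑ a, χ J a := by
      rw [Finset.mul_sum]
      exact Fintype.sum_equiv (Equiv.mulLeft g) _ _ fun a => (map_mul (χ J) g a).symm
    have h2 : (χ J g - 1) * ∑ a, χ J a = 0 := by rw [sub_mul, h1, one_mul, sub_self]
    exact (mul_eq_zero.1 h2).resolve_left (sub_ne_zero.2 hgne)
  have hdiag : ∀ a, χ J₀ a = 1 := fun a => by
    show ε _ = 1
    rw [← mul_pow, Units.mul_inv, one_pow, map_one]
  have hterm : ∀ a : (GaloisField p n)ˣ, ∑ J ∈ s, c J * χ J a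
      = ε (((a⁻¹ : _ˣ) : GaloisField p n) ^ p ^ J₀)
        * ∑ J ∈ s, c J * ψ (teich p n a) ^ p ^ J := fun a => by
    rw [Finset.mul_sum]
    refine Finset.sum_congr rfl fun J _ => ?_
    show c J * ε _ = _
    rw [map_mul, map_pow ε (a : GaloisField p n), hεa]
    ring
  have htot : ∑ a : (GaloisField p n)ˣ, ∑ J ∈ s, c J * χ J a = ((p ^ n - 1 : ℕ) : K) * c J₀ := by
    rw [Finset.sum_comm, Finset.sum_eq_single_of_mem J₀ hJ₀ fun J hJ hne => by
      rw [← Finset.mul_sum, horth J hJ hne, mul_zero]]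
    simp [hdiag, Fintype.card_units, hcard]
  have hq : ‖((p ^ n - 1 : ℕ) : K)‖ = 1 := by
    rw [Nat.cast_sub (Nat.one_le_pow _ _ hp.out.pos), Nat.cast_one, Nat.cast_pow, sub_eq_add_neg]
    have h1 : ‖(p : K) ^ n‖ < 1 := by
      rw [norm_pow]
      exact pow_lt_one₀ (norm_nonneg _) (norm_natCast_p_lt hn hψ) hn.ne'
    rw [IsUltrametricDist.norm_add_eq_max_of_norm_ne_norm (by rw [norm_neg, norm_one]; exact h1.ne),
      norm_neg, norm_one, max_eq_right h1.le]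
  have hle : ‖∑ a : (GaloisField p n)ˣ, ∑ J ∈ s, c J * χ J a‖ ≤ B := by
    refine IsUltrametricDist.norm_sum_le_of_forall_le_of_nonneg hB fun a _ => ?_
    rw [hterm, norm_mul, map_pow, norm_pow]
    exact le_trans (mul_le_of_le_one_left (norm_nonneg _) (pow_le_one₀ (norm_nonneg _) (hnorm _)))
      (hbd _)
  rwa [htot, norm_mul, hq, one_mul] at hle

theorem norm_pSeries_le (hn : 0 < n) (hF : HasHazewinkelLog p n F) {h : ℕ} (hh : h < n)
    (hψ : IsPoint p n ψ) (hst : OnStratum p n h ψ) {Y : ℝ} (hY : 0 < Y) {x : K}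
    (hx : ‖x‖ ≤ Real.exp (-Y)) :
    ‖ev ψ (pSeries p n F) x‖ ≤ Real.exp (-(tropOf ψ hh hψ hst).step Y) := by
  rw [← sub_add_cancel (ev ψ (pSeries p n F) x)
    (∑ i ∈ Finset.range (n + 1), ψ (ltU p n i) * x ^ p ^ i)]
  refine (IsUltrametricDist.norm_add_le_max _ _).trans (max_le
    (pSeries_step hn hF hh hψ hst hY hx).le ?_)
  refine IsUltrametricDist.norm_sum_le_of_forall_le_of_nonneg (Real.exp_pos _).le fun i hi => ?_
  rw [norm_mul, norm_pow]
  exact le_trans (mul_le_mul_of_nonneg_left (pow_le_pow_left₀ (norm_nonneg _) hx _) (norm_nonneg _))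
    (term_le hh hψ hst (by simpa [Nat.lt_succ_iff] using hi) Y)

/-- In the regime where the top line is the only minimiser, `[p]` multiplies valuations by `q`. -/
theorem norm_pSeries_eq (hn : 0 < n) (hF : HasHazewinkelLog p n F) {h : ℕ} (hh : h < n)
    (hψ : IsPoint p n ψ) (hst : OnStratum p n h ψ) {Y : ℝ} (hY : 0 < Y) {x : K}
    (hd : ∀ i ∈ (tropOf ψ hh hψ hst).I, i ≠ n →
      (tropOf ψ hh hψ hst).q * Y < (tropOf ψ hh hψ hst).v i + (p : ℝ) ^ i * Y)
    (hx : ‖x‖ = Real.exp (-Y)) :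
    ‖ev ψ (pSeries p n F) x‖ = Real.exp (-((tropOf ψ hh hψ hst).q * Y)) := by
  set T := tropOf ψ hh hψ hst with hT
  have hs := pSeries_step hn hF hh hψ hst hY hx.le
  rw [← hT, T.step_eq_q fun i hi hne => (hd i hi hne).le] at hs
  rw [Finset.sum_range_succ, ltU_top hn, map_one, one_mul, sub_add_eq_sub_sub] at hs
  have htop : ‖x ^ p ^ n‖ = Real.exp (-(T.q * Y)) := by
    rw [norm_pow, hx, exp_pow_mul]
    rfl
  have hrest : ‖∑ i ∈ Finset.range n, ψ (ltU p n i) * x ^ p ^ i‖ < Real.exp (-(T.q * Y)) := by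
    refine norm_sum_lt (Real.exp_pos _) fun i hi => ?_
    rw [norm_mul, norm_pow, hx]
    rcases eq_or_ne (ψ (ltU p n i)) 0 with h0 | hu
    · rw [h0, norm_zero, zero_mul]
      exact Real.exp_pos _
    rw [norm_eq_exp_v hh hψ hst hu, exp_pow_mul, ← Real.exp_add]
    refine Real.exp_lt_exp.2 ?_
    have := hd i (mem_I hh hψ hst (Finset.mem_range.1 hi).le hu) (Finset.mem_range.1 hi).ne
    rw [hT] at this ⊢
    linarith
  have h2 := norm_add_lt_of_lt hs hrest
  rw [sub_right_comm, sub_add_cancel] at h2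
  rw [← htop] at h2 ⊢
  rw [← sub_add_cancel (ev ψ (pSeries p n F) x) (x ^ p ^ n),
    IsUltrametricDist.norm_add_eq_max_of_norm_ne_norm h2.ne, max_eq_right h2.le]

theorem norm_natCast_eq_one (hn : 0 < n) (hψ : IsPoint p n ψ) {m : ℕ} (hm : ¬ p ∣ m) :
    ‖(m : K)‖ = 1 := by
  refine le_antisymm (IsUltrametricDist.norm_natCast_le_one K m) ?_
  obtain ⟨u, v, huv⟩ := Nat.isCoprime_iff_coprime.2 ((hp.out.coprime_iff_not_dvd).2 hm)
  have e : (u : K) * (p : K) + (v : K) * (m : K) = 1 := by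
    exact_mod_cast congrArg (fun t : ℤ => (t : K)) huv
  by_contra hcon
  have h1 : ‖(u : K) * (p : K)‖ < 1 := by
    rw [norm_mul]
    exact lt_of_le_of_lt (mul_le_of_le_one_left (norm_nonneg _)
      (IsUltrametricDist.norm_intCast_le_one K u)) (norm_natCast_p_lt hn hψ)
  have h2 : ‖(v : K) * (m : K)‖ < 1 := by
    rw [norm_mul]
    exact lt_of_le_of_lt (mul_le_of_le_one_left (norm_nonneg _)
      (IsUltrametricDist.norm_intCast_le_one K v)) (not_le.1 hcon)
  have h3 := norm_add_lt_of_lt h1 h2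
  rw [e, norm_one] at h3
  exact lt_irrefl 1 h3

section Slope

variable {h : ℕ} {x : (Fin (n - h) → ℤ_[p]) → ℕ → K}

theorem torsion_congr (hψ : IsPoint p n ψ) (hx : IsTorsion ψ F (n - h) x)
    {e e' : Fin (n - h) → ℤ_[p]} {l : ℕ} (hd : ∀ i, (p : ℤ_[p]) ^ l ∣ e' i - e i) :
    x e' l = x e l := by
  conv_lhs => rw [← add_sub_cancel e e']
  rw [hx.add, (hx.eq_zero_iff (e' - e) l).2 hd]
  exact (fadd_zero hψ (hx.norm_lt e l)).1

theorem torsion_norm_nsmul (hψ : IsPoint p n ψ) (hx : IsTorsion ψ F (n - h) x)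
    (e : Fin (n - h) → ℤ_[p]) (l m : ℕ) :
    ‖x (m • e) l - (m : K) * x e l‖ ≤ ‖x e l‖ ^ 2 := by
  induction m with
  | zero => simp [hx.zero hψ]
  | succ m ih =>
    have hb : ‖x (m • e) l‖ ≤ ‖x e l‖ := by
      rw [← sub_add_cancel (x (m • e) l) ((m : K) * x e l)]
      refine (IsUltrametricDist.norm_add_le_max _ _).trans (max_le (ih.trans ?_) ?_)
      · rw [sq]
        exact mul_le_of_le_one_left (norm_nonneg _) (hx.norm_lt e l).le
      · rw [norm_mul]
        exact mul_le_of_le_one_left (norm_nonneg _) (IsUltrametricDist.norm_natCast_le_one K m)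
    rw [succ_nsmul, hx.add, Nat.cast_succ,
      show fadd ψ F (x (m • e) l) (x e l) - ((m : K) + 1) * x e l
        = (fadd ψ F (x (m • e) l) (x e l) - (x (m • e) l + x e l))
          + (x (m • e) l - (m : K) * x e l) by ring]
    refine (IsUltrametricDist.norm_add_le_max _ _).trans (max_le ?_ ih)
    refine (norm_fadd_sub_add_le hψ (hx.norm_lt _ l) (hx.norm_lt e l)).trans ?_
    rw [sq]
    exact mul_le_mul_of_nonneg_right hb (norm_nonneg _)

theorem torsion_norm_unit (hn : 0 < n) (hψ : IsPoint p n ψ) (hx : IsTorsion ψ F (n - h) x)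
    (e : Fin (n - h) → ℤ_[p]) (c : ℤ_[p]) (hc : IsUnit c) (l : ℕ) :
    ‖x (c • e) l‖ = ‖x e l‖ := by
  set m := PadicInt.appr c (l + 1) with hm
  have hspec : (p : ℤ_[p]) ^ (l + 1) ∣ c - (m : ℤ_[p]) :=
    Ideal.mem_span_singleton.1 (PadicInt.appr_spec (l + 1) c)
  have hpm : ¬ p ∣ m := by
    intro hdvd
    have h1 : (p : ℤ_[p]) ∣ c := by
      have := dvd_add ((dvd_pow_self _ (Nat.succ_ne_zero l)).trans hspec)
        (Nat.cast_dvd_cast (α := ℤ_[p]) hdvd)
      rwa [sub_add_cancel] at this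
    exact PadicInt.prime_p.not_unit (isUnit_of_dvd_unit h1 hc)
  have heq : x (c • e) l = x (m • e) l := by
    refine torsion_congr hψ hx fun i => ?_
    have h1 := ((pow_dvd_pow (p : ℤ_[p]) (Nat.le_succ l)).trans hspec).mul_right (e i)
    simpa [sub_mul] using h1
  rw [heq]
  rcases eq_or_ne (x e l) 0 with h0 | hne
  · have := torsion_norm_nsmul hψ hx e l m
    rw [h0, mul_zero, sub_zero, norm_zero, zero_pow two_ne_zero] at this
    rw [h0, norm_zero]
    exact le_antisymm this (norm_nonneg _)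
  · have hlt : ‖x (m • e) l - (m : K) * x e l‖ < ‖(m : K) * x e l‖ := by
      rw [norm_mul, norm_natCast_eq_one hn hψ hpm, one_mul]
      refine lt_of_le_of_lt (torsion_norm_nsmul hψ hx e l m) ?_
      rw [sq]
      exact mul_lt_of_lt_one_left (norm_pos_iff.2 hne) (hx.norm_lt e l)
    rw [← sub_add_cancel (x (m • e) l) ((m : K) * x e l),
      IsUltrametricDist.norm_add_eq_max_of_norm_ne_norm hlt.ne, max_eq_right hlt.le, norm_mul,
      norm_natCast_eq_one hn hψ hpm, one_mul]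

omit [IsUltrametricDist K] [CompleteSpace K] in
theorem torsion_ne_zero (hx : IsTorsion ψ F (n - h) x) {e : Fin (n - h) → ℤ_[p]}
    (he : ¬ ∀ i, (p : ℤ_[p]) ∣ e i) {l : ℕ} (hl : 1 ≤ l) : x e l ≠ 0 := fun h0 =>
  he fun i => (dvd_pow_self _ (by omega : l ≠ 0)).trans ((hx.eq_zero_iff e l).1 h0 i)

omit [IsUltrametricDist K] [CompleteSpace K] in
theorem exists_primitive_mul {e : Fin (n - h) → ℤ_[p]} (he : e ≠ 0) :
    ∃ (m : ℕ) (e' : Fin (n - h) → ℤ_[p]),
      (¬ ∀ i, (p : ℤ_[p]) ∣ e' i) ∧ e = ((p : ℤ_[p]) ^ m) • e' := by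
  classical
  obtain ⟨i₀, hi₀⟩ : ∃ i, e i ≠ 0 := by
    by_contra hall
    push Not at hall
    exact he (funext hall)
  have hex : ∃ m, ¬ ∀ i, (p : ℤ_[p]) ^ (m + 1) ∣ e i := by
    refine ⟨(e i₀).valuation, fun hall => ?_⟩
    have := (PadicInt.norm_le_pow_iff_le_valuation (e i₀) hi₀ _).1
      ((PadicInt.norm_le_pow_iff_mem_span_pow (e i₀) _).2 (Ideal.mem_span_singleton.2 (hall i₀)))
    omega
  refine ⟨Nat.find hex, ?_⟩
  have hdvd : ∀ i, (p : ℤ_[p]) ^ Nat.find hex ∣ e i := fun i => by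
    rcases Nat.eq_zero_or_pos (Nat.find hex) with h0 | hpos
    · rw [h0, pow_zero]
      exact one_dvd _
    · have := not_not.1 (Nat.find_min hex (Nat.sub_lt hpos Nat.one_pos)) i
      rwa [Nat.sub_add_cancel hpos] at this
  choose e' he' using hdvd
  refine ⟨e', fun hall => Nat.find_spec hex fun i => ?_, funext fun i => he' i⟩
  rw [he' i, pow_succ]
  exact mul_dvd_mul_left _ (hall i)

theorem torsion_shift (hψ : IsPoint p n ψ) (hF : HasHazewinkelLog p n F)
    (hx : IsTorsion ψ F (n - h) x) (e : Fin (n - h) → ℤ_[p]) (m : ℕ) :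
    ∀ l, x (((p : ℤ_[p]) ^ m) • e) (l + m) = x e l := by
  induction m with
  | zero => intro l; simp
  | succ m ih =>
    intro l
    rw [pow_succ', mul_smul, ← Nat.add_assoc, hx.natCast_mul_succ hψ hF, ih]

/-- Upper bounds on level one propagate to all levels. -/
theorem torsion_norm_le (hn : 0 < n) (hF : HasHazewinkelLog p n F) (hh : h < n)
    (hψ : IsPoint p n ψ) (hst : OnStratum p n h ψ) (hx : IsTorsion ψ F (n - h) x)
    (e : Fin (n - h) → ℤ_[p]) {X : ℝ} (hX : 0 < X) (h1 : ‖x e 1‖ ≤ Real.exp (-X))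
    (hdom : ∀ i, h ≤ i → i < n → (p : ℝ) ^ n * X ≤ -Real.log ‖ψ (ltU p n i)‖ + (p : ℝ) ^ i * X
      ∨ ψ (ltU p n i) = 0) :
    ∀ l, ‖x e (l + 1)‖ ≤ Real.exp (-(X / ((p : ℝ) ^ n) ^ l)) := by
  set T := tropOf ψ hh hψ hst with hT
  have hq : T.q = (p : ℝ) ^ n := rfl
  intro l
  induction l with
  | zero => simpa using h1
  | succ l ih =>
    rcases eq_or_ne (x e (l + 1 + 1)) 0 with h0 | hne
    · rw [h0, norm_zero]
      exact (Real.exp_pos _).le
    by_contra hcon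
    rw [not_le] at hcon
    set Y := -Real.log ‖x e (l + 1 + 1)‖ with hYdef
    have hxY : ‖x e (l + 1 + 1)‖ = Real.exp (-Y) := by
      rw [hYdef, neg_neg, Real.exp_log (norm_pos_iff.2 hne)]
    have hY : 0 < Y := neg_pos.2 (Real.log_neg (norm_pos_iff.2 hne) (hx.norm_lt _ _))
    rw [hxY, Real.exp_lt_exp, neg_lt_neg_iff] at hcon
    have hqpos : 0 < (p : ℝ) ^ n := hq ▸ T.q_pos
    have hYX : Y < X := lt_of_lt_of_le hcon (div_le_self hX.le (one_le_pow₀ (hq ▸ T.one_lt_q.le)))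
    have hd : ∀ i ∈ T.I, i ≠ n → T.q * Y < T.v i + (p : ℝ) ^ i * Y := by
      intro i hi hin
      obtain ⟨hi1, hi2⟩ := Finset.mem_filter.1 hi
      obtain ⟨ha, hb⟩ := Finset.mem_Icc.1 hi1
      have hlt : i < n := lt_of_le_of_ne hb hin
      have hpi : (p : ℝ) ^ i < (p : ℝ) ^ n :=
        pow_lt_pow_right₀ (by exact_mod_cast hp.out.one_lt) hlt
      rcases hdom i ha hlt with hle | h0
      · show (p : ℝ) ^ n * Y < -Real.log ‖ψ (ltU p n i)‖ + (p : ℝ) ^ i * Y
        nlinarith [mul_lt_mul_of_pos_left hYX (sub_pos.2 hpi)]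
      · exact absurd h0 hi2
    have hst' := norm_pSeries_eq hn hF hh hψ hst hY hd hxY
    rw [hx.step e (l + 1)] at hst'
    rw [hst', Real.exp_le_exp, neg_le_neg_iff, ← hT, hq] at ih
    refine absurd ih (not_le.2 ?_)
    rw [lt_div_iff₀ (pow_pos hqpos _)] at hcon ⊢
    calc (p : ℝ) ^ n * Y * ((p : ℝ) ^ n) ^ l = Y * ((p : ℝ) ^ n) ^ (l + 1) := by ring
      _ < X := hcon

end Slope

/-- Torsion sequences have eventual slopes. -/
theorem exists_slope (hn : 0 < n) (hF : HasHazewinkelLog p n F) {h : ℕ} (hh : h < n)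
    (hψ : IsPoint p n ψ) (hst : OnStratum p n h ψ)
    {x : (Fin (n - h) → ℤ_[p]) → ℕ → K} (hx : IsTorsion ψ F (n - h) x) :
    ∃ (w : (Fin (n - h) → ℤ_[p]) → ℝ),
      (∀ e, e ≠ 0 → 0 < w e ∧ ∃ l₀, ∀ l ≥ l₀,
        ‖x e l‖ = Real.exp (-(w e / ((p : ℝ) ^ n) ^ l))) ∧
      (∀ e, e ≠ 0 → w ((p : ℤ_[p]) • e) = (p : ℝ) ^ n * w e) ∧
      (∀ (c : ℤ_[p]) e, e ≠ 0 → IsUnit c → w (c • e) = w e) ∧
      (∀ e e', e ≠ 0 → e' ≠ 0 → e + e' ≠ 0 → min (w e) (w e') ≤ w (e + e')) ∧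
      (∃ W : ℝ, ∀ e, ¬ (∀ i, (p : ℤ_[p]) ∣ e i) → w e ≤ W) ∧
      (∃ W₀ : ℝ, 0 < W₀ ∧ ∀ e, e ≠ 0 → W₀ ≤ w e) ∧
      (∃ b : ℕ, ∀ e e', ¬ (∀ i, (p : ℤ_[p]) ∣ e i) → (∀ i, (p : ℤ_[p]) ^ b ∣ (e' i - e i)) →
        w e' = w e) ∧
      (∀ e, e ≠ 0 → ∀ X : ℝ, 0 < X → ‖x e 1‖ = Real.exp (-X) →
        (∀ i, h ≤ i → i < n → (p : ℝ) ^ n * X ≤ -Real.log ‖ψ (ltU p n i)‖ + (p : ℝ) ^ i * X
          ∨ ψ (ltU p n i) = 0) → w e = (p : ℝ) ^ n * X) ∧
      (∀ X : ℝ, 0 < X → (∀ e, ‖x e 1‖ ≤ Real.exp (-X)) →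
        (∀ i, h ≤ i → i < n → (p : ℝ) ^ n * X ≤ -Real.log ‖ψ (ltU p n i)‖ + (p : ℝ) ^ i * X
          ∨ ψ (ltU p n i) = 0) → ∀ e, e ≠ 0 → (p : ℝ) ^ n * X ≤ w e) := by
  classical
  set T := tropOf ψ hh hψ hst with hT
  set q : ℝ := (p : ℝ) ^ n with hq
  have hqpos : 0 < q := T.q_pos
  have hq1 : 1 < q := T.one_lt_q
  obtain ⟨δ, hδ, hsmall⟩ := T.step_small
  set Xl : (Fin (n - h) → ℤ_[p]) → ℕ → ℝ := fun e l => -Real.log ‖x e l‖ with hXl
  -- finitely many values at each level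
  have hfin : ∀ (L : ℕ) (G : (Fin (n - h) → ℤ_[p]) → ℝ),
      (∀ e e', (∀ i, (p : ℤ_[p]) ^ L ∣ e' i - e i) → G e' = G e) → ∃ lo hi, (∀ e, lo ≤ G e ∧ G e ≤ hi) ∧
        (∀ e, ∃ e', G e' = lo ∧ G e' ≤ G e) := by
    intro L G hG
    let rep : (Fin (n - h) → Fin (p ^ L)) → (Fin (n - h) → ℤ_[p]) := fun f i => ((f i : ℕ) : ℤ_[p])
    haveI : Nonempty (Fin (p ^ L)) := ⟨⟨0, pow_pos hp.out.pos L⟩⟩
    obtain ⟨fmin, -, hmin⟩ := Finset.exists_min_image Finset.univ (fun f => G (rep f))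
      Finset.univ_nonempty
    obtain ⟨fmax, -, hmax⟩ := Finset.exists_max_image Finset.univ (fun f => G (rep f))
      Finset.univ_nonempty
    have hall : ∀ e, ∃ f, G e = G (rep f) := fun e =>
      ⟨fun i => ⟨PadicInt.appr (e i) L, PadicInt.appr_lt _ _⟩,
        hG _ e fun i => Ideal.mem_span_singleton.1 (PadicInt.appr_spec L (e i))⟩
    refine ⟨G (rep fmin), G (rep fmax), fun e => ?_, fun e => ⟨rep fmin, rfl, ?_⟩⟩
    · obtain ⟨f, hf⟩ := hall e
      rw [hf]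
      exact ⟨hmin f (Finset.mem_univ _), hmax f (Finset.mem_univ _)⟩
    · obtain ⟨f, hf⟩ := hall e
      rw [hf]
      exact hmin f (Finset.mem_univ _)
  have hcongr : ∀ (L : ℕ) e e', (∀ i, (p : ℤ_[p]) ^ L ∣ e' i - e i) → x e' L = x e L :=
    fun L e e' hd => torsion_congr hψ hx hd
  obtain ⟨_, X1, hX1, -⟩ := hfin 1 (fun e => Xl e 1) fun e e' hd => by
    simp only [hXl, hcongr 1 e e' hd]
  have hpos : ∀ e l, x e l ≠ 0 → 0 < Xl e l ∧ ‖x e l‖ = Real.exp (-Xl e l) := fun e l hne =>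
    ⟨neg_pos.2 (Real.log_neg (norm_pos_iff.2 hne) (hx.norm_lt e l)), by
      rw [hXl, neg_neg, Real.exp_log (norm_pos_iff.2 hne)]⟩
  have hdec : ∀ e l, x e l ≠ 0 → x e (l + 1) ≠ 0 → T.step (Xl e (l + 1)) ≤ Xl e l := by
    intro e l h1 h2
    obtain ⟨ha, hb⟩ := hpos e (l + 1) h2
    have := norm_pSeries_le hn hF hh hψ hst ha hb.le
    rw [hx.step e l, (hpos e l h1).2, Real.exp_le_exp, neg_le_neg_iff] at this
    exact this
  obtain ⟨M, hM⟩ := exists_nat_gt (X1 / min (T.v T.h) δ)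
  have hcpos : 0 < min (T.v T.h) δ := lt_min T.v_h_pos hδ
  set L₁ := M + 1 with hL₁
  have hL : ∀ e, (¬ ∀ i, (p : ℤ_[p]) ∣ e i) → ∀ l, L₁ ≤ l → Xl e l ≤ δ := by
    intro e he
    have hne : ∀ l, 1 ≤ l → x e l ≠ 0 := fun l hl => torsion_ne_zero hx he hl
    have hmono : ∀ l, 1 ≤ l → Xl e (l + 1) ≤ Xl e l := fun l hl => by
      have h1 := hdec e l (hne l hl) (hne _ (by omega))
      have hp' := (hpos e (l + 1) (hne _ (by omega))).1
      have h2 := T.step_add hp'.le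
      have h3 := lt_min T.v_h_pos hp'
      linarith
    have hM' : Xl e (M + 1) ≤ δ := by
      by_contra hcon
      rw [not_le] at hcon
      have hbig : ∀ j, j ≤ M → δ < Xl e (j + 1) ∧ Xl e (j + 1) + j * min (T.v T.h) δ ≤ X1 := by
        have hdown : ∀ j k, Xl e (j + 1 + k) ≤ Xl e (j + 1) := by
          intro j k
          induction k with
          | zero => exact le_rfl
          | succ k ih => exact le_trans (hmono (j + 1 + k) (by omega)) ih
        intro j hj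
        have hδj : δ < Xl e (j + 1) := by
          have := hdown j (M - j)
          rw [show j + 1 + (M - j) = M + 1 by omega] at this
          linarith
        refine ⟨hδj, ?_⟩
        clear hj
        induction j with
        | zero => simpa using (hX1 e).2
        | succ j ih =>
          have h1 := hdec e (j + 1) (hne _ (by omega)) (hne _ (by omega))
          have h2 := T.step_add (le_of_lt (lt_trans hδ hδj))
          have h3 : min (T.v T.h) δ ≤ min (T.v T.h) (Xl e (j + 1 + 1)) := min_le_min le_rfl hδj.le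
          have h4 := ih (lt_of_lt_of_le hδj (hmono (j + 1) (by omega)))
          push_cast
          linarith
      have h := (hbig M le_rfl).2
      rw [div_lt_iff₀ hcpos] at hM
      linarith
    intro l hl
    induction l, hl using Nat.le_induction with
    | base => exact hM'
    | succ l hl ih => exact le_trans (hmono l (by omega)) ih
  -- exact slopes of primitive elements
  have hprim : ∀ e, (¬ ∀ i, (p : ℤ_[p]) ∣ e i) →
      ∀ l ≥ L₁, ‖x e l‖ = Real.exp (-(q ^ L₁ * Xl e L₁ / q ^ l)) := by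
    intro e he l hl
    have hne : ∀ l, 1 ≤ l → x e l ≠ 0 := fun l hl => torsion_ne_zero hx he hl
    have key : q ^ l * Xl e l = q ^ L₁ * Xl e L₁ := by
      induction l, hl using Nat.le_induction with
      | base => rfl
      | succ l hl ih =>
        obtain ⟨ha, hb⟩ := hpos e (l + 1) (hne _ (by omega))
        have := norm_pSeries_eq hn hF hh hψ hst ha
          (fun i hi hin => hsmall _ ha (hL e he _ (by omega)) i hi hin) hb
        rw [hx.step e l, (hpos e l (hne _ (by omega))).2, Real.exp_eq_exp, neg_inj] at this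
        rw [← ih, this, pow_succ]
        show q ^ l * q * Xl e (l + 1) = q ^ l * (q * Xl e (l + 1))
        ring
    rw [← key, mul_div_cancel_left₀ _ (pow_ne_zero _ hqpos.ne')]
    exact (hpos e l (hne l (by omega))).2
  have hexists : ∀ e, e ≠ 0 → ∃ r, 0 < r ∧ ∃ l₀, ∀ l ≥ l₀, ‖x e l‖ = Real.exp (-(r / q ^ l)) := by
    intro e he
    obtain ⟨m, e', he', rfl⟩ := exists_primitive_mul he
    refine ⟨q ^ m * (q ^ L₁ * Xl e' L₁), mul_pos (pow_pos hqpos _) (mul_pos (pow_pos hqpos _)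
      (hpos e' L₁ (torsion_ne_zero hx he' (by omega))).1), L₁ + m, fun l hl => ?_⟩
    obtain ⟨k, rfl⟩ : ∃ k, l = k + m := ⟨l - m, by omega⟩
    rw [torsion_shift hψ hF hx, hprim e' he' k (by omega), pow_add q k m, mul_comm (q ^ k),
      mul_div_mul_left _ _ (pow_ne_zero _ hqpos.ne')]
  set w : (Fin (n - h) → ℤ_[p]) → ℝ := fun e =>
    if he : e = 0 then 1 else (hexists e he).choose with hwdef
  have hw : ∀ e, e ≠ 0 → 0 < w e ∧ ∃ l₀, ∀ l ≥ l₀, ‖x e l‖ = Real.exp (-(w e / q ^ l)) := by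
    intro e he
    simp only [hwdef, dif_neg he]
    exact (hexists e he).choose_spec
  have huniq : ∀ e, e ≠ 0 → ∀ r, (∃ l₀, ∀ l ≥ l₀, ‖x e l‖ = Real.exp (-(r / q ^ l))) → w e = r := by
    intro e he r ⟨l₀, hl₀⟩
    obtain ⟨l₁, hl₁⟩ := (hw e he).2
    have := (hl₁ (max l₀ l₁) (le_max_right _ _)).symm.trans (hl₀ _ (le_max_left _ _))
    rwa [Real.exp_eq_exp, neg_inj, div_left_inj' (pow_ne_zero _ hqpos.ne')] at this
  have hwprim : ∀ e, (¬ ∀ i, (p : ℤ_[p]) ∣ e i) → w e = q ^ L₁ * Xl e L₁ := fun e he =>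
    huniq e (by rintro rfl; exact he fun i => by simp) _ ⟨L₁, hprim e he⟩
  have hwmul : ∀ m e, (¬ ∀ i, (p : ℤ_[p]) ∣ e i) → ((p : ℤ_[p]) ^ m) • e ≠ 0 →
      w (((p : ℤ_[p]) ^ m) • e) = q ^ m * w e := by
    intro m e he hne
    refine huniq _ hne _ ⟨L₁ + m, fun l hl => ?_⟩
    obtain ⟨k, rfl⟩ : ∃ k, l = k + m := ⟨l - m, by omega⟩
    rw [torsion_shift hψ hF hx, hprim e he k (by omega), hwprim e he, pow_add q k m, mul_comm (q ^ k),
      mul_div_mul_left _ _ (pow_ne_zero _ hqpos.ne')]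
  obtain ⟨lo, hi, hlohi, hlo⟩ := hfin L₁
    (fun e => if x e L₁ = 0 then 1 else q ^ L₁ * Xl e L₁) fun e e' hd => by
      simp only [hXl, hcongr L₁ e e' hd]
  have hlopos : 0 < lo := by
    obtain ⟨e', he', -⟩ := hlo 0
    rw [← he']
    split_ifs with h0
    · exact one_pos
    · exact mul_pos (pow_pos hqpos _) (hpos e' L₁ h0).1
  have hpb : ∀ e, (¬ ∀ i, (p : ℤ_[p]) ∣ e i) → lo ≤ w e ∧ w e ≤ hi := by
    intro e he
    have h1 := hlohi e
    rw [if_neg (torsion_ne_zero hx he (by omega))] at h1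
    rwa [hwprim e he]
  refine ⟨w, hw, ?_, ?_, ?_, ⟨hi, fun e he => (hpb e he).2⟩, ⟨lo, hlopos, ?_⟩, ⟨L₁, ?_⟩, ?_, ?_⟩
  · intro e he
    obtain ⟨l₀, hl₀⟩ := (hw e he).2
    refine huniq _ (smul_ne_zero (Nat.cast_ne_zero.2 hp.out.ne_zero) he) _ ⟨l₀ + 1, fun l hl => ?_⟩
    obtain ⟨k, rfl⟩ : ∃ k, l = k + 1 := ⟨l - 1, by omega⟩
    rw [hx.natCast_mul_succ hψ hF, hl₀ k (by omega), pow_succ', mul_div_mul_left _ _ hqpos.ne']
  · intro c e he hc
    obtain ⟨l₀, hl₀⟩ := (hw e he).2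
    refine huniq _ (smul_ne_zero hc.ne_zero he) _ ⟨l₀, fun l hl => ?_⟩
    rw [torsion_norm_unit hn hψ hx e c hc, hl₀ l hl]
  · intro e e' he he' hne
    obtain ⟨l₁, hl₁⟩ := (hw e he).2
    obtain ⟨l₂, hl₂⟩ := (hw e' he').2
    obtain ⟨l₃, hl₃⟩ := (hw _ hne).2
    set l := max l₁ (max l₂ l₃)
    have h1 : ‖x (e + e') l‖ ≤ max ‖x e l‖ ‖x e' l‖ := by
      rw [hx.add, ← sub_add_cancel (fadd ψ F (x e l) (x e' l)) (x e l + x e' l)]
      refine (IsUltrametricDist.norm_add_le_max _ _).trans (max_le ?_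
        (IsUltrametricDist.norm_add_le_max _ _))
      exact (norm_fadd_sub_add_le hψ (hx.norm_lt e l) (hx.norm_lt e' l)).trans
        ((mul_le_of_le_one_right (norm_nonneg _) (hx.norm_lt e' l).le).trans (le_max_left _ _))
    rw [hl₁ l (le_max_left _ _), hl₂ l (le_trans (le_max_left _ _) (le_max_right _ _)),
      hl₃ l (le_trans (le_max_right _ _) (le_max_right _ _)), le_max_iff, Real.exp_le_exp,
      Real.exp_le_exp, neg_le_neg_iff, neg_le_neg_iff,
      div_le_div_iff_of_pos_right (pow_pos hqpos _),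
      div_le_div_iff_of_pos_right (pow_pos hqpos _)] at h1
    exact min_le_iff.2 h1
  · intro e he
    obtain ⟨m, e', he', rfl⟩ := exists_primitive_mul he
    rw [hwmul m e' he' he]
    have h1 := (hpb e' he').1
    nlinarith [one_le_pow₀ (n := m) hq1.le, hlopos]
  · intro e e' he hd
    have he' : ¬ ∀ i, (p : ℤ_[p]) ∣ e' i := fun hall => he fun i => by
      have := dvd_sub (hall i) ((dvd_pow_self _ (by omega : L₁ ≠ 0)).trans (hd i))
      simpa using this
    rw [hwprim e he, hwprim e' he', hXl]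
    simp only [hcongr L₁ e e' hd]
  · intro e he X hX h1 hdom
    have hle := torsion_norm_le hn hF hh hψ hst hx e hX h1.le hdom
    have hprim_e : ¬ ∀ i, (p : ℤ_[p]) ∣ e i := fun hall => by
      have h0 := (hx.eq_zero_iff e 1).2 (by simpa using hall)
      rw [h0, norm_zero] at h1
      exact (Real.exp_pos _).ne h1
    refine huniq e he _ ⟨1, fun l hl => ?_⟩
    obtain ⟨k, rfl⟩ : ∃ k, l = k + 1 := ⟨l - 1, by omega⟩
    rw [pow_succ', mul_div_mul_left _ _ hqpos.ne']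
    refine le_antisymm (hle k) ?_
    clear hl
    induction k with
    | zero => simpa using h1.ge
    | succ k ih =>
      obtain ⟨ha, hb⟩ := hpos e (k + 1 + 1) (torsion_ne_zero hx hprim_e (by omega))
      by_contra hcon
      rw [not_le, hb, Real.exp_lt_exp, neg_lt_neg_iff] at hcon
      have h2 := hdec e (k + 1) (torsion_ne_zero hx hprim_e (by omega))
        (torsion_ne_zero hx hprim_e (by omega))
      have h3 := T.step_strictMono hcon
      have h4 : T.step (X / q ^ (k + 1)) = q * (X / q ^ (k + 1)) := by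
        refine T.step_eq_q fun i hi hin => ?_
        obtain ⟨hi1, hi2⟩ := Finset.mem_filter.1 hi
        obtain ⟨ha', hb'⟩ := Finset.mem_Icc.1 hi1
        have hlt : i < n := lt_of_le_of_ne hb' hin
        rcases hdom i ha' hlt with hle' | h0
        · have hpi : (p : ℝ) ^ i < (p : ℝ) ^ n :=
            pow_lt_pow_right₀ (by exact_mod_cast hp.out.one_lt) hlt
          show q * _ ≤ -Real.log ‖ψ (ltU p n i)‖ + (p : ℝ) ^ i * _
          have hYX : X / q ^ (k + 1) ≤ X := div_le_self hX.le (one_le_pow₀ hq1.le)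
          nlinarith [mul_le_mul_of_nonneg_left hYX (sub_pos.2 hpi).le]
        · exact absurd h0 hi2
      rw [h4, show q * (X / q ^ (k + 1)) = X / q ^ k by
        rw [pow_succ']; field_simp [hqpos.ne']] at h3
      rw [(hpos e (k + 1) (torsion_ne_zero hx hprim_e (by omega))).2, Real.exp_le_exp,
        neg_le_neg_iff] at ih
      linarith
  · intro X hX h1 hdom e he
    obtain ⟨m, e', he', rfl⟩ := exists_primitive_mul he
    rw [hwmul m e' he' he]
    obtain ⟨l₀, hl₀⟩ := (hw e' (by rintro rfl; exact he' fun i => by simp)).2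
    have := torsion_norm_le hn hF hh hψ hst hx e' hX (h1 e') hdom l₀
    rw [hl₀ (l₀ + 1) (by omega), Real.exp_le_exp, neg_le_neg_iff, pow_succ',
      ← mul_div_mul_left X (q ^ l₀) hqpos.ne',
      div_le_div_iff_of_pos_right (mul_pos hqpos (pow_pos hqpos _))] at this
    exact this.trans (le_mul_of_one_le_left (le_trans hlopos.le (hpb e' he').1)
      (one_le_pow₀ hq1.le))

end

end Vale.Agent.P217
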